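import Mathlib.Analysis.InnerProductSpace.PiL2
import Mathlib.Analysis.Calculus.Deriv.Basic

/-!
# P225: the abstract dual system (interface between the flow layer and the mixing layer)

The dual flow restricted to its slow plane `W` is pulled back to the initial time, so a vector of
`E` is a whole dual orbit and every transported subspace is a constant subspace of `E`.
`N t` is the weighted inner product of the orbits at time `t`, `En t` the energy form.
The forms `En t - mu * N t` are the cones of the gap at level `mu`.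
-/

namespace Vale.Agent.P225.Disproof

open Set
open scoped RealInnerProductSpace

noncomputable section

variable {E : Type*} [NormedAddCommGroup E] [InnerProductSpace ℝ E] [FiniteDimensional ℝ E]

/-- The pulled back dual system on the interval `[a, b]`. -/
structure DualSys (E : Type*) [NormedAddCommGroup E] [InnerProductSpace ℝ E]
    [FiniteDimensional ℝ E] (a b ε : ℝ) where
  N : ℝ → E →L[ℝ] E
  En : ℝ → E →L[ℝ] E
  top : ℝ
  hε : 0 ≤ ε
  symN : ∀ t ∈ Icc a b, ∀ x y : E, ⟪N t x, y⟫ = ⟪x, N t y⟫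
  symEn : ∀ t ∈ Icc a b, ∀ x y : E, ⟪En t x, y⟫ = ⟪x, En t y⟫
  posN : ∀ t ∈ Icc a b, ∀ x : E, x ≠ 0 → 0 < ⟪x, N t x⟫
  contN : ContinuousOn N (Icc a b)
  contEn : ContinuousOn En (Icc a b)
  energy_nonneg : ∀ t ∈ Icc a b, ∀ x : E, 0 ≤ ⟪x, En t x⟫
  energy_le : ∀ t ∈ Icc a b, ∀ x : E, ⟪x, En t x⟫ ≤ top * ⟪x, N t x⟫
  deriv_norm : ∀ t ∈ Icc a b, ∀ x : E, ∃ r : ℝ, |r| ≤ ε * ⟪x, N t x⟫ ∧
    HasDerivWithinAt (fun s => ⟪x, N s x⟫) (-2 * ⟪x, En t x⟫ + r) (Icc a b) t

namespace DualSys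

variable {a b ε : ℝ}

/-- The weighted square norm of the orbit `x` at time `t`. -/
def nrm (S : DualSys E a b ε) (t : ℝ) (x : E) : ℝ := ⟪x, S.N t x⟫

/-- The cone form at level `μ`. In `Open` the level moves slowly with time. -/
def cone (S : DualSys E a b ε) (μ : ℝ) (t : ℝ) (x : E) : ℝ :=
  ⟪x, S.En t x⟫ - μ * ⟪x, S.N t x⟫

/-- Strictly low at level `μ`, with margin `c`. -/
def LowAt (S : DualSys E a b ε) (μ c t : ℝ) (W : Submodule ℝ E) : Prop :=
  ∀ x ∈ W, S.cone μ t x ≤ -c * S.nrm t x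

/-- Strictly high at level `μ`, with margin `c`. -/
def HighAt (S : DualSys E a b ε) (μ c t : ℝ) (H : Submodule ℝ E) : Prop :=
  ∀ x ∈ H, c * S.nrm t x ≤ S.cone μ t x

/-- Level `μ` with low dimension `l` is open on `[s₁, s₂]`: the low cone is forward invariant,
the high one backward invariant, both become strict (margin `c`) after time `T`, and low and
high planes of complementary dimension exist. -/
structure Open (S : DualSys E a b ε) (μ : ℝ → ℝ) (c T : ℝ) (l : ℕ) (s₁ s₂ : ℝ) : Prop where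
  inside : Icc s₁ s₂ ⊆ Icc a b
  low_forward : ∀ x : E, ∀ t ∈ Icc s₁ s₂, ∀ t' ∈ Icc t s₂,
    S.cone (μ t) t x ≤ 0 →
      S.cone (μ t') t' x ≤ 0 ∧ (t + T ≤ t' → S.cone (μ t') t' x ≤ -c * S.nrm t' x)
  high_backward : ∀ x : E, ∀ t ∈ Icc s₁ s₂, ∀ t' ∈ Icc t s₂,
    0 ≤ S.cone (μ t') t' x →
      0 ≤ S.cone (μ t) t x ∧ (t + T ≤ t' → c * S.nrm t x ≤ S.cone (μ t) t x)
  exists_low : ∀ t ∈ Icc (s₁ + T) s₂, ∃ W : Submodule ℝ E,
    Module.finrank ℝ W = l ∧ S.LowAt (μ t) c t W
  exists_high : ∀ t ∈ Icc s₁ (s₂ - T), ∃ H : Submodule ℝ E,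
    Module.finrank ℝ H + l = Module.finrank ℝ E ∧ S.HighAt (μ t) c t H

end DualSys

end

end Vale.Agent.P225.Disproof
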