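import Vale.Agent.P225.Disproof.MassLevel
import Vale.Agent.P225.Disproof.DualSys

/-!
# P225: the dual system of trace data

`U t` maps a vector of `E` to the value at time `t` of its dual orbit, `U a` has the spectral low
plane of the top gap as its range. The pulled back forms give a `DualSys`; an open gap of the trace
map gives `DualSys.Open`.
-/

namespace Vale.Agent.P225.Disproof

open Set Filter Topology
open scoped RealInnerProductSpace

noncomputable section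

variable {V : Type*} [NormedAddCommGroup V] [InnerProductSpace ℝ V] [FiniteDimensional ℝ V]
  {E : Type*} [NormedAddCommGroup E] [InnerProductSpace ℝ E] [FiniteDimensional ℝ E]

namespace TraceData

variable {a b ε : ℝ}

/-- Dual orbits from a low plane at the initial time, below the top level `ν` with gap `g`. -/
structure DualStart (P : TraceData V a b ε) (U : ℝ → E →L[ℝ] V) (ν ν' : ℝ → ℝ) (g top : ℝ) :
    Prop where
  hab : a < b
  orbit : ∀ x : E, P.IsDual a b fun t => U t x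
  inj : Function.Injective (U a)
  hg : 0 < g
  contν : Continuous ν
  derivν : ∀ t ∈ Icc a b, HasDerivWithinAt ν (ν' t) (Icc a b) t
  levelν : ∀ t ∈ Icc a b, 0 ≤ ν t ∧ ν t ≤ top
  smallν : ∀ t ∈ Icc a b, ε * (2 * ν t + 2) + |ν' t| ≤ g ^ 2
  gapν : ∀ t ∈ Icc a b, P.Gap t (ν t) g
  start : ∀ x : E, P.eng a (U a x) ≤ (ν a - g) * P.nrm a (U a x)
  perp : ∀ u : V, (∀ x : E, ⟪u, P.G a (U a x)⟫ = 0) → (ν a + g) * P.nrm a u ≤ P.eng a u
  perpB : ∀ u : V, (∀ x : E, ⟪u, P.G a (U a x)⟫ = 0) → ∀ x : E, ⟪u, P.B a (U a x)⟫ = 0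

omit [FiniteDimensional ℝ E] in
/-- Orbits of the dual flow from a given map. -/
theorem exists_orbit (P : TraceData V a b ε) (hab : a ≤ b) (hG' : ContinuousOn P.G' (Icc a b))
    (ι : E →L[ℝ] V) :
    ∃ U : ℝ → E →L[ℝ] V, U a = ι ∧ ∀ x : E, P.IsDual a b fun t => U t x := by
  set L := fun t => -P.gen t - Ring.inverse (P.G t) * P.G' t with hLdef
  have hL : ContinuousOn L (Icc a b) := continuousOn_gen.neg.sub (continuousOn_inverse.mul hG')
  obtain ⟨U, hU, hU'⟩ := exists_linear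
    (B := fun s => ContinuousLinearMap.compL ℝ E V V (IccExtend hab ((Icc a b).domRestrict L) s))
    ((ContinuousLinearMap.compL ℝ E V V).continuous.comp hL.domRestrict.Icc_extend') hab ι
  refine ⟨U, hU, fun x t ht => ?_⟩
  have h := (hU' t ht).clm_apply (hasDerivWithinAt_const t _ x)
  rw [show IccExtend hab ((Icc a b).domRestrict L) t = L t from IccExtend_of_mem _ _ ht] at h
  simpa [hLdef, gen_apply] using h

/-- The orbit maps are continuous in parameters. -/
theorem continuous_orbit {X : Type*} [TopologicalSpace X] (P : X → TraceData V a b ε) (hab : a ≤ b)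
    (hB : Continuous fun p : X × Icc a b => (P p.1).gen p.2)
    (hG : Continuous fun p : X × Icc a b => (P p.1).G p.2)
    (hG' : Continuous fun p : X × Icc a b => (P p.1).G' p.2) {U : X → ℝ → E →L[ℝ] V}
    (h0 : Continuous fun x => U x a) (hU : ∀ x v, (P x).IsDual a b fun t => U x t v) :
    Continuous fun p : X × Icc a b => U p.1 p.2 :=
  continuous_clm_apply.2 fun v => continuous_dual P le_rfl le_rfl hab hB hG hG'
    (fun x => hU x v) (Or.inl (h0.clm_apply continuous_const))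

variable {P : TraceData V a b ε} {U : ℝ → E →L[ℝ] V} {ν ν' : ℝ → ℝ} {g top : ℝ}

/-- The exact derivative of the weighted norm along the dual flow. -/
theorem deriv_nrm_dual {s₁ s₂ : ℝ} (h₁ : a ≤ s₁) (h₂ : s₂ ≤ b) {z : ℝ → V}
    (hz : P.IsDual s₁ s₂ z) {t : ℝ} (ht : t ∈ Icc s₁ s₂) :
    HasDerivWithinAt (fun s => P.nrm s (z s))
      (-2 * P.eng t (z t) - ⟪z t, P.G' t (z t)⟫) (Icc s₁ s₂) t := by
  have hs : t ∈ Icc a b := Icc_subset_Icc h₁ h₂ ht
  refine (deriv_nrm (P := P) h₁ h₂ hz ht).congr_deriv ?_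
  have hr : P.G t (Ring.inverse (P.G t) (P.G' t (z t))) = P.G' t (z t) :=
    apply_inverse (isUnit_of_coercive P.hm (P.coercive t hs)) _
  rw [inner_sub_left, inner_neg_left, eng_eq_inner_vel (P := P) hs, ← P.symG t hs _ (z t), hr,
    real_inner_comm (z t)]
  ring

/-- A dual orbit below the level `top` does not decay faster than `exp (-(2 top + ε) t)`. -/
theorem dual_rate_lower {s₁ s₂ : ℝ} (h₁ : a ≤ s₁) (h₂ : s₂ ≤ b) (h : s₁ ≤ s₂) {z : ℝ → V}
    (hz : P.IsDual s₁ s₂ z) {r : ℝ}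
    (hc : ∀ t ∈ Icc s₁ s₂, P.eng t (z t) ≤ r * P.nrm t (z t)) :
    P.nrm s₁ (z s₁) ≤ Real.exp ((2 * r + ε) * (s₂ - s₁)) * P.nrm s₂ (z s₂) := by
  have hm := exp_mul_le (f := fun t => P.nrm t (z t)) (k := fun _ => 2 * r + ε) continuous_const h
    (fun t ht => deriv_nrm_dual (P := P) h₁ h₂ hz ht) fun t ht => ?_
  · simp only [intervalIntegral.integral_const, smul_eq_mul] at hm
    rwa [mul_comm (s₂ - s₁)] at hm
  have h3 := hc t ht
  have h4 := (le_abs_self _).trans (P.boundG t (Icc_subset_Icc h₁ h₂ ht) (z t))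
  simp only [nrm] at h3 h4 ⊢
  linarith

/-- No dual orbit grows faster than `exp (ε t)`. -/
theorem dual_rate_ceiling {s₁ s₂ : ℝ} (h₁ : a ≤ s₁) (h₂ : s₂ ≤ b) (h : s₁ ≤ s₂) {z : ℝ → V}
    (hz : P.IsDual s₁ s₂ z) :
    P.nrm s₂ (z s₂) ≤ Real.exp (ε * (s₂ - s₁)) * P.nrm s₁ (z s₁) := by
  have h1 := dual_rate_upper (P := P) h₁ h₂ h hz (μ := 0) fun t ht => by
    simpa [eng] using P.nonnegB t (Icc_subset_Icc h₁ h₂ ht) (z t)
  simpa using h1

/-- Upper rate of a dual orbit in the high cone at a moving level. -/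
theorem dual_rate_upper_level {s₁ s₂ : ℝ} (h₁ : a ≤ s₁) (h₂ : s₂ ≤ b) (h : s₁ ≤ s₂) {z : ℝ → V}
    (hz : P.IsDual s₁ s₂ z) {μ : ℝ → ℝ} (hcμ : Continuous μ)
    (hc : ∀ t ∈ Icc s₁ s₂, μ t * P.nrm t (z t) ≤ P.eng t (z t)) :
    Real.exp (∫ r in s₁..s₂, (2 * μ r - ε)) * P.nrm s₂ (z s₂) ≤ P.nrm s₁ (z s₁) := by
  have hm := exp_mul_le (f := fun t => -P.nrm t (z t)) (k := fun t => 2 * μ t - ε) (by fun_prop) h
    (fun t ht => (deriv_nrm_dual (P := P) h₁ h₂ hz ht).neg) fun t ht => ?_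
  · linarith
  have h3 := hc t ht
  have h4 := (abs_le.1 (P.boundG t (Icc_subset_Icc h₁ h₂ ht) (z t))).1
  simp only [nrm] at h3 h4 ⊢
  linarith

/-- The low cone is invariant forwards along the dual flow, with surplus. -/
theorem dual_low_strict {s₁ s₂ : ℝ} (hab : a < b) (h₁ : a ≤ s₁) (h₂ : s₂ ≤ b) (h : s₁ ≤ s₂)
    {z : ℝ → V} (hz : P.IsDual s₁ s₂ z) {μ μ' : ℝ → ℝ} {δ w R : ℝ} (hcμ : Continuous μ)
    (hμ : ∀ t ∈ Icc s₁ s₂, 0 ≤ μ t) (hδ : 0 ≤ δ)
    (hdμ : ∀ t ∈ Icc s₁ s₂, HasDerivWithinAt μ (μ' t) (Icc s₁ s₂) t)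
    (hw : ∀ t ∈ Icc s₁ s₂, ε * (2 * μ t + 2) + |μ' t| + δ ≤ (2 - ε) * w ^ 2)
    (hgap : ∀ t ∈ Icc s₁ s₂, P.Gap t (μ t) w) (hR : ∀ t ∈ Icc s₁ s₂, R ≤ P.nrm t (z t))
    (hR0 : 0 ≤ R) :
    -(P.eng s₁ (z s₁) - μ s₁ * P.nrm s₁ (z s₁)) +
        δ * Real.exp (-ε * (s₂ - s₁)) * R * (s₂ - s₁) ≤
      Real.exp (∫ r in s₁..s₂, (2 * μ r - ε)) * -(P.eng s₂ (z s₂) - μ s₂ * P.nrm s₂ (z s₂)) := by
  choose! d hd1 hd2 using fun t (ht : t ∈ Icc s₁ s₂) =>
    exists_deriv_dual_cone (δ := δ) hab h₁ h₂ hz ht (hμ t ht) (hdμ t ht) (hw t ht) (hgap t ht)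
  refine exp_mul_add_le (k := fun r => 2 * μ r - ε) (by fun_prop) h hd1 fun t ht => ?_
  have hF : -ε * (s₂ - s₁) ≤ ∫ r in s₁..t, (2 * μ r - ε) := by
    have h1 : ∫ _r in s₁..t, -ε ≤ ∫ r in s₁..t, (2 * μ r - ε) :=
      intervalIntegral.integral_mono_on ht.1 intervalIntegrable_const
        (Continuous.intervalIntegrable (by fun_prop) _ _) fun r hr => by
        linarith [hμ r ⟨hr.1, hr.2.trans ht.2⟩]
    rw [intervalIntegral.integral_const, smul_eq_mul] at h1
    refine le_trans ?_ h1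
    nlinarith [P.hε, ht.2]
  calc δ * Real.exp (-ε * (s₂ - s₁)) * R = Real.exp (-ε * (s₂ - s₁)) * (δ * R) := by ring
    _ ≤ Real.exp (∫ r in s₁..t, (2 * μ r - ε)) * (δ * P.nrm t (z t)) :=
        mul_le_mul (Real.exp_le_exp.2 hF) (mul_le_mul_of_nonneg_left (hR t ht) hδ)
          (mul_nonneg hδ hR0) (Real.exp_nonneg _)
    _ ≤ _ := mul_le_mul_of_nonneg_left (hd2 t ht) (Real.exp_nonneg _)

/-- The low cone is invariant forwards along the dual flow. -/
theorem dual_low_forward {s₁ s₂ : ℝ} (hab : a < b) (h₁ : a ≤ s₁) (h₂ : s₂ ≤ b) (h : s₁ ≤ s₂)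
    {z : ℝ → V} (hz : P.IsDual s₁ s₂ z) {μ μ' : ℝ → ℝ} {w : ℝ} (hcμ : Continuous μ)
    (hμ : ∀ t ∈ Icc s₁ s₂, 0 ≤ μ t)
    (hdμ : ∀ t ∈ Icc s₁ s₂, HasDerivWithinAt μ (μ' t) (Icc s₁ s₂) t)
    (hw : ∀ t ∈ Icc s₁ s₂, ε * (2 * μ t + 2) + |μ' t| ≤ (2 - ε) * w ^ 2)
    (hgap : ∀ t ∈ Icc s₁ s₂, P.Gap t (μ t) w) :
    -(P.eng s₁ (z s₁) - μ s₁ * P.nrm s₁ (z s₁)) ≤
      Real.exp (∫ r in s₁..s₂, (2 * μ r - ε)) * -(P.eng s₂ (z s₂) - μ s₂ * P.nrm s₂ (z s₂)) := by
  simpa using dual_low_strict (δ := 0) (R := 0) hab h₁ h₂ h hz hcμ hμ le_rfl hdμ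
    (fun t ht => by simpa using hw t ht) hgap
    (fun t ht => nrm_nonneg (Icc_subset_Icc h₁ h₂ ht) _) le_rfl

namespace DualStart

variable (hs : DualStart P U ν ν' g top)
include hs

omit [FiniteDimensional ℝ E] in
theorem ht0 : a ∈ Icc a b := ⟨le_rfl, hs.hab.le⟩

omit [FiniteDimensional ℝ E] in
/-- Every orbit is low at the top level. -/
theorem orbit_low {t : ℝ} (ht : t ∈ Icc a b) (x : E) :
    P.eng t (U t x) ≤ ν t * P.nrm t (U t x) := by
  have hsub : Icc a t ⊆ Icc a b := Icc_subset_Icc_right ht.2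
  have h := dual_low_forward (P := P) hs.hab le_rfl ht.2 ht.1 ((hs.orbit x).mono le_rfl ht.2)
    hs.contν (fun r hr => (hs.levelν r (hsub hr)).1)
    (fun r hr => (hs.derivν r (hsub hr)).mono hsub)
    (fun r hr => (hs.smallν r (hsub hr)).trans (by nlinarith [P.hε1, sq_nonneg g]))
    fun r hr => hs.gapν r (hsub hr)
  have h0 := hs.start x
  have h1 := mul_nonneg hs.hg.le (nrm_nonneg (P := P) hs.ht0 (U a x))
  have h2 := (mul_nonneg_iff_of_pos_left (Real.exp_pos _)).1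
    (le_trans (by linarith : (0 : ℝ) ≤ _) h)
  linarith

omit [FiniteDimensional ℝ E] in
theorem orbit_low_top {t : ℝ} (ht : t ∈ Icc a b) (x : E) :
    P.eng t (U t x) ≤ top * P.nrm t (U t x) :=
  (hs.orbit_low ht x).trans
    (mul_le_mul_of_nonneg_right (hs.levelν t ht).2 (nrm_nonneg ht _))

theorem orbit_inj {t : ℝ} (ht : t ∈ Icc a b) : Function.Injective (U t) := by
  refine (injective_iff_map_eq_zero (U t)).2 fun x hx => hs.inj ?_
  have h := dual_rate_lower (P := P) le_rfl ht.2 ht.1 ((hs.orbit x).mono le_rfl ht.2)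
    fun r hr => hs.orbit_low_top ⟨hr.1, hr.2.trans ht.2⟩ x
  simp only [hx, nrm, map_zero, inner_zero_right, mul_zero] at h
  rw [map_zero]
  exact eq_zero_of_nrm_le (P := P) hs.ht0 h

omit [FiniteDimensional ℝ E] in
/-- A solution orthogonal to the orbits is high at the top level. -/
theorem perp_high {s : ℝ} (hs' : s ∈ Icc a b) {u : ℝ → V} (hu : P.IsSol a s u)
    (hperp : ∀ x : E, ⟪u s, P.G s (U s x)⟫ = 0) {t : ℝ} (ht : t ∈ Icc a s) :
    ν t * P.nrm t (u t) ≤ P.eng t (u t) := by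
  have hsub : Icc a t ⊆ Icc a b := Icc_subset_Icc_right (ht.2.trans hs'.2)
  refine high_forward (P := P) le_rfl (ht.2.trans hs'.2) ht.1 (hu.mono le_rfl ht.2) hs.contν
    (fun r hr => (hs.levelν r (hsub hr)).1) (fun r hr => (hs.derivν r (hsub hr)).mono hsub)
    (fun r hr => ?_) (fun r hr => hs.gapν r (hsub hr)) ?_
  · have := hs.smallν r (hsub hr)
    nlinarith [P.hε, sq_nonneg g]
  · have h := hs.perp (u a) fun x => by
      rw [← pairing_const hs.hab le_rfl hs'.2 hu ((hs.orbit x).mono le_rfl hs'.2) ⟨hs'.1, le_rfl⟩]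
      exact hperp x
    linarith [mul_nonneg hs.hg.le (nrm_nonneg (P := P) hs.ht0 (u a))]

/-- Orthogonal projection onto the orbit space. -/
theorem exists_proj {t : ℝ} (ht : t ∈ Icc a b) (u : V) :
    ∃ x : E, ∀ y : E, ⟪u - U t x, P.G t (U t y)⟫ = 0 := by
  set A : E →L[ℝ] E := (ContinuousLinearMap.adjoint (U t)).comp ((P.G t).comp (U t))
  have hA : Function.Injective A := (injective_iff_map_eq_zero A).2 fun x hx => by
    refine hs.orbit_inj ht ?_
    rw [map_zero]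
    refine eq_zero_of_nrm_le (P := P) ht (le_of_eq ?_)
    have h := congrArg (fun y => ⟪x, y⟫) hx
    simpa [A, ContinuousLinearMap.adjoint_inner_right, nrm] using h
  obtain ⟨x, hx⟩ := (LinearMap.injective_iff_surjective (f := A.toLinearMap)).1 hA
    (ContinuousLinearMap.adjoint (U t) (P.G t u))
  refine ⟨x, fun y => ?_⟩
  have h := congrArg (fun z => ⟪z, y⟫) hx
  simp only [A, ContinuousLinearMap.coe_coe, ContinuousLinearMap.comp_apply,
    ContinuousLinearMap.adjoint_inner_left] at h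
  rw [inner_sub_left, ← P.symG t ht u, ← P.symG t ht (U t x), h, sub_self]

/-- The dual system. -/
def dualSys : DualSys E a b ε where
  N t := (ContinuousLinearMap.adjoint (U t)).comp ((P.G t).comp (U t))
  En t := (ContinuousLinearMap.adjoint (U t)).comp ((P.B t).comp (U t))
  top := top
  hε := P.hε
  symN t ht x y := by
    simp only [ContinuousLinearMap.comp_apply, ContinuousLinearMap.adjoint_inner_left,
      ContinuousLinearMap.adjoint_inner_right, P.symG t ht]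
  symEn t ht x y := by
    simp only [ContinuousLinearMap.comp_apply, ContinuousLinearMap.adjoint_inner_left,
      ContinuousLinearMap.adjoint_inner_right, P.symB t ht]
  posN t ht x hx := by
    simp only [ContinuousLinearMap.comp_apply, ContinuousLinearMap.adjoint_inner_right]
    refine lt_of_not_ge fun h => hx (hs.orbit_inj ht ?_)
    rw [map_zero]
    exact eq_zero_of_nrm_le (P := P) ht h
  contN := by
    have hU : ContinuousOn U (Icc a b) := continuousOn_clm_apply.2 fun x t ht =>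
      ((hs.orbit x) t ht).continuousWithinAt
    exact ((ContinuousLinearMap.adjoint (𝕜 := ℝ) (E := E) (F := V)).continuous.comp_continuousOn
      hU).clm_comp ((show ContinuousOn P.G (Icc a b) from fun t ht =>
        (P.derivG t ht).continuousWithinAt).clm_comp hU)
  contEn := by
    have hU : ContinuousOn U (Icc a b) := continuousOn_clm_apply.2 fun x t ht =>
      ((hs.orbit x) t ht).continuousWithinAt
    exact ((ContinuousLinearMap.adjoint (𝕜 := ℝ) (E := E) (F := V)).continuous.comp_continuousOn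
      hU).clm_comp ((show ContinuousOn P.B (Icc a b) from fun t ht =>
        (P.derivB t ht).continuousWithinAt).clm_comp hU)
  energy_nonneg t ht x := by
    simp only [ContinuousLinearMap.comp_apply, ContinuousLinearMap.adjoint_inner_right]
    exact P.nonnegB t ht _
  energy_le t ht x := by
    simp only [ContinuousLinearMap.comp_apply, ContinuousLinearMap.adjoint_inner_right]
    exact hs.orbit_low_top ht x
  deriv_norm t ht x := by
    simp only [ContinuousLinearMap.comp_apply, ContinuousLinearMap.adjoint_inner_right]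
    refine ⟨-⟪U t x, P.G' t (U t x)⟫, ?_, ?_⟩
    · rw [abs_neg]; exact P.boundG t ht _
    · exact (deriv_nrm_dual (P := P) le_rfl le_rfl (hs.orbit x) ht).congr_deriv
        (by simp only [eng]; ring)

theorem dualSys_nrm (t : ℝ) (x : E) : hs.dualSys.nrm t x = P.nrm t (U t x) := by
  simp only [DualSys.nrm, dualSys, ContinuousLinearMap.comp_apply,
    ContinuousLinearMap.adjoint_inner_right, nrm]

theorem dualSys_cone (μ t : ℝ) (x : E) :
    hs.dualSys.cone μ t x = P.eng t (U t x) - μ * P.nrm t (U t x) := by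
  simp only [DualSys.cone, dualSys, ContinuousLinearMap.comp_apply,
    ContinuousLinearMap.adjoint_inner_right, nrm, eng]

variable {s₁ s₂ : ℝ} (hsub : Icc s₁ s₂ ⊆ Icc a b) {μ μ' : ℝ → ℝ} {w δ T c : ℝ}
  (hcμ : Continuous μ) (hdμ : ∀ t ∈ Icc s₁ s₂, HasDerivWithinAt μ (μ' t) (Icc s₁ s₂) t)
  (hμ : ∀ t ∈ Icc s₁ s₂, 0 ≤ μ t ∧ μ t ≤ top)
  (hw : ∀ t ∈ Icc s₁ s₂, ε * (2 * μ t + 2) + |μ' t| + δ ≤ (2 - ε) * w ^ 2)
  (hδ : 0 ≤ δ) (hgap : ∀ t ∈ Icc s₁ s₂, P.Gap t (μ t) w) (hT : 0 ≤ T)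
  (hc : c ≤ δ * T * Real.exp (-(2 * top + 3 * ε) * T))
include hsub hcμ hdμ hμ hw hδ hgap hT hc

/-- Forward invariance and strictness of the low cone. -/
theorem low_forward (x : E) {t t' : ℝ} (ht : t ∈ Icc s₁ s₂) (ht' : t' ∈ Icc t s₂)
    (hlow : hs.dualSys.cone (μ t) t x ≤ 0) :
    hs.dualSys.cone (μ t') t' x ≤ 0 ∧
      (t + T ≤ t' → hs.dualSys.cone (μ t') t' x ≤ -c * hs.dualSys.nrm t' x) := by
  simp only [dualSys_cone, dualSys_nrm] at hlow ⊢
  set z := fun r => U r x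
  have hz : ∀ p q, a ≤ p → q ≤ b → P.IsDual p q z := fun p q hp hq => (hs.orbit x).mono hp hq
  have hinv : ∀ q ∈ Icc t s₂, P.eng q (z q) - μ q * P.nrm q (z q) ≤ 0 := fun q hq => by
    have hi : Icc t q ⊆ Icc s₁ s₂ := Icc_subset_Icc ht.1 hq.2
    have h1 := (hsub ht)
    have h2 := (hsub ⟨ht.1.trans hq.1, hq.2⟩)
    have h := dual_low_forward (P := P) hs.hab h1.1 h2.2 hq.1 (hz t q h1.1 h2.2) hcμ
      (fun r hr => (hμ r (hi hr)).1) (fun r hr => (hdμ r (hi hr)).mono hi)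
      (fun r hr => by linarith [hw r (hi hr)]) fun r hr => hgap r (hi hr)
    exact neg_nonneg.1 ((mul_nonneg_iff_of_pos_left (Real.exp_pos _)).1 ((neg_nonneg.2 hlow).trans h))
  refine ⟨hinv t' ht', fun hTt => ?_⟩
  set p := t' - T with hp
  have hpI : p ∈ Icc t s₂ := ⟨by linarith, by linarith [ht'.2]⟩
  have hi : Icc p t' ⊆ Icc s₁ s₂ := Icc_subset_Icc (ht.1.trans hpI.1) ht'.2
  have hp' := hsub (hi ⟨le_rfl, by linarith⟩)
  have hq' := hsub (hi ⟨by linarith, le_rfl⟩)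
  have hN := nrm_nonneg (P := P) hq' (z t')
  have h := dual_low_strict (P := P) (R := Real.exp (-ε * T) * P.nrm t' (z t')) hs.hab hp'.1 hq'.2
    (by linarith) (hz p t' hp'.1 hq'.2) hcμ (fun r hr => (hμ r (hi hr)).1) hδ
    (fun r hr => (hdμ r (hi hr)).mono hi) (fun r hr => hw r (hi hr)) (fun r hr => hgap r (hi hr))
    (fun r hr => by
      have hr' := hsub (hi hr)
      rw [neg_mul, Real.exp_neg, inv_mul_le_iff₀ (Real.exp_pos _)]
      refine (dual_rate_ceiling (P := P) hr'.1 hq'.2 hr.2 (hz r t' hr'.1 hq'.2)).trans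
        (mul_le_mul_of_nonneg_right (Real.exp_le_exp.2 ?_) (nrm_nonneg hr' _))
      exact mul_le_mul_of_nonneg_left (by linarith [hr.1]) P.hε)
    (mul_nonneg (Real.exp_nonneg _) hN)
  have hA : ∫ r in p..t', (2 * μ r - ε) ≤ (2 * top + ε) * T := by
    have h1 : ∫ r in p..t', (2 * μ r - ε) ≤ ∫ _r in p..t', (2 * top + ε) :=
      intervalIntegral.integral_mono_on (by linarith) (Continuous.intervalIntegrable (by fun_prop) _ _)
        intervalIntegrable_const fun r hr => by linarith [(hμ r (hi hr)).2, P.hε]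
    rw [intervalIntegral.integral_const, smul_eq_mul, show t' - p = T by linarith] at h1
    linarith
  have h0 := hinv p hpI
  have hq0 := hinv t' ht'
  have hX : δ * T * Real.exp (-(2 * ε) * T) * P.nrm t' (z t') ≤
      Real.exp ((2 * top + ε) * T) * -(P.eng t' (z t') - μ t' * P.nrm t' (z t')) := by
    refine le_trans ?_ (mul_le_mul_of_nonneg_right (Real.exp_le_exp.2 hA) (neg_nonneg.2 hq0))
    rw [show t' - p = T by linarith] at h
    refine le_trans (le_of_eq ?_) (le_trans (le_add_of_nonneg_left (neg_nonneg.2 h0)) h)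
    rw [show -(2 * ε) * T = -ε * T + -ε * T by ring, Real.exp_add]
    ring
  have hc' : c * P.nrm t' (z t') ≤ Real.exp (-((2 * top + ε) * T)) *
      (δ * T * Real.exp (-(2 * ε) * T) * P.nrm t' (z t')) := by
    refine (mul_le_mul_of_nonneg_right hc hN).trans (le_of_eq ?_)
    rw [show -(2 * top + 3 * ε) * T = -((2 * top + ε) * T) + -(2 * ε) * T by ring, Real.exp_add]
    ring
  rw [Real.exp_neg] at hc'
  have := hc'.trans ((inv_mul_le_iff₀ (Real.exp_pos _)).2 hX)
  simp only [z] at this ⊢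
  linarith

/-- Backward invariance and strictness of the high cone. -/
theorem high_backward (x : E) {t t' : ℝ} (ht : t ∈ Icc s₁ s₂) (ht' : t' ∈ Icc t s₂)
    (hhigh : 0 ≤ hs.dualSys.cone (μ t') t' x) :
    0 ≤ hs.dualSys.cone (μ t) t x ∧
      (t + T ≤ t' → c * hs.dualSys.nrm t x ≤ hs.dualSys.cone (μ t) t x) := by
  simp only [dualSys_cone, dualSys_nrm] at hhigh ⊢
  set z := fun r => U r x
  have hz : ∀ p q, a ≤ p → q ≤ b → P.IsDual p q z := fun p q hp hq => (hs.orbit x).mono hp hq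
  have hinv : ∀ q ∈ Icc t t', 0 ≤ P.eng q (z q) - μ q * P.nrm q (z q) := fun q hq => by
    have hi : Icc q t' ⊆ Icc s₁ s₂ := Icc_subset_Icc (ht.1.trans hq.1) ht'.2
    have h1 := hsub (hi ⟨le_rfl, hq.2⟩)
    have h2 := hsub (hi ⟨hq.2, le_rfl⟩)
    have h := dual_low_forward (P := P) hs.hab h1.1 h2.2 hq.2 (hz q t' h1.1 h2.2) hcμ
      (fun r hr => (hμ r (hi hr)).1) (fun r hr => (hdμ r (hi hr)).mono hi)
      (fun r hr => by linarith [hw r (hi hr)]) fun r hr => hgap r (hi hr)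
    have h3 := h.trans (mul_nonpos_of_nonneg_of_nonpos (Real.exp_nonneg _) (neg_nonpos.2 hhigh))
    linarith
  refine ⟨hinv t ⟨le_rfl, ht'.1⟩, fun hTt => ?_⟩
  have hi : Icc t (t + T) ⊆ Icc s₁ s₂ := Icc_subset_Icc ht.1 (hTt.trans ht'.2)
  have h1 := hsub ht
  have h2 := hsub (hi ⟨by linarith, le_rfl⟩)
  have hN := nrm_nonneg (P := P) h1 (z t)
  have h := dual_low_strict (P := P) (R := Real.exp (-(2 * top + ε) * T) * P.nrm t (z t)) hs.hab
    h1.1 h2.2 (by linarith) (hz t (t + T) h1.1 h2.2) hcμ (fun r hr => (hμ r (hi hr)).1) hδ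
    (fun r hr => (hdμ r (hi hr)).mono hi) (fun r hr => hw r (hi hr)) (fun r hr => hgap r (hi hr))
    (fun r hr => by
      have hr' := hsub (hi hr)
      rw [neg_mul, Real.exp_neg, inv_mul_le_iff₀ (Real.exp_pos _)]
      refine (dual_rate_lower (P := P) h1.1 hr'.2 hr.1 (hz t r h1.1 hr'.2) fun q hq =>
        hs.orbit_low_top ⟨h1.1.trans hq.1, hq.2.trans hr'.2⟩ x).trans
        (mul_le_mul_of_nonneg_right (Real.exp_le_exp.2 ?_) (nrm_nonneg hr' _))
      refine mul_le_mul_of_nonneg_left (by linarith [hr.2]) ?_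
      linarith [(hμ t ht).1, (hμ t ht).2, P.hε])
    (mul_nonneg (Real.exp_nonneg _) hN)
  have h0 := hinv (t + T) ⟨by linarith, hTt⟩
  have h4 := h.trans (mul_nonpos_of_nonneg_of_nonpos (Real.exp_nonneg _) (neg_nonpos.2 h0))
  have hc' : c * P.nrm t (z t) ≤ δ * Real.exp (-ε * T) *
      (Real.exp (-(2 * top + ε) * T) * P.nrm t (z t)) * T := by
    refine (mul_le_mul_of_nonneg_right hc hN).trans ?_
    rw [show δ * Real.exp (-ε * T) * (Real.exp (-(2 * top + ε) * T) * P.nrm t (z t)) * T =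
      δ * T * Real.exp (-ε * T + -(2 * top + ε) * T) * P.nrm t (z t) by rw [Real.exp_add]; ring]
    refine mul_le_mul_of_nonneg_right (mul_le_mul_of_nonneg_left (Real.exp_le_exp.2 ?_)
      (mul_nonneg hδ hT)) hN
    nlinarith [P.hε, hT]
  rw [show t + T - t = T by ring] at h4
  simp only [z] at h4 hc' ⊢
  linarith

end DualStart

end TraceData

end

end Vale.Agent.P225.Disproof
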