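import Vale.Agent.P225.Disproof.MassCont
import Vale.Agent.P225.Disproof.DualFlow

/-!
# P225: the trace map depends on the past only

Two trace data with the same coefficients up to `c` and the same start have the same trace map
and the same orbits up to `c`.
-/

namespace Vale.Agent.P225.Disproof

open Set Filter Topology
open scoped RealInnerProductSpace

noncomputable section

variable {V : Type*} [NormedAddCommGroup V] [InnerProductSpace ℝ V] [FiniteDimensional ℝ V]
  {a b ε : ℝ}

namespace TraceData

/-- The restriction to an initial interval. -/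
def initial (P : TraceData V a b ε) (c : ℝ) (hc : c ≤ b) : TraceData V a c ε :=
  have hs : Icc a c ⊆ Icc a b := Icc_subset_Icc_right hc
  { K := P.K, G := P.G, G' := P.G', B := P.B, m := P.m, hm := P.hm, hε := P.hε, hε1 := P.hε1
    symG := fun t ht => P.symG t (hs ht)
    symB := fun t ht => P.symB t (hs ht)
    nonnegB := fun t ht => P.nonnegB t (hs ht)
    coercive := fun t ht => P.coercive t (hs ht)
    derivG := fun t ht => (P.derivG t (hs ht)).mono hs
    boundG := fun t ht => P.boundG t (hs ht)
    derivB := fun t ht => (P.derivB t (hs ht)).mono hs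
    boundB := fun t ht => P.boundB t (hs ht) }

/-- A point of the space with two points and no nontrivial open set. -/
inductive Twin : Type
  | fst
  | snd

instance : TopologicalSpace Twin := ⊤

theorem eq_of_continuous_twin {Y : Type*} [TopologicalSpace Y] [T2Space Y] {f : Twin → Y}
    (hf : Continuous f) : f .fst = f .snd := by
  by_contra h
  obtain ⟨U, W, hU, -, h1, h2, hd⟩ := t2_separation h
  rcases (TopologicalSpace.isOpen_top_iff _).1 (hf.isOpen_preimage U hU) with e | e
  · exact (e.subset (h1 : Twin.fst ∈ f ⁻¹' U) : _)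
  · exact Set.disjoint_left.1 hd (e.symm.subset (mem_univ Twin.snd)) h2

/-- A pair as a family over the indiscrete pair. -/
def pair {Y : Type*} (p q : Y) : Twin → Y
  | .fst => p
  | .snd => q

theorem continuous_pair {Y Z : Type*} [TopologicalSpace Y] [TopologicalSpace Z] {f g : Y → Z}
    (hf : Continuous f) (h : f = g) : Continuous fun x : Twin × Y => pair f g x.1 x.2 := by
  subst h
  have : (fun x : Twin × Y => pair f f x.1 x.2) = f ∘ Prod.snd :=
    funext fun x => by rcases x with ⟨_ | _, y⟩ <;> rfl
  rw [this]
  exact hf.comp continuous_snd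

/-- The trace map depends on the past only. -/
theorem B_eq_of_agree (P Q : TraceData V a b ε) {c : ℝ} (hac : a ≤ c) (hcb : c ≤ b)
    (hK : ∀ t ∈ Icc a c, P.K t = Q.K t) (hG : ∀ t ∈ Icc a c, P.G t = Q.G t)
    (hKc : ContinuousOn P.K (Icc a c)) (h0 : P.B a = Q.B a) :
    ∀ t ∈ Icc a c, P.B t = Q.B t := fun t ht => by
  have hfam := continuous_B (pair (P.initial c hcb) (Q.initial c hcb)) hac
    (by
      have e : (fun x : Twin × Icc a c => (pair (P.initial c hcb) (Q.initial c hcb) x.1).K x.2) =
          fun x => pair (fun s : Icc a c => P.K s) (fun s : Icc a c => Q.K s) x.1 x.2 :=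
        funext fun x => by rcases x with ⟨_ | _, y⟩ <;> rfl
      rw [e]
      exact continuous_pair hKc.domRestrict (funext fun s => hK s s.2))
    (by
      have e : (fun x : Twin × Icc a c => (pair (P.initial c hcb) (Q.initial c hcb) x.1).G x.2) =
          fun x => pair (fun s : Icc a c => P.G s) (fun s : Icc a c => Q.G s) x.1 x.2 :=
        funext fun x => by rcases x with ⟨_ | _, y⟩ <;> rfl
      rw [e]
      have hGc : ContinuousOn P.G (Icc a c) := fun s hs =>
        ((P.initial c hcb).derivG s hs).continuousWithinAt
      exact continuous_pair hGc.domRestrict (funext fun s => hG s s.2))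
    (by
      have e : (fun x : Twin => (pair (P.initial c hcb) (Q.initial c hcb) x).B a) =
          fun _ => P.B a := funext fun x => by
        cases x
        · rfl
        · exact h0.symm
      rw [e]
      exact continuous_const)
  exact eq_of_continuous_twin (hfam.comp (continuous_id.prodMk
    (continuous_const (y := (⟨t, ht⟩ : Icc a c)))))


/-- The generator depends on the past only. -/
theorem gen_eq_of_agree (P Q : TraceData V a b ε) {c : ℝ} (hac : a ≤ c) (hcb : c ≤ b)
    (hK : ∀ t ∈ Icc a c, P.K t = Q.K t) (hG : ∀ t ∈ Icc a c, P.G t = Q.G t)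
    (hKc : ContinuousOn P.K (Icc a c)) (h0 : P.B a = Q.B a) :
    ∀ t ∈ Icc a c, P.gen t = Q.gen t := fun t ht => by
  rw [gen, gen, hG t ht, B_eq_of_agree P Q hac hcb hK hG hKc h0 t ht]

/-- Dual orbits depend on the past only. -/
theorem dual_eq_of_agree (P Q : TraceData V a b ε) {a' c : ℝ} (haa : a ≤ a') (hac : a' ≤ c)
    (hcb : c ≤ b) (hB : ∀ t ∈ Icc a' c, P.gen t = Q.gen t) (hG : ∀ t ∈ Icc a' c, P.G t = Q.G t)
    (hG' : ∀ t ∈ Icc a' c, P.G' t = Q.G' t) (hG'c : ContinuousOn P.G' (Icc a' c))
    {z w : ℝ → V} (hz : P.IsDual a' b z) (hw : Q.IsDual a' b w) (h0 : z a' = w a') :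
    ∀ t ∈ Icc a' c, z t = w t := fun t ht => by
  have hsub : Icc a' c ⊆ Icc a b := Icc_subset_Icc haa hcb
  set L := fun s => -P.gen s - Ring.inverse (P.G s) * P.G' s with hL
  have hLc : ContinuousOn L (Icc a' c) :=
    (continuousOn_gen.mono hsub).neg.sub ((continuousOn_inverse.mono hsub).mul hG'c)
  have hfam := continuous_linear_flow hac
    (A := fun (_ : Twin) (s : Icc a' c) => L s) (u := pair z w)
    (by exact hLc.domRestrict.comp continuous_snd)
    (by
      have e : (fun x : Twin => pair z w x a') = fun _ => z a' := funext fun x => by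
        cases x
        · rfl
        · exact h0.symm
      rw [e]
      exact continuous_const)
    (fun x s => by
      cases x
      · refine ((hz s ⟨s.2.1, s.2.2.trans hcb⟩).mono (Icc_subset_Icc_right hcb)).congr_deriv ?_
        simp [hL, gen_apply, pair]
      · refine ((hw s ⟨s.2.1, s.2.2.trans hcb⟩).mono (Icc_subset_Icc_right hcb)).congr_deriv ?_
        simp [hL, ← gen_apply, hB s s.2, hG s s.2, hG' s s.2, pair])
  exact eq_of_continuous_twin (hfam.comp (continuous_id.prodMk
    (continuous_const (y := (⟨t, ht⟩ : Icc a' c)))))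

end TraceData

end

end Vale.Agent.P225.Disproof
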