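import Vale.Agent.P225.Disproof.PencilCluster

/-!
# P225, module F: the first variation of the pencil as an operator

`dPencil w h` is the derivative of `pencil` at `w`; its form is `∫ h (lift x) (lift y)`.
-/

namespace Vale.Agent.P225.Disproof

open Filter Topology Set
open scoped RealInnerProductSpace

noncomputable section

/-- The first variation of the pencil. -/
def dPencil (w : C(Sph 3, ℝ)) : C(Sph 3, ℝ) →L[ℝ] L2S →L[ℝ] L2S := fderiv ℝ pencil w

theorem hasFDerivAt_pencil {w : C(Sph 3, ℝ)} (hw : tot w ≠ 0) :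
    HasFDerivAt pencil (dPencil w) w :=
  ((contDiffAt_pencil hw).differentiableAt one_ne_zero).hasFDerivAt

theorem inner_dPencil {w : C(Sph 3, ℝ)} (hw : tot w ≠ 0) (h : C(Sph 3, ℝ)) (x y : L2S) :
    ⟪dPencil w h x, y⟫ = pairD (lift w x) (lift w y) h := by
  set ev : (L2S →L[ℝ] L2S) →L[ℝ] ℝ := (innerSL ℝ y).comp (ContinuousLinearMap.apply ℝ L2S x)
  have hev : ∀ T : L2S →L[ℝ] L2S, ev T = ⟪T x, y⟫ := fun T => by
    show ⟪y, T x⟫ = _
    exact real_inner_comm _ _
  have h1 := ev.hasFDerivAt.comp w (hasFDerivAt_pencil hw)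
  have h2 : (fun v => ev (pencil v)) = fun v => ⟪pencil v x, y⟫ := funext fun v => hev _
  rw [show (ev ∘ pencil) = fun v => ev (pencil v) from rfl, h2] at h1
  rw [← hev, ← h1.unique (hasStrictFDerivAt_form hw x y).hasFDerivAt]
  rfl

/-- The remainder of the first order expansion. -/
theorem exists_remainder {w : C(Sph 3, ℝ)} (hw : tot w ≠ 0) {ε : ℝ} (hε : 0 < ε) :
    ∃ δ > 0, ∀ k : C(Sph 3, ℝ), ‖k‖ < δ →
      ‖pencil (w + k) - pencil w - dPencil w k‖ ≤ ε * ‖k‖ := by
  have h := (hasFDerivAt_iff_isLittleO_nhds_zero.1 (hasFDerivAt_pencil hw)).def hε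
  obtain ⟨δ, hδ, hb⟩ := Metric.eventually_nhds_iff.1 h
  exact ⟨δ, hδ, fun k hk => hb (by simpa using hk)⟩

end

end Vale.Agent.P225.Disproof
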