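import Vale.Agent.P225.Disproof.LoopsExist
import Vale.Agent.P225.Disproof.CentreFirst

/-!
# P225, module F: from a flipping loop to a centre

A loop of shapes with gap `j` open that reverses the orientation of the top space bounds a cone on
which gap `j` closes somewhere. A cone with generic apex has only that gap closed there, so the
closed gap is a cluster of two, and two shapes separating its compression span a disc with the
crossing in the middle: a centre.
-/

namespace Vale.Agent.P225.Disproof.Strata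

open MvPolynomial MeasureTheory Set Filter Topology
open scoped RealInnerProductSpace

noncomputable section

variable {D : ℕ}

/-- The pencil is continuous along shapes. -/
theorem continuousOn_pencil_wt {V : Set (Gal D)} (h : Strat V) :
    ContinuousOn (fun p => pencil (wt D p)) V := fun p hp =>
  ((continuousAt_pencil (tot_pos (h.pos p hp)).ne').comp
    (wt D).continuous.continuousAt).continuousWithinAt

theorem projAt_idem (j : ℕ) (p : Gal D) (x : L2S) :
    projAt D j p (projAt D j p x) = projAt D j p x :=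
  Submodule.starProjection_eq_self_iff.2 (Submodule.starProjection_apply_mem _ _)

theorem finrank_range_projAt {p : Gal D} (hp : wt D p ∈ PosW) (j : ℕ) :
    Module.finrank ℝ (LinearMap.range (projAt D j p : L2S →ₗ[ℝ] L2S)) = j := by
  rw [projAt, topProj, Submodule.range_starProjection]
  exact (goodOp_pencil hp).finrank_topSpace j

/-- A flipping loop bounds a cone with a point where only gap `j` is closed. -/
theorem exists_only_closed {V : Set (Gal D)} (h : Strat V) {U : Set (Gal D)} (hU : IsOpen U)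
    (hUc : Convex ℝ U) (hUV : U ⊆ V) {j : ℕ} (hj : j ∈ gapWindow) {g : ℝ → Gal D}
    (hg : ContDiff ℝ 1 g) (hper : g 0 = g 1) (hgU : ∀ s ∈ Icc (0 : ℝ) 1, g s ∈ U ∧ gapAt D j (g s))
    (hturn : TurnsBy j (fun s => projAt D j (g s)) 0 1 (-1)) :
    ∃ c ∈ U, ¬ gapAt D j c ∧ ∀ l ∈ gapWindow, l ≠ j → gapAt D l c := by
  obtain ⟨v, hvU, hv, hcone⟩ := h.exists_apex hg hUc hUV (fun s hs => (hgU s hs).1) hU subset_rfl
    ⟨g 0, (hgU 0 ⟨le_rfl, zero_le_one⟩).1⟩
  set Z : ℝ → ℝ → Gal D := fun t s => (1 - t) • v + t • g s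
  have hZU : ∀ t ∈ Icc (0 : ℝ) 1, ∀ s ∈ Icc (0 : ℝ) 1, Z t s ∈ U := fun t ht s hs => by
    rcases eq_or_lt_of_le ht.2 with rfl | h1
    · simpa [Z] using (hgU s hs).1
    · exact (hcone t ⟨ht.1, h1⟩ s hs).1
  by_cases hall : ∀ t ∈ Icc (0 : ℝ) 1, ∀ s ∈ Icc (0 : ℝ) 1, gapAt D j (Z t s)
  · exfalso
    obtain ⟨e, hec, he, C, hC, hdet⟩ := hturn
    have hmem : ∀ z ∈ Icc (0 : ℝ) 1 ×ˢ Icc (0 : ℝ) 1, Z z.1 z.2 ∈ V := fun z hz =>
      hUV (hZU z.1 hz.1 z.2 hz.2)
    have hcZ : Continuous fun z : ℝ × ℝ => Z z.1 z.2 :=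
      ((continuous_const.sub continuous_fst).smul continuous_const).add
        (continuous_fst.smul (hg.continuous.comp continuous_snd))
    have hP : ContinuousOn (fun z : ℝ × ℝ => projAt D j (Z z.1 z.2))
        (Icc 0 1 ×ˢ Icc 0 1) :=
      continuousOn_topProj ((continuousOn_pencil_wt h).comp hcZ.continuousOn hmem)
        (fun z hz => goodOp_pencil (h.pos _ (hmem z hz))) fun z hz => hall z.1 hz.1 z.2 hz.2
    exact Avoid.orientation_absurd (fun t s => projAt D j (Z t s)) hP
      (fun t _ s _ => projAt_idem j _)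
      (fun t ht s hs => finrank_range_projAt (h.pos _ (hUV (hZU t ht s hs))) j)
      (fun s _ => by simp [Z]) (fun t _ => by simp [Z, hper]) e
      (fun i => continuousOn_pi.1 hec i) (fun s hs i => by simpa [Z] using (he s hs).2 i)
      (fun s hs => (he s hs).1) C hC (by linarith)
  · push Not at hall
    obtain ⟨t, ht, s, hs, hc⟩ := hall
    have ht1 : t < 1 := lt_of_le_of_ne ht.2 fun e => hc (by subst e; simpa [Z] using (hgU s hs).2)
    exact ⟨Z t s, hZU t ht s hs, hc, fun l hl hne =>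
      ((hcone t ⟨ht.1, ht1⟩ s hs).2 l hl j hj hne).resolve_right hc⟩

/-- The form of a compression with eigenvalues `1, -1`. -/
theorem circle_form (a b φ : ℝ) :
    Real.cos φ * (a ^ 2 - b ^ 2) + 2 * Real.sin φ * (a * b) =
      2 * (a * Real.cos (φ / 2) + b * Real.sin (φ / 2)) ^ 2 - (a ^ 2 + b ^ 2) := by
  have hc : Real.cos φ = 2 * Real.cos (φ / 2) ^ 2 - 1 := by
    rw [← Real.cos_two_mul, mul_div_cancel₀ φ two_ne_zero]
  have hs : Real.sin φ = 2 * Real.sin (φ / 2) * Real.cos (φ / 2) := by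
    rw [← Real.sin_two_mul, mul_div_cancel₀ φ two_ne_zero]
  have h1 := Real.sin_sq_add_cos_sq (φ / 2)
  rw [hc, hs]
  linear_combination (-2 * b ^ 2) * h1

/-- The top `j - 1` vectors and a half turn in the next plane make a flipping frame. -/
theorem turnsBy_halfTurn {T0 : L2S →L[ℝ] L2S} (hT0 : GoodOp T0) {j : ℕ} (hj : 1 ≤ j)
    {T : ℝ → L2S →L[ℝ] L2S} (hT : ContinuousOn T (Icc 0 (2 * Real.pi)))
    (hper : T (2 * Real.pi) = T 0) (hgood : ∀ t ∈ Icc 0 (2 * Real.pi), GoodOp (T t))
    (hgap : ∀ t ∈ Icc 0 (2 * Real.pi), Gap (T t) j)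
    (hinj : ∀ t ∈ Icc 0 (2 * Real.pi), ∀ x ∈ topSpace T0 (j - 1) ⊔ Submodule.span ℝ
      {Real.cos (t / 2) • eigvec T0 (j - 1) + Real.sin (t / 2) • eigvec T0 j},
        topProj (T t) j x = 0 → x = 0) :
    TurnsBy j (fun t => topProj (T t) j) 0 (2 * Real.pi) (-1) := by
  set u : ℝ → L2S := fun t =>
    Real.cos (t / 2) • eigvec T0 (j - 1) + Real.sin (t / 2) • eigvec T0 j
  set e0 : ℝ → Fin j → L2S := fun t k => if (k : ℕ) < j - 1 then eigvec T0 k else u t with he0
  set last : Fin j := ⟨j - 1, by omega⟩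
  have ho : ∀ t n, n < j - 1 → ⟪eigvec T0 n, u t⟫ = 0 := fun t n hn => by
    simp [u, inner_add_right, real_inner_smul_right, hT0.inner_eigvec,
      show n ≠ j - 1 by omega, show n ≠ j by omega]
  have hu : ∀ t, ‖u t‖ = 1 := fun t => by
    refine (sq_eq_sq₀ (norm_nonneg _) zero_le_one).1 ?_
    rw [← real_inner_self_eq_norm_sq, one_pow]
    simp only [u, inner_add_left, inner_add_right, real_inner_smul_left, real_inner_smul_right,
      hT0.inner_eigvec, if_pos, if_neg (show j - 1 ≠ j by omega),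
      if_neg (show j ≠ j - 1 by omega)]
    linear_combination Real.cos_sq_add_sin_sq (t / 2)
  refine turnsBy_of_frame (e0 := e0)
    (C := Matrix.diagonal fun k : Fin j => if (k : ℕ) < j - 1 then (1 : ℝ) else -1)
    hT hper hgood hgap ?_ (fun t _ => ?_) (fun t ht x hx hP => hinj t ht x ?_ hP) (fun k => ?_) ?_
  · refine continuousOn_pi.2 fun k => ?_
    simp only [he0]
    split_ifs
    · exact continuousOn_const
    · simp only [u]; fun_prop
  · refine Orthonormal.linearIndependent ⟨fun k => ?_, fun k m hkm => ?_⟩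
    · simp only [he0]
      split_ifs
      · exact (hT0.eigvec_spec _).1
      · exact hu t
    · simp only [he0]
      have hne' : (k : ℕ) ≠ m := fun e => hkm (Fin.ext e)
      split_ifs with h1 h2 h2
      · rw [hT0.inner_eigvec, if_neg hne']
      · exact ho t _ h1
      · rw [real_inner_comm]; exact ho t _ h2
      · omega
  · refine Submodule.span_le.2 ?_ hx
    rintro _ ⟨k, rfl⟩
    simp only [he0]
    split_ifs with hk
    · exact Submodule.mem_sup_left (eigvec_mem T0 hk)
    · exact Submodule.mem_sup_right (Submodule.mem_span_singleton_self _)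
  · rw [Finset.sum_eq_single k (fun m _ hm => by rw [Matrix.diagonal_apply_ne _ hm, zero_smul])
      (fun hk => absurd (Finset.mem_univ k) hk), Matrix.diagonal_apply_eq]
    simp only [he0]
    split_ifs
    · rw [one_smul]
    · simp [u]
  · rw [Matrix.det_diagonal, Finset.prod_eq_single last (fun k _ hk => by
        rw [if_pos]; exact lt_of_le_of_ne (by omega) fun e => hk (Fin.ext e))
      (fun hk => absurd (Finset.mem_univ last) hk), if_neg (by simp [last])]
    norm_num

theorem continuous_circlePath (c q1 q2 : Gal D) (r : ℝ) :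
    Continuous fun t => c + (r * Real.cos t) • q1 + (r * Real.sin t) • q2 :=
  (continuous_const.add ((continuous_const.mul Real.continuous_cos).smul continuous_const)).add
    ((continuous_const.mul Real.continuous_sin).smul continuous_const)

/-- A simple closed gap is the middle of a disc that reverses the orientation. -/
theorem centre_of_cluster {V : Set (Gal D)} (h : Strat V) {c : Gal D} (hcV : c ∈ V) {j : ℕ}
    (hj : 2 ≤ j) (hjw : j ∈ gapWindow) (hc : ¬ gapAt D j c) (hlo : gapAt D (j - 1) c)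
    (hhi : gapAt D (j + 1) c) :
    ∃ (h1 h2 : Gal D) (R : ℝ), 0 < R ∧
      (∀ a b : ℝ, a ^ 2 + b ^ 2 ≤ R ^ 2 → (a, b) ≠ (0, 0) →
        gapAt D j (c + a • h1 + b • h2)) ∧
      ∀ r ∈ Ioc 0 R, TurnsBy j
        (fun t => projAt D j (c + (r * Real.cos t) • h1 + (r * Real.sin t) • h2)) 0
          (2 * Real.pi) (-1) := by
  obtain ⟨q1, hq1⟩ := h.pair_surjective hcV hjw hc ![2, 0]
  obtain ⟨q2, hq2⟩ := h.pair_surjective hcV hjw hc ![0, 1]
  set w := wt D c
  have hw : ∀ θ, 0 < w θ := h.pos c hcV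
  have htot := (tot_pos hw).ne'
  have hT := goodOp_pencil hw
  set T0 := pencil w
  set ν := nu T0 (j - 1) with hν
  have hνj : ν = nu T0 j := closed_of_not_gap hw (by omega) hc
  set x0 := eigvec T0 (j - 1)
  set x1 := eigvec T0 j
  set A := topSpace T0 (j - 1)
  set M : Submodule ℝ L2S := Submodule.span ℝ {x0} ⊔ Submodule.span ℝ {x1}
  have hx0 : T0 x0 = ν • x0 := (hT.eigvec_spec _).2.2.1
  have hx1 : T0 x1 = ν • x1 := by rw [hνj]; exact (hT.eigvec_spec j).2.2.1
  have i00 : ⟪x0, x0⟫ = 1 := by rw [hT.inner_eigvec, if_pos rfl]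
  have i11 : ⟪x1, x1⟫ = 1 := by rw [hT.inner_eigvec, if_pos rfl]
  have i01 : ⟪x0, x1⟫ = 0 := by rw [hT.inner_eigvec, if_neg (by omega)]
  have i10 : ⟪x1, x0⟫ = 0 := by rw [real_inner_comm, i01]
  have hMmem : ∀ m ∈ M, ∃ a b : ℝ, m = a • x0 + b • x1 := fun m hm => by
    obtain ⟨y, hy, z, hz, rfl⟩ := Submodule.mem_sup.1 hm
    obtain ⟨a, rfl⟩ := Submodule.mem_span_singleton.1 hy
    obtain ⟨b, rfl⟩ := Submodule.mem_span_singleton.1 hz
    exact ⟨a, b, rfl⟩
  have hAM : A ⟂ M := by
    rw [Submodule.isOrtho_iff_le, Submodule.le_orthogonal_iff_le_orthogonal]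
    refine sup_le ((Submodule.span_singleton_le_iff_mem _ _).2 (hT.eigvec_spec _).2.1)
      ((Submodule.span_singleton_le_iff_mem _ _).2
        (Submodule.orthogonal_le (topSpace_mono T0 (Nat.sub_le j 1)) (hT.eigvec_spec j).2.1))
  have hAM' : A ⊔ M = topSpace T0 (j + 1) := by
    have e1 : topSpace T0 j = A ⊔ Submodule.span ℝ {x0} := by
      conv_lhs => rw [show j = j - 1 + 1 by omega]
      rfl
    rw [show topSpace T0 (j + 1) = topSpace T0 j ⊔ Submodule.span ℝ {x1} from rfl, e1, sup_assoc]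
  set gg := min (nu T0 (j - 1 - 1) - ν) (ν - nu T0 (j + 1))
  have hgg : 0 < gg := lt_min (sub_pos.2 hlo.2) (sub_pos.2 (by
    rw [hνj]; simpa using hhi.2))
  -- the two directions and their mean parts
  set y : Fin 2 → L2S := fun a => clusterFun w (j - 1) a
  have hy0 : lift w x0 = y 0 := by simp [y, x0, T0, clusterFun, clusterVec]
  have hy1 : lift w x1 = y 1 := by
    simp [y, x1, T0, clusterFun, clusterVec, show j - 1 + 1 = j by omega]
  have e10 : pairD (y 0) (y 0) (wt D q1) - pairD (y 1) (y 1) (wt D q1) = 2 := congrFun hq1 0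
  have e11 : pairD (y 0) (y 1) (wt D q1) = 0 := congrFun hq1 1
  have e20 : pairD (y 0) (y 0) (wt D q2) - pairD (y 1) (y 1) (wt D q2) = 0 := congrFun hq2 0
  have e21 : pairD (y 0) (y 1) (wt D q2) = 1 := congrFun hq2 1
  set β : Gal D → ℝ := fun q =>
    (pairD (y 0) (y 0) (wt D q) + pairD (y 1) (y 1) (wt D q)) / 2
  set d1 := dPencil w (wt D q1)
  set d2 := dPencil w (wt D q2)
  set bb : ℝ → ℝ := fun φ => Real.cos φ * β q1 + Real.sin φ * β q2
  set T1 : ℝ → L2S →L[ℝ] L2S := fun φ =>
    Real.cos φ • d1 + Real.sin φ • d2 - bb φ • (1 : L2S →L[ℝ] L2S)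
  set u : ℝ → L2S := fun φ => Real.cos (φ / 2) • x0 + Real.sin (φ / 2) • x1
  set C := ‖d1‖ + ‖d2‖ + |β q1| + |β q2|
  have hC : ∀ φ, ‖T1 φ‖ ≤ C := fun φ => by
    have hb : ∀ (x : ℝ) (z : L2S →L[ℝ] L2S), |x| ≤ 1 → ‖x • z‖ ≤ ‖z‖ := fun x z hx => by
      rw [norm_smul, Real.norm_eq_abs]; exact mul_le_of_le_one_left (norm_nonneg z) hx
    refine (norm_sub_le _ _).trans ((add_le_add ((norm_add_le _ _).trans (add_le_add
      (hb _ _ (Real.abs_cos_le_one φ)) (hb _ _ (Real.abs_sin_le_one φ)))) (?_ :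
        _ ≤ |β q1| + |β q2|)).trans (le_of_eq (by simp only [C]; ring)))
    rw [norm_smul, Real.norm_eq_abs]
    refine (mul_le_of_le_one_right (abs_nonneg _) ContinuousLinearMap.norm_id_le).trans
      ((abs_add_le _ _).trans (add_le_add ?_ ?_)) <;> rw [abs_mul]
    exacts [mul_le_of_le_one_left (abs_nonneg _) (Real.abs_cos_le_one φ),
      mul_le_of_le_one_left (abs_nonneg _) (Real.abs_sin_le_one φ)]
  have hform : ∀ φ a b, ⟪T1 φ (a • x0 + b • x1), a • x0 + b • x1⟫ =
      2 * (a * Real.cos (φ / 2) + b * Real.sin (φ / 2)) ^ 2 - (a ^ 2 + b ^ 2) := fun φ a b => by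
    have hs : ∀ q, pairD (y 1) (y 0) (wt D q) = pairD (y 0) (y 1) (wt D q) := fun q => by
      rw [pairD_apply, pairD_apply, mulOp_symm, real_inner_comm]
    rw [← circle_form]
    simp only [T1, d1, d2, bb, β, sub_apply, add_apply, smul_apply,
      one_apply_eq_self, map_add, map_smul, inner_sub_left, inner_add_left,
      inner_add_right, real_inner_smul_left, real_inner_smul_right, inner_dPencil htot, hy0, hy1,
      hs, e11, e21, i00, i11, i01, i10]
    linear_combination
      (Real.cos φ / 2 * (a ^ 2 - b ^ 2)) * e10 + (Real.sin φ / 2 * (a ^ 2 - b ^ 2)) * e20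
  have huM : ∀ φ, u φ ∈ M := fun φ => Submodule.add_mem _
    (Submodule.mem_sup_left (Submodule.smul_mem _ _ (Submodule.mem_span_singleton_self _)))
    (Submodule.mem_sup_right (Submodule.smul_mem _ _ (Submodule.mem_span_singleton_self _)))
  have hnorm : ∀ a b : ℝ, ‖a • x0 + b • x1‖ ^ 2 = a ^ 2 + b ^ 2 := fun a b => by
    rw [← real_inner_self_eq_norm_sq]
    simp only [inner_add_left, inner_add_right, real_inner_smul_left, real_inner_smul_right, i00,
      i11, i01, i10]
    ring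
  have hupos : ∀ φ, ∀ x ∈ Submodule.span ℝ {u φ}, 1 * ‖x‖ ^ 2 ≤ ⟪T1 φ x, x⟫ := fun φ x hx => by
    obtain ⟨r, rfl⟩ := Submodule.mem_span_singleton.1 hx
    simp only [u, smul_add, smul_smul]
    rw [one_mul, hnorm, hform]
    have := Real.sin_sq_add_cos_sq (φ / 2)
    have e : (r * Real.cos (φ / 2)) ^ 2 + (r * Real.sin (φ / 2)) ^ 2 = r ^ 2 := by
      linear_combination r ^ 2 * this
    have e' : r * Real.cos (φ / 2) * Real.cos (φ / 2) + r * Real.sin (φ / 2) * Real.sin (φ / 2)
        = r := by linear_combination r * this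
    rw [e, e']
    linarith
  have huneg : ∀ φ, ∀ x ∈ M ⊓ (Submodule.span ℝ {u φ})ᗮ, ⟪T1 φ x, x⟫ ≤ (-1) * ‖x‖ ^ 2 :=
    fun φ x hx => by
    obtain ⟨a, b, rfl⟩ := hMmem x hx.1
    have h0 := (Submodule.mem_orthogonal _ _).1 hx.2 _ (Submodule.mem_span_singleton_self (u φ))
    simp only [u, inner_add_left, inner_add_right, real_inner_smul_left, real_inner_smul_right, i00,
      i11, i01, i10] at h0
    rw [hnorm, hform, show a * Real.cos (φ / 2) + b * Real.sin (φ / 2) = 0 by linarith]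
    linarith
  -- the radius
  set K := ‖wt D q1‖ + ‖wt D q2‖
  have hK : 0 ≤ K := by positivity
  obtain ⟨η0, hη0, hpert⟩ := exists_pert_bound (H := L2S) (g := gg) (C := C) (β0 := -1) (β1 := 1) ν
    hgg (by positivity) (by norm_num)
  obtain ⟨δ, hδ, hrem⟩ := exists_remainder htot (ε := 1 / (4 * (K + 1))) (by positivity)
  obtain ⟨δ', hδ', hpos⟩ := Metric.eventually_nhds_iff.1
    ((continuousAt_id.eventually (isOpen_posW.mem_nhds hw)) : ∀ᶠ v in 𝓝 w, v ∈ PosW)
  set R := min η0 (min δ δ' / (K + 1))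
  have hR : 0 < R := lt_min hη0 (div_pos (lt_min hδ hδ') (by positivity))
  set pt : ℝ → ℝ → Gal D := fun r φ => c + (r * Real.cos φ) • q1 + (r * Real.sin φ) • q2 with hpt
  have hmain : ∀ r ∈ Ioc 0 R, ∀ φ, wt D (pt r φ) ∈ PosW ∧ gapAt D j (pt r φ) ∧
      ∀ x ∈ A ⊔ Submodule.span ℝ {u φ}, projAt D j (pt r φ) x = 0 → x = 0 := by
    rintro r ⟨hr0, hrR⟩ φ
    set k : C(Sph 3, ℝ) := (r * Real.cos φ) • wt D q1 + (r * Real.sin φ) • wt D q2
    have hwk : wt D (pt r φ) = w + k := by simp only [hpt, k, map_add, map_smul, w]; abel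
    have hk : ‖k‖ ≤ r * K := by
      refine (norm_add_le _ _).trans ?_
      rw [norm_smul, norm_smul, Real.norm_eq_abs, Real.norm_eq_abs, abs_mul, abs_mul,
        abs_of_pos hr0, mul_add]
      gcongr
      exacts [mul_le_of_le_one_right hr0.le (Real.abs_cos_le_one φ),
        mul_le_of_le_one_right hr0.le (Real.abs_sin_le_one φ)]
    have hsmall : r * K < min δ δ' := by
      have := (le_div_iff₀ (by positivity)).1 (hrR.trans (min_le_right _ _))
      linarith
    have hpw : w + k ∈ PosW := hpos (by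
      rw [dist_eq_norm, add_sub_cancel_left]; linarith [min_le_right δ δ'])
    have hgood : GoodOp (pencil (w + k)) := goodOp_pencil hpw
    set E : L2S →L[ℝ] L2S := pencil (w + k) - T0 - (r * bb φ) • (1 : L2S →L[ℝ] L2S)
    have hE : ‖E - r • T1 φ‖ ≤ r * ((1 - (-1)) / 8) := by
      have e : E - r • T1 φ = pencil (w + k) - T0 - dPencil w k := by
        simp only [E, T1, k, d1, d2, map_add, map_smul, smul_sub, smul_add, smul_smul]
        abel
      rw [e]
      refine (hrem k (by linarith [min_le_left δ δ'])).trans ?_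
      refine (mul_le_mul_of_nonneg_left hk (by positivity)).trans ?_
      rw [div_mul_eq_mul_div, div_le_iff₀ (by positivity)]
      nlinarith
    have hA : ∀ a ∈ A, T0 a ∈ A ∧ (ν + gg) * ‖a‖ ^ 2 ≤ ⟪T0 a, a⟫ := fun a ha => by
      refine ⟨hT.topSpace_inv _ ha,
        le_trans (mul_le_mul_of_nonneg_right ?_ (sq_nonneg _)) (hT.le_form (by omega) ha)⟩
      linarith [min_le_left (nu T0 (j - 1 - 1) - ν) (ν - nu T0 (j + 1))]
    have hMν : ∀ m ∈ M, T0 m = ν • m := fun m hm => by
      obtain ⟨a, b, rfl⟩ := hMmem m hm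
      rw [map_add, map_smul, map_smul, hx0, hx1, smul_add, smul_comm ν a, smul_comm ν b]
    have hB : ∀ z ∈ (A ⊔ M)ᗮ, ⟪T0 z, z⟫ ≤ (ν - gg) * ‖z‖ ^ 2 := fun z hz => by
      rw [hAM'] at hz
      refine (hT.form_le hz).trans (mul_le_mul_of_nonneg_right ?_ (sq_nonneg _))
      linarith [min_le_right (nu T0 (j - 1 - 1) - ν) (ν - nu T0 (j + 1))]
    obtain ⟨hlo', hhi'⟩ := hpert r ⟨hr0, hrR.trans (min_le_left _ _)⟩ T0 (T1 φ) E A M
      (Submodule.span ℝ {u φ}) inferInstance hT.symm hAM hA hMν hB (hC φ)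
      ((Submodule.span_singleton_le_iff_mem _ _).2 (huM φ)) (hupos φ) (huneg φ) hE
    have hfd : FiniteDimensional ℝ A := by infer_instance
    have hu0 : u φ ≠ 0 := fun e => by
      have := hnorm (Real.cos (φ / 2)) (Real.sin (φ / 2))
      rw [show Real.cos (φ / 2) • x0 + Real.sin (φ / 2) • x1 = 0 from e, norm_zero] at this
      linarith [Real.sin_sq_add_cos_sq (φ / 2)]
    have hdim : Module.finrank ℝ (A ⊔ Submodule.span ℝ {u φ} : Submodule ℝ L2S) = j := by
      have h1 := Submodule.finrank_sup_add_finrank_inf_eq A (Submodule.span ℝ {u φ})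
      rw [(hAM.mono_right ((Submodule.span_singleton_le_iff_mem _ _).2 (huM φ))).disjoint.eq_bot,
        finrank_bot, hT.finrank_topSpace, finrank_span_singleton hu0] at h1
      omega
    have e : ∀ x, ⟪(T0 + E) x, x⟫ = ⟪pencil (w + k) x, x⟫ - r * bb φ * ‖x‖ ^ 2 := fun x => by
      simp only [E, add_apply, sub_apply, smul_apply, one_apply_eq_self,
        inner_add_left, inner_sub_left, real_inner_smul_left, real_inner_self_eq_norm_sq]
      ring
    obtain ⟨g1, g2⟩ := gap_of_forms hgood (S := A ⊔ Submodule.span ℝ {u φ}) (by omega) hdim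
      (a := ν + r * (-1 / 2) + r * bb φ) (b := ν + r * (1 / 2) + r * bb φ) (by linarith)
      (fun x hx => by have := hlo' x hx; rw [e] at this; linarith)
      (fun x hx => by have := hhi' x hx; rw [e] at this; linarith)
    simp only [gapAt, projAt, hwk]
    exact ⟨hpw, g1, g2⟩
  refine ⟨q1, q2, R, hR, fun a b hab hne => ?_, fun r hr => ?_⟩
  · set z : ℂ := ⟨a, b⟩
    have hz : z ≠ 0 := fun e => hne (by simp [z, Complex.ext_iff] at e; simp [e])
    have hzR : ‖z‖ ≤ R := by
      refine (sq_le_sq₀ (norm_nonneg z) hR.le).1 ?_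
      rw [Complex.sq_norm, Complex.normSq_mk]
      linarith
    have := (hmain ‖z‖ ⟨norm_pos_iff.2 hz, hzR⟩ z.arg).2.1
    simp only [hpt, Complex.cos_arg hz, Complex.sin_arg,
      mul_div_cancel₀ _ (norm_ne_zero_iff.2 hz)] at this
    exact this
  · refine turnsBy_halfTurn hT (by omega) (T := fun t => pencil (wt D (pt r t))) ?_
      (congrArg (fun p => pencil (wt D p))
        (show pt r (2 * Real.pi) = pt r 0 by
          simp only [hpt, Real.cos_two_pi, Real.sin_two_pi, Real.cos_zero, Real.sin_zero]))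
      (fun t _ => goodOp_pencil (hmain r hr t).1) (fun t _ => (hmain r hr t).2.1)
      (fun t _ => (hmain r hr t).2.2)
    intro t _
    have hcp : Continuous fun t => wt D (pt r t) :=
      (wt D).continuous.comp (continuous_circlePath c q1 q2 r)
    exact ((continuousAt_pencil (tot_pos (hmain r hr t).1).ne').comp (f := fun t => wt D (pt r t))
      hcp.continuousAt).continuousWithinAt

/-- A flipping loop of gap `j` gives a centre for it. -/
theorem exists_centreAt_of_loop {V : Set (Gal D)} (h : Strat V) {U : Set (Gal D)} (hU : IsOpen U)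
    (hUc : Convex ℝ U) (hUV : U ⊆ V) {j : ℕ} (hj : j ∈ Icc 225 728) (g : ℝ → Gal D)
    (hg : ContDiff ℝ 1 g) (hper : g 0 = g 1) (hgU : ∀ s ∈ Icc (0 : ℝ) 1, g s ∈ U ∧ gapAt D j (g s))
    (hturn : TurnsBy j (fun s => projAt D j (g s)) 0 1 (-1)) :
    Nonempty (CentreAt U (gapAt D) (projAt D) 224 729 j) := by
  obtain ⟨hj1, hj2⟩ := hj
  have hjw : j ∈ gapWindow := mem_gapWindow.2 ⟨by omega, by omega⟩
  obtain ⟨c, hcU, hc, hoth⟩ := exists_only_closed h hU hUc hUV hjw hg hper hgU hturn
  obtain ⟨h1, h2, R, hR, hpun, hfl⟩ := centre_of_cluster h (hUV hcU) (by omega) hjw hc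
    (hoth _ (mem_gapWindow.2 ⟨by omega, by omega⟩) (by omega))
    (hoth _ (mem_gapWindow.2 ⟨by omega, by omega⟩) (by omega))
  have hnear : ∀ᶠ p in 𝓝 c, p ∈ U ∧ ∀ l ∈ gapWindow, l ≠ j → gapAt D l p := by
    refine (hU.eventually_mem hcU).and ((Finset.eventually_all gapWindow).2 fun l hl => ?_)
    by_cases hne : l = j
    · exact Eventually.of_forall fun p h' => absurd hne h'
    · have hc' : ContinuousAt (fun p => pencil (wt D p)) c :=
        (continuousOn_pencil_wt h).continuousAt (h.isOpen.mem_nhds (hUV hcU))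
      exact (hc'.eventually ((isOpen_gap l).mem_nhds (hoth l hl hne))).mono fun p hp _ => hp
  obtain ⟨δ, hδ, hball⟩ := Metric.eventually_nhds_iff.1 hnear
  set R' := min R (δ / (‖h1‖ + ‖h2‖ + 1))
  have hR' : 0 < R' := lt_min hR (by positivity)
  have hin : ∀ a b : ℝ, a ^ 2 + b ^ 2 ≤ R' ^ 2 → dist (c + a • h1 + b • h2) c < δ := fun a b hab => by
    have ha : |a| ≤ R' := abs_le_of_sq_le_sq (by nlinarith) hR'.le
    have hb : |b| ≤ R' := abs_le_of_sq_le_sq (by nlinarith) hR'.le
    have := (le_div_iff₀ (by positivity)).1 (min_le_right R (δ / (‖h1‖ + ‖h2‖ + 1)))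
    rw [dist_eq_norm, add_assoc, add_sub_cancel_left]
    refine (norm_add_le _ _).trans_lt ?_
    rw [norm_smul, norm_smul, Real.norm_eq_abs, Real.norm_eq_abs]
    nlinarith [mul_le_mul_of_nonneg_right ha (norm_nonneg h1),
      mul_le_mul_of_nonneg_right hb (norm_nonneg h2)]
  exact ⟨⟨c, h1, h2, R', hR', fun a b hab => (hball (hin a b hab)).1,
    fun a b hab l hl hne => (hball (hin a b hab)).2 l (mem_gapWindow.2 hl) hne,
    fun a b hab hne => hpun a b (hab.trans (pow_le_pow_left₀ hR'.le (min_le_left _ _) 2)) hne,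
    fun r hr => hfl r ⟨hr.1, hr.2.trans (min_le_left _ _)⟩⟩⟩

end

end Vale.Agent.P225.Disproof.Strata
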