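import Mathlib.Analysis.InnerProductSpace.Basic
import Mathlib.Analysis.Calculus.ContDiff.Basic
import Mathlib.Analysis.SpecialFunctions.Trigonometric.Basic
import Mathlib.LinearAlgebra.Matrix.Determinant.Basic

/-!
# P225: interface between the centres and the loop families

`isOpenGap l p` says that gap `l` is open at the shape `p`, and `proj l p` is the spectral
projection below that gap. Both are abstract here.
-/

namespace Vale.Agent.P225.Disproof

open Set

noncomputable section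

variable {X : Type*} [NormedAddCommGroup X] [NormedSpace ℝ X]
variable {H : Type*} [NormedAddCommGroup H] [InnerProductSpace ℝ H]

/-- A closed curve of idempotents of rank `j` turns its orientation by `sign`: a continuous
frame of the ranges comes back with a determinant of that sign. -/
def TurnsBy (j : ℕ) (P : ℝ → H →L[ℝ] H) (a b sign : ℝ) : Prop :=
  ∃ e : ℝ → Fin j → H, ContinuousOn e (Icc a b) ∧
    (∀ t ∈ Icc a b, LinearIndependent ℝ (e t) ∧ ∀ m, P t (e t m) = e t m) ∧
    ∃ C : Matrix (Fin j) (Fin j) ℝ, (∀ k, e b k = ∑ m, C m k • e a m) ∧ 0 < sign * C.det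

/-- A centre for gap `j`: a disc of shapes on which gap `j` closes only in the middle, every
other gap of `[lo, hi]` stays open, and small circles reverse the orientation. -/
structure CentreAt (O : Set X) (isOpenGap : ℕ → X → Prop) (proj : ℕ → X → H →L[ℝ] H)
    (lo hi j : ℕ) where
  c : X
  h1 : X
  h2 : X
  R : ℝ
  R_pos : 0 < R
  mem : ∀ a b : ℝ, a ^ 2 + b ^ 2 ≤ R ^ 2 → c + a • h1 + b • h2 ∈ O
  others : ∀ a b : ℝ, a ^ 2 + b ^ 2 ≤ R ^ 2 → ∀ l ∈ Icc lo hi, l ≠ j →
    isOpenGap l (c + a • h1 + b • h2)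
  punctured : ∀ a b : ℝ, a ^ 2 + b ^ 2 ≤ R ^ 2 → (a, b) ≠ (0, 0) →
    isOpenGap j (c + a • h1 + b • h2)
  flips : ∀ r ∈ Ioc 0 R, TurnsBy j
    (fun t => proj j (c + (r * Real.cos t) • h1 + (r * Real.sin t) • h2)) 0 (2 * Real.pi) (-1)

/-- The loop family of gap `j` at the rest point `p0`, as deviations supported in
`[1/4, 1/2]`: the face `0` reverses the orientation, the face `1` keeps it. -/
structure LoopAt (O : Set X) (isOpenGap : ℕ → X → Prop) (proj : ℕ → X → H →L[ℝ] H)
    (lo hi j : ℕ) (p0 : X) where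
  path : ℝ → ℝ → X
  smooth : ContDiff ℝ (⊤ : ℕ∞) fun p : ℝ × ℝ => path p.1 p.2
  supp : ∀ s x, x ∉ Icc (1 / 4 : ℝ) (1 / 2) → path s x = 0
  mem : ∀ s ∈ Icc (0 : ℝ) 1, ∀ x, p0 + path s x ∈ O
  others : ∀ s ∈ Icc (0 : ℝ) 1, ∀ x, ∀ l ∈ Icc lo hi, l ≠ j → isOpenGap l (p0 + path s x)
  face : ∀ s ∈ ({0, 1} : Set ℝ), ∀ x, isOpenGap j (p0 + path s x)
  turns_zero : TurnsBy j (fun x => proj j (p0 + path 0 x)) 0 1 (-1)
  turns_one : TurnsBy j (fun x => proj j (p0 + path 1 x)) 0 1 1

end

end Vale.Agent.P225.Disproof
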