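import Vale.Agent.P225.Disproof.PencilSpectral
import Vale.Agent.P225.Disproof.LoopSpec

/-!
# P225, module F: perturbation by separated forms

If the form of `T` is above a level on a `j`-dimensional space and below it on the orthogonal
complement, gap `j` is open and the top projection is injective on that space. A small
perturbation of a cluster with separated compression keeps such a split; the projections of an
explicit frame then turn as the frame does.
-/

namespace Vale.Agent.P225.Disproof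

open Filter Topology Set
open scoped RealInnerProductSpace

noncomputable section

variable {H : Type*} [NormedAddCommGroup H] [InnerProductSpace ℝ H]

/-- Lower bound of a form on a sum of two orthogonal vectors. -/
theorem block_ge {T : H →L[ℝ] H} {a m : H} (h : ⟪a, m⟫ = 0) {b p q c : ℝ} (hp : 0 ≤ p) (hq : 0 ≤ q)
    (ha : (b + p) * ‖a‖ ^ 2 ≤ ⟪T a, a⟫) (hm : (b + q) * ‖m‖ ^ 2 ≤ ⟪T m, m⟫)
    (hc : |⟪T a, m⟫ + ⟪T m, a⟫| ≤ 2 * c * (‖a‖ * ‖m‖)) (hcpq : c ^ 2 ≤ p * q) :
    b * ‖a + m‖ ^ 2 ≤ ⟪T (a + m), a + m⟫ := by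
  have e : ‖a + m‖ ^ 2 = ‖a‖ ^ 2 + ‖m‖ ^ 2 := by
    rw [norm_add_sq_real, h]
    ring
  rw [e, map_add, inner_add_left, inner_add_right, inner_add_right]
  have hc' : c ≤ Real.sqrt p * Real.sqrt q := by
    rw [← Real.sqrt_mul hp]
    exact (le_abs_self c).trans (Real.sqrt_sq_eq_abs c ▸ Real.sqrt_le_sqrt hcpq)
  have h1 := sq_nonneg (Real.sqrt p * ‖a‖ - Real.sqrt q * ‖m‖)
  rw [sub_sq, mul_pow, mul_pow, Real.sq_sqrt hp, Real.sq_sqrt hq] at h1
  have h2 := mul_le_mul_of_nonneg_right hc' (mul_nonneg (norm_nonneg a) (norm_nonneg m))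
  linarith [neg_abs_le (⟪T a, m⟫ + ⟪T m, a⟫)]

/-- Separated forms give the gap and a faithful projection. -/
theorem gap_of_forms [CompleteSpace H] {T : H →L[ℝ] H} (hT : GoodOp T) {S : Submodule ℝ H}
    [FiniteDimensional ℝ S] {j : ℕ} (hj : 1 ≤ j) (hdim : Module.finrank ℝ S = j) {a b : ℝ}
    (hab : a < b) (hlo : ∀ x ∈ S, b * ‖x‖ ^ 2 ≤ ⟪T x, x⟫)
    (hhi : ∀ y ∈ Sᗮ, ⟪T y, y⟫ ≤ a * ‖y‖ ^ 2) :
    Gap T j ∧ ∀ x ∈ S, topProj T j x = 0 → x = 0 := by
  have h1 : b ≤ nu T (j - 1) := le_nu (W := S) (by omega) hlo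
  have h2 : nu T j ≤ a := by
    obtain ⟨x, hx, hxS, hx1⟩ := exists_unit_orth (W := topSpace T (j + 1)) (S := S)
      (by rw [hT.finrank_topSpace]; omega)
    have h := hT.le_form (show 1 ≤ j + 1 by omega) hx
    have h' := hhi x hxS
    rw [hx1, one_pow, mul_one] at h h'
    simp only [Nat.add_sub_cancel] at h
    linarith
  refine ⟨⟨hj, by linarith⟩, fun x hx hP => ?_⟩
  have h := hT.form_le ((Submodule.starProjection_apply_eq_zero_iff _).1 hP)
  have h' := hlo x hx
  have h3 : 0 < b - nu T j := by linarith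
  by_contra h0
  nlinarith [mul_pos h3 (pow_pos (norm_pos_iff.2 h0) 2)]

/-- A small perturbation of an eigenspace with separated compression separates the forms. -/
theorem exists_pert_bound {g C β0 β1 : ℝ} (ν : ℝ) (hg : 0 < g) (hC : 0 ≤ C) (hβ : β0 < β1) :
    ∃ η0 > (0 : ℝ), ∀ η ∈ Ioc 0 η0, ∀ (T0 T1 E : H →L[ℝ] H) (A M S0 : Submodule ℝ H),
      FiniteDimensional ℝ M → (∀ x y, ⟪T0 x, y⟫ = ⟪x, T0 y⟫) → A ⟂ M →
      (∀ a ∈ A, T0 a ∈ A ∧ (ν + g) * ‖a‖ ^ 2 ≤ ⟪T0 a, a⟫) → (∀ m ∈ M, T0 m = ν • m) →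
      (∀ y ∈ (A ⊔ M)ᗮ, ⟪T0 y, y⟫ ≤ (ν - g) * ‖y‖ ^ 2) → ‖T1‖ ≤ C → S0 ≤ M →
      (∀ x ∈ S0, β1 * ‖x‖ ^ 2 ≤ ⟪T1 x, x⟫) →
      (∀ x ∈ M ⊓ S0ᗮ, ⟪T1 x, x⟫ ≤ β0 * ‖x‖ ^ 2) →
      ‖E - η • T1‖ ≤ η * ((β1 - β0) / 8) →
      (∀ x ∈ A ⊔ S0, (ν + η * (β0 + 3 * (β1 - β0) / 4)) * ‖x‖ ^ 2 ≤ ⟪(T0 + E) x, x⟫) ∧
        ∀ y ∈ (A ⊔ S0)ᗮ, ⟪(T0 + E) y, y⟫ ≤ (ν + η * (β0 + (β1 - β0) / 4)) * ‖y‖ ^ 2 := by
  set D := β1 - β0 with hD
  have hD0 : 0 < D := sub_pos.2 hβ
  set C' := C + D / 8 with hC'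
  have hC'0 : 0 < C' := by positivity
  set η0 := min (g / (2 * (C' + |β0| + D))) (g * D / (16 * C' ^ 2))
  have hd : 0 < C' + |β0| + D := by positivity
  refine ⟨η0, lt_min (by positivity) (by positivity),
    fun η hη T0 T1 E A M S0 hMfin hsymm hAM hA hM hB hT1 hS0 hlo hhi hE => ?_⟩
  obtain ⟨hη0, hη1⟩ := hη
  have hsmall : η * (C' + |β0| + D) ≤ g / 2 := by
    have := (le_div_iff₀ (by positivity)).1 (hη1.trans (min_le_left _ _))
    linarith
  have hsq : η * C' ^ 2 ≤ g * D / 16 := by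
    have := (le_div_iff₀ (by positivity)).1 (hη1.trans (min_le_right _ _))
    linarith
  have hEb : ‖E‖ ≤ η * C' := by
    calc ‖E‖ ≤ ‖E - η • T1‖ + ‖η • T1‖ := norm_le_norm_sub_add E _
      _ ≤ η * (D / 8) + η * C := by
          refine add_le_add hE ?_
          rw [norm_smul, Real.norm_of_nonneg hη0.le]
          exact mul_le_mul_of_nonneg_left hT1 hη0.le
      _ = η * C' := by rw [hC']; ring
  have hform : ∀ x y : H, |⟪E x, y⟫| ≤ η * C' * (‖x‖ * ‖y‖) := fun x y => by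
    refine (abs_real_inner_le_norm _ _).trans ?_
    rw [← mul_assoc]
    exact mul_le_mul_of_nonneg_right ((E.le_opNorm x).trans
      (mul_le_mul_of_nonneg_right hEb (norm_nonneg x))) (norm_nonneg y)
  have hrem : ∀ x : H, |⟪E x, x⟫ - η * ⟪T1 x, x⟫| ≤ η * (D / 8) * ‖x‖ ^ 2 := fun x => by
    rw [show ⟪E x, x⟫ - η * ⟪T1 x, x⟫ = ⟪(E - η • T1) x, x⟫ by
      rw [sub_apply, smul_apply, inner_sub_left, real_inner_smul_left]]
    refine (abs_real_inner_le_norm _ _).trans ?_
    rw [pow_two, ← mul_assoc]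
    exact mul_le_mul_of_nonneg_right (((E - η • T1).le_opNorm x).trans
      (mul_le_mul_of_nonneg_right hE (norm_nonneg x))) (norm_nonneg x)
  have hb : |η * β0| ≤ η * |β0| := by rw [abs_mul, abs_of_pos hη0]
  have hcoef : ∀ p : ℝ, g / 2 ≤ p → (η * C') ^ 2 ≤ p * (η * (D / 8)) := fun p hp => by
    nlinarith [mul_le_mul_of_nonneg_left hsq hη0.le,
      mul_le_mul_of_nonneg_right hp (show 0 ≤ η * (D / 8) by positivity)]
  refine ⟨fun x hx => ?_, fun y hy => ?_⟩
  · obtain ⟨a, ha, m, hm, rfl⟩ := Submodule.mem_sup.1 hx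
    have ham : ⟪a, m⟫ = 0 := Submodule.inner_right_of_mem_orthogonal ha (hAM.symm (hS0 hm))
    have hT0 : ⟪T0 a, m⟫ = 0 :=
      Submodule.inner_right_of_mem_orthogonal (hA a ha).1 (hAM.symm (hS0 hm))
    have hT0' : ⟪T0 m, a⟫ = 0 := by
      rw [hM m (hS0 hm), real_inner_smul_left, real_inner_comm, ham, mul_zero]
    refine block_ge ham (p := ν + g - η * C' - (ν + η * (β0 + 3 * D / 4))) (q := η * (D / 8))
      (c := η * C') ?_ (by positivity) ?_ ?_ ?_ (hcoef _ ?_)
    · linarith [(abs_le.1 hb).2, mul_pos hη0 hD0, mul_pos hη0 hC'0]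
    · have h1 := (hA a ha).2
      have h2 := (abs_le.1 (hform a a)).1
      rw [add_apply, inner_add_left]
      linarith
    · have h1 := hlo m hm
      have h2 := (abs_le.1 (hrem m)).1
      rw [add_apply, inner_add_left, hM m (hS0 hm), real_inner_smul_left,
        real_inner_self_eq_norm_sq]
      nlinarith [mul_le_mul_of_nonneg_left h1 hη0.le]
    · rw [add_apply, add_apply, inner_add_left, inner_add_left, hT0, hT0', zero_add, zero_add]
      refine (abs_add_le _ _).trans ((add_le_add (hform a m) (hform m a)).trans (le_of_eq ?_))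
      ring
    · linarith [(abs_le.1 hb).2, mul_pos hη0 hD0, mul_pos hη0 hC'0]
  · set u := M.starProjection y
    set z := y - u with hz
    have hy' := (Submodule.inf_orthogonal A S0).symm ▸ hy
    have hu : u ∈ M := Submodule.starProjection_apply_mem _ _
    have hzM : z ∈ Mᗮ := Submodule.sub_starProjection_mem_orthogonal _
    have huS : u ∈ S0ᗮ := fun s hs => by
      have h1 : ⟪s, y⟫ = 0 := hy'.2 s hs
      have h2 : ⟪s, z⟫ = 0 := hzM s (hS0 hs)
      rw [show u = y - z by rw [hz]; abel, inner_sub_right, h1, h2, sub_zero]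
    have hzA : z ∈ Aᗮ := fun a ha => by
      have h1 : ⟪a, y⟫ = 0 := hy'.1 a ha
      have h2 : ⟪a, u⟫ = 0 := Submodule.inner_right_of_mem_orthogonal ha (hAM.symm hu)
      rw [hz, inner_sub_right, h1, h2, sub_zero]
    have hzAM : z ∈ (A ⊔ M)ᗮ := by
      rw [← Submodule.inf_orthogonal]
      exact ⟨hzA, hzM⟩
    have huz : ⟪z, u⟫ = 0 := Submodule.inner_left_of_mem_orthogonal hu hzM
    have hT0' : ⟪T0 u, z⟫ = 0 := by
      rw [hM u hu, real_inner_smul_left, real_inner_comm, huz, mul_zero]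
    have hT0 : ⟪T0 z, u⟫ = 0 := by
      rw [hsymm, hM u hu, real_inner_smul_right, huz, mul_zero]
    have hneg : -(ν + η * (β0 + D / 4)) * ‖z + u‖ ^ 2 ≤ ⟪(-(T0 + E)) (z + u), z + u⟫ := by
      refine block_ge huz (p := ν + η * (β0 + D / 4) - (ν - g + η * C')) (q := η * (D / 8))
        (c := η * C') ?_ (by positivity) ?_ ?_ ?_ (hcoef _ ?_)
      · linarith [(abs_le.1 hb).1, mul_pos hη0 hD0, mul_pos hη0 hC'0]
      · have h1 := hB z hzAM
        have h2 := (abs_le.1 (hform z z)).2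
        rw [neg_apply, inner_neg_left, add_apply, inner_add_left]
        linarith
      · have h1 := hhi u ⟨hu, huS⟩
        have h2 := (abs_le.1 (hrem u)).2
        rw [neg_apply, inner_neg_left, add_apply, inner_add_left, hM u hu, real_inner_smul_left,
          real_inner_self_eq_norm_sq]
        nlinarith [mul_le_mul_of_nonneg_left h1 hη0.le]
      · rw [neg_apply, neg_apply, inner_neg_left, inner_neg_left, add_apply, add_apply,
          inner_add_left, inner_add_left, hT0, hT0', zero_add, zero_add, ← neg_add, abs_neg]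
        refine (abs_add_le _ _).trans ((add_le_add (hform z u) (hform u z)).trans (le_of_eq ?_))
        ring
      · linarith [(abs_le.1 hb).1, mul_pos hη0 hD0, mul_pos hη0 hC'0]
    rw [show z + u = y by rw [hz]; abel, neg_apply, inner_neg_left] at hneg
    linarith

/-- Top projections are continuous along families with the gap open. -/
theorem continuousOn_topProj [CompleteSpace H] {Y : Type*} [TopologicalSpace Y] {s : Set Y}
    {T : Y → H →L[ℝ] H} (hT : ContinuousOn T s) (hgood : ∀ y ∈ s, GoodOp (T y)) {j : ℕ}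
    (hgap : ∀ y ∈ s, Gap (T y) j) : ContinuousOn (fun y => topProj (T y) j) s := by
  intro y hy
  obtain ⟨δ, hδ, K, hK, hlip⟩ := exists_topProj_lipschitz (hgap y hy)
  rw [ContinuousWithinAt, tendsto_iff_norm_sub_tendsto_zero]
  have h0 := tendsto_iff_norm_sub_tendsto_zero.1 (hT y hy)
  refine squeeze_zero' (Eventually.of_forall fun z => norm_nonneg _) ?_
    (by simpa using h0.const_mul K)
  filter_upwards [h0.eventually (gt_mem_nhds hδ), self_mem_nhdsWithin] with z hz hzs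
  exact hlip _ _ (hgood z hzs) (hgood y hy) hz (by simpa using hδ)

/-- The projected explicit frame turns as the frame does. -/
theorem turnsBy_of_frame [CompleteSpace H] {j : ℕ} {T : ℝ → H →L[ℝ] H} {a b : ℝ}
    (hT : ContinuousOn T (Icc a b)) (hper : T b = T a) (hgood : ∀ t ∈ Icc a b, GoodOp (T t))
    (hgap : ∀ t ∈ Icc a b, Gap (T t) j) {e0 : ℝ → Fin j → H}
    (he0 : ContinuousOn e0 (Icc a b)) (hind : ∀ t ∈ Icc a b, LinearIndependent ℝ (e0 t))
    (hinj : ∀ t ∈ Icc a b, ∀ x ∈ Submodule.span ℝ (range (e0 t)),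
      topProj (T t) j x = 0 → x = 0)
    {C : Matrix (Fin j) (Fin j) ℝ} (hC : ∀ k, e0 b k = ∑ m, C m k • e0 a m) {sign : ℝ}
    (hsign : 0 < sign * C.det) :
    TurnsBy j (fun t => topProj (T t) j) a b sign := by
  refine ⟨fun t k => topProj (T t) j (e0 t k), ?_, fun t ht => ⟨?_, fun m => ?_⟩, C, fun k => ?_,
    hsign⟩
  · exact continuousOn_pi.2 fun k => (continuousOn_topProj hT hgood hgap).clm_apply
      (continuousOn_pi.1 he0 k)
  · rw [Fintype.linearIndependent_iff]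
    intro c hc k
    refine Fintype.linearIndependent_iff.1 (hind t ht) c (hinj t ht _ ?_ ?_) k
    · exact Submodule.sum_mem _ fun i _ =>
        Submodule.smul_mem _ _ (Submodule.subset_span (mem_range_self i))
    · rw [map_sum, ← hc]
      exact Finset.sum_congr rfl fun i _ => map_smul _ _ _
  · exact (topSpace (T t) j).starProjection_eq_self_iff.2
      ((topSpace (T t) j).starProjection_apply_mem _)
  · show topProj (T b) j (e0 b k) = ∑ m, C m k • topProj (T a) j (e0 a m)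
    rw [hper, hC k, map_sum]
    exact Finset.sum_congr rfl fun m _ => map_smul _ _ _

end

end Vale.Agent.P225.Disproof
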