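import Vale.Agent.P225.Disproof.CertZonal

/-!
# P225, module F (iii): the crossing segment lies in the admissible cone

For `0 ≤ e ≤ certE` the shape `p = 1 + e (z ^ 2 - 1 / 3)` is positive, has mean one, and satisfies
`18 / 25 p ^ 2 + Δp / 2 - p ≤ - 1 / 500` on the sphere.
-/

namespace Vale.Agent.P225.Disproof

open MvPolynomial MeasureTheory Set

noncomputable section

/-- The scalar cone inequality, `s` standing for `z ^ 2`. -/
theorem cone_scalar {e s : ℝ} (he : 0 ≤ e) (he' : e ≤ certE) (hs : 0 ≤ s) (hs' : s ≤ 1) :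
    18 / 25 * (1 + e * (s - 1 / 3)) ^ 2 + e * (1 - 3 * s) - (1 + e * (s - 1 / 3)) ≤ -(1 / 500) := by
  rw [certE] at he'
  have h0 : 18 / 25 * (1 - e / 3) ^ 2 + e + e / 3 - 1 ≤ -(1 / 500) := by nlinarith
  have h1 : 18 / 25 * (1 + 2 * e / 3) ^ 2 - 2 * e - 2 * e / 3 - 1 ≤ -(1 / 500) := by nlinarith
  nlinarith [mul_le_mul_of_nonneg_left h0 (sub_nonneg.2 hs'), mul_le_mul_of_nonneg_left h1 hs,
    mul_nonneg (mul_nonneg hs (sub_nonneg.2 hs')) (sq_nonneg e)]

theorem sum_sq_sph (θ : Sph 3) :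
    (θ : Space 3) 0 ^ 2 + (θ : Space 3) 1 ^ 2 + (θ : Space 3) 2 ^ 2 = 1 := by
  have h : ‖(θ : Space 3)‖ = 1 := by simp
  rw [EuclideanSpace.norm_eq, Real.sqrt_eq_one] at h
  simpa [Fin.sum_univ_three] using h

theorem res_certP_pos {e : ℝ} (he : 0 ≤ e) (he' : e ≤ certE) (θ : Sph 3) :
    1 / 2 ≤ res (certP e) θ := by
  rw [certE] at he'
  rw [res_certP]
  nlinarith [mul_nonneg he (sq_nonneg ((θ : Space 3) 2))]

/-- The spherical Laplacian of the shape. -/
theorem sum_rotP_certP (e : ℝ) (θ : Sph 3) :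
    ∑ j, res (rotP j (rotP j (certP e))) θ = 2 * e * (1 - 3 * (θ : Space 3) 2 ^ 2) := by
  have h := sum_sq_sph θ
  simp [certP, res, evalFun, Fin.sum_univ_three, Derivation.leibniz, map_add, map_sub,
    rotP_apply, pderiv_X, Pi.single_apply]
  linear_combination 2 * e * h

/-- The cone inequality along the segment, with margin `1 / 500`. -/
theorem cert_cone {e : ℝ} (he : 0 ≤ e) (he' : e ≤ certE) (θ : Sph 3) :
    18 / 25 * res (certP e) θ ^ 2 + (∑ j, res (rotP j (rotP j (certP e))) θ) / 2 -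
      res (certP e) θ ≤ -(1 / 500) := by
  rw [sum_rotP_certP, res_certP]
  refine le_trans (le_of_eq ?_) (cone_scalar he he' (sq_nonneg ((θ : Space 3) 2)) ?_)
  · ring
  · nlinarith [sum_sq_sph θ, sq_nonneg ((θ : Space 3) 0), sq_nonneg ((θ : Space 3) 1)]

/-- The shape has mean one. -/
theorem integral_certP (e : ℝ) :
    ∫ θ, res (certP e) θ ∂(sig 3) = ∫ _θ : Sph 3, (1 : ℝ) ∂(sig 3) := by
  have h1 := sphIp_X_mul_zonH 0 1
  have h0 : zonN 0 = ∫ _θ : Sph 3, (1 : ℝ) ∂(sig 3) := by simp [zonN, sphIp, zonH, res, evalFun]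
  have hz : ∫ θ : Sph 3, (θ : Space 3) 2 ^ 2 ∂(sig 3) = zonN 0 / 3 := by
    simp only [sphIp_zonH, zonA, zonB, Nat.cast_zero] at h1
    norm_num [zonN_eq 1] at h1
    rw [← h1]
    simp [sphIp, zonH, res, evalFun, pow_two]
  have hi : Integrable (fun θ : Sph 3 => (θ : Space 3) 2 ^ 2) (sig 3) :=
    integrable_sig (((EuclideanSpace.proj 2 : Space 3 →L[ℝ] ℝ).continuous.comp
      continuous_subtype_val).pow 2)
  simp only [res_certP, mul_sub]
  have hi2 : Integrable (fun θ : Sph 3 => e * (θ : Space 3) 2 ^ 2 - e * (1 / 3)) (sig 3) :=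
    (hi.const_mul e).sub (integrable_const _)
  rw [integral_add (integrable_const _) hi2,
    integral_sub (hi.const_mul e) (integrable_const _), integral_const_mul, hz, h0]
  simp
  ring

end

end Vale.Agent.P225.Disproof
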