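import Vale.Agent.P225.Disproof.Glue
import Mathlib.Analysis.SpecialFunctions.Pow.Real
import Mathlib.Analysis.Calculus.ContDiff.Basic
import Mathlib.Tactic.NormNum

/-!
# P225: the time schedule of the control

Half block `h` consists of `P` loop slots of length `tau h` followed by a rest of length
`kap * P * tau h`; consecutive half blocks share `tau`, and `tau` grows like the square of the
block number, so that time grows like the cube.
-/

namespace Vale.Agent.P225.Disproof

open Set Filter Topology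

noncomputable section

/-- The constants of the schedule. -/
structure Sched where
  P : ℕ
  kap : ℝ
  tau0 : ℝ
  t1 : ℝ
  hP : 0 < P
  hkap : 0 ≤ kap
  htau0 : 0 < tau0

namespace Sched

variable (C : Sched)

/-- The slot length in half block `h`. -/
def tau (h : ℕ) : ℝ := C.tau0 * (((h / 2 : ℕ) : ℝ) + 1) ^ 2

/-- The length of half block `h`. -/
def halfLen (h : ℕ) : ℝ := (1 + C.kap) * C.P * C.tau h

/-- The start of half block `h`. -/
def hstart (h : ℕ) : ℝ := C.t1 + ∑ r ∈ Finset.range h, C.halfLen r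

/-- The start of slot `n = h * P + k`. -/
def slotStart (n : ℕ) : ℝ := C.hstart (n / C.P) + ((n % C.P : ℕ) : ℝ) * C.tau (n / C.P)

/-- The length of slot `n`. -/
def slotLen (n : ℕ) : ℝ := C.tau (n / C.P)

theorem tau_pos (h : ℕ) : 0 < C.tau h := mul_pos C.htau0 (by positivity)

theorem tau0_le_tau (h : ℕ) : C.tau0 ≤ C.tau h := by
  refine le_mul_of_one_le_right C.htau0.le (one_le_pow₀ ?_)
  simp

theorem tau_mono : Monotone C.tau := fun a b hab => by
  have : ((a / 2 : ℕ) : ℝ) ≤ ((b / 2 : ℕ) : ℝ) := by exact_mod_cast Nat.div_le_div_right hab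
  exact mul_le_mul_of_nonneg_left (pow_le_pow_left₀ (by positivity) (by linarith) 2) C.htau0.le

theorem hstart_succ (h : ℕ) : C.hstart (h + 1) = C.hstart h + C.halfLen h := by
  simp [hstart, Finset.sum_range_succ, add_assoc]

theorem tau_le_halfLen (h : ℕ) : C.P * C.tau h ≤ C.halfLen h := by
  have h1 : (0 : ℝ) ≤ C.kap * (C.P * C.tau h) :=
    mul_nonneg C.hkap (mul_nonneg (by positivity) (C.tau_pos h).le)
  rw [halfLen]
  linarith

theorem hstart_mono : Monotone C.hstart := monotone_nat_of_le_succ fun h => by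
  have h1 : (0 : ℝ) ≤ C.P * C.tau h := mul_nonneg (by positivity) (C.tau_pos h).le
  linarith [C.hstart_succ h, C.tau_le_halfLen h]

theorem hstart_ge (h : ℕ) : C.t1 + h * C.tau0 ≤ C.hstart h := by
  induction h with
  | zero => simp [hstart]
  | succ h ih =>
    have h1 : C.tau0 ≤ C.P * C.tau h := by
      have hP : (1 : ℝ) ≤ C.P := by exact_mod_cast C.hP
      nlinarith [C.tau0_le_tau h, C.tau_pos h]
    push_cast
    linarith [C.hstart_succ h, C.tau_le_halfLen h]

theorem slot_end_le (n : ℕ) :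
    C.slotStart n + C.slotLen n ≤ C.hstart (n / C.P) + C.P * C.tau (n / C.P) := by
  have h : ((n % C.P : ℕ) : ℝ) + 1 ≤ C.P := by exact_mod_cast Nat.mod_lt n C.hP
  have := mul_le_mul_of_nonneg_right h (C.tau_pos (n / C.P)).le
  rw [slotStart, slotLen]
  linarith

theorem slot_next (n : ℕ) : C.slotStart n + C.slotLen n ≤ C.slotStart (n + 1) := by
  rcases eq_or_ne ((n + 1) % C.P) 0 with h | h
  · have hd : (n + 1) / C.P = n / C.P + 1 := by
      rw [Nat.succ_div, if_pos (Nat.dvd_of_mod_eq_zero h)]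
    have h2 : C.slotStart (n + 1) = C.hstart (n / C.P + 1) := by simp [slotStart, h, hd]
    linarith [C.slot_end_le n, C.tau_le_halfLen (n / C.P), C.hstart_succ (n / C.P)]
  · have hd : (n + 1) / C.P = n / C.P := by
      rw [Nat.succ_div, if_neg fun hdvd => h (Nat.mod_eq_zero_of_dvd hdvd), add_zero]
    have hm : (n + 1) % C.P = n % C.P + 1 := by
      have := Nat.div_add_mod (n + 1) C.P
      have := Nat.div_add_mod n C.P
      rw [hd] at *
      omega
    rw [slotStart, slotStart, slotLen, hd, hm]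
    push_cast
    linarith

theorem hstart_le_slotStart (n : ℕ) : C.hstart (n / C.P) ≤ C.slotStart n := by
  have : (0 : ℝ) ≤ ((n % C.P : ℕ) : ℝ) * C.tau (n / C.P) :=
    mul_nonneg (by positivity) (C.tau_pos _).le
  rw [slotStart]
  linarith

theorem slotStart_tendsto : Tendsto C.slotStart atTop atTop := by
  have h1 : Tendsto (fun n : ℕ => C.t1 + ((n / C.P : ℕ) : ℝ) * C.tau0) atTop atTop := by
    refine tendsto_atTop_add_const_left _ _ (Tendsto.atTop_mul_const C.htau0 ?_)
    exact tendsto_natCast_atTop_atTop.comp (Nat.tendsto_div_const_atTop C.hP.ne')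
  exact tendsto_atTop_mono (fun n => (C.hstart_ge _).trans (C.hstart_le_slotStart n)) h1

/-- Time in half block `h` grows at most like the cube of the block number. -/
theorem hstart_succ_le (h : ℕ) : C.hstart (h + 1) ≤
    C.t1 + 2 * ((1 + C.kap) * C.P * C.tau0) * (((h / 2 : ℕ) : ℝ) + 1) ^ 3 := by
  have hcoef : 0 ≤ (1 + C.kap) * C.P := mul_nonneg (by linarith [C.hkap]) (by positivity)
  have h1 : ∀ r ∈ Finset.range (h + 1), C.halfLen r ≤ C.halfLen h := fun r hr =>
    mul_le_mul_of_nonneg_left (C.tau_mono (Nat.lt_succ_iff.1 (Finset.mem_range.1 hr))) hcoef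
  have h2 := Finset.sum_le_card_nsmul _ _ _ h1
  rw [Finset.card_range, nsmul_eq_mul] at h2
  have h3 : ((h + 1 : ℕ) : ℝ) ≤ 2 * (((h / 2 : ℕ) : ℝ) + 1) := by
    have : h + 1 ≤ 2 * (h / 2 + 1) := by omega
    exact_mod_cast this
  have h4 := mul_le_mul_of_nonneg_right h3
    (mul_nonneg hcoef (C.tau_pos h).le : 0 ≤ C.halfLen h)
  rw [hstart]
  refine le_trans (add_le_add_right (h2.trans h4) C.t1) (le_of_eq ?_)
  simp only [tau]
  ring

/-- The decay profile of the budget: `q t` dominates `1 / tau h ^ 2` throughout half block `h`. -/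
theorem inv_tau_sq_le (h : ℕ) {t : ℝ} (ht0 : C.t1 ≤ t) (ht : t ≤ C.hstart (h + 1)) :
    1 / C.tau h ^ 2 ≤ 9 / C.tau0 ^ 2 *
      (1 + (t - C.t1) / ((1 + C.kap) * C.P * C.tau0)) ^ (-(4 : ℝ) / 3) := by
  set i : ℝ := ((h / 2 : ℕ) : ℝ) + 1 with hi
  have hi1 : 1 ≤ i := by simp [hi]
  set u : ℝ := (1 + C.kap) * C.P * C.tau0
  have hu : 0 < u := mul_pos (mul_pos (by linarith [C.hkap]) (by exact_mod_cast C.hP)) C.htau0
  set y : ℝ := 1 + (t - C.t1) / u
  have hy1 : 1 ≤ y := by
    have : 0 ≤ (t - C.t1) / u := div_nonneg (by linarith) hu.le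
    linarith
  have hy : y ≤ 3 * i ^ 3 := by
    have h1 : t - C.t1 ≤ 2 * u * i ^ 3 := by linarith [C.hstart_succ_le h]
    have h2 : (t - C.t1) / u ≤ 2 * i ^ 3 := by rw [div_le_iff₀ hu]; linarith
    have h3 : 1 ≤ i ^ 3 := one_le_pow₀ hi1
    linarith
  have h1 : y ^ ((4 : ℝ) / 3) ≤ 9 * i ^ 4 := by
    refine (Real.rpow_le_rpow (by linarith) hy (by norm_num)).trans ?_
    rw [Real.mul_rpow (by norm_num) (by positivity), ← Real.rpow_natCast i 3,
      ← Real.rpow_mul (by linarith), show ((3 : ℕ) : ℝ) * (4 / 3) = ((4 : ℕ) : ℝ) by norm_num,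
      Real.rpow_natCast]
    refine mul_le_mul_of_nonneg_right ?_ (by positivity)
    calc (3 : ℝ) ^ ((4 : ℝ) / 3) ≤ (3 : ℝ) ^ ((2 : ℕ) : ℝ) :=
          Real.rpow_le_rpow_of_exponent_le (by norm_num) (by norm_num)
      _ = 9 := by rw [Real.rpow_natCast]; norm_num
  rw [neg_div, Real.rpow_neg (by linarith)]
  have h2 : 0 < y ^ ((4 : ℝ) / 3) := Real.rpow_pos_of_pos (by linarith) _
  rw [tau, ← hi, div_mul_eq_mul_div, div_le_div_iff₀ (by positivity [C.htau0]) (by positivity [C.htau0])]
  field_simp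
  nlinarith [h1, pow_pos C.htau0 2]

end Sched

/-- A family of loops: slot `k`, parameter `s`, normalised time `x`; equal to `0` (the deviation
from the rest point) unless `x` lies in `[1/4, 1/2]`. -/
structure LoopFam (X : Type*) [NormedAddCommGroup X] [NormedSpace ℝ X] (P : ℕ) where
  path : Fin P → ℝ → ℝ → X
  smooth : ∀ k, ContDiff ℝ (⊤ : ℕ∞) fun p : ℝ × ℝ => path k p.1 p.2
  supp : ∀ k s x, x ∉ Icc (1 / 4 : ℝ) (1 / 2) → path k s x = 0

variable {X : Type*} [NormedAddCommGroup X] [NormedSpace ℝ X]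

/-- The slots of the control with parameters `s n` for slot `n`. -/
def Sched.slots (C : Sched) (L : LoopFam X C.P) (s : ℕ → ℝ) : Slots X where
  start := C.slotStart
  len := C.slotLen
  dev n t := L.path ⟨n % C.P, Nat.mod_lt n C.hP⟩ (s n) ((t - C.slotStart n) / C.slotLen n)
  len_pos n := C.tau_pos _
  next := C.slot_next
  tendsto := C.slotStart_tendsto
  supp n t ht := L.supp _ _ _ fun hx => ht <| by
    have hl : 0 < C.slotLen n := C.tau_pos _
    obtain ⟨h1, h2⟩ := hx
    rw [le_div_iff₀ hl] at h1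
    rw [div_le_iff₀ hl] at h2
    constructor <;> linarith

/-- The curve of shapes. -/
def Sched.shape (C : Sched) (L : LoopFam X C.P) (p0 : X) (s : ℕ → ℝ) (t : ℝ) : X :=
  p0 + (C.slots L s).total t

theorem Sched.contDiff_shape (C : Sched) (L : LoopFam X C.P) (p0 : X) (s : ℕ → ℝ) :
    ContDiff ℝ (⊤ : ℕ∞) (C.shape L p0 s) := by
  refine contDiff_const.add ((C.slots L s).contDiff_total fun n => ?_)
  exact (L.smooth _).comp (contDiff_const.prodMk ((contDiff_id.sub contDiff_const).div_const _))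

/-- Before `t1` the shape rests. -/
theorem Sched.shape_before (C : Sched) (L : LoopFam X C.P) (p0 : X) (s : ℕ → ℝ) {t : ℝ}
    (ht : t ≤ C.t1) : C.shape L p0 s t = p0 := by
  rw [shape, (C.slots L s).total_zero_before (le_trans ht ?_), add_zero]
  simp [slots, slotStart, hstart]


/-- Inside a slot the shape is the loop of that slot. -/
theorem Sched.shape_slot (C : Sched) (L : LoopFam X C.P) (p0 : X) (s : ℕ → ℝ) (n : ℕ) {t : ℝ}
    (ht : t ∈ Ioo (C.slotStart n) (C.slotStart n + C.slotLen n)) :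
    C.shape L p0 s t = p0 +
      L.path ⟨n % C.P, Nat.mod_lt n C.hP⟩ (s n) ((t - C.slotStart n) / C.slotLen n) :=
  congrArg (fun y => p0 + y) ((C.slots L s).total_eq_dev ht)

/-- Outside the slots the shape rests; in particular on every rest. -/
theorem Sched.shape_rest (C : Sched) (L : LoopFam X C.P) (p0 : X) (s : ℕ → ℝ) (h : ℕ) {t : ℝ}
    (ht : t ∈ Icc (C.hstart h + C.P * C.tau h) (C.hstart (h + 1))) :
    C.shape L p0 s t = p0 := by
  rw [Sched.shape, (C.slots L s).total_eq_zero fun n hn => ?_, add_zero]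
  rcases le_or_gt (n / C.P) h with hle | hlt
  · rcases hle.eq_or_lt with heq | hlt
    · have := C.slot_end_le n
      rw [heq] at this
      linarith [hn.2, ht.1, (C.slots L s).len_pos n, show (C.slots L s).start n = C.slotStart n from
        rfl, show (C.slots L s).len n = C.slotLen n from rfl]
    · linarith [hn.2, ht.1, C.slot_end_le n, C.tau_le_halfLen (n / C.P),
        C.hstart_succ (n / C.P), C.hstart_mono (show n / C.P + 1 ≤ h from hlt),
        (C.slots L s).len_pos n, C.tau_pos h, mul_nonneg (Nat.cast_nonneg C.P) (C.tau_pos h).le,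
        show (C.slots L s).start n = C.slotStart n from rfl,
        show (C.slots L s).len n = C.slotLen n from rfl]
  · linarith [hn.1, ht.2, C.hstart_le_slotStart n,
      C.hstart_mono (show h + 1 ≤ n / C.P from hlt), (C.slots L s).len_pos n,
      show (C.slots L s).start n = C.slotStart n from rfl,
      show (C.slots L s).len n = C.slotLen n from rfl]

/-- The derivatives of the shape: of size `B / tau ^ m` in the current half block. -/
theorem Sched.shape_deriv_bound (C : Sched) (L : LoopFam X C.P) (p0 : X) (s : ℕ → ℝ) {m : ℕ}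
    (hm : 1 ≤ m) {B : ℝ} (hB : 0 ≤ B)
    (hL : ∀ k n x, ‖iteratedDeriv m (L.path k (s n)) x‖ ≤ B) (h : ℕ) {t : ℝ}
    (ht : t ∈ Icc (C.hstart h) (C.hstart (h + 1))) :
    ‖iteratedDeriv m (C.shape L p0 s) t‖ ≤ B / C.tau h ^ m := by
  have e : iteratedDeriv m (C.shape L p0 s) t = iteratedDeriv m (C.slots L s).total t :=
    iteratedDeriv_const_add (by omega) p0
  rw [e]
  rcases (C.slots L s).total_cases t with ⟨n, hn, heq⟩ | heq
  · have hnh : n / C.P = h := by
      have h1 : C.slotStart n < t := hn.1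
      have h2 : t < C.slotStart n + C.slotLen n := hn.2
      rcases lt_trichotomy (n / C.P) h with hlt | heq | hlt
      · linarith [ht.1, C.slot_end_le n, C.tau_le_halfLen (n / C.P), C.hstart_succ (n / C.P),
          C.hstart_mono (show n / C.P + 1 ≤ h from hlt)]
      · exact heq
      · linarith [ht.2, C.hstart_le_slotStart n, C.hstart_mono (show h + 1 ≤ n / C.P from hlt)]
    have htau := C.tau_pos h
    set f := L.path ⟨n % C.P, Nat.mod_lt n C.hP⟩ (s n) with hf
    have hfs : ContDiff ℝ m f :=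
      ((L.smooth _).comp (contDiff_const.prodMk contDiff_id)).of_le (by exact_mod_cast le_top)
    have e2 : (C.slots L s).dev n = fun x => f ((C.tau h)⁻¹ * (x - C.slotStart n)) := by
      funext x
      simp [Sched.slots, Sched.slotLen, hnh, hf, div_eq_inv_mul]
    rw [heq.iteratedDeriv_eq m, e2,
      congrFun (iteratedDeriv_comp_sub_const m (fun x => f ((C.tau h)⁻¹ * x)) (C.slotStart n)) t]
    rw [congrFun (iteratedDeriv_comp_const_smul hfs (C.tau h)⁻¹) (t - C.slotStart n), norm_smul]
    rw [Real.norm_eq_abs, abs_of_nonneg (pow_nonneg (inv_nonneg.2 htau.le) m), inv_pow,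
      ← div_eq_inv_mul]
    exact div_le_div_of_nonneg_right (hL _ n _) (pow_nonneg htau.le m)
  · rw [heq.iteratedDeriv_eq m]
    have : 0 ≤ B / C.tau h ^ m := div_nonneg hB (pow_nonneg (C.tau_pos h).le m)
    simpa [iteratedDeriv_const] using this

end

end Vale.Agent.P225.Disproof
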