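import Vale.Agent.P225.Disproof.LoopSpec
import Vale.Agent.P225.Disproof.Schedule
import Vale.Agent.P225.Disproof.Mix.Reversal

/-!
# P225: the loop family of the reversal word

Levels count the constants, so level `l` of the flags is gap `l - 1` of the pencil: the bottom
block has dimension `225`, the slow plane `730`, and the loops run over the gaps `225 .. 728`.
-/

namespace Vale.Agent.P225.Disproof

open Set

noncomputable section

/-- The dimension of the bottom block, constants included. -/
def botDim : ℕ := 225

/-- The dimension of the slow plane, constants included. -/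
def slowDim : ℕ := 730

/-- The number of slots of the window. -/
def winDim : ℕ := slowDim - botDim

/-- The number of loops of a half block. -/
def wordLen : ℕ := Mix.loops winDim

theorem botDim_add_winDim : botDim + winDim = slowDim := by
  simp [botDim, slowDim, winDim]

theorem wordLen_pos : 0 < wordLen := by
  have h : winDim = 504 + 1 := rfl
  rw [wordLen, h, Mix.loops]
  omega

/-- The level of the `i`-th loop. -/
def wordLev (i : ℕ) : ℕ := Mix.passLoop botDim winDim i

/-- The pencil gap of the `i`-th loop. -/
def wordGap (i : ℕ) : ℕ := wordLev i - 1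

theorem wordLev_mem {i : ℕ} (hi : i < wordLen) : botDim < wordLev i ∧ wordLev i < slowDim := by
  have h := Mix.passLoop_mem botDim (m := winDim) hi
  rwa [botDim_add_winDim] at h

theorem wordGap_mem {i : ℕ} (hi : i < wordLen) : wordGap i ∈ Icc 225 728 := by
  have h := wordLev_mem hi
  simp only [botDim, slowDim] at h
  exact ⟨by simp only [wordGap]; omega, by simp only [wordGap]; omega⟩

theorem wordGap_add_one {i : ℕ} (hi : i < wordLen) : wordGap i + 1 = wordLev i := by
  have h := (wordLev_mem hi).1
  simp only [wordGap]
  omega

variable {X : Type*} [NormedAddCommGroup X] [NormedSpace ℝ X]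
variable {H : Type*} [NormedAddCommGroup H] [InnerProductSpace ℝ H]
variable {O : Set X} {isOpenGap : ℕ → X → Prop} {proj : ℕ → X → H →L[ℝ] H} {p0 : X}

/-- The loops of a half block. -/
def wordFam (L : ∀ j, j ∈ Icc 225 728 → LoopAt O isOpenGap proj 224 729 j p0) :
    LoopFam X wordLen where
  path k := (L (wordGap k) (wordGap_mem k.2)).path
  smooth k := (L (wordGap k) (wordGap_mem k.2)).smooth
  supp k := (L (wordGap k) (wordGap_mem k.2)).supp

/-- Along a loop every shape is admissible and every other gap of the window is open. -/
theorem wordFam_spec (L : ∀ j, j ∈ Icc 225 728 → LoopAt O isOpenGap proj 224 729 j p0)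
    (k : Fin wordLen) {s : ℝ} (hs : s ∈ Icc (0 : ℝ) 1) (x : ℝ) :
    p0 + (wordFam L).path k s x ∈ O ∧
      (∀ l ∈ Icc 224 729, l ≠ wordGap k → isOpenGap l (p0 + (wordFam L).path k s x)) ∧
      (s = 0 ∨ s = 1 → isOpenGap (wordGap k) (p0 + (wordFam L).path k s x)) :=
  ⟨(L _ (wordGap_mem k.2)).mem s hs x, fun l => (L _ (wordGap_mem k.2)).others s hs x l,
    fun h => (L _ (wordGap_mem k.2)).face s h x⟩

end

end Vale.Agent.P225.Disproof
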