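import Mathlib

/-!
P225 disproof, module E: avoiding thin sets by cones, and orientations transported along cones.

A set is `k`-thin if near each of its points it lies in the zero set of `k` strictly differentiable
functions with independent derivatives. It is then a countable union of Lipschitz images of pieces
of `(D - k)`-dimensional spaces, so a cone over a curve with a generic apex misses a 3-thin set and
two segments through a generic point miss a 2-thin one.
-/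

open Set Filter Topology Module
open scoped NNReal

namespace Vale.Agent.P225.Disproof.Avoid

variable {X : Type*} [NormedAddCommGroup X] [NormedSpace ℝ X]

/-- Near each of its points the set lies in the zero set of `k` functions with onto strict
derivative. -/
def Thin (k : ℕ) (A : Set X) : Prop :=
  ∀ x ∈ A, ∃ U ∈ 𝓝 x, ∃ (F : X → Fin k → ℝ) (F' : X →L[ℝ] (Fin k → ℝ)),
    F x = 0 ∧ HasStrictFDerivAt F F' x ∧ Function.Surjective F' ∧ ∀ y ∈ A ∩ U, F y = 0

theorem Thin.mono {k : ℕ} {A B : Set X} (h : Thin k B) (hAB : A ⊆ B) : Thin k A := fun x hx => by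
  obtain ⟨U, hU, F, F', h0, hd, hs, hz⟩ := h x (hAB hx)
  exact ⟨U, hU, F, F', h0, hd, hs, fun y hy => hz y ⟨hAB hy.1, hy.2⟩⟩

theorem Thin.of_le {k k' : ℕ} {A : Set X} (h : Thin k A) (hk : k' ≤ k) : Thin k' A := fun x hx => by
  obtain ⟨U, hU, F, F', h0, hd, hs, hz⟩ := h x hx
  let π : (Fin k → ℝ) →L[ℝ] (Fin k' → ℝ) :=
    ContinuousLinearMap.pi fun i => ContinuousLinearMap.proj (Fin.castLE hk i)
  refine ⟨U, hU, π ∘ F, π.comp F', ?_, π.hasStrictFDerivAt.comp x hd, ?_, fun y hy => ?_⟩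
  · simp [h0]
  · refine Function.Surjective.comp (g := π) (fun v => ?_) hs
    refine ⟨fun i => if h : i.val < k' then v ⟨i.val, h⟩ else 0, funext fun i => ?_⟩
    simp [π]
  · simp [hz y hy]

section dim

variable [FiniteDimensional ℝ X]

/-- Near a point of a thin set a linear projection to a space of dimension `finrank X - k` has a
Lipschitz inverse on the set. -/
theorem Thin.exists_chart {k : ℕ} {A : Set X} (h : Thin k A) {x : X} (hx : x ∈ A) :
    ∃ (K : Submodule ℝ X) (P : X →L[ℝ] K) (U : Set X) (c : ℝ), finrank ℝ K + k = finrank ℝ X ∧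
      IsOpen U ∧ x ∈ U ∧ 0 ≤ c ∧
      ∀ y ∈ A ∩ U, ∀ z ∈ A ∩ U, ‖y - z‖ ≤ c * ‖P y - P z‖ := by
  obtain ⟨U, hU, F, F', -, hd, hs, hz⟩ := h x hx
  set K : Submodule ℝ X := LinearMap.ker (F' : X →ₗ[ℝ] (Fin k → ℝ)) with hK
  obtain ⟨Q, hQ⟩ := Submodule.exists_isCompl K
  let P : X →L[ℝ] K := (Submodule.projectionOnto K Q hQ).toContinuousLinearMap
  have hinj : LinearMap.ker ((F'.prod P).toLinearMap) = ⊥ := by
    rw [LinearMap.ker_eq_bot']
    intro v hv
    have h1 : F' v = 0 := congrArg Prod.fst hv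
    have h2 : P v = 0 := congrArg Prod.snd hv
    have hvK : v ∈ K := h1
    have := Submodule.projectionOnto_apply_left hQ ⟨v, hvK⟩
    simpa using congrArg Subtype.val (this.symm.trans h2)
  obtain ⟨c, hc0, hc⟩ := LinearMap.exists_antilipschitzWith _ hinj
  have hc' : ∀ v : X, ‖v‖ ≤ c * max ‖F' v‖ ‖P v‖ := fun v => by
    have := hc.le_mul_norm (map_zero _) v
    simpa [Prod.norm_def] using this
  set ε : ℝ≥0 := (2 * c)⁻¹ with hε
  obtain ⟨W, hW, happ⟩ := hd.approximates_deriv_on_nhds (c := ε) (Or.inr (by positivity))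
  obtain ⟨V, hV, hVo, hxV⟩ := mem_nhds_iff.1 (inter_mem hU hW)
  refine ⟨K, P, V, 2 * c, ?_, hVo, hxV, by positivity, fun y hy z hz' => ?_⟩
  · have := LinearMap.finrank_range_add_finrank_ker (F' : X →ₗ[ℝ] (Fin k → ℝ))
    rw [LinearMap.range_eq_top.2 hs, finrank_top, finrank_fin_fun] at this
    rw [← this, add_comm]
  have h1 : ‖F' (y - z)‖ ≤ ε * ‖y - z‖ := by
    have h' := happ y (hV hy.2).2 z (hV hz'.2).2
    rwa [hz y ⟨hy.1, (hV hy.2).1⟩, hz z ⟨hz'.1, (hV hz'.2).1⟩, sub_zero, zero_sub, norm_neg] at h'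
  have h2 := hc' (y - z)
  rw [map_sub P] at h2
  have hcε : (c : ℝ) * ε ≤ 1 / 2 := by
    rw [hε]
    push_cast
    rw [mul_inv, ← mul_assoc, mul_comm (c : ℝ) 2⁻¹, mul_assoc]
    have : (c : ℝ) * (c : ℝ)⁻¹ ≤ 1 := mul_inv_le_one
    nlinarith
  rcases max_choice ‖F' (y - z)‖ ‖P y - P z‖ with hm | hm <;> rw [hm] at h2
  · have : (c : ℝ) * ‖F' (y - z)‖ ≤ 1 / 2 * ‖y - z‖ :=
      (mul_le_mul_of_nonneg_left h1 c.coe_nonneg).trans
        (by rw [← mul_assoc]; exact mul_le_mul_of_nonneg_right hcε (norm_nonneg _))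
    have h0 : ‖y - z‖ = 0 := le_antisymm (by linarith) (norm_nonneg _)
    rw [h0]
    positivity
  · have : 0 ≤ (c : ℝ) * ‖P y - P z‖ := by positivity
    linarith

variable {Y Z : Type*} [NormedAddCommGroup Y] [NormedSpace ℝ Y] [FiniteDimensional ℝ Y]
  [NormedAddCommGroup Z] [NormedSpace ℝ Z]

omit [NormedSpace ℝ Z] in
/-- Dimension of the image of a thin set with parameters. -/
theorem dimH_image_thin {k : ℕ} {A : Set X} (hA : Thin k A) {W : Set (X × Y)}
    (hW : ∀ w ∈ W, w.1 ∈ A) {G : X × Y → Z}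
    (hG : ∀ w ∈ W, ∃ C : ℝ≥0, ∃ t ∈ 𝓝[W] w, LipschitzOnWith C G t) :
    dimH (G '' W) ≤ ((finrank ℝ X + finrank ℝ Y - k : ℕ) : ENNReal) := by
  choose! K P U c hfr hUo hxU hc hchart using fun x (hx : x ∈ A) => hA.exists_chart hx
  obtain ⟨s, hsA, hsc, hcov⟩ := TopologicalSpace.countable_cover_nhdsWithin (s := A) (f := U)
    fun x hx => mem_nhdsWithin_of_mem_nhds ((hUo x hx).mem_nhds (hxU x hx))
  have : Countable s := hsc.to_subtype
  have hsub : W ⊆ ⋃ x : s, W ∩ Prod.fst ⁻¹' U x := fun w hw => by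
    obtain ⟨x, hx, hwx⟩ := mem_iUnion₂.1 (hcov (hW w hw))
    exact mem_iUnion.2 ⟨⟨x, hx⟩, hw, hwx⟩
  refine (dimH_image_le_of_locally_lipschitzOn hG).trans ((dimH_mono hsub).trans ?_)
  rw [dimH_iUnion]
  refine iSup_le fun x => ?_
  obtain ⟨x, hx⟩ := x
  have hxA := hsA hx
  set piece := W ∩ Prod.fst ⁻¹' U x
  let π : X × Y → K x × Y := fun w => (P x w.1, w.2)
  have hanti : ∀ w ∈ piece, ∀ w' ∈ piece, dist w w' ≤ max (c x) 1 * dist (π w) (π w') := by
    intro w hw w' hw'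
    rw [Prod.dist_eq, Prod.dist_eq]
    refine max_le ?_ ?_
    · rw [dist_eq_norm]
      refine (hchart x hxA w.1 ⟨hW w hw.1, hw.2⟩ w'.1 ⟨hW w' hw'.1, hw'.2⟩).trans ?_
      refine mul_le_mul (le_max_left _ _) ?_ (norm_nonneg _) (zero_le_one.trans (le_max_right _ _))
      exact (dist_eq_norm (P x w.1) (P x w'.1)).ge.trans (le_max_left _ _)
    · refine (le_max_right (dist (P x w.1) (P x w'.1)) (dist w.2 w'.2)).trans ?_
      exact le_mul_of_one_le_left (le_max_of_le_left dist_nonneg) (le_max_right _ _)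
  have hinj : InjOn π piece := fun w hw w' hw' he => by
    have := hanti w hw w' hw'
    rw [he, dist_self, mul_zero] at this
    exact dist_le_zero.1 this
  let inv := Function.invFunOn π piece
  have hinv : LipschitzOnWith (max (c x) 1).toNNReal inv (π '' piece) := by
    rw [lipschitzOnWith_iff_dist_le_mul]
    rintro _ ⟨w, hw, rfl⟩ _ ⟨w', hw', rfl⟩
    rw [Real.coe_toNNReal _ (zero_le_one.trans (le_max_right _ _))]
    show dist (Function.invFunOn π piece (π w)) (Function.invFunOn π piece (π w')) ≤ _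
    rw [hinj.leftInvOn_invFunOn hw, hinj.leftInvOn_invFunOn hw']
    exact hanti w hw w' hw'
  calc dimH piece ≤ dimH (inv '' (π '' piece)) := dimH_mono fun w hw =>
        ⟨π w, mem_image_of_mem π hw, hinj.leftInvOn_invFunOn hw⟩
    _ ≤ dimH (π '' piece) := hinv.dimH_image_le
    _ ≤ dimH (univ : Set (K x × Y)) := dimH_mono (subset_univ _)
    _ = (finrank ℝ (K x × Y) : ENNReal) := Real.dimH_univ_eq_finrank _
    _ ≤ _ := by
      refine Nat.cast_le.2 ?_
      rw [finrank_prod]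
      have := hfr x hxA
      omega

/-- The points `w` with `(1 - t) • w + t • γ s ∈ A` for some `t < 1`. -/
def badApex (A : Set X) (γ : ℝ → X) : Set X :=
  {w | ∃ t ∈ Ico (0 : ℝ) 1, ∃ s ∈ Icc (0 : ℝ) 1, (1 - t) • w + t • γ s ∈ A}

/-- A C¹ curve makes few bad apices. -/
theorem dimH_badApex {k : ℕ} {A : Set X} (hA : Thin k A) {γ : ℝ → X} (hγ : ContDiff ℝ 1 γ) :
    dimH (badApex A γ) ≤ ((finrank ℝ X + 2 - k : ℕ) : ENNReal) := by
  let G : X × (ℝ × ℝ) → X := fun w => (1 - w.2.1)⁻¹ • (w.1 - w.2.1 • γ w.2.2)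
  let W : Set (X × (ℝ × ℝ)) := {w | w.1 ∈ A ∧ w.2.1 < 1}
  have hG : ∀ w ∈ W, ∃ C : ℝ≥0, ∃ t ∈ 𝓝[W] w, LipschitzOnWith C G t := fun w hw => by
    have hne : (1 : ℝ) - w.2.1 ≠ 0 := (sub_pos.2 hw.2).ne'
    have hd : ContDiffAt ℝ 1 G w := by
      apply ContDiffAt.smul
      · exact ((contDiffAt_const.sub (contDiffAt_fst.comp w contDiffAt_snd)).inv hne)
      · exact contDiffAt_fst.sub ((contDiffAt_fst.comp w contDiffAt_snd).smul
          (hγ.contDiffAt.comp w (contDiffAt_snd.comp w contDiffAt_snd)))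
    obtain ⟨C, t, ht, hL⟩ := hd.exists_lipschitzOnWith
    exact ⟨C, t, mem_nhdsWithin_of_mem_nhds ht, hL⟩
  refine (dimH_mono ?_).trans ((dimH_image_thin hA (fun w hw => hw.1) hG).trans_eq ?_)
  · rintro v ⟨t, ht, s, -, hv⟩
    refine ⟨((1 - t) • v + t • γ s, (t, s)), ⟨hv, ht.2⟩, ?_⟩
    show (1 - t)⁻¹ • ((1 - t) • v + t • γ s - t • γ s) = v
    rw [add_sub_cancel_right, inv_smul_smul₀ (sub_pos.2 ht.2).ne']
  · simp [finrank_prod]

/-- The points whose segment to `p` meets `A` before `p`. -/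
theorem dimH_badPoint {k : ℕ} {A : Set X} (hA : Thin k A) (p : X) :
    dimH (badApex A fun _ => p) ≤ ((finrank ℝ X + 1 - k : ℕ) : ENNReal) := by
  let G : X × ℝ → X := fun w => (1 - w.2)⁻¹ • (w.1 - w.2 • p)
  let W : Set (X × ℝ) := {w | w.1 ∈ A ∧ w.2 < 1}
  have hG : ∀ w ∈ W, ∃ C : ℝ≥0, ∃ t ∈ 𝓝[W] w, LipschitzOnWith C G t := fun w hw => by
    have hne : (1 : ℝ) - w.2 ≠ 0 := (sub_pos.2 hw.2).ne'
    have hd : ContDiffAt ℝ 1 G w := by
      apply ContDiffAt.smul
      · exact (contDiffAt_const.sub contDiffAt_snd).inv hne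
      · exact contDiffAt_fst.sub (contDiffAt_snd.smul contDiffAt_const)
    obtain ⟨C, t, ht, hL⟩ := hd.exists_lipschitzOnWith
    exact ⟨C, t, mem_nhdsWithin_of_mem_nhds ht, hL⟩
  refine (dimH_mono ?_).trans ((dimH_image_thin hA (fun w hw => hw.1) hG).trans_eq ?_)
  · rintro v ⟨t, ht, s, -, hv⟩
    refine ⟨((1 - t) • v + t • p, t), ⟨hv, ht.2⟩, ?_⟩
    show (1 - t)⁻¹ • ((1 - t) • v + t • p - t • p) = v
    rw [add_sub_cancel_right, inv_smul_smul₀ (sub_pos.2 ht.2).ne']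
  · simp

theorem Thin.le_finrank {k : ℕ} {A : Set X} (hA : Thin k A) (hne : A.Nonempty) :
    k ≤ finrank ℝ X := by
  obtain ⟨x, hx⟩ := hne
  obtain ⟨K, -, -, -, h, -⟩ := hA.exists_chart hx
  omega

variable {ι : Type*} [Countable ι]

/-- Countably many small bad sets leave a dense set of good apices. -/
theorem dense_good {A : ι → Set X} {γ : ι → ℝ → X} {m : ℕ} (hm : 0 < m) (h3 : ∀ i, Thin m (A i))
    (h : ∀ i, dimH (badApex (A i) (γ i)) ≤ ((finrank ℝ X + (m - 1) - m : ℕ) : ENNReal)) :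
    Dense (⋃ i, badApex (A i) (γ i))ᶜ := by
  rcases Nat.eq_zero_or_pos (finrank ℝ X) with h0 | hpos
  · have hempty : ∀ i, A i = ∅ := fun i => Set.not_nonempty_iff_eq_empty.1 fun hne => by
      have := (h3 i).le_finrank hne
      omega
    have : (⋃ i, badApex (A i) (γ i)) = ∅ := by simp [badApex, hempty]
    rw [this, compl_empty]
    exact dense_univ
  refine dense_compl_of_dimH_lt_finrank ?_
  rw [dimH_iUnion]
  refine lt_of_le_of_lt (iSup_le h) (Nat.cast_lt.2 ?_)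
  omega

/-- Generic apices of cones over a C¹ curve miss countably many 3-thin sets. -/
theorem dense_apex {A : ι → Set X} (hA : ∀ i, Thin 3 (A i)) {γ : ℝ → X} (hγ : ContDiff ℝ 1 γ) :
    Dense {v : X | ∀ i, ∀ t ∈ Ico (0 : ℝ) 1, ∀ s ∈ Icc (0 : ℝ) 1,
      (1 - t) • v + t • γ s ∉ A i} := by
  refine (dense_good (γ := fun _ => γ) three_pos hA fun i => dimH_badApex (hA i) hγ).mono ?_
  intro v hv i t ht s hs hm
  exact hv (mem_iUnion.2 ⟨i, t, ht, s, hs, hm⟩)

/-- An apex in a convex open set near any of its points, with the cone in the set and off `A`. -/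
theorem exists_apex {A : ι → Set X} (hA : ∀ i, Thin 3 (A i)) {γ : ℝ → X} (hγ : ContDiff ℝ 1 γ)
    {O V : Set X} (hO : Convex ℝ O) (hγO : ∀ s ∈ Icc (0 : ℝ) 1, γ s ∈ O) (hV : IsOpen V)
    (hVO : V ⊆ O) (hne : V.Nonempty) :
    ∃ v ∈ V, ∀ t ∈ Ico (0 : ℝ) 1, ∀ s ∈ Icc (0 : ℝ) 1,
      (1 - t) • v + t • γ s ∈ O ∧ ∀ i, (1 - t) • v + t • γ s ∉ A i := by
  obtain ⟨v, hvV, hv⟩ := (dense_apex hA hγ).inter_open_nonempty V hV hne
  exact ⟨v, hvV, fun t ht s hs =>
    ⟨hO (hVO hvV) (hγO s hs) (sub_nonneg.2 ht.2.le) ht.1 (sub_add_cancel _ _),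
      fun i => hv i t ht s hs⟩⟩

/-- Two points of a convex open set off 2-thin sets are joined by two segments off them. -/
theorem exists_two_segments {A : ι → Set X} (hA : ∀ i, Thin 2 (A i)) {O : Set X}
    (hO : Convex ℝ O) (hOo : IsOpen O) {p q : X} (hp : p ∈ O) (hq : q ∈ O)
    (hpA : ∀ i, p ∉ A i) (hqA : ∀ i, q ∉ A i) :
    ∃ v ∈ O, segment ℝ v p ⊆ O \ ⋃ i, A i ∧ segment ℝ v q ⊆ O \ ⋃ i, A i := by
  have hd := dense_good (ι := ι × Bool) (A := fun i => A i.1)
    (γ := fun i _ => if i.2 then p else q) two_pos (fun i => hA i.1)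
    fun i => dimH_badPoint (hA i.1) _
  obtain ⟨v, hvO, hv⟩ := hd.inter_open_nonempty O hOo ⟨p, hp⟩
  refine ⟨v, hvO, ?_, ?_⟩ <;>
  · rintro z ⟨a, b, ha, hb, hab, rfl⟩
    have e : a = 1 - b := by linarith
    subst e
    refine ⟨hO hvO (by assumption) ha hb hab, fun hmem => ?_⟩
    obtain ⟨i, hi⟩ := mem_iUnion.1 hmem
    rcases eq_or_lt_of_le (show b ≤ 1 by linarith) with rfl | hb1
    · simp only [sub_self, zero_smul, zero_add, one_smul] at hi
      first | exact hpA i hi | exact hqA i hi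
    · first
      | exact hv (mem_iUnion.2 ⟨(i, true), b, ⟨hb, hb1⟩, 0, ⟨le_rfl, zero_le_one⟩, by simpa using hi⟩)
      | exact hv (mem_iUnion.2 ⟨(i, false), b, ⟨hb, hb1⟩, 0, ⟨le_rfl, zero_le_one⟩, by simpa using hi⟩)

/-- The same as paths. -/
theorem joinedIn_off {A : ι → Set X} (hA : ∀ i, Thin 2 (A i)) {O : Set X}
    (hO : Convex ℝ O) (hOo : IsOpen O) {p q : X} (hp : p ∈ O) (hq : q ∈ O)
    (hpA : ∀ i, p ∉ A i) (hqA : ∀ i, q ∉ A i) : JoinedIn (O \ ⋃ i, A i) p q := by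
  obtain ⟨v, -, h1, h2⟩ := exists_two_segments hA hO hOo hp hq hpA hqA
  exact (JoinedIn.of_segment_subset h1).symm.trans (JoinedIn.of_segment_subset h2)

end dim

/-! ### Orientation along a cone -/

section transport

variable {H : Type*} [NormedAddCommGroup H] [InnerProductSpace ℝ H] {j : ℕ}

/-- Projections `P(t,s)` on `j`-dimensional spaces, constant at the apex `t = 0`, the same for
`s = 0` and `s = 1`: a continuous frame of the ranges along the boundary returns with the same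
orientation. -/
theorem orientation_transport (P : ℝ → ℝ → H →L[ℝ] H)
    (hP : ContinuousOn (fun z : ℝ × ℝ => P z.1 z.2) (Icc 0 1 ×ˢ Icc 0 1))
    (hidem : ∀ t ∈ Icc (0 : ℝ) 1, ∀ s ∈ Icc (0 : ℝ) 1, ∀ v, P t s (P t s v) = P t s v)
    (hrank : ∀ t ∈ Icc (0 : ℝ) 1, ∀ s ∈ Icc (0 : ℝ) 1,
      finrank ℝ (LinearMap.range (P t s : H →ₗ[ℝ] H)) = j)
    (h0 : ∀ s ∈ Icc (0 : ℝ) 1, P 0 s = P 0 0) (hper : ∀ t ∈ Icc (0 : ℝ) 1, P t 0 = P t 1)
    (e : ℝ → Fin j → H) (hec : ∀ i, ContinuousOn (fun s => e s i) (Icc 0 1))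
    (her : ∀ s ∈ Icc (0 : ℝ) 1, ∀ i, P 1 s (e s i) = e s i)
    (hei : ∀ s ∈ Icc (0 : ℝ) 1, LinearIndependent ℝ (e s))
    (C : Matrix (Fin j) (Fin j) ℝ) (hC : ∀ k, e 1 k = ∑ m, C m k • e 0 m) : 0 < C.det := by
  rcases Nat.eq_zero_or_pos j with rfl | hj
  · simp [Matrix.det_isEmpty]
  have I0 : (0 : ℝ) ∈ Icc (0 : ℝ) 1 := ⟨le_rfl, zero_le_one⟩
  have I1 : (1 : ℝ) ∈ Icc (0 : ℝ) 1 := ⟨zero_le_one, le_rfl⟩
  -- a subdivision along which the projections are close
  obtain ⟨δ, hδ, hclose⟩ :=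
    Metric.uniformContinuousOn_iff.1 ((isCompact_Icc.prod isCompact_Icc).uniformContinuousOn_of_continuous hP) 1 one_pos
  obtain ⟨N, hN⟩ := exists_nat_gt (1 / δ)
  have hN0 : 0 < N := Nat.cast_pos.1 ((one_div_pos.2 hδ).trans hN)
  have hN' : (0 : ℝ) < N := Nat.cast_pos.2 hN0
  let τ : ℕ → ℝ := fun i => (i : ℝ) / N
  have hτ : ∀ i ≤ N, τ i ∈ Icc (0 : ℝ) 1 := fun i hi =>
    ⟨by positivity, (div_le_one hN').2 (Nat.cast_le.2 hi)⟩
  have hτ0 : τ 0 = 0 := by simp [τ]
  have hτN : τ N = 1 := div_self hN'.ne'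
  -- frames carried from the apex
  have : FiniteDimensional ℝ (LinearMap.range (P 0 0 : H →ₗ[ℝ] H)) :=
    finite_of_finrank_pos ((hrank 0 I0 0 I0).symm ▸ hj)
  let f := finBasisOfFinrankEq ℝ _ (hrank 0 I0 0 I0)
  let E : ℕ → ℝ → Fin j → H := fun i =>
    Nat.rec (fun _ k => (f k : H)) (fun i Ei s k => P (τ (i + 1)) s (Ei s k)) i
  have key : ∀ i ≤ N, (∀ k, ContinuousOn (fun s => E i s k) (Icc 0 1)) ∧
      (∀ s ∈ Icc (0 : ℝ) 1, (∀ k, P (τ i) s (E i s k) = E i s k) ∧ LinearIndependent ℝ (E i s)) ∧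
      E i 0 = E i 1 := by
    intro i
    induction i with
    | zero =>
      refine fun _ => ⟨fun k => continuousOn_const, fun s hs => ⟨fun k => ?_, ?_⟩, rfl⟩
      · rw [hτ0, h0 s hs]
        obtain ⟨v, hv⟩ := (f k).2
        show P 0 0 (f k : H) = f k
        rw [← hv]
        exact hidem 0 I0 0 I0 v
      · exact f.linearIndependent.map' (Submodule.subtype _) (Submodule.ker_subtype _)
    | succ i ih =>
      intro hi
      obtain ⟨hc, hr, he⟩ := ih (by omega)
      have ht := hτ (i + 1) hi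
      refine ⟨fun k => ?_, fun s hs => ⟨fun k => hidem _ ht s hs _, ?_⟩, ?_⟩
      · exact (hP.comp (continuousOn_const.prodMk continuousOn_id)
          fun s hs => ⟨ht, hs⟩).clm_apply (hc k)
      · obtain ⟨hfix, hind⟩ := hr s hs
        have hd : dist (τ (i + 1)) (τ i) < δ := by
          simp only [τ, Real.dist_eq]
          rw [← sub_div, Nat.cast_succ, add_sub_cancel_left, abs_of_pos (by positivity)]
          rw [div_lt_iff₀ hN']
          exact (div_lt_iff₀ hδ).1 hN |>.trans_le (le_of_eq (mul_comm _ _))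
        have hn : ‖P (τ (i + 1)) s - P (τ i) s‖ < 1 := by
          have := hclose (τ (i + 1), s) ⟨ht, hs⟩ (τ i, s) ⟨hτ i (by omega), hs⟩
            (by rw [Prod.dist_eq]; exact max_lt hd (by rw [dist_self]; exact hδ))
          rwa [dist_eq_norm] at this
        rw [Fintype.linearIndependent_iff] at hind ⊢
        intro g hg k
        refine hind g ?_ k
        set v := ∑ k, g k • E i s k with hv
        have h1 : P (τ i) s v = v := by simp [hv, map_sum, hfix]
        have h2 : P (τ (i + 1)) s v = 0 := by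
          rw [← hg, hv, map_sum]
          exact Finset.sum_congr rfl fun k _ => map_smul _ _ _
        by_contra hv0
        have hle := (P (τ (i + 1)) s - P (τ i) s).le_opNorm v
        rw [sub_apply, h1, h2, zero_sub, norm_neg] at hle
        have : 0 < ‖v‖ := norm_pos_iff.2 hv0
        nlinarith
      · funext k
        show P (τ (i + 1)) 0 (E i 0 k) = P (τ (i + 1)) 1 (E i 1 k)
        rw [hper _ ht, he]
  obtain ⟨hc, hr, he⟩ := key N le_rfl
  rw [hτN] at hr
  -- comparison with the given frame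
  let D : ℝ → ℝ := fun s => Matrix.det (Matrix.of fun m k => inner ℝ (E N s m) (e s k))
  have hDc : ContinuousOn D (Icc 0 1) :=
    Continuous.comp_continuousOn (g := fun A : Matrix (Fin j) (Fin j) ℝ => A.det)
      continuous_id.matrix_det
      (continuousOn_pi.2 fun m => continuousOn_pi.2 fun k => (hc m).inner (hec k))
  have hD0 : ∀ s ∈ Icc (0 : ℝ) 1, D s ≠ 0 := by
    intro s hs hzero
    obtain ⟨c, hcne, hc0⟩ := Matrix.exists_mulVec_eq_zero_iff.2 hzero
    set v := ∑ k, c k • e s k with hv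
    set R := LinearMap.range (P 1 s : H →ₗ[ℝ] H)
    have : FiniteDimensional ℝ R := finite_of_finrank_pos ((hrank 1 I1 s hs).symm ▸ hj)
    have hsub : ∀ m, E N s m ∈ R := fun m => ⟨E N s m, (hr s hs).1 m⟩
    have hspan : Submodule.span ℝ (range (E N s)) = R := by
      refine Submodule.eq_of_le_of_finrank_eq
        (Submodule.span_le.2 (range_subset_iff.2 hsub)) ?_
      rw [finrank_span_eq_card (hr s hs).2, Fintype.card_fin, hrank 1 I1 s hs]
    have hvR : v ∈ R := Submodule.sum_mem _ fun k _ =>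
      Submodule.smul_mem _ _ ⟨e s k, her s hs k⟩
    have horth : ∀ u ∈ Submodule.span ℝ (range (E N s)), inner ℝ u v = 0 := by
      intro u hu
      induction hu using Submodule.span_induction with
      | mem u hu =>
        obtain ⟨m, rfl⟩ := hu
        have := congrFun hc0 m
        simpa [Matrix.mulVec, dotProduct, hv, inner_sum, real_inner_smul_right, mul_comm] using this
      | zero => exact inner_zero_left v
      | add u w _ _ h1 h2 => rw [inner_add_left, h1, h2, add_zero]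
      | smul a u _ h1 => rw [real_inner_smul_left, h1, mul_zero]
    have hv0 : v = 0 := inner_self_eq_zero.1 (horth v (hspan.symm ▸ hvR))
    exact hcne (funext fun k => Fintype.linearIndependent_iff.1 (hei s hs) c (hv ▸ hv0) k)
  have hD1 : D 1 = D 0 * C.det := by
    show Matrix.det _ = _
    rw [← Matrix.det_mul]
    congr 1
    ext m k
    simp [Matrix.mul_apply, hC, inner_sum, real_inner_smul_right, ← he, mul_comm]
  have hmul : 0 < D 0 * D 1 := by
    by_contra h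
    have hmem : (0 : ℝ) ∈ uIcc (D 0) (D 1) := by
      rcases lt_or_gt_of_ne (hD0 0 I0) with h' | h'
      · exact mem_uIcc.2 (Or.inl ⟨h'.le, by nlinarith⟩)
      · exact mem_uIcc.2 (Or.inr ⟨by nlinarith, h'.le⟩)
    obtain ⟨s, hs, hs0⟩ := intermediate_value_uIcc (a := (0 : ℝ)) (b := 1) (f := D)
      (by rwa [uIcc_of_le zero_le_one]) hmem
    rw [uIcc_of_le zero_le_one] at hs
    exact hD0 s hs hs0
  rw [hD1, ← mul_assoc] at hmul
  exact pos_of_mul_pos_right hmul (mul_self_nonneg _)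

/-- The form used for centres: no such frame reverses orientation. -/
theorem orientation_absurd (P : ℝ → ℝ → H →L[ℝ] H)
    (hP : ContinuousOn (fun z : ℝ × ℝ => P z.1 z.2) (Icc 0 1 ×ˢ Icc 0 1))
    (hidem : ∀ t ∈ Icc (0 : ℝ) 1, ∀ s ∈ Icc (0 : ℝ) 1, ∀ v, P t s (P t s v) = P t s v)
    (hrank : ∀ t ∈ Icc (0 : ℝ) 1, ∀ s ∈ Icc (0 : ℝ) 1,
      finrank ℝ (LinearMap.range (P t s : H →ₗ[ℝ] H)) = j)
    (h0 : ∀ s ∈ Icc (0 : ℝ) 1, P 0 s = P 0 0) (hper : ∀ t ∈ Icc (0 : ℝ) 1, P t 0 = P t 1)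
    (e : ℝ → Fin j → H) (hec : ∀ i, ContinuousOn (fun s => e s i) (Icc 0 1))
    (her : ∀ s ∈ Icc (0 : ℝ) 1, ∀ i, P 1 s (e s i) = e s i)
    (hei : ∀ s ∈ Icc (0 : ℝ) 1, LinearIndependent ℝ (e s))
    (C : Matrix (Fin j) (Fin j) ℝ) (hC : ∀ k, e 1 k = ∑ m, C m k • e 0 m) (hneg : C.det ≤ 0) :
    False :=
  absurd (orientation_transport P hP hidem hrank h0 hper e hec her hei C hC) hneg.not_gt

end transport

end Vale.Agent.P225.Disproof.Avoid
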