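import Mathlib
import Vale.Agent.P225.Disproof.LoopSpec
import Vale.Agent.P225.Disproof.Avoid

/-!
# P225, disproof, module G: loop families from centres

A loop leaves the rest point along two segments in the set where all gaps are open, runs radially
to a circle in the disc of the centre, goes round once and returns by the same way.
-/

namespace Vale.Agent.P225.Disproof.Loops

open Set Module Real
open scoped Matrix

noncomputable section

variable {X : Type*} [NormedAddCommGroup X] [NormedSpace ℝ X]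
variable {H : Type*} [NormedAddCommGroup H] [InnerProductSpace ℝ H] {j : ℕ}

/-- A family of vectors times a matrix. -/
def comb (e : Fin j → H) (A : Matrix (Fin j) (Fin j) ℝ) : Fin j → H :=
  fun k => ∑ m, A m k • e m

lemma comb_comb (e : Fin j → H) (A B : Matrix (Fin j) (Fin j) ℝ) :
    comb (comb e A) B = comb e (A * B) := by
  funext k
  simp only [comb, Finset.smul_sum, smul_smul, Matrix.mul_apply, Finset.sum_smul]
  rw [Finset.sum_comm]
  exact Finset.sum_congr rfl fun m _ => Finset.sum_congr rfl fun i _ => by rw [mul_comm]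

lemma comb_one (e : Fin j → H) : comb e 1 = e := by
  funext k
  simp [comb, Matrix.one_apply, ite_smul, Finset.sum_ite_eq']

lemma comb_fixed {Q : H →L[ℝ] H} {e : Fin j → H} (he : ∀ m, Q (e m) = e m)
    (A : Matrix (Fin j) (Fin j) ℝ) (k : Fin j) : Q (comb e A k) = comb e A k := by
  simp [comb, map_sum, he]

lemma comb_indep {e : Fin j → H} (he : LinearIndependent ℝ e) {A : Matrix (Fin j) (Fin j) ℝ}
    (hA : A.det ≠ 0) : LinearIndependent ℝ (comb e A) := by
  rw [Fintype.linearIndependent_iff] at he ⊢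
  intro g hg k
  have h : ∑ m, (A *ᵥ g) m • e m = 0 := by
    rw [← hg]
    simp only [comb, Matrix.mulVec, dotProduct, Finset.sum_smul, Finset.smul_sum, smul_smul]
    rw [Finset.sum_comm]
    exact Finset.sum_congr rfl fun i _ => Finset.sum_congr rfl fun m _ => by rw [mul_comm]
  exact congrFun (Matrix.eq_zero_of_mulVec_eq_zero hA (funext (he _ h))) k

lemma continuous_comb {e : ℝ → Fin j → H} (he : Continuous e) (A : Matrix (Fin j) (Fin j) ℝ) :
    Continuous fun t => comb (e t) A :=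
  continuous_pi fun _ => continuous_finsetSum _ fun m _ => ((continuous_apply m).comp he).const_smul _

/-- Two frames of the range of an idempotent of rank `j` differ by an invertible matrix. -/
lemma exists_change {Q : H →L[ℝ] H} (hrank : finrank ℝ (LinearMap.range (Q : H →ₗ[ℝ] H)) = j)
    {e f : Fin j → H} (he : LinearIndependent ℝ e) (hef : ∀ m, Q (e m) = e m)
    (hf : LinearIndependent ℝ f) (hff : ∀ m, Q (f m) = f m) :
    ∃ A : Matrix (Fin j) (Fin j) ℝ, A.det ≠ 0 ∧ f = comb e A := by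
  rcases Nat.eq_zero_or_pos j with rfl | hj
  · exact ⟨1, by simp, funext fun k => k.elim0⟩
  have : FiniteDimensional ℝ (LinearMap.range (Q : H →ₗ[ℝ] H)) :=
    Module.finite_of_finrank_pos (hrank.symm ▸ hj)
  have hspan : Submodule.span ℝ (range e) = LinearMap.range (Q : H →ₗ[ℝ] H) := by
    refine Submodule.eq_of_le_of_finrank_eq (Submodule.span_le.2 ?_) ?_
    · rintro _ ⟨m, rfl⟩
      exact ⟨e m, hef m⟩
    · rw [finrank_span_eq_card he, Fintype.card_fin, hrank]
  have hmem : ∀ k, ∃ c : Fin j → ℝ, ∑ m, c m • e m = f k := fun k =>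
    (Submodule.mem_span_range_iff_exists_fun ℝ).1 (hspan.symm ▸ ⟨f k, hff k⟩)
  choose c hc using hmem
  refine ⟨Matrix.of fun m k => c k m, fun h0 => ?_, funext fun k => (hc k).symm⟩
  obtain ⟨g, hg0, hg⟩ := Matrix.exists_mulVec_eq_zero_iff.2 h0
  refine hg0 (funext (Fintype.linearIndependent_iff.1 hf g ?_))
  calc ∑ k, g k • f k = ∑ m, ((Matrix.of fun m k => c k m) *ᵥ g) m • e m := by
        simp only [← hc, Matrix.mulVec, dotProduct, Matrix.of_apply, Finset.sum_smul,
          Finset.smul_sum, smul_smul]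
        rw [Finset.sum_comm]
        exact Finset.sum_congr rfl fun i _ => Finset.sum_congr rfl fun m _ => by rw [mul_comm]
    _ = 0 := by simp [hg]

/-- A continuous curve of idempotents of rank `j` carries a continuous frame, constant outside
the interval. -/
theorem exists_frame (P : ℝ → H →L[ℝ] H) {a b : ℝ} (hab : a ≤ b)
    (hc : ContinuousOn P (Icc a b)) (hidem : ∀ t ∈ Icc a b, ∀ v, P t (P t v) = P t v)
    (hrank : ∀ t ∈ Icc a b, finrank ℝ (LinearMap.range (P t : H →ₗ[ℝ] H)) = j) :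
    ∃ e : ℝ → Fin j → H, Continuous e ∧ (∀ t ≤ a, e t = e a) ∧
      ∀ t ∈ Icc a b, LinearIndependent ℝ (e t) ∧ ∀ m, P t (e t m) = e t m := by
  rcases Nat.eq_zero_or_pos j with rfl | hj
  · exact ⟨fun _ k => k.elim0, continuous_const, fun _ _ => rfl,
      fun t _ => ⟨linearIndependent_empty_type, fun m => m.elim0⟩⟩
  set cl : ℝ → ℝ := fun t => max a (min b t) with hcl
  have hclmem : ∀ t, cl t ∈ Icc a b := fun t =>
    ⟨le_max_left _ _, max_le hab (min_le_left _ _)⟩
  have hclid : ∀ t ∈ Icc a b, cl t = t := fun t ht => by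
    simp [hcl, min_eq_right ht.2, max_eq_right ht.1]
  have hclc : Continuous cl := by fun_prop
  have hPc : Continuous fun t => P (cl t) := hc.comp_continuous hclc hclmem
  obtain ⟨δ, hδ, hclose⟩ := Metric.uniformContinuousOn_iff.1
    (isCompact_Icc.uniformContinuousOn_of_continuous hc) 1 one_pos
  have key : ∀ n : ℕ, ∃ e : ℝ → Fin j → H, Continuous e ∧
      ∀ t ∈ Icc a b, t ≤ a + n * (δ / 2) → LinearIndependent ℝ (e t) ∧ ∀ m, P t (e t m) = e t m := by
    intro n
    induction n with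
    | zero =>
      have ha : a ∈ Icc a b := ⟨le_rfl, hab⟩
      have : FiniteDimensional ℝ (LinearMap.range (P a : H →ₗ[ℝ] H)) :=
        Module.finite_of_finrank_pos ((hrank a ha).symm ▸ hj)
      let f := finBasisOfFinrankEq ℝ _ (hrank a ha)
      refine ⟨fun _ k => (f k : H), continuous_const, fun t ht hta => ?_⟩
      obtain rfl : t = a := le_antisymm (by simpa using hta) ht.1
      refine ⟨f.linearIndependent.map' (Submodule.subtype _) (Submodule.ker_subtype _), fun m => ?_⟩
      obtain ⟨v, hv⟩ := (f m).2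
      show P t (f m : H) = (f m : H)
      rw [← hv]
      exact hidem t ha v
    | succ n ih =>
      obtain ⟨e, hec, he⟩ := ih
      set τ := cl (a + n * (δ / 2)) with hτ
      have hτ' := hclmem (a + n * (δ / 2))
      have hτle : τ ≤ a + n * (δ / 2) :=
        max_le (le_add_of_nonneg_right (by positivity)) (min_le_right _ _)
      obtain ⟨hind, hfix⟩ := he τ hτ' hτle
      refine ⟨fun t => if t ≤ τ then e t else fun k => P (cl t) (e τ k),
        Continuous.if_le hec (continuous_pi fun k => hPc.clm_apply continuous_const)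
          continuous_id continuous_const (fun t (ht : t = τ) => ?_), fun t ht htn => ?_⟩
      · subst ht
        funext k
        rw [hclid _ hτ', hfix]
      · by_cases htτ : t ≤ τ
        · simp only [if_pos htτ]
          exact he t ht (htτ.trans hτle)
        · simp only [if_neg htτ, hclid t ht]
          rw [not_le] at htτ
          refine ⟨?_, fun m => hidem t ht _⟩
          have hd : dist t τ < δ := by
            rw [Real.dist_eq, abs_of_pos (sub_pos.2 htτ)]
            have h1 : τ = a + n * (δ / 2) := by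
              refine le_antisymm hτle ?_
              by_contra hlt
              rw [not_le] at hlt
              have hb : b < a + n * (δ / 2) := by
                by_contra hb
                rw [not_lt] at hb
                have : τ = a + n * (δ / 2) := by
                  simp [hτ, hcl, min_eq_right hb]
                  positivity
                linarith
              have : τ = b := by simp [hτ, hcl, min_eq_left hb.le, max_eq_right hab]
              linarith [ht.2]
            rw [h1]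
            push_cast at htn
            linarith
          have hn : ‖P t - P τ‖ < 1 := by
            have := hclose t ht τ hτ' hd
            rwa [dist_eq_norm] at this
          rw [Fintype.linearIndependent_iff] at hind ⊢
          intro g hg
          refine hind g ?_
          set v := ∑ k, g k • e τ k with hv
          have h1 : P τ v = v := by simp [hv, map_sum, hfix]
          have h2 : P t v = 0 := by
            rw [← hg, hv, map_sum]
            exact Finset.sum_congr rfl fun k _ => map_smul _ _ _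
          by_contra hv0
          have hle := (P t - P τ).le_opNorm v
          rw [sub_apply, h1, h2, zero_sub, norm_neg] at hle
          have : 0 < ‖v‖ := norm_pos_iff.2 hv0
          nlinarith
  obtain ⟨n, hn⟩ := exists_nat_ge ((b - a) / (δ / 2))
  rw [div_le_iff₀ (by positivity)] at hn
  obtain ⟨e, hec, he⟩ := key n
  refine ⟨fun t => e (cl t), hec.comp hclc, fun t ht => ?_, fun t ht => ?_⟩
  · simp [hcl, min_eq_right (ht.trans hab), max_eq_left ht, min_eq_right hab]
  · simp only [hclid t ht]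
    exact he t ht (by linarith [ht.2])

/-- The turn number of a loop made of a way out, a circle and the same way back. -/
theorem turnsBy_loop (Γ Qc : ℝ → H →L[ℝ] H) (σ : ℝ → ℝ) {sgn : ℝ}
    (hσc : Continuous σ) (hσ : ∀ y, σ y ∈ Icc (0 : ℝ) (2 * π)) (hσ3 : σ 3 = 0) (hσ4 : σ 4 = 2 * π)
    (hΓc : ContinuousOn Γ (Icc 0 3)) (hidem : ∀ y ∈ Icc (0 : ℝ) 3, ∀ v, Γ y (Γ y v) = Γ y v)
    (hrank : ∀ y ∈ Icc (0 : ℝ) 3, finrank ℝ (LinearMap.range (Γ y : H →ₗ[ℝ] H)) = j)
    (hbefore : ∀ y ≤ (0 : ℝ), Γ y = Γ 0) (hsym : ∀ y, (4 : ℝ) ≤ y → Γ y = Γ (7 - y))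
    (hcirc : ∀ y ∈ Icc (3 : ℝ) 4, Γ y = Qc (σ y)) (hturn : TurnsBy j Qc 0 (2 * π) sgn) :
    TurnsBy j (fun x => Γ (28 * x - 7)) 0 1 sgn := by
  obtain ⟨f, hfc, hfb, hf⟩ := exists_frame (j := j) Γ (by norm_num : (0 : ℝ) ≤ 3) hΓc hidem hrank
  have hf' : ∀ y ≤ (3 : ℝ), LinearIndependent ℝ (f y) ∧ ∀ m, Γ y (f y m) = f y m := by
    intro y hy
    rcases le_total 0 y with h | h
    · exact hf y ⟨h, hy⟩
    · rw [hbefore y h, hfb y h]
      exact hf 0 ⟨le_rfl, by norm_num⟩
  obtain ⟨ec, hecc, hec, C, hC, hdet⟩ := hturn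
  have hC' : ec (2 * π) = comb (ec 0) C := funext hC
  have h30 : Γ 3 = Qc 0 := by rw [hcirc 3 ⟨le_rfl, by norm_num⟩, hσ3]
  have h00 : (0 : ℝ) ∈ Icc (0 : ℝ) (2 * π) := ⟨le_rfl, by positivity⟩
  obtain ⟨hfi, hff⟩ := hf 3 ⟨by norm_num, le_rfl⟩
  obtain ⟨A, hA, hA3⟩ := exists_change (hrank 3 ⟨by norm_num, le_rfl⟩) (hec 0 h00).1
    (fun m => by rw [h30]; exact (hec 0 h00).2 m) hfi hff
  set B := A⁻¹ * C * A with hB
  have hAu : IsUnit A.det := isUnit_iff_ne_zero.2 hA
  have hBdet : B.det = C.det := by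
    rw [hB, Matrix.det_mul, Matrix.det_mul, Matrix.det_nonsing_inv, Ring.inverse_eq_inv']
    field_simp
  have hjoin : comb (ec (2 * π)) A = comb (f 3) B := by
    rw [hC', hA3, comb_comb, comb_comb, hB, ← Matrix.mul_assoc, ← Matrix.mul_assoc,
      Matrix.mul_nonsing_inv A hAu, Matrix.one_mul]
  have hgc : Continuous fun y => comb (ec (σ y)) A :=
    continuous_comb (hecc.comp_continuous hσc hσ) A
  set e : ℝ → Fin j → H := fun y =>
    if y ≤ 3 then f y else if y ≤ 4 then comb (ec (σ y)) A else comb (f (7 - y)) B with he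
  have hec' : Continuous e := by
    refine Continuous.if_le hfc ?_ continuous_id continuous_const fun y (hy : y = 3) => ?_
    · refine Continuous.if_le hgc
        (continuous_comb (hfc.comp (continuous_const.sub continuous_id)) B) continuous_id
        continuous_const fun y (hy : y = 4) => ?_
      subst hy
      rw [hσ4, hjoin]
      norm_num
    · subst hy
      rw [if_pos (by norm_num : (3 : ℝ) ≤ 4), hσ3, hA3]
  have hgood : ∀ y, LinearIndependent ℝ (e y) ∧ ∀ m, Γ y (e y m) = e y m := by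
    intro y
    by_cases h3 : y ≤ 3
    · simp only [he, if_pos h3]
      exact hf' y h3
    · by_cases h4 : y ≤ 4
      · simp only [he, if_neg h3, if_pos h4]
        rw [hcirc y ⟨(not_le.1 h3).le, h4⟩]
        exact ⟨comb_indep (hec _ (hσ y)).1 hA, fun m => comb_fixed (hec _ (hσ y)).2 A m⟩
      · simp only [he, if_neg h3, if_neg h4]
        rw [hsym y (not_le.1 h4).le]
        obtain ⟨h1, h2⟩ := hf' (7 - y) (by linarith [not_le.1 h4])
        have hCne : C.det ≠ 0 := fun h0 => by simp [h0] at hdet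
        exact ⟨comb_indep h1 (hBdet ▸ hCne), fun m => comb_fixed h2 B m⟩
  refine ⟨fun x => e (28 * x - 7), (hec'.comp (by fun_prop)).continuousOn,
    fun x _ => hgood _, B, fun k => ?_, hBdet ▸ hdet⟩
  have e0 : e (28 * 0 - 7) = f 0 := by
    simp only [he]
    rw [if_pos (by norm_num : (28 : ℝ) * 0 - 7 ≤ 3), hfb _ (by norm_num : (28 : ℝ) * 0 - 7 ≤ 0)]
  have e1 : e (28 * 1 - 7) = comb (f 0) B := by
    simp only [he]
    rw [if_neg (by norm_num : ¬(28 : ℝ) * 1 - 7 ≤ 3),
      if_neg (by norm_num : ¬(28 : ℝ) * 1 - 7 ≤ 4),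
      hfb (7 - (28 * 1 - 7)) (by norm_num)]
  simp only [e1, e0]
  rfl

/-- A circle bounding a disc on which the gap is open keeps the orientation. -/
theorem turnsBy_disc (Q : ℝ → ℝ → H →L[ℝ] H)
    (hQ : ContinuousOn (fun z : ℝ × ℝ => Q z.1 z.2) (Icc 0 1 ×ˢ Icc 0 (2 * π)))
    (hidem : ∀ t ∈ Icc (0 : ℝ) 1, ∀ θ ∈ Icc (0 : ℝ) (2 * π), ∀ v, Q t θ (Q t θ v) = Q t θ v)
    (hrank : ∀ t ∈ Icc (0 : ℝ) 1, ∀ θ ∈ Icc (0 : ℝ) (2 * π),
      finrank ℝ (LinearMap.range (Q t θ : H →ₗ[ℝ] H)) = j)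
    (h0 : ∀ θ, Q 0 θ = Q 0 0) (hper : ∀ t, Q t 0 = Q t (2 * π)) :
    TurnsBy j (fun θ => Q 1 θ) 0 (2 * π) 1 := by
  have hπ : (0 : ℝ) ≤ 2 * π := by positivity
  have I1 : (1 : ℝ) ∈ Icc (0 : ℝ) 1 := ⟨zero_le_one, le_rfl⟩
  obtain ⟨e, hec, -, he⟩ := exists_frame (j := j) (fun θ => Q 1 θ) hπ
    (hQ.comp (continuousOn_const.prodMk continuousOn_id) fun θ hθ => ⟨I1, hθ⟩)
    (hidem 1 I1) (hrank 1 I1)
  obtain ⟨hi0, hf0⟩ := he 0 ⟨le_rfl, hπ⟩
  obtain ⟨hi1, hf1⟩ := he (2 * π) ⟨hπ, le_rfl⟩
  obtain ⟨C, -, hC⟩ := exists_change (hrank 1 I1 0 ⟨le_rfl, hπ⟩) hi0 hf0 hi1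
    fun m => by rw [hper 1]; exact hf1 m
  refine ⟨e, hec.continuousOn, he, C, fun k => congrFun hC k, ?_⟩
  rw [one_mul]
  have hmem : ∀ s ∈ Icc (0 : ℝ) 1, 2 * π * s ∈ Icc (0 : ℝ) (2 * π) := fun s hs =>
    ⟨mul_nonneg hπ hs.1, mul_le_of_le_one_right hπ hs.2⟩
  refine Avoid.orientation_transport (fun t s => Q t (2 * π * s)) ?_
    (fun t ht s hs => hidem t ht _ (hmem s hs)) (fun t ht s hs => hrank t ht _ (hmem s hs))
    (fun s _ => by rw [h0, mul_zero]) (fun t _ => by simp only [mul_zero, mul_one]; exact hper t)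
    (fun s => e (2 * π * s))
    (fun i => ((continuous_apply i).comp (hec.comp (by fun_prop))).continuousOn)
    (fun s hs => (he _ (hmem s hs)).2) (fun s hs => (he _ (hmem s hs)).1) C fun k => ?_
  · exact hQ.comp (f := fun z : ℝ × ℝ => (z.1, 2 * π * z.2))
      (continuous_fst.prodMk (continuous_const.mul continuous_snd)).continuousOn
      fun z hz => ⟨hz.1, hmem _ hz.2⟩
  · simp only [mul_zero, mul_one]
    exact congrFun hC k


/-- The factor of stage `i`: out on `[i, i + 1]`, back on `[6 - i, 7 - i]`. -/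
def stage (i y : ℝ) : ℝ :=
  Real.smoothTransition (y - i) * Real.smoothTransition (7 - y - i)

/-- The angle on the circle. -/
def angle (y : ℝ) : ℝ := 2 * π * Real.smoothTransition (y - 3)

lemma stage_mem (i y : ℝ) : stage i y ∈ Icc (0 : ℝ) 1 :=
  ⟨mul_nonneg (smoothTransition.nonneg _) (smoothTransition.nonneg _),
    mul_le_one₀ (smoothTransition.le_one _) (smoothTransition.nonneg _) (smoothTransition.le_one _)⟩

lemma stage_zero {i y : ℝ} (h : y ≤ i ∨ 7 - i ≤ y) : stage i y = 0 := by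
  rcases h with h | h
  · rw [stage, smoothTransition.zero_of_nonpos (by linarith), zero_mul]
  · rw [stage, smoothTransition.zero_of_nonpos (x := 7 - y - i) (by linarith), mul_zero]

lemma stage_one {i y : ℝ} (h1 : i + 1 ≤ y) (h2 : y ≤ 6 - i) : stage i y = 1 := by
  rw [stage, smoothTransition.one_of_one_le (by linarith),
    smoothTransition.one_of_one_le (by linarith), mul_one]

lemma stage_symm (i y : ℝ) : stage i (7 - y) = stage i y := by
  simp only [stage, sub_sub_cancel]
  rw [mul_comm]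

lemma angle_cos {y : ℝ} (h : y ≤ 3 ∨ 4 ≤ y) : cos (angle y) = 1 ∧ sin (angle y) = 0 := by
  rcases h with h | h
  · simp [angle, smoothTransition.zero_of_nonpos (x := y - 3) (by linarith)]
  · simp [angle, smoothTransition.one_of_one_le (x := y - 3) (by linarith)]

/-- The first coordinate in the disc. -/
def crd1 (R s y : ℝ) : ℝ :=
  R + stage 2 y * ((5 / 2 * s + 1) * (R / 4) - R) + R / 4 * (cos (angle y) - 1)

/-- The second coordinate in the disc. -/
def crd2 (R y : ℝ) : ℝ := R / 4 * sin (angle y)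

/-- The deviation from the rest point at stage time `y`. -/
def dev (p0 v c h1 h2 : X) (R s y : ℝ) : X :=
  stage 0 y • (v - p0) + stage 1 y • (c + R • h1 - v) + (crd1 R s y - R) • h1 + crd2 R y • h2

lemma disc_cases {R s y : ℝ} (hR : 0 < R) (hs : s ∈ Icc (0 : ℝ) 1) :
    crd1 R s y ^ 2 + crd2 R y ^ 2 ≤ R ^ 2 ∧
      ((s = 0 ∨ s = 1) → (crd1 R s y, crd2 R y) ≠ (0, 0)) := by
  obtain ⟨hs0, hs1⟩ := hs
  by_cases hy : 3 < y ∧ y < 4
  · have h1 : stage 2 y = 1 := stage_one (by linarith [hy.1]) (by linarith [hy.2])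
    have hc := sin_sq_add_cos_sq (angle y)
    have e1 : crd1 R s y = R / 4 * (5 / 2 * s + cos (angle y)) := by rw [crd1, h1]; ring
    rw [e1, crd2]
    constructor
    · have := cos_le_one (angle y)
      have h2 : (5 / 2 * s + cos (angle y)) ^ 2 + sin (angle y) ^ 2 ≤ 16 := by nlinarith
      calc (R / 4 * (5 / 2 * s + cos (angle y))) ^ 2 + (R / 4 * sin (angle y)) ^ 2
          = R ^ 2 / 16 * ((5 / 2 * s + cos (angle y)) ^ 2 + sin (angle y) ^ 2) := by ring
        _ ≤ R ^ 2 / 16 * 16 := mul_le_mul_of_nonneg_left h2 (by positivity)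
        _ = R ^ 2 := by ring
    · intro h hz
      obtain ⟨ha, hb⟩ := Prod.mk.injEq _ _ _ _ ▸ hz
      have hR4 : R / 4 ≠ 0 := by positivity
      have ha' : 5 / 2 * s + cos (angle y) = 0 := (mul_eq_zero.1 ha).resolve_left hR4
      have hb' : sin (angle y) = 0 := (mul_eq_zero.1 hb).resolve_left hR4
      rcases h with rfl | rfl <;> nlinarith
  · obtain ⟨hcos, hsin⟩ := angle_cos (y := y) (by
      rcases not_and_or.1 hy with h | h
      · exact Or.inl (not_lt.1 h)
      · exact Or.inr (not_lt.1 h))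
    obtain ⟨hk0, hk1⟩ := stage_mem 2 y
    have e1 : crd1 R s y = (1 - stage 2 y) * R + stage 2 y * ((5 / 2 * s + 1) * (R / 4)) := by
      rw [crd1, hcos]; ring
    have hu : (5 / 2 * s + 1) * (R / 4) ≤ R := by nlinarith
    have hl : R / 4 ≤ (5 / 2 * s + 1) * (R / 4) := by nlinarith
    have h2 : crd1 R s y ≤ R := by rw [e1]; nlinarith
    have h3 : R / 4 ≤ crd1 R s y := by rw [e1]; nlinarith
    refine ⟨?_, fun _ hz => by linarith [congrArg Prod.fst hz]⟩
    rw [crd2, hsin, mul_zero]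
    nlinarith

variable {p0 v c h1 h2 : X} {R : ℝ}

lemma dev_cases (s y : ℝ) :
    p0 + dev p0 v c h1 h2 R s y ∈ segment ℝ v p0 ∨
      p0 + dev p0 v c h1 h2 R s y ∈ segment ℝ v (c + R • h1) ∨
      p0 + dev p0 v c h1 h2 R s y = c + crd1 R s y • h1 + crd2 R y • h2 := by
  by_cases hy : 1 < y ∧ y < 6
  · by_cases hy2 : 2 < y ∧ y < 5
    · refine Or.inr (Or.inr ?_)
      rw [dev, stage_one (by linarith [hy2.1]) (by linarith [hy2.2]),
        stage_one (by linarith [hy2.1]) (by linarith [hy2.2])]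
      module
    · have h2' : y ≤ 2 ∨ 5 ≤ y := (not_and_or.1 hy2).imp not_lt.1 not_lt.1
      obtain ⟨hcos, hsin⟩ := angle_cos (y := y) (h2'.imp (by intro; linarith) (by intro; linarith))
      obtain ⟨hk0, hk1⟩ := stage_mem 1 y
      refine Or.inr (Or.inl ⟨1 - stage 1 y, stage 1 y, sub_nonneg.2 hk1, hk0, sub_add_cancel _ _,
        ?_⟩)
      rw [dev, crd1, crd2, hcos, hsin, stage_zero (i := 2) (by
          rcases h2' with h | h
          · exact Or.inl h
          · exact Or.inr (by linarith)),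
        stage_one (i := 0) (by linarith [hy.1]) (by linarith [hy.2])]
      module
  · have h1' : y ≤ 1 ∨ 6 ≤ y := (not_and_or.1 hy).imp not_lt.1 not_lt.1
    obtain ⟨hcos, hsin⟩ := angle_cos (y := y) (h1'.imp (by intro; linarith) (by intro; linarith))
    obtain ⟨hk0, hk1⟩ := stage_mem 0 y
    refine Or.inl ⟨stage 0 y, 1 - stage 0 y, hk0, sub_nonneg.2 hk1, add_sub_cancel _ _, ?_⟩
    rw [dev, crd1, crd2, hcos, hsin, stage_zero (i := 2) (by
        rcases h1' with h | h
        · exact Or.inl (by linarith)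
        · exact Or.inr (by linarith)),
      stage_zero (i := 1) (by
        rcases h1' with h | h
        · exact Or.inl h
        · exact Or.inr (by linarith))]
    module

lemma dev_symm (s : ℝ) {y : ℝ} (h : 4 ≤ y) :
    dev p0 v c h1 h2 R s y = dev p0 v c h1 h2 R s (7 - y) := by
  obtain ⟨hcos, hsin⟩ := angle_cos (y := y) (Or.inr h)
  obtain ⟨hcos', hsin'⟩ := angle_cos (y := 7 - y) (Or.inl (by linarith))
  simp only [dev, crd1, crd2, stage_symm, hcos, hsin, hcos', hsin']

lemma dev_outside (s : ℝ) {y : ℝ} (h : y ≤ 0 ∨ 7 ≤ y) : dev p0 v c h1 h2 R s y = 0 := by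
  obtain ⟨hcos, hsin⟩ := angle_cos (y := y) (h.imp (by intro; linarith) (by intro; linarith))
  rw [dev, crd1, crd2, hcos, hsin, stage_zero (i := 0), stage_zero (i := 1), stage_zero (i := 2)]
  · simp
  all_goals exact h.imp (by intro; linarith) (by intro; linarith)

lemma dev_circle (s : ℝ) {y : ℝ} (h : y ∈ Icc (3 : ℝ) 4) :
    p0 + dev p0 v c h1 h2 R s y =
      c + (5 / 2 * s * (R / 4) + R / 4 * cos (angle y)) • h1 + (R / 4 * sin (angle y)) • h2 := by
  rw [dev, crd1, crd2, stage_one (by linarith [h.1]) (by linarith [h.2]),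
    stage_one (by linarith [h.1]) (by linarith [h.2]),
    stage_one (by linarith [h.1]) (by linarith [h.2])]
  module

lemma contDiff_dev (p0 v c h1 h2 : X) (R : ℝ) :
    ContDiff ℝ (⊤ : ℕ∞) fun p : ℝ × ℝ => dev p0 v c h1 h2 R p.1 (28 * p.2 - 7) := by
  have hst : ContDiff ℝ (⊤ : ℕ∞) Real.smoothTransition := smoothTransition.contDiff
  have hy : ContDiff ℝ (⊤ : ℕ∞) fun p : ℝ × ℝ => 28 * p.2 - 7 :=
    (contDiff_const.mul contDiff_snd).sub contDiff_const
  have hstage : ∀ i : ℝ, ContDiff ℝ (⊤ : ℕ∞) fun p : ℝ × ℝ => stage i (28 * p.2 - 7) := fun i =>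
    (hst.comp (hy.sub contDiff_const)).mul (hst.comp ((contDiff_const.sub hy).sub contDiff_const))
  have hang : ContDiff ℝ (⊤ : ℕ∞) fun p : ℝ × ℝ => angle (28 * p.2 - 7) :=
    contDiff_const.mul (hst.comp (hy.sub contDiff_const))
  refine (((hstage 0).smul contDiff_const).add ((hstage 1).smul contDiff_const)).add ?_ |>.add ?_
  · exact (((contDiff_const.add ((hstage 2).mul (((contDiff_const.mul contDiff_fst).add
      contDiff_const).mul contDiff_const |>.sub contDiff_const))).add
      (contDiff_const.mul (hang.cos.sub contDiff_const))).sub contDiff_const).smul contDiff_const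
  · exact (contDiff_const.mul hang.sin).smul contDiff_const

/-- Loop families from a centre: the rest point is joined to the disc inside the set where all
gaps of `[lo, hi]` are open. -/
theorem loopAt_of_centre {O : Set X} {isOpenGap : ℕ → X → Prop} {proj : ℕ → X → H →L[ℝ] H}
    {lo hi j : ℕ} {p0 : X} (hj : j ∈ Icc lo hi) (C : CentreAt O isOpenGap proj lo hi j)
    (hp0 : p0 ∈ O) (hp0g : ∀ l ∈ Icc lo hi, isOpenGap l p0)
    (hjoin : ∀ p ∈ O, ∀ q ∈ O, (∀ l ∈ Icc lo hi, isOpenGap l p) →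
      (∀ l ∈ Icc lo hi, isOpenGap l q) → ∃ v ∈ O,
        (∀ z ∈ segment ℝ v p, z ∈ O ∧ ∀ l ∈ Icc lo hi, isOpenGap l z) ∧
        ∀ z ∈ segment ℝ v q, z ∈ O ∧ ∀ l ∈ Icc lo hi, isOpenGap l z)
    (hproj : ContinuousOn (proj j) {p | p ∈ O ∧ isOpenGap j p})
    (hidem : ∀ p ∈ O, isOpenGap j p → ∀ v, proj j p (proj j p v) = proj j p v)
    (hrank : ∀ p ∈ O, isOpenGap j p →
      finrank ℝ (LinearMap.range (proj j p : H →ₗ[ℝ] H)) = j) :
    Nonempty (LoopAt O isOpenGap proj lo hi j p0) := by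
  have hR := C.R_pos
  set q := C.c + C.R • C.h1 with hq
  have hq1 : C.R ^ 2 + (0 : ℝ) ^ 2 ≤ C.R ^ 2 := by simp
  have e0 : C.c + C.R • C.h1 + (0 : ℝ) • C.h2 = q := by simp [hq]
  have hqO : q ∈ O := e0 ▸ C.mem _ _ hq1
  have hqg : ∀ l ∈ Icc lo hi, isOpenGap l q := by
    intro l hl
    rcases eq_or_ne l j with rfl | hlj
    · exact e0 ▸ C.punctured _ _ hq1 (by simp [hR.ne'])
    · exact e0 ▸ C.others _ _ hq1 l hl hlj
  obtain ⟨v, -, hvp, hvq⟩ := hjoin p0 hp0 q hqO hp0g hqg
  set Z : ℝ → ℝ → X := fun s y => p0 + dev p0 v C.c C.h1 C.h2 C.R s y with hZ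
  have hmem : ∀ s ∈ Icc (0 : ℝ) 1, ∀ y, Z s y ∈ O ∧
      (∀ l ∈ Icc lo hi, l ≠ j → isOpenGap l (Z s y)) ∧
      ((s = 0 ∨ s = 1) → isOpenGap j (Z s y)) := by
    intro s hs y
    rcases dev_cases (p0 := p0) (v := v) (c := C.c) (h1 := C.h1) (h2 := C.h2) (R := C.R) s y
      with h | h | h
    · exact ⟨(hvp _ h).1, fun l hl _ => (hvp _ h).2 l hl, fun _ => (hvp _ h).2 j hj⟩
    · exact ⟨(hvq _ h).1, fun l hl _ => (hvq _ h).2 l hl, fun _ => (hvq _ h).2 j hj⟩
    · obtain ⟨hd, hne⟩ := disc_cases (y := y) hR hs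
      simp only [hZ, h]
      exact ⟨C.mem _ _ hd, C.others _ _ hd, fun h' => C.punctured _ _ hd (hne h')⟩
  have hcont : ∀ s, Continuous (Z s) := fun s => by
    have := (contDiff_dev p0 v C.c C.h1 C.h2 C.R).continuous.comp
      (continuous_const.prodMk (show Continuous fun y : ℝ => (y + 7) / 28 by fun_prop) :
        Continuous fun y : ℝ => (s, (y + 7) / 28))
    refine continuous_const.add (this.congr fun y => ?_)
    simp only [Function.comp_apply]
    congr 1
    ring
  have hturn : ∀ s : ℝ, (s = 0 ∨ s = 1) → ∀ sgn : ℝ,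
      TurnsBy j (fun θ => proj j (C.c + (5 / 2 * s * (C.R / 4) + C.R / 4 * cos θ) • C.h1 +
        (C.R / 4 * sin θ) • C.h2)) 0 (2 * π) sgn →
      TurnsBy j (fun x => proj j (Z s (28 * x - 7))) 0 1 sgn := by
    intro s hs sgn ht
    have hs' : s ∈ Icc (0 : ℝ) 1 := by rcases hs with rfl | rfl <;> simp
    refine turnsBy_loop (fun y => proj j (Z s y)) _ angle
      (continuous_const.mul (smoothTransition.contDiff (n := 0) |>.continuous.comp
        (continuous_id.sub continuous_const)))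
      (fun y => ⟨mul_nonneg (by positivity) (smoothTransition.nonneg _),
        mul_le_of_le_one_right (by positivity) (smoothTransition.le_one _)⟩)
      (by simp [angle]) (by simp [angle, smoothTransition.one_of_one_le (x := (4 : ℝ) - 3) (by norm_num)])
      (hproj.comp (hcont s).continuousOn fun y _ => ⟨(hmem s hs' y).1, (hmem s hs' y).2.2 hs⟩)
      (fun y _ => hidem _ (hmem s hs' y).1 ((hmem s hs' y).2.2 hs))
      (fun y _ => hrank _ (hmem s hs' y).1 ((hmem s hs' y).2.2 hs))
      (fun y hy => ?_) (fun y hy => ?_) (fun y hy => ?_) ht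
    · simp only [hZ, dev_outside s (Or.inl hy), dev_outside s (Or.inl (le_refl (0 : ℝ)))]
    · simp only [hZ, dev_symm s hy]
    · simp only [hZ, dev_circle s hy]
  have hdisc : ∀ t ∈ Icc (0 : ℝ) 1, ∀ θ : ℝ,
      C.c + (5 / 2 * (C.R / 4) + t * (C.R / 4 * cos θ)) • C.h1 + (t * (C.R / 4 * sin θ)) • C.h2 ∈
        {p | p ∈ O ∧ isOpenGap j p} := by
    intro t ht θ
    have hc := sin_sq_add_cos_sq θ
    have h2 : (5 / 2 + t * cos θ) ^ 2 + (t * sin θ) ^ 2 ≤ 16 := by
      rw [show (5 / 2 + t * cos θ) ^ 2 + (t * sin θ) ^ 2 =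
        25 / 4 + 5 * (t * cos θ) + t ^ 2 * (sin θ ^ 2 + cos θ ^ 2) by ring, hc]
      nlinarith [mul_le_mul_of_nonneg_left (cos_le_one θ) ht.1, ht.1, ht.2]
    have hd : (5 / 2 * (C.R / 4) + t * (C.R / 4 * cos θ)) ^ 2 + (t * (C.R / 4 * sin θ)) ^ 2 ≤
        C.R ^ 2 := by
      calc _ = C.R ^ 2 / 16 * ((5 / 2 + t * cos θ) ^ 2 + (t * sin θ) ^ 2) := by ring
        _ ≤ C.R ^ 2 / 16 * 16 := mul_le_mul_of_nonneg_left h2 (by positivity)
        _ = C.R ^ 2 := by ring
    refine ⟨C.mem _ _ hd, C.punctured _ _ hd fun hz => ?_⟩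
    have : -1 ≤ t * cos θ := by nlinarith [neg_one_le_cos θ, ht.1, ht.2]
    have := congrArg Prod.fst hz
    simp only at this
    nlinarith
  refine ⟨{
    path := fun s x => dev p0 v C.c C.h1 C.h2 C.R s (28 * x - 7)
    smooth := contDiff_dev p0 v C.c C.h1 C.h2 C.R
    supp := fun s x hx => dev_outside s (by
      rw [mem_Icc, not_and_or, not_le, not_le] at hx
      exact hx.imp (by intro; linarith) (by intro; linarith))
    mem := fun s hs x => (hmem s hs _).1
    others := fun s hs x => (hmem s hs _).2.1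
    face := fun s hs x => by
      have hs' : s = 0 ∨ s = 1 := by simpa using hs
      exact (hmem s (by rcases hs' with rfl | rfl <;> simp) _).2.2 hs'
    turns_zero := ?_
    turns_one := ?_ }⟩
  · refine hturn 0 (Or.inl rfl) (-1) ?_
    simpa using C.flips (C.R / 4) ⟨by positivity, by linarith⟩
  · refine hturn 1 (Or.inr rfl) 1 ?_
    have := turnsBy_disc (j := j) (fun t θ => proj j (C.c +
      (5 / 2 * (C.R / 4) + t * (C.R / 4 * cos θ)) • C.h1 + (t * (C.R / 4 * sin θ)) • C.h2))
      (hproj.comp (by fun_prop) fun z hz => hdisc _ hz.1 _)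
      (fun t ht θ _ => hidem _ (hdisc t ht θ).1 (hdisc t ht θ).2)
      (fun t ht θ _ => hrank _ (hdisc t ht θ).1 (hdisc t ht θ).2) (fun θ => by simp) (fun t => by simp)
    simpa using this

/-- The connecting hypothesis from avoidance of thin sets. -/
theorem join_of_thin [FiniteDimensional ℝ X] {ι : Type*} [Countable ι] {A : ι → Set X}
    (hA : ∀ i, Avoid.Thin 2 (A i)) {O : Set X} (hO : Convex ℝ O) (hOo : IsOpen O) {P : X → Prop}
    (hP : ∀ p ∈ O, P p ↔ ∀ i, p ∉ A i) :
    ∀ p ∈ O, ∀ q ∈ O, P p → P q → ∃ v ∈ O,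
      (∀ z ∈ segment ℝ v p, z ∈ O ∧ P z) ∧ ∀ z ∈ segment ℝ v q, z ∈ O ∧ P z := by
  intro p hp q hq hpP hqP
  obtain ⟨v, hv, h1, h2⟩ :=
    Avoid.exists_two_segments hA hO hOo hp hq ((hP p hp).1 hpP) ((hP q hq).1 hqP)
  refine ⟨v, hv, fun z hz => ⟨(h1 hz).1, (hP z (h1 hz).1).2 fun i hi =>
    (h1 hz).2 (mem_iUnion.2 ⟨i, hi⟩)⟩, fun z hz => ⟨(h2 hz).1, (hP z (h2 hz).1).2 fun i hi =>
    (h2 hz).2 (mem_iUnion.2 ⟨i, hi⟩)⟩⟩

end

end Vale.Agent.P225.Disproof.Loops
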