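import Vale.Agent.P225.Disproof.LoopSpec
import Mathlib.Analysis.Calculus.ContDiff.Operations
import Mathlib.Analysis.SpecialFunctions.SmoothTransition

/-!
# P225: loops of normalised shapes

The gaps and spectral projections do not change under positive scaling, so a loop can be
normalised to unit mean (`φ` is the mean).
-/

namespace Vale.Agent.P225.Disproof

open Set

noncomputable section

variable {X : Type*} [NormedAddCommGroup X] [NormedSpace ℝ X]
variable {H : Type*} [NormedAddCommGroup H] [InnerProductSpace ℝ H]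

/-- Scaling to unit mean. -/
def unitMean (φ : X →L[ℝ] ℝ) (p : X) : X := (φ p)⁻¹ • p

theorem map_unitMean {φ : X →L[ℝ] ℝ} {p : X} (h : φ p ≠ 0) : φ (unitMean φ p) = 1 := by
  simp [unitMean, h]

theorem unitMean_of_eq_one {φ : X →L[ℝ] ℝ} {p : X} (h : φ p = 1) : unitMean φ p = p := by
  simp [unitMean, h]

/-- A loop normalised to unit mean, with values in the unit-mean part of `O`. -/
theorem exists_loopAt_unitMean {O : Set X} {isOpenGap : ℕ → X → Prop}
    {proj : ℕ → X → H →L[ℝ] H} {lo hi j : ℕ} {p0 : X} (φ : X →L[ℝ] ℝ)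
    (hO : ∀ p ∈ O, 0 < φ p) (hOsc : ∀ p ∈ O, ∀ c : ℝ, 0 < c → c • p ∈ O)
    (hG : ∀ l, ∀ p ∈ O, ∀ c : ℝ, 0 < c → isOpenGap l p → isOpenGap l (c • p))
    (hP : ∀ p ∈ O, isOpenGap j p → ∀ c : ℝ, 0 < c → proj j (c • p) = proj j p)
    (L : LoopAt O isOpenGap proj lo hi j p0) (hp0 : φ p0 = 1) :
    ∃ L' : LoopAt {p ∈ O | φ p = 1} isOpenGap proj lo hi j p0,
      ∀ s ∈ Icc (0 : ℝ) 1, ∀ x, p0 + L'.path s x = unitMean φ (p0 + L.path s x) := by
  classical
  -- a loop parameter is clamped so that the mean never vanishes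
  have hmem : ∀ s ∈ Icc (0 : ℝ) 1, ∀ x, 0 < φ (p0 + L.path s x) := fun s hs x => hO _ (L.mem s hs x)
  obtain ⟨g, hg, hgpos, hgeq⟩ : ∃ g : ℝ × ℝ → ℝ, ContDiff ℝ (⊤ : ℕ∞) g ∧ (∀ q, 0 < g q) ∧
      ∀ q, q.1 ∈ Icc (0 : ℝ) 1 → g q = φ (p0 + L.path q.1 q.2) := by
    have hsm : ContDiff ℝ (⊤ : ℕ∞) fun q : ℝ × ℝ => φ (p0 + L.path q.1 q.2) :=
      φ.contDiff.comp (contDiff_const.add L.smooth)
    obtain ⟨m, hm, hmle⟩ : ∃ m > (0 : ℝ), ∀ q : ℝ × ℝ, q.1 ∈ Icc (0 : ℝ) 1 →
        m ≤ φ (p0 + L.path q.1 q.2) := by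
      obtain ⟨q, hq, hqmin⟩ := (isCompact_Icc.prod (isCompact_Icc (a := (1 / 4 : ℝ)) (b := 1 / 2))).exists_isMinOn
        (Nonempty.prod (nonempty_Icc.2 zero_le_one) (nonempty_Icc.2 (by norm_num)))
        hsm.continuous.continuousOn
      refine ⟨min (φ (p0 + L.path q.1 q.2)) 1, lt_min (hmem _ hq.1 _) one_pos, fun r hr => ?_⟩
      by_cases hx : r.2 ∈ Icc (1 / 4 : ℝ) (1 / 2)
      · exact (min_le_left _ _).trans (hqmin ⟨hr, hx⟩)
      · rw [L.supp _ _ hx, add_zero, hp0]
        exact min_le_right _ _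
    -- a smooth positive extension: shift below `m / 2` away
    refine ⟨fun q => φ (p0 + L.path q.1 q.2) + (m - φ (p0 + L.path q.1 q.2)) *
      Real.smoothTransition ((m - φ (p0 + L.path q.1 q.2)) / (m / 2)),
      hsm.add ((contDiff_const.sub hsm).mul (Real.smoothTransition.contDiff.comp
        ((contDiff_const.sub hsm).div_const _))), fun q => ?_, fun q hq => ?_⟩
    · show 0 < φ (p0 + L.path q.1 q.2) + _
      set v := φ (p0 + L.path q.1 q.2)
      have h0 := Real.smoothTransition.nonneg ((m - v) / (m / 2))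
      have h1 := Real.smoothTransition.le_one ((m - v) / (m / 2))
      rcases le_or_gt v (m / 2) with hv | hv
      · have : 1 ≤ (m - v) / (m / 2) := by rw [one_le_div (by positivity)]; linarith
        rw [Real.smoothTransition.one_of_one_le this]
        linarith
      · rcases le_or_gt v m with hvm | hvm
        · nlinarith [mul_nonneg (sub_nonneg.2 hvm) h0]
        · have : (m - v) / (m / 2) ≤ 0 :=
            div_nonpos_of_nonpos_of_nonneg (by linarith) (by positivity)
          rw [Real.smoothTransition.zero_of_nonpos this]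
          linarith
    · have hv := hmle q hq
      have : (m - φ (p0 + L.path q.1 q.2)) / (m / 2) ≤ 0 :=
        div_nonpos_of_nonpos_of_nonneg (by linarith) (by positivity)
      simp only [Real.smoothTransition.zero_of_nonpos this, mul_zero, add_zero]
  let path : ℝ → ℝ → X := fun s x =>
    (g (s, x))⁻¹ • (p0 + L.path s x) + ((g (s, x))⁻¹ * (g (s, x) - φ (p0 + L.path s x))) • p0 - p0
  have hval : ∀ s ∈ Icc (0 : ℝ) 1, ∀ x, p0 + path s x = unitMean φ (p0 + L.path s x) :=
    fun s hs x => by simp [path, hgeq (s, x) hs, unitMean]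
  refine ⟨{ path := path
            smooth := ?_
            supp := fun s x hx => ?_
            mem := fun s hs x => ?_
            others := fun s hs x l hl hlj => ?_
            face := fun s hs x => ?_
            turns_zero := ?_
            turns_one := ?_ }, ?_⟩
  · have hi : ContDiff ℝ (⊤ : ℕ∞) fun q : ℝ × ℝ => (g q)⁻¹ := hg.inv fun q => (hgpos q).ne'
    exact ((hi.smul (contDiff_const.add L.smooth)).add ((hi.mul (hg.sub
      (φ.contDiff.comp (contDiff_const.add L.smooth)))).smul contDiff_const)).sub contDiff_const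
  · have h0 := L.supp s x hx
    have hne := (hgpos (s, x)).ne'
    simp only [path, h0, add_zero, hp0, ← add_smul]
    rw [show (g (s, x))⁻¹ + (g (s, x))⁻¹ * (g (s, x) - 1) = 1 by field_simp; ring, one_smul,
      sub_self]
  · rw [hval s hs x]
    exact ⟨hOsc _ (L.mem s hs x) _ (inv_pos.2 (hmem s hs x)), map_unitMean (hmem s hs x).ne'⟩
  · rw [hval s hs x]
    exact hG l _ (L.mem s hs x) _ (inv_pos.2 (hmem s hs x)) (L.others s hs x l hl hlj)
  · have hs' : s ∈ Icc (0 : ℝ) 1 := by rcases hs with rfl | rfl <;> simp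
    rw [hval s hs' x]
    exact hG j _ (L.mem s hs' x) _ (inv_pos.2 (hmem s hs' x)) (L.face s hs x)
  · have e : (fun x => proj j (p0 + path 0 x)) = fun x => proj j (p0 + L.path 0 x) := by
      funext x
      rw [hval 0 (by simp) x]
      exact hP _ (L.mem 0 (by simp) x) (L.face 0 (by simp) x) _ (inv_pos.2 (hmem 0 (by simp) x))
    rw [e]
    exact L.turns_zero
  · have e : (fun x => proj j (p0 + path 1 x)) = fun x => proj j (p0 + L.path 1 x) := by
      funext x
      rw [hval 1 (by simp) x]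
      exact hP _ (L.mem 1 (by simp) x) (L.face 1 (by simp) x) _ (inv_pos.2 (hmem 1 (by simp) x))
    rw [e]
    exact L.turns_one
  · exact fun s hs x => hval s hs x

end

end Vale.Agent.P225.Disproof
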