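import Vale.Agent.P225.Disproof.PencilOp

/-!
# P225: the pencil is homogeneous in the weight
-/

namespace Vale.Agent.P225.Disproof

open Set
open scoped RealInnerProductSpace Pointwise

noncomputable section

section abstract

variable {H : Type*} [NormedAddCommGroup H] [InnerProductSpace ℝ H]

theorem nuSet_smul (T : H →L[ℝ] H) {c : ℝ} (hc : 0 < c) (i : ℕ) :
    nuSet (c • T) i = c • nuSet T i := by
  ext b
  constructor
  · rintro ⟨W, hW, hb⟩
    refine ⟨b / c, ⟨W, hW, fun x hx => ?_⟩, by simp [mul_div_cancel₀ b hc.ne']⟩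
    have h := hb x hx
    rw [smul_apply, real_inner_smul_left] at h
    rw [div_mul_eq_mul_div, div_le_iff₀ hc]
    linarith
  · rintro ⟨a, ⟨W, hW, ha⟩, rfl⟩
    refine ⟨W, hW, fun x hx => ?_⟩
    rw [smul_apply, real_inner_smul_left]
    simpa [smul_eq_mul, mul_assoc] using mul_le_mul_of_nonneg_left (ha x hx) hc.le

theorem nu_smul (T : H →L[ℝ] H) {c : ℝ} (hc : 0 < c) (i : ℕ) : nu (c • T) i = c * nu T i := by
  rw [nu, nuSet_smul T hc i, Real.sSup_smul_of_nonneg hc.le, smul_eq_mul]
  rfl

theorem gap_smul (T : H →L[ℝ] H) {c : ℝ} (hc : 0 < c) (j : ℕ) : Gap (c • T) j ↔ Gap T j := by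
  simp only [Gap, nu_smul T hc, mul_lt_mul_iff_right₀ hc]

theorem GoodOp.smul {T : H →L[ℝ] H} (hT : GoodOp T) {c : ℝ} (hc : 0 < c) : GoodOp (c • T) where
  symm x y := by simp [smul_apply, real_inner_smul_left, real_inner_smul_right, hT.symm x y]
  nonneg x := by
    rw [smul_apply, real_inner_smul_left]
    exact mul_nonneg hc.le (hT.nonneg x)
  compact := hT.compact.smul c
  pos j := by
    obtain ⟨W, hW, h⟩ := hT.pos j
    exact ⟨W, hW, fun x hx h0 => by
      rw [smul_apply, real_inner_smul_left]; exact mul_pos hc (h x hx h0)⟩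

variable [CompleteSpace H]

theorem topProj_smul {T : H →L[ℝ] H} (hT : GoodOp T) {c : ℝ} (hc : 0 < c) {j : ℕ}
    (hg : Gap T j) : topProj (c • T) j = topProj T j := by
  have h : topSpace T j = topSpace (c • T) j := by
    refine (hT.smul hc).eq_topSpace (fun x hx => ?_) (b := c * nu T (j - 1)) (fun x hx => ?_) ?_
      (hT.finrank_topSpace j)
    · rw [smul_apply]
      exact Submodule.smul_mem _ c (hT.topSpace_inv j hx)
    · rw [smul_apply, real_inner_smul_left, mul_assoc]
      exact mul_le_mul_of_nonneg_left (hT.le_form hg.1 hx) hc.le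
    · rw [nu_smul T hc]
      exact mul_lt_mul_of_pos_left hg.2 hc
  simp only [topProj]
  congr 1
  exact h.symm

end abstract

theorem pencil_smul (w : C(Sph 3, ℝ)) (c : ℝ) : pencil (c • w) = c • pencil w := by
  rcases eq_or_ne c 0 with rfl | hc
  · simp [pencil, redMass]
  have e : redMass (c • w) = c • redMass w := by
    simp only [redMass, map_smul, smul_apply, smul_eq_mul, smul_sub, smul_smul]
    congr 2
    field_simp
  simp only [pencil, e, ContinuousLinearMap.smul_comp, ContinuousLinearMap.comp_smul]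

end

end Vale.Agent.P225.Disproof
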