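import Mathlib.Analysis.SpecialFunctions.SmoothTransition
import Mathlib.Analysis.SpecialFunctions.Pow.Deriv
import Mathlib.MeasureTheory.Integral.IntervalIntegral.FundThmCalculus
import Mathlib.Analysis.Calculus.MeanValue
import Mathlib.Analysis.Calculus.IteratedDeriv.Lemmas
import Mathlib.Analysis.SpecialFunctions.ExpDeriv
import Mathlib.Analysis.Calculus.ContDiff.Deriv
import Mathlib.Analysis.SpecialFunctions.Integrals.Basic

/-!
# P225 L: the warping profile `a`

`a + a'` decreases from `1` with speed at least `K q`, `q t = τ⁻² (1 + t / τ) ^ (-4/3)`,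
and `a ^ 2` is within `eps` of `18 / 25` after time `τ`.
-/

namespace Vale.Agent.P225.Disproof.Met3

open Filter Topology Set intervalIntegral

noncomputable section

/-- The decay rate `τ⁻² (1 + t / τ) ^ (-4/3)`. -/
def qrate (τ t : ℝ) : ℝ := 1 / τ ^ 2 * (1 + t / τ) ^ (-(4 : ℝ) / 3)

/-- The properties of the warping profile. -/
structure IsProfile (K eps A C τ : ℝ) (a : ℝ → ℝ) : Prop where
  smooth : ContDiff ℝ (⊤ : ℕ∞) a
  one_of_nonpos : ∀ t ≤ 0, a t = 1
  lower : ∀ t, √(18 / 25) ≤ a t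
  le_one : ∀ t, a t ≤ 1
  deriv_nonpos : ∀ t, deriv a t ≤ 0
  phi_nonneg : ∀ t, √(18 / 25) ≤ a t + deriv a t
  phi_anti : ∀ t, deriv (fun s => a s + deriv a s) t ≤ 0
  phi_speed : ∀ t ≥ 1, K * qrate τ t ≤ -deriv (fun s => a s + deriv a s) t
  sq_late : ∀ t ≥ τ, a t ^ 2 ≤ 18 / 25 + eps
  deriv_late : ∀ t ≥ τ, |deriv a t| ≤ C * qrate τ t * a t
  deriv_small : ∀ t, |deriv a t| ≤ A / τ * a t
  bdd_deriv : ∀ m, ∃ B, ∀ t, |iteratedDeriv m a t| ≤ B

variable {τ : ℝ}

lemma qrate_base_pos (hτ : 0 < τ) {t : ℝ} (ht : -τ < t) : 0 < 1 + t / τ := by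
  have : -1 < t / τ := by rw [lt_div_iff₀ hτ]; linarith
  linarith

lemma qrate_pos (hτ : 0 < τ) {t : ℝ} (ht : -τ < t) : 0 < qrate τ t :=
  mul_pos (by positivity) (Real.rpow_pos_of_pos (qrate_base_pos hτ ht) _)

lemma hasDerivAt_base (r : ℝ) (hτ : 0 < τ) {t : ℝ} (ht : -τ < t) :
    HasDerivAt (fun s => (1 + s / τ) ^ r) (r / τ * (1 + t / τ) ^ (r - 1)) t := by
  have h1 : HasDerivAt (fun s : ℝ => 1 + s / τ) (1 / τ) t :=
    ((hasDerivAt_id' t).div_const τ).const_add 1
  convert h1.rpow_const (p := r) (Or.inl (qrate_base_pos hτ ht).ne') using 1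
  ring

lemma contDiffAt_base (r : ℝ) (hτ : 0 < τ) {t : ℝ} (ht : -τ < t) {m : WithTop ℕ∞} :
    ContDiffAt ℝ m (fun s => (1 + s / τ) ^ r) t :=
  (contDiffAt_const.add (contDiffAt_id.div_const τ)).rpow_const_of_ne (qrate_base_pos hτ ht).ne'

lemma hasDerivAt_qrate (hτ : 0 < τ) {t : ℝ} (ht : -τ < t) :
    HasDerivAt (qrate τ) (-(4 / 3) / (τ + t) * qrate τ t) t := by
  refine ((hasDerivAt_base _ hτ ht).const_mul (1 / τ ^ 2)).congr_deriv ?_
  have hb := qrate_base_pos hτ ht
  have h2 : τ + t ≠ 0 := by linarith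
  rw [qrate, Real.rpow_sub_one hb.ne']
  field_simp

lemma bdd_iteratedDeriv_base (hτ : 0 < τ) (m : ℕ) :
    ∀ r ≤ (0 : ℝ), ∃ B, ∀ t > 0, |iteratedDeriv m (fun s => (1 + s / τ) ^ r) t| ≤ B := by
  induction m with
  | zero =>
    refine fun r hr => ⟨1, fun t ht => ?_⟩
    have h1 : 1 ≤ 1 + t / τ := le_add_of_nonneg_right (by positivity)
    rw [iteratedDeriv_zero, abs_of_nonneg (by positivity)]
    exact Real.rpow_le_one_of_one_le_of_nonpos h1 hr
  | succ m ih =>
    intro r hr
    obtain ⟨B, hB⟩ := ih (r - 1) (by linarith)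
    refine ⟨|r / τ| * B, fun t ht => ?_⟩
    have hev : deriv (fun s => (1 + s / τ) ^ r) =ᶠ[𝓝 t]
        fun s => r / τ * (1 + s / τ) ^ (r - 1) := by
      filter_upwards [Ioi_mem_nhds ht] with s hs
      exact (hasDerivAt_base r hτ (by linarith [Set.mem_Ioi.1 hs])).deriv
    rw [iteratedDeriv_succ', hev.iteratedDeriv_eq, iteratedDeriv_const_mul_field, abs_mul]
    exact mul_le_mul_of_nonneg_left (hB t ht) (abs_nonneg _)

/-- The bump of the initial cap. -/
def cap (t : ℝ) : ℝ := Real.smoothTransition (4 * t) * Real.smoothTransition (2 - 4 * t)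

lemma contDiff_cap {m : ℕ∞} : ContDiff ℝ m cap :=
  (Real.smoothTransition.contDiff.comp (contDiff_const.mul contDiff_id)).mul
    (Real.smoothTransition.contDiff.comp (contDiff_const.sub (contDiff_const.mul contDiff_id)))

lemma cap_nonneg (t : ℝ) : 0 ≤ cap t :=
  mul_nonneg (Real.smoothTransition.nonneg _) (Real.smoothTransition.nonneg _)

lemma cap_le_one (t : ℝ) : cap t ≤ 1 :=
  mul_le_one₀ (Real.smoothTransition.le_one _) (Real.smoothTransition.nonneg _)
    (Real.smoothTransition.le_one _)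

lemma cap_eq_zero {t : ℝ} (ht : t ≤ 0 ∨ 1 / 2 ≤ t) : cap t = 0 := by
  rcases ht with h | h
  · rw [cap, Real.smoothTransition.zero_of_nonpos (by linarith : 4 * t ≤ 0), zero_mul]
  · rw [cap, Real.smoothTransition.zero_of_nonpos (by linarith : 2 - 4 * t ≤ 0), mul_zero]

/-- The mass of the cap. -/
def capMass : ℝ := ∫ t in (0 : ℝ)..(1 / 2), cap t

lemma capMass_pos : 0 < capMass := by
  refine integral_pos (by norm_num) (contDiff_cap (m := 0)).continuous.continuousOn
    (fun x _ => cap_nonneg x) ⟨1 / 4, ⟨by norm_num, by norm_num⟩, ?_⟩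
  rw [cap, Real.smoothTransition.one_of_one_le (by norm_num),
    Real.smoothTransition.one_of_one_le (by norm_num)]
  norm_num

/-- The part of the speed coming from `K q`. -/
def speedQ (K τ t : ℝ) : ℝ := K * (Real.smoothTransition t * qrate τ t)

lemma contDiff_speedQ (K : ℝ) (hτ : 0 < τ) : ContDiff ℝ (⊤ : ℕ∞) (speedQ K τ) := by
  refine contDiff_const.mul (contDiff_iff_contDiffAt.2 fun t => ?_)
  by_cases ht : -τ < t
  · exact Real.smoothTransition.contDiff.contDiffAt.mul
      (contDiffAt_const.mul (contDiffAt_base _ hτ ht))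
  · refine (contDiffAt_const (c := (0 : ℝ))).congr_of_eventuallyEq ?_
    filter_upwards [Iio_mem_nhds (show t < 0 by linarith)] with s hs
    simp [Real.smoothTransition.zero_of_nonpos (Set.mem_Iio.1 hs).le]

lemma speedQ_nonneg {K : ℝ} (hK : 0 ≤ K) (hτ : 0 < τ) (t : ℝ) : 0 ≤ speedQ K τ t := by
  refine mul_nonneg hK ?_
  by_cases ht : t ≤ 0
  · simp [Real.smoothTransition.zero_of_nonpos ht]
  · exact mul_nonneg (Real.smoothTransition.nonneg _) (qrate_pos hτ (by linarith)).le

lemma bdd_iteratedDeriv_speedQ (K : ℝ) (hτ : 0 < τ) (m : ℕ) :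
    ∃ B, ∀ t, |iteratedDeriv m (speedQ K τ) t| ≤ B := by
  obtain ⟨B1, hB1⟩ := bdd_iteratedDeriv_base hτ m (-(4 : ℝ) / 3) (by norm_num)
  obtain ⟨B2, hB2⟩ := (isCompact_Icc (a := (0 : ℝ)) (b := 2)).exists_bound_of_continuousOn
    ((contDiff_speedQ K hτ).continuous_iteratedDeriv m (by exact_mod_cast le_top)).continuousOn
  refine ⟨max (|K * (1 / τ ^ 2)| * B1) B2, fun t => ?_⟩
  by_cases h0 : t < 0
  · have hev : speedQ K τ =ᶠ[𝓝 t] fun _ => (0 : ℝ) := by
      filter_upwards [Iio_mem_nhds h0] with s hs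
      simp [speedQ, Real.smoothTransition.zero_of_nonpos (Set.mem_Iio.1 hs).le]
    rw [hev.iteratedDeriv_eq, iteratedDeriv_fun_const_zero, abs_zero]
    exact le_max_of_le_right ((norm_nonneg _).trans (hB2 0 ⟨le_rfl, by norm_num⟩))
  · by_cases h2 : t ≤ 2
    · exact le_max_of_le_right (hB2 t ⟨le_of_not_gt h0, h2⟩)
    · have hev : speedQ K τ =ᶠ[𝓝 t]
          fun s => K * (1 / τ ^ 2) * (1 + s / τ) ^ (-(4 : ℝ) / 3) := by
        filter_upwards [Ioi_mem_nhds (show (1 : ℝ) < t by linarith)] with s hs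
        rw [speedQ, Real.smoothTransition.one_of_one_le (Set.mem_Ioi.1 hs).le, one_mul, qrate,
          mul_assoc]
      rw [hev.iteratedDeriv_eq, iteratedDeriv_const_mul_field, abs_mul]
      exact le_max_of_le_left (mul_le_mul_of_nonneg_left (hB1 t (by linarith)) (abs_nonneg _))

/-- The speed `g = -φ'`. -/
def speed (θ K τ t : ℝ) : ℝ := θ / τ * cap (t / τ) + speedQ K τ t

variable {θ K : ℝ}

lemma contDiff_speed (hτ : 0 < τ) : ContDiff ℝ (⊤ : ℕ∞) (speed θ K τ) :=
  (contDiff_const.mul (contDiff_cap.comp (contDiff_id.div_const τ))).add (contDiff_speedQ K hτ)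

lemma speed_nonneg (hθ : 0 ≤ θ) (hK : 0 ≤ K) (hτ : 0 < τ) (t : ℝ) : 0 ≤ speed θ K τ t :=
  add_nonneg (mul_nonneg (div_nonneg hθ hτ.le) (cap_nonneg _)) (speedQ_nonneg hK hτ t)

lemma speed_eq_zero (hτ : 0 < τ) {t : ℝ} (ht : t ≤ 0) : speed θ K τ t = 0 := by
  simp [speed, speedQ, Real.smoothTransition.zero_of_nonpos ht,
    cap_eq_zero (Or.inl (div_nonpos_of_nonpos_of_nonneg ht hτ.le))]

lemma speed_le (hθ : 0 ≤ θ) (hK : 0 ≤ K) (hτ : 1 ≤ τ) (t : ℝ) :
    speed θ K τ t ≤ (θ + K) / τ := by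
  have hτ' : 0 < τ := by linarith
  rw [add_div]
  refine add_le_add (mul_le_of_le_one_right (by positivity) (cap_le_one _)) ?_
  rw [speedQ, div_eq_mul_inv]
  refine mul_le_mul_of_nonneg_left ?_ hK
  by_cases ht : t ≤ 0
  · simp only [Real.smoothTransition.zero_of_nonpos ht, zero_mul]; positivity
  · refine (mul_le_of_le_one_left (qrate_pos hτ' (by linarith)).le
      (Real.smoothTransition.le_one _)).trans ?_
    refine (mul_le_of_le_one_right (by positivity) (Real.rpow_le_one_of_one_le_of_nonpos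
      (le_add_of_nonneg_right (div_nonneg (by linarith) hτ'.le)) (by norm_num))).trans ?_
    rw [one_div]
    exact inv_anti₀ hτ' (by nlinarith)

lemma bdd_iteratedDeriv_speed (hτ : 0 < τ) (m : ℕ) :
    ∃ B, ∀ t, |iteratedDeriv m (speed θ K τ) t| ≤ B := by
  obtain ⟨B2, hB2⟩ := bdd_iteratedDeriv_speedQ K hτ m
  have hc : ContDiff ℝ (⊤ : ℕ∞) (fun s => θ / τ * cap (s / τ)) :=
    contDiff_const.mul (contDiff_cap.comp (contDiff_id.div_const τ))
  obtain ⟨B1, hB1⟩ := (isCompact_Icc (a := (0 : ℝ)) (b := τ)).exists_bound_of_continuousOn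
    (hc.continuous_iteratedDeriv m (by exact_mod_cast le_top)).continuousOn
  refine ⟨B1 + B2, fun t => ?_⟩
  have hadd : iteratedDeriv m (speed θ K τ) t =
      iteratedDeriv m (fun s => θ / τ * cap (s / τ)) t + iteratedDeriv m (speedQ K τ) t :=
    iteratedDeriv_fun_add (hc.of_le (by exact_mod_cast le_top)).contDiffAt
      ((contDiff_speedQ K hτ).of_le (by exact_mod_cast le_top)).contDiffAt
  rw [hadd]
  refine (abs_add_le _ _).trans (add_le_add ?_ (hB2 t))
  by_cases h : t ∈ Icc 0 τ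
  · exact hB1 t h
  · have hev : (fun s => θ / τ * cap (s / τ)) =ᶠ[𝓝 t] fun _ => (0 : ℝ) := by
      rcases not_and_or.1 (fun hh => h ⟨hh.1, hh.2⟩ : ¬ (0 ≤ t ∧ t ≤ τ)) with h' | h'
      · filter_upwards [Iio_mem_nhds (not_le.1 h')] with s hs
        simp [cap_eq_zero (Or.inl (div_nonpos_of_nonpos_of_nonneg (Set.mem_Iio.1 hs).le hτ.le))]
      · filter_upwards [Ioi_mem_nhds (not_le.1 h')] with s hs
        have : 1 ≤ s / τ := by rw [le_div_iff₀ hτ]; linarith [Set.mem_Ioi.1 hs]
        simp [cap_eq_zero (Or.inr (by linarith : 1 / 2 ≤ s / τ))]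
    rw [hev.iteratedDeriv_eq, iteratedDeriv_fun_const_zero, abs_zero]
    exact (norm_nonneg _).trans (hB1 0 ⟨le_rfl, hτ.le⟩)

lemma integral_qrate_le (hτ : 0 < τ) {t : ℝ} (ht : 0 ≤ t) :
    ∫ s in (0 : ℝ)..t, qrate τ s ≤ 3 / τ := by
  have hd : ∀ s ∈ uIcc 0 t,
      HasDerivAt (fun s => -3 / τ * (1 + s / τ) ^ (-(1 : ℝ) / 3)) (qrate τ s) s := by
    intro s hs
    rw [uIcc_of_le ht] at hs
    refine ((hasDerivAt_base _ hτ (by linarith [hs.1])).const_mul (-3 / τ)).congr_deriv ?_
    rw [qrate, show (-(1 : ℝ) / 3 - 1) = -(4 : ℝ) / 3 by norm_num]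
    field_simp
  rw [integral_eq_sub_of_hasDerivAt hd]
  · have h : 0 ≤ 3 / τ * (1 + t / τ) ^ (-(1 : ℝ) / 3) := by positivity
    simp only [zero_div, add_zero, Real.one_rpow, mul_one]
    rw [neg_div τ (3 : ℝ), neg_mul]
    linarith
  · refine ContinuousOn.intervalIntegrable fun s hs => ?_
    rw [uIcc_of_le ht] at hs
    exact ((contDiffAt_const.mul (contDiffAt_base _ hτ (by linarith [hs.1])) :
      ContDiffAt ℝ 0 (qrate τ) s)).continuousAt.continuousWithinAt

/-- The curve `φ = a + a'`. -/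
def phi (θ K τ t : ℝ) : ℝ := 1 - ∫ s in (0 : ℝ)..t, speed θ K τ s

/-- The defect `d = a - φ = -a'`. -/
def defect (θ K τ t : ℝ) : ℝ := Real.exp (-t) * ∫ s in (0 : ℝ)..t, Real.exp s * speed θ K τ s

lemma hasDerivAt_phi (hτ : 0 < τ) (t : ℝ) :
    HasDerivAt (phi θ K τ) (-speed θ K τ t) t :=
  (((contDiff_speed hτ).continuous.integral_hasStrictDerivAt _ t).hasDerivAt).const_sub 1

lemma hasDerivAt_defect (hτ : 0 < τ) (t : ℝ) :
    HasDerivAt (defect θ K τ) (speed θ K τ t - defect θ K τ t) t := by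
  have h1 : HasDerivAt (fun s => Real.exp (-s)) (-Real.exp (-t)) t := by
    simpa using (hasDerivAt_neg' t).exp
  have h2 := ((Real.continuous_exp.mul (contDiff_speed (θ := θ) (K := K) hτ).continuous)
    |>.integral_hasStrictDerivAt 0 t).hasDerivAt
  refine (h1.mul h2).congr_deriv ?_
  have he : Real.exp (-t) * Real.exp t = 1 := by
    rw [← Real.exp_add, neg_add_cancel, Real.exp_zero]
  simp only [defect, Pi.mul_apply]
  linear_combination speed θ K τ t * he

lemma contDiff_defect (hτ : 0 < τ) : ContDiff ℝ (⊤ : ℕ∞) (defect θ K τ) := by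
  refine (Real.contDiff_exp.comp contDiff_neg).mul ?_
  have hc : Continuous fun s => Real.exp s * speed θ K τ s :=
    Real.continuous_exp.mul (contDiff_speed hτ).continuous
  rw [contDiff_infty_iff_deriv]
  refine ⟨fun t => (hc.integral_hasStrictDerivAt 0 t).hasDerivAt.differentiableAt, ?_⟩
  rw [show deriv (fun x => ∫ s in (0 : ℝ)..x, Real.exp s * speed θ K τ s)
      = fun s => Real.exp s * speed θ K τ s from
    funext fun t => (hc.integral_hasStrictDerivAt 0 t).hasDerivAt.deriv]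
  exact Real.contDiff_exp.mul (contDiff_speed hτ)

lemma contDiff_phi (hτ : 0 < τ) : ContDiff ℝ (⊤ : ℕ∞) (phi θ K τ) := by
  rw [contDiff_infty_iff_deriv]
  refine ⟨fun t => (hasDerivAt_phi hτ t).differentiableAt, ?_⟩
  rw [show deriv (phi θ K τ) = fun t => -speed θ K τ t from
    funext fun t => (hasDerivAt_phi hτ t).deriv]
  exact (contDiff_speed hτ).neg

lemma defect_eq_zero (hτ : 0 < τ) {t : ℝ} (ht : t ≤ 0) : defect θ K τ t = 0 := by
  rw [defect, integral_congr (g := fun _ => (0 : ℝ))]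
  · simp
  · intro s hs
    rw [uIcc_of_ge ht] at hs
    simp [speed_eq_zero hτ hs.2]

lemma phi_eq_one (hτ : 0 < τ) {t : ℝ} (ht : t ≤ 0) : phi θ K τ t = 1 := by
  rw [phi, integral_congr (g := fun _ => (0 : ℝ))]
  · simp
  · intro s hs
    rw [uIcc_of_ge ht] at hs
    simp [speed_eq_zero hτ hs.2]

lemma defect_nonneg (hθ : 0 ≤ θ) (hK : 0 ≤ K) (hτ : 0 < τ) (t : ℝ) : 0 ≤ defect θ K τ t := by
  rcases le_total t 0 with h | h
  · exact (defect_eq_zero hτ h).ge
  · exact mul_nonneg (Real.exp_pos _).le (integral_nonneg h fun s _ =>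
      mul_nonneg (Real.exp_pos _).le (speed_nonneg hθ hK hτ s))

lemma defect_le (hθ : 0 ≤ θ) (hK : 0 ≤ K) (hτ : 1 ≤ τ) (t : ℝ) :
    defect θ K τ t ≤ (θ + K) / τ := by
  have hτ' : 0 < τ := by linarith
  have hM : 0 ≤ (θ + K) / τ := by positivity
  rcases le_total t 0 with h | h
  · rw [defect_eq_zero hτ' h]; exact hM
  · have h1 : ∫ s in (0 : ℝ)..t, Real.exp s * speed θ K τ s
        ≤ ∫ s in (0 : ℝ)..t, Real.exp s * ((θ + K) / τ) :=
      integral_mono_on h
        ((Real.continuous_exp.mul (contDiff_speed hτ').continuous).intervalIntegrable _ _)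
        ((Real.continuous_exp.mul continuous_const).intervalIntegrable _ _)
        fun s _ => mul_le_mul_of_nonneg_left (speed_le hθ hK hτ s) (Real.exp_pos _).le
    rw [integral_mul_const, integral_exp, Real.exp_zero] at h1
    refine (mul_le_mul_of_nonneg_left h1 (Real.exp_pos _).le).trans ?_
    have : Real.exp (-t) * Real.exp t = 1 := by rw [← Real.exp_add, neg_add_cancel, Real.exp_zero]
    nlinarith [Real.exp_pos (-t), mul_nonneg hM (Real.exp_pos (-t)).le]

lemma tail_le (hτ : 4 ≤ τ) {t : ℝ} (ht : τ ≤ t) :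
    Real.exp (τ / 2 - t) / τ ≤ 192 * qrate τ t := by
  have hτ' : 0 < τ := by linarith
  have ht0 : 0 < t := by linarith
  have hb1 : 1 ≤ 1 + t / τ := le_add_of_nonneg_right (by positivity)
  have hb2 : 1 + t / τ ≤ 2 * t / τ := by
    have : 1 ≤ t / τ := by rwa [le_div_iff₀ hτ', one_mul]
    linarith [mul_div_assoc (2 : ℝ) t τ]
  have hq : 1 / τ ^ 2 * (1 / (2 * t / τ) ^ 2) ≤ qrate τ t := by
    refine mul_le_mul_of_nonneg_left ?_ (by positivity)
    refine le_trans ?_ (Real.rpow_le_rpow_of_exponent_le hb1 (show (-(2 : ℕ) : ℝ) ≤ -4 / 3 by norm_num))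
    rw [Real.rpow_neg (by linarith), Real.rpow_natCast, one_div]
    exact inv_anti₀ (by positivity) (pow_le_pow_left₀ (by linarith) hb2 2)
  have he : (t / 2) ^ 3 / 6 ≤ Real.exp (t / 2) := by
    simpa [Nat.factorial] using Real.pow_div_factorial_le_exp (t / 2) (by linarith) 3
  have he2 : Real.exp (τ / 2 - t) ≤ 48 / t ^ 3 := by
    calc Real.exp (τ / 2 - t) ≤ Real.exp (-(t / 2)) := Real.exp_le_exp.2 (by linarith)
      _ = 1 / Real.exp (t / 2) := by rw [Real.exp_neg, one_div]
      _ ≤ 1 / ((t / 2) ^ 3 / 6) := one_div_le_one_div_of_le (by positivity) he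
      _ = 48 / t ^ 3 := by field_simp; ring
  refine le_trans (div_le_div_of_nonneg_right he2 hτ'.le) (le_trans ?_
    (mul_le_mul_of_nonneg_left hq (by norm_num : (0 : ℝ) ≤ 192)))
  rw [show 192 * (1 / τ ^ 2 * (1 / (2 * t / τ) ^ 2)) = 48 / t ^ 2 by field_simp; ring, div_div,
    div_le_div_iff₀ (by positivity) (by positivity)]
  nlinarith [pow_pos ht0 2, mul_le_mul_of_nonneg_left (show (1 : ℝ) ≤ t * τ by nlinarith) (sq_nonneg t)]

lemma defect_late (hθ : 0 ≤ θ) (hK : 0 ≤ K) (hτ : 4 ≤ τ) {t : ℝ} (ht : τ ≤ t) :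
    defect θ K τ t ≤ (2 * K + 192 * (θ + K)) * qrate τ t := by
  have hτ' : 0 < τ := by linarith
  set H : ℝ → ℝ := fun s =>
    (∫ r in (0 : ℝ)..s, Real.exp r * speed θ K τ r) - 2 * K * (Real.exp s * qrate τ s) with hH
  have hd : ∀ s, τ / 2 ≤ s → HasDerivAt H (Real.exp s * speed θ K τ s
      - 2 * K * (Real.exp s * qrate τ s + Real.exp s * (-(4 / 3) / (τ + s) * qrate τ s))) s :=
    fun s hs => (((Real.continuous_exp.mul (contDiff_speed hτ').continuous)
      |>.integral_hasStrictDerivAt 0 s).hasDerivAt).sub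
        (((Real.hasDerivAt_exp s).mul (hasDerivAt_qrate hτ' (by linarith))).const_mul (2 * K))
  have hanti : AntitoneOn H (Icc (τ / 2) t) := by
    refine antitoneOn_of_hasDerivWithinAt_nonpos (convex_Icc _ _)
      (fun s hs => (hd s hs.1).continuousAt.continuousWithinAt)
      (fun s hs => (hd s (interior_subset hs).1).hasDerivWithinAt) fun s hs => ?_
    have hs' : τ / 2 ≤ s := (interior_subset hs).1
    have hq := qrate_pos hτ' (show -τ < s by linarith)
    have hg : speed θ K τ s ≤ K * qrate τ s := by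
      have : cap (s / τ) = 0 := cap_eq_zero (Or.inr (by rw [le_div_iff₀ hτ']; linarith))
      simp only [speed, this, mul_zero, zero_add, speedQ]
      exact mul_le_mul_of_nonneg_left (mul_le_of_le_one_left hq.le
        (Real.smoothTransition.le_one _)) hK
    have h43 : (4 / 3) / (τ + s) ≤ 1 / 2 := by
      rw [div_le_div_iff₀ (by linarith) (by norm_num)]; linarith
    rw [neg_div]
    nlinarith [mul_le_mul_of_nonneg_left hg (Real.exp_pos s).le,
      mul_le_mul_of_nonneg_left h43 (mul_nonneg (mul_nonneg (Real.exp_pos s).le hq.le) hK)]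
  have h0 := hanti ⟨le_rfl, by linarith⟩ ⟨by linarith, le_rfl⟩ (show τ / 2 ≤ t by linarith)
  have hint : ∫ r in (0 : ℝ)..τ / 2, Real.exp r * speed θ K τ r
      ≤ Real.exp (τ / 2) * ((θ + K) / τ) := by
    have h := defect_le hθ hK (by linarith : 1 ≤ τ) (τ / 2)
    rw [defect, Real.exp_neg, inv_mul_le_iff₀ (Real.exp_pos _)] at h
    exact h
  have hq2 := qrate_pos hτ' (show -τ < τ / 2 by linarith)
  have h1 : ∫ r in (0 : ℝ)..t, Real.exp r * speed θ K τ r
      ≤ Real.exp (τ / 2) * ((θ + K) / τ) + 2 * K * (Real.exp t * qrate τ t) := by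
    simp only [hH] at h0
    nlinarith [h0, hint, mul_nonneg hK (mul_nonneg (Real.exp_pos (τ / 2)).le hq2.le)]
  calc defect θ K τ t ≤ Real.exp (-t)
        * (Real.exp (τ / 2) * ((θ + K) / τ) + 2 * K * (Real.exp t * qrate τ t)) :=
        mul_le_mul_of_nonneg_left h1 (Real.exp_pos _).le
    _ = (θ + K) * (Real.exp (τ / 2 - t) / τ) + 2 * K * qrate τ t := by
        rw [mul_add, show Real.exp (τ / 2 - t) = Real.exp (-t) * Real.exp (τ / 2) by
          rw [← Real.exp_add]; ring_nf]
        have : Real.exp (-t) * Real.exp t = 1 := by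
          rw [← Real.exp_add, neg_add_cancel, Real.exp_zero]
        linear_combination (2 * K * qrate τ t) * this
    _ ≤ _ := by nlinarith [mul_le_mul_of_nonneg_left (tail_le hτ ht) (add_nonneg hθ hK)]

/-- The warping profile. -/
theorem exists_profile (K eps : ℝ) (hK : 0 ≤ K) (he : 0 < eps) :
    ∃ τs A C : ℝ, 1 ≤ τs ∧ 0 ≤ A ∧ 0 ≤ C ∧
      ∀ τ, τs ≤ τ → ∃ a, IsProfile K eps A C τ a := by
  set b : ℝ := √(18 / 25) with hb
  have hb0 : 4 / 5 ≤ b := by rw [hb, Real.le_sqrt (by norm_num) (by norm_num)]; norm_num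
  have hb1 : b < 1 := by rw [hb, Real.sqrt_lt' (by norm_num)]; norm_num
  have hb2 : b ^ 2 = 18 / 25 := Real.sq_sqrt (by norm_num)
  have hcm := capMass_pos
  set T : ℝ := (1 - b) / capMass
  have hT : 0 ≤ T := div_nonneg (by linarith) hcm.le
  set A0 : ℝ := T + K
  have hA0 : 0 ≤ A0 := add_nonneg hT hK
  refine ⟨max 4 (max (3 * K / (1 - b)) (2 * (3 * K + A0) / eps)), 2 * A0,
    2 * (2 * K + 192 * A0), le_max_of_le_left (by norm_num), by linarith, by positivity,
    fun τ hτ => ?_⟩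
  simp only [max_le_iff] at hτ
  obtain ⟨hτ4, hτK, hτe⟩ := hτ
  have hτ0 : 0 < τ := by linarith
  rw [div_le_iff₀ (by linarith)] at hτK
  rw [div_le_iff₀ he] at hτe
  set θ : ℝ := (1 - b - 3 * K / τ) / capMass with hθd
  have hKτ : 3 * K / τ ≤ 1 - b := by rw [div_le_iff₀ hτ0]; linarith
  have hθ : 0 ≤ θ := div_nonneg (by linarith) hcm.le
  have hθT : θ ≤ T := div_le_div_of_nonneg_right
    (sub_le_self _ (by positivity)) hcm.le
  have hA : ∀ t, defect θ K τ t ≤ A0 / τ := fun t =>
    (defect_le hθ hK (by linarith) t).trans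
      (div_le_div_of_nonneg_right (by linarith) hτ0.le)
  have cg := (contDiff_speed (θ := θ) (K := K) hτ0).continuous
  have cc : Continuous fun s => θ / τ * cap (s / τ) :=
    continuous_const.mul ((contDiff_cap (m := 0)).continuous.comp (continuous_id.div_const τ))
  have cq := (contDiff_speedQ K hτ0).continuous
  have hG : ∀ t, 0 ≤ t → ∫ s in (0 : ℝ)..t, speed θ K τ s
      = (∫ s in (0 : ℝ)..t, θ / τ * cap (s / τ)) + ∫ s in (0 : ℝ)..t, speedQ K τ s :=
    fun t _ => integral_add (cc.intervalIntegrable _ _) (cq.intervalIntegrable _ _)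
  have hcap : ∀ t, τ / 2 ≤ t → ∫ s in (0 : ℝ)..t, θ / τ * cap (s / τ) = 1 - b - 3 * K / τ := by
    intro t ht
    rw [integral_const_mul, integral_comp_div cap hτ0.ne', zero_div, smul_eq_mul,
      ← integral_add_adjacent_intervals (b := 1 / 2)
        ((contDiff_cap (m := 0)).continuous.intervalIntegrable _ _)
        ((contDiff_cap (m := 0)).continuous.intervalIntegrable _ _),
      integral_congr (a := 1 / 2) (g := fun _ => (0 : ℝ))]
    · rw [intervalIntegral.integral_zero, add_zero, ← capMass, hθd]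
      field_simp
    · intro s hs
      rw [uIcc_of_le (by rw [le_div_iff₀ hτ0]; linarith)] at hs
      exact cap_eq_zero (Or.inr hs.1)
  have hQ : ∀ t, 0 ≤ t → ∫ s in (0 : ℝ)..t, speedQ K τ s ≤ 3 * K / τ := by
    intro t ht
    have cqr : IntervalIntegrable (qrate τ) MeasureTheory.volume 0 t := by
      refine ContinuousOn.intervalIntegrable fun s hs => ?_
      rw [uIcc_of_le ht] at hs
      exact (hasDerivAt_qrate hτ0 (by linarith [hs.1])).continuousAt.continuousWithinAt
    refine (integral_mono_on ht (cq.intervalIntegrable _ _) (cqr.const_mul K)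
      fun s hs => mul_le_mul_of_nonneg_left (mul_le_of_le_one_left
        (qrate_pos hτ0 (by linarith [hs.1])).le (Real.smoothTransition.le_one _)) hK).trans ?_
    rw [integral_const_mul, mul_comm (3 : ℝ), mul_div_assoc]
    exact mul_le_mul_of_nonneg_left (integral_qrate_le hτ0 ht) hK
  have hphi : ∀ t, b ≤ phi θ K τ t := by
    intro t
    by_cases ht : t ≤ 0
    · rw [phi_eq_one hτ0 ht]; linarith
    · have ht' : 0 ≤ t := by linarith
      have hle : 0 ≤ max t (τ / 2) := le_max_of_le_left ht'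
      have : ∫ s in (0 : ℝ)..t, speed θ K τ s ≤ ∫ s in (0 : ℝ)..max t (τ / 2), speed θ K τ s :=
        integral_mono_interval le_rfl ht' (le_max_left _ _)
          (Filter.Eventually.of_forall (speed_nonneg hθ hK hτ0)) (cg.intervalIntegrable _ _)
      rw [hG _ hle, hcap _ (le_max_right _ _)] at this
      unfold phi
      linarith [hQ _ hle]
  have hphile : ∀ t, τ ≤ t → phi θ K τ t ≤ b + 3 * K / τ := by
    intro t ht
    unfold phi
    rw [hG t (by linarith), hcap t (by linarith)]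
    linarith [integral_nonneg (μ := MeasureTheory.volume) (show (0 : ℝ) ≤ t by linarith)
      fun s _ => speedQ_nonneg hK hτ0 s]
  set a : ℝ → ℝ := fun t => phi θ K τ t + defect θ K τ t with had
  have hd : ∀ t, HasDerivAt a (-defect θ K τ t) t := fun t =>
    ((hasDerivAt_phi hτ0 t).add (hasDerivAt_defect hτ0 t)).congr_deriv (by ring)
  have hda : deriv a = fun t => -defect θ K τ t := funext fun t => (hd t).deriv
  have hphd : (fun s => a s + deriv a s) = phi θ K τ := by
    funext s; rw [hda]; simp only [had]; ring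
  have hlow : ∀ t, b ≤ a t := fun t => by
    have := hphi t
    have := defect_nonneg hθ hK hτ0 t
    simp only [had]; linarith
  have hanti : Antitone a := antitone_of_hasDerivAt_nonpos (f' := fun t => -defect θ K τ t) hd
    fun t => neg_nonpos.2 (defect_nonneg hθ hK hτ0 t)
  have h1 : ∀ t ≤ 0, a t = 1 := fun t ht => by
    simp [had, phi_eq_one hτ0 ht, defect_eq_zero hτ0 ht]
  have habs : ∀ t, |deriv a t| = defect θ K τ t := fun t => by
    rw [hda, abs_neg, abs_of_nonneg (defect_nonneg hθ hK hτ0 t)]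
  refine ⟨a, ⟨(contDiff_phi hτ0).add (contDiff_defect hτ0), h1, hlow, fun t => ?_, fun t => ?_,
    fun t => ?_, fun t => ?_, fun t ht => ?_, fun t ht => ?_, fun t ht => ?_, fun t => ?_,
    fun m => ?_⟩⟩
  · rcases le_total t 0 with ht | ht
    · exact (h1 t ht).le
    · exact (hanti ht).trans (h1 0 le_rfl).le
  · rw [hda]; exact neg_nonpos.2 (defect_nonneg hθ hK hτ0 t)
  · rw [show a t + deriv a t = phi θ K τ t from congr_fun hphd t]; exact hphi t
  · rw [hphd, (hasDerivAt_phi hτ0 t).deriv]; exact neg_nonpos.2 (speed_nonneg hθ hK hτ0 t)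
  · rw [hphd, (hasDerivAt_phi hτ0 t).deriv, neg_neg]
    simp only [speed, speedQ, Real.smoothTransition.one_of_one_le ht, one_mul]
    exact le_add_of_nonneg_left (mul_nonneg (div_nonneg hθ hτ0.le) (cap_nonneg _))
  · have h3 : a t ≤ b + (3 * K + A0) / τ := by
      have := hphile t ht
      have := hA t
      have := add_div (3 * K) A0 τ
      simp only [had]; linarith
    have h4 : (3 * K + A0) / τ ≤ eps / 2 := by rw [div_le_iff₀ hτ0]; linarith
    have h5 : a t ≤ 1 := (hanti (show 0 ≤ t by linarith)).trans (h1 0 le_rfl).le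
    nlinarith [hlow t]
  · rw [habs]
    have hq := qrate_pos hτ0 (show -τ < t by linarith)
    have hl := hlow t
    have h2 := defect_late hθ hK hτ4 ht
    have h3 : (2 * K + 192 * (θ + K)) * qrate τ t ≤ (2 * K + 192 * A0) * qrate τ t :=
      mul_le_mul_of_nonneg_right (by linarith) hq.le
    nlinarith [mul_le_mul_of_nonneg_left (show (1 : ℝ) / 2 ≤ a t by linarith)
      (mul_nonneg (show (0 : ℝ) ≤ 2 * (2 * K + 192 * A0) by positivity) hq.le)]
  · rw [habs]
    refine (hA t).trans ?_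
    rw [mul_div_assoc, mul_comm (2 : ℝ), mul_assoc]
    exact le_mul_of_one_le_right (div_nonneg hA0 hτ0.le) (by linarith [hlow t])
  · have hDd : ∀ j, ∃ B, ∀ t, |iteratedDeriv j (defect θ K τ) t| ≤ B := by
      intro j
      induction j with
      | zero =>
        refine ⟨A0 / τ, fun t => ?_⟩
        rw [iteratedDeriv_zero, abs_of_nonneg (defect_nonneg hθ hK hτ0 t)]
        exact hA t
      | succ j ih =>
        obtain ⟨B1, hB1⟩ := ih
        obtain ⟨B2, hB2⟩ := bdd_iteratedDeriv_speed (θ := θ) (K := K) hτ0 j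
        refine ⟨B2 + B1, fun t => ?_⟩
        rw [iteratedDeriv_succ', show deriv (defect θ K τ)
          = fun s => speed θ K τ s - defect θ K τ s from
            funext fun s => (hasDerivAt_defect hτ0 s).deriv,
          iteratedDeriv_fun_sub ((contDiff_speed hτ0).of_le (by exact_mod_cast le_top)).contDiffAt
            ((contDiff_defect hτ0).of_le (by exact_mod_cast le_top)).contDiffAt]
        exact (abs_sub _ _).trans (add_le_add (hB2 t) (hB1 t))
    cases m with
    | zero =>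
      refine ⟨1, fun t => ?_⟩
      rw [iteratedDeriv_zero, abs_of_nonneg (by linarith [hlow t])]
      rcases le_total t 0 with ht | ht
      · exact (h1 t ht).le
      · exact (hanti ht).trans (h1 0 le_rfl).le
    | succ j =>
      obtain ⟨B, hB⟩ := hDd j
      refine ⟨B, fun t => ?_⟩
      rw [iteratedDeriv_succ', hda, iteratedDeriv_fun_neg, abs_neg]
      exact hB t

end

end Vale.Agent.P225.Disproof.Met3
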