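import Vale.Agent.P225.Disproof.Weights
import Vale.Agent.P225.Disproof.MetricProfile

/-!
# P225: the bounds of the weights along the control

The constants depend on the shapes (`ShapeBd`) and not on the schedule. In half block `h` the
weights move at relative rate `K / tau h`; globally at rate `K / tau0`; and the first and second
time derivatives obey the budget `tau0⁻² (1 + t / tau0) ^ (-4/3)` of the profile.
-/

namespace Vale.Agent.P225.Disproof

open Set Filter Topology MvPolynomial Met3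
open scoped RealInnerProductSpace

noncomputable section

theorem budget_nonneg {tau0 t : ℝ} (h : 0 < tau0) (ht : 0 ≤ t) : 0 ≤ qrate tau0 t :=
  mul_nonneg (by positivity) (Real.rpow_nonneg (by positivity) _)

theorem budget_le {tau0 t : ℝ} (h : 0 < tau0) (ht : 0 ≤ t) : qrate tau0 t ≤ (tau0 ^ 2)⁻¹ := by
  rw [qrate, one_div]
  exact mul_le_of_le_one_right (by positivity)
    (Real.rpow_le_one_of_one_le_of_nonpos (le_add_of_nonneg_right (by positivity)) (by norm_num))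

/-- Lower bound of the budget up to a fixed multiple of `tau0`. -/
theorem le_budget {tau0 t Y : ℝ} (h : 0 < tau0) (ht : 0 ≤ t) (hY : 1 + t / tau0 ≤ Y) :
    1 / tau0 ^ 2 ≤ Y ^ 2 * qrate tau0 t := by
  have hy : 1 ≤ 1 + t / tau0 := le_add_of_nonneg_right (by positivity)
  have h1 : (1 + t / tau0) ^ ((4 : ℝ) / 3) ≤ Y ^ 2 := by
    refine (Real.rpow_le_rpow_of_exponent_le hy
      (show (4 : ℝ) / 3 ≤ ((2 : ℕ) : ℝ) by norm_num)).trans ?_
    rw [Real.rpow_natCast]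
    exact pow_le_pow_left₀ (by linarith) hY 2
  have h2 : 0 < (1 + t / tau0) ^ ((4 : ℝ) / 3) := Real.rpow_pos_of_pos (by linarith) _
  rw [qrate, one_div, neg_div, Real.rpow_neg (by linarith), ← mul_assoc, mul_comm (Y ^ 2),
    mul_assoc]
  exact le_mul_of_one_le_right (by positivity) (by rw [← div_eq_mul_inv, one_le_div h2]; exact h1)

namespace Sched

variable (S : Sched)

/-- Time grows at least like the cube of the block number. -/
theorem le_hstart (h : ℕ) : S.t1 + S.tau0 * (((h / 2 : ℕ) : ℝ) ^ 3 / 3) ≤ S.hstart h := by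
  induction h with
  | zero => simp [hstart]
  | succ h ih =>
    have hP : (1 : ℝ) ≤ S.P := by exact_mod_cast S.hP
    have h1 : S.tau h ≤ S.halfLen h :=
      le_trans (le_mul_of_one_le_left (S.tau_pos h).le hP) (S.tau_le_halfLen h)
    have h2 : ((((h + 1) / 2 : ℕ) : ℝ) ^ 3 - ((h / 2 : ℕ) : ℝ) ^ 3) / 3 ≤
        (((h / 2 : ℕ) : ℝ) + 1) ^ 2 := by
      have hc : (h + 1) / 2 = h / 2 ∨ (h + 1) / 2 = h / 2 + 1 := by omega
      have h0 : (0 : ℝ) ≤ ((h / 2 : ℕ) : ℝ) := Nat.cast_nonneg _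
      rcases hc with hc | hc <;> rw [hc]
      · simp only [sub_self, zero_div]
        positivity
      · push_cast
        nlinarith
    have h3 := mul_le_mul_of_nonneg_left h2 S.htau0.le
    rw [hstart_succ]
    have e : S.tau h = S.tau0 * (((h / 2 : ℕ) : ℝ) + 1) ^ 2 := rfl
    linarith

/-- In half block `h` the budget is below `1 / tau h`. -/
theorem budget_le_inv_tau (h : ℕ) {t : ℝ} (h1 : 1 ≤ S.tau0) (ht1 : 0 ≤ S.t1)
    (ht : S.hstart h ≤ t) : qrate S.tau0 t ≤ 144 / S.tau h := by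
  have h0 := S.htau0
  have hL := S.le_hstart h
  set n : ℝ := ((h / 2 : ℕ) : ℝ)
  have hn : (0 : ℝ) ≤ n := Nat.cast_nonneg _
  have ht0 : 0 ≤ t := by nlinarith [pow_nonneg hn 3]
  set y := 1 + t / S.tau0
  have hy : (n + 1) ^ 3 / 12 ≤ y := by
    have : n ^ 3 / 3 ≤ t / S.tau0 := by
      rw [le_div_iff₀ h0]
      linarith
    show (n + 1) ^ 3 / 12 ≤ 1 + t / S.tau0
    nlinarith [mul_nonneg (sq_nonneg (n - 1)) hn, sq_nonneg (n - 1)]
  have hy1 : 1 ≤ y := le_add_of_nonneg_right (by positivity)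
  have h2 : (n + 1) ^ 2 ≤ 144 * y ^ ((4 : ℝ) / 3) := by
    have e1 : y ≤ y ^ ((4 : ℝ) / 3) := Real.self_le_rpow_of_one_le hy1 (by norm_num)
    have e2 : (n + 1) ^ 2 ≤ (n + 1) ^ 3 := pow_le_pow_right₀ (by linarith) (by norm_num)
    linarith
  have h4 : 0 < y ^ ((4 : ℝ) / 3) := Real.rpow_pos_of_pos (by linarith) _
  have e : S.tau h = S.tau0 * (n + 1) ^ 2 := rfl
  rw [qrate, one_div, neg_div, Real.rpow_neg (by linarith), e, ← mul_inv, inv_eq_one_div,
    div_le_div_iff₀ (by positivity) (by positivity)]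
  calc 1 * (S.tau0 * (n + 1) ^ 2) ≤ S.tau0 * (144 * y ^ ((4 : ℝ) / 3)) := by
        rw [one_mul]; exact mul_le_mul_of_nonneg_left h2 h0.le
    _ ≤ 144 * (S.tau0 ^ 2 * y ^ ((4 : ℝ) / 3)) := by
        nlinarith [mul_nonneg (mul_nonneg h0.le (sub_nonneg.2 h1)) h4.le]

/-- `1 / tau h ²` is below the budget, with a constant in terms of bounds on the geometry. -/
theorem inv_tau_sq_le_budget (h : ℕ) {t M : ℝ} (ht : t ∈ Icc S.t1 (S.hstart (h + 1)))
    (ht1 : 0 ≤ S.t1) (hM1 : S.t1 ≤ M * S.tau0) (hM2 : (1 + S.kap) * S.P ≤ M) :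
    1 / S.tau h ^ 2 ≤ 9 * (M * (1 + M)) ^ 2 * qrate S.tau0 t := by
  have h0 := S.htau0
  have hP : (1 : ℝ) ≤ S.P := by exact_mod_cast S.hP
  set c := (1 + S.kap) * S.P with hc
  have hc1 : 1 ≤ c := by nlinarith [S.hkap]
  have hM : 1 ≤ M := hc1.trans hM2
  set z := 1 + (t - S.t1) / (c * S.tau0) with hz
  have hd : 0 ≤ (t - S.t1) / (c * S.tau0) :=
    div_nonneg (sub_nonneg.2 ht.1) (by positivity)
  have hz1 : 1 ≤ z := le_add_of_nonneg_right hd
  have ht0 : 0 ≤ t := ht1.trans ht.1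
  have hy : 1 + t / S.tau0 ≤ M * (1 + M) * z := by
    have e1 : t / S.tau0 = S.t1 / S.tau0 + c * ((t - S.t1) / (c * S.tau0)) := by
      field_simp
      ring
    have e2 : S.t1 / S.tau0 ≤ M := by rwa [div_le_iff₀ h0]
    have e3 : c * ((t - S.t1) / (c * S.tau0)) ≤ M * (1 + M) * ((t - S.t1) / (c * S.tau0)) :=
      mul_le_mul_of_nonneg_right (by nlinarith) hd
    rw [hz]
    nlinarith
  set y := 1 + t / S.tau0
  have hy0 : 0 < y := lt_of_lt_of_le one_pos (le_add_of_nonneg_right (by positivity))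
  have key : z ^ (-(4 : ℝ) / 3) ≤ (M * (1 + M)) ^ 2 * y ^ (-(4 : ℝ) / 3) := by
    have hk : 0 < M * (1 + M) := by positivity
    have e := Real.rpow_le_rpow_of_nonpos hy0 hy (show -(4 : ℝ) / 3 ≤ 0 by norm_num)
    rw [Real.mul_rpow hk.le (by linarith)] at e
    have e4 : ((M * (1 + M)) ^ 2)⁻¹ ≤ (M * (1 + M)) ^ (-(4 : ℝ) / 3) := by
      rw [← Real.rpow_natCast (M * (1 + M)) 2, ← Real.rpow_neg hk.le]
      exact Real.rpow_le_rpow_of_exponent_le (by nlinarith) (by norm_num)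
    have e5 := (mul_le_mul_of_nonneg_right e4 (Real.rpow_nonneg (by linarith) _)).trans e
    rwa [inv_mul_le_iff₀ (by positivity)] at e5
  refine (S.inv_tau_sq_le h ht.1 ht.2).trans ?_
  show 9 / S.tau0 ^ 2 * z ^ (-(4 : ℝ) / 3) ≤ 9 * (M * (1 + M)) ^ 2 * qrate S.tau0 t
  refine (mul_le_mul_of_nonneg_left key (by positivity)).trans (le_of_eq ?_)
  rw [qrate, one_div, div_eq_mul_inv]
  ring

theorem exists_block {t : ℝ} (ht : S.t1 ≤ t) :
    ∃ h, t ∈ Icc (S.hstart h) (S.hstart (h + 1)) := by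
  classical
  have hex : ∃ h : ℕ, t ≤ S.hstart (h + 1) := by
    obtain ⟨n, hn⟩ := exists_nat_ge ((t - S.t1) / S.tau0)
    refine ⟨n, le_trans ?_ (le_trans (S.hstart_ge n) (S.hstart_mono n.le_succ))⟩
    rw [div_le_iff₀ S.htau0] at hn
    linarith
  refine ⟨Nat.find hex, ?_, Nat.find_spec hex⟩
  rcases Nat.eq_zero_or_pos (Nat.find hex) with h0 | h0
  · rw [h0]
    simpa [hstart] using ht
  · have := Nat.find_min hex (Nat.sub_lt h0 one_pos)
    rw [Nat.sub_add_cancel (Nat.one_le_iff_ne_zero.2 (Nat.pos_iff_ne_zero.1 h0)), not_le] at this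
    exact this.le

end Sched

variable {X : Type*} [NormedAddCommGroup X] [NormedSpace ℝ X]

/-- The loop derivatives as a jointly continuous function, and their bound on the parameter
interval. -/
theorem LoopFam.exists_deriv {P : ℕ} (L : LoopFam X P) (m : ℕ) (k : Fin P) :
    ∃ G : ℝ × ℝ → X, ContDiff ℝ (⊤ : ℕ∞) G ∧
      ∀ u x, iteratedDeriv m (L.path k u) x = G (u, x) := by
  induction m with
  | zero => exact ⟨fun p => L.path k p.1 p.2, L.smooth k, fun u x => by simp⟩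
  | succ m ih =>
    obtain ⟨G, hG, hGe⟩ := ih
    refine ⟨fun p => fderiv ℝ G p (0, 1),
      (hG.fderiv_right (m := (⊤ : ℕ∞)) le_rfl).clm_apply contDiff_const, fun u x => ?_⟩
    have e : iteratedDeriv m (L.path k u) = fun y => G (u, y) := funext (hGe u)
    rw [iteratedDeriv_succ, e]
    exact ((hG.differentiable (by simp) (u, x)).hasFDerivAt.comp_hasDerivAt x
      ((hasDerivAt_const x u).prodMk (hasDerivAt_id x))).deriv

theorem LoopFam.deriv_eq_zero {P : ℕ} (L : LoopFam X P) (m : ℕ) (k : Fin P) (u : ℝ) {x : ℝ}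
    (hx : x ∉ Icc (1 / 4 : ℝ) (1 / 2)) : iteratedDeriv m (L.path k u) x = 0 := by
  rw [(Filter.eventuallyEq_of_mem (isClosed_Icc.isOpen_compl.mem_nhds hx)
    (fun y hy => L.supp k u y hy) : L.path k u =ᶠ[𝓝 x] fun _ => 0).iteratedDeriv_eq m,
    iteratedDeriv_const]
  simp

theorem LoopFam.exists_bound {P : ℕ} (L : LoopFam X P) (m : ℕ) :
    ∃ B, 0 ≤ B ∧ ∀ k, ∀ u ∈ Icc (0 : ℝ) 1, ∀ x, ‖iteratedDeriv m (L.path k u) x‖ ≤ B := by
  choose G hG hGe using L.exists_deriv m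
  choose b hb using fun k => (isCompact_Icc.prod (isCompact_Icc (a := (1 / 4 : ℝ)) (b := 1 / 2))
    (s := Icc (0 : ℝ) 1)).exists_bound_of_continuousOn (hG k).continuous.continuousOn
  have h0 : (0 : ℝ) ≤ ∑ k, |b k| := Finset.sum_nonneg fun _ _ => abs_nonneg _
  refine ⟨∑ k, |b k|, h0, fun k u hu x => ?_⟩
  by_cases hx : x ∈ Icc (1 / 4 : ℝ) (1 / 2)
  · rw [hGe]
    exact ((hb k (u, x) ⟨hu, hx⟩).trans (le_abs_self _)).trans
      (Finset.single_le_sum (f := fun j => |b j|) (fun _ _ => abs_nonneg _) (Finset.mem_univ k))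
  · rw [L.deriv_eq_zero m k u hx, norm_zero]
    exact h0

/-- A bound for the shapes and their first two derivatives. -/
structure PathBd {P : ℕ} (L : LoopFam X P) (one p0 : X) (B : ℝ) : Prop where
  one_le : ‖one‖ ≤ B
  rest_le : ‖p0‖ ≤ B
  path_le : ∀ m ≤ 2, ∀ k, ∀ u ∈ Icc (0 : ℝ) 1, ∀ x, ‖iteratedDeriv m (L.path k u) x‖ ≤ B
  switch_le : ∀ m ≤ 2, 1 ≤ m → ∀ y, |iteratedDeriv m Real.smoothTransition y| ≤ B

theorem PathBd.nonneg {P : ℕ} {L : LoopFam X P} {one p0 : X} {B : ℝ} (h : PathBd L one p0 B) :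
    0 ≤ B :=
  (norm_nonneg _).trans h.one_le

theorem exists_pathBd {P : ℕ} (L : LoopFam X P) (one p0 : X) : ∃ B, PathBd L one p0 B := by
  choose b hb0 hb using L.exists_bound
  obtain ⟨s1, hs1⟩ := exists_transition_bound (m := 1) le_rfl
  obtain ⟨s2, hs2⟩ := exists_transition_bound (m := 2) (by norm_num)
  have := norm_nonneg one
  have := norm_nonneg p0
  have := abs_nonneg s1
  have := abs_nonneg s2
  refine ⟨‖one‖ + ‖p0‖ + (b 0 + b 1 + b 2) + (|s1| + |s2|),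
    by linarith [hb0 0, hb0 1, hb0 2], by linarith [hb0 0, hb0 1, hb0 2],
    fun m hm k u hu x => ?_, fun m hm hm1 y => ?_⟩
  · refine (hb m k u hu x).trans ?_
    interval_cases m <;> linarith [hb0 0, hb0 1, hb0 2]
  · interval_cases m
    · linarith [hs1 y, le_abs_self s1, hb0 0, hb0 1, hb0 2]
    · linarith [hs2 y, le_abs_self s2, hb0 0, hb0 1, hb0 2]

/-- The size of the derivative bounds of the control. -/
def pathK (B : ℝ) : ℝ := B * (1 + 2 * B)

theorem pathK_nonneg {B : ℝ} (hB : 0 ≤ B) : 0 ≤ pathK B := mul_nonneg hB (by linarith)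

namespace Ctrl

variable (C : Ctrl X)

theorem ht1_nonneg : 0 ≤ C.sch.t1 := le_trans (by linarith [C.sch.htau0]) C.ht1

variable {C} {B : ℝ}

/-- The two time scales of the first two derivatives. -/
theorem rho_rates (hB : PathBd C.loops C.one C.p0 B) {s : ℕ → ℝ}
    (hs : ∀ n, s n ∈ Icc (0 : ℝ) 1) {m : ℕ} (hm1 : 1 ≤ m) (hm : m ≤ 2) (t : ℝ) :
    (t ≤ C.sch.t1 → ‖iteratedDeriv m (C.rho s) t‖ ≤ pathK B / C.sch.tau0 ^ m) ∧
      ∀ h, t ∈ Icc (C.sch.hstart h) (C.sch.hstart (h + 1)) →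
        ‖iteratedDeriv m (C.rho s) t‖ ≤ pathK B / C.sch.tau h ^ m := by
  have hB0 := hB.nonneg
  have hpow : 0 < C.sch.tau0 ^ m := pow_pos C.sch.htau0 m
  have hc : IsClosed {x | ‖iteratedDeriv m (C.rho s) x‖ ≤ pathK B / C.sch.tau0 ^ m} :=
    isClosed_le ((C.contDiff_rho s).continuous_iteratedDeriv m (mod_cast le_top)).norm
      continuous_const
  have hsub : Iio C.sch.t1 ⊆
      {x | ‖iteratedDeriv m (C.rho s) x‖ ≤ pathK B / C.sch.tau0 ^ m} := fun x hx => by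
    refine (C.rho_deriv_bound_early s hm1 (hB.switch_le m hm hm1) hx).trans ?_
    rw [div_mul_eq_mul_div]
    refine div_le_div_of_nonneg_right ?_ hpow.le
    have : ‖C.p0 - C.one‖ ≤ 2 * B := (norm_sub_le _ _).trans (by linarith [hB.rest_le, hB.one_le])
    rw [pathK]
    nlinarith [norm_nonneg (C.p0 - C.one)]
  have early : t ≤ C.sch.t1 → ‖iteratedDeriv m (C.rho s) t‖ ≤ pathK B / C.sch.tau0 ^ m :=
    fun ht => (hc.closure_subset_iff.2 hsub) (by rw [closure_Iio]; exact ht)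
  refine ⟨early, fun h ht => ?_⟩
  rcases lt_or_ge (2 * C.sch.tau0) t with ht2 | ht2
  · refine (C.rho_deriv_bound s hm1 hB0 (fun k n x => hB.path_le m hm k _ (hs n) x) h ht
      ht2).trans (div_le_div_of_nonneg_right ?_ (pow_nonneg (C.sch.tau_pos h).le m))
    rw [pathK]
    nlinarith
  · have h1 : C.sch.t1 + (h : ℝ) * C.sch.tau0 ≤ C.sch.t1 :=
      ((C.sch.hstart_ge h).trans ht.1).trans (ht2.trans C.ht1)
    have h0 : (h : ℝ) = 0 := by nlinarith [C.sch.htau0, Nat.cast_nonneg (α := ℝ) h]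
    have h0' : h = 0 := by exact_mod_cast h0
    subst h0'
    have htau : C.sch.tau 0 = C.sch.tau0 := by simp [Sched.tau]
    rw [htau]
    exact early (ht2.trans C.ht1)

/-- The rates in the form `p'`, `p''`. -/
theorem rho_rates_deriv (hB : PathBd C.loops C.one C.p0 B) {s : ℕ → ℝ}
    (hs : ∀ n, s n ∈ Icc (0 : ℝ) 1) (t : ℝ) :
    ∃ τ, C.sch.tau0 ≤ τ ∧ ‖deriv (C.rho s) t‖ ≤ pathK B / τ ∧
      ‖deriv (deriv (C.rho s)) t‖ ≤ pathK B / τ ^ 2 ∧
      (t ≤ C.sch.t1 ∧ τ = C.sch.tau0 ∨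
        ∃ h, t ∈ Icc (C.sch.hstart h) (C.sch.hstart (h + 1)) ∧ τ = C.sch.tau h) := by
  have e : iteratedDeriv 2 (C.rho s) = deriv (deriv (C.rho s)) := by
    rw [iteratedDeriv_succ, iteratedDeriv_one]
  have r1 := rho_rates hB hs (m := 1) le_rfl (by norm_num) t
  have r2 := rho_rates hB hs (m := 2) (by norm_num) le_rfl t
  simp only [iteratedDeriv_one, e, pow_one] at r1 r2
  rcases le_or_gt t C.sch.t1 with ht | ht
  · exact ⟨_, le_rfl, r1.1 ht, r2.1 ht, Or.inl ⟨ht, rfl⟩⟩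
  · obtain ⟨h, hh⟩ := C.sch.exists_block ht.le
    exact ⟨_, C.sch.tau0_le_tau h, r1.2 h hh, r2.2 h hh, Or.inr ⟨h, hh, rfl⟩⟩

theorem norm_rho_le (hB : PathBd C.loops C.one C.p0 B) {s : ℕ → ℝ}
    (hs : ∀ n, s n ∈ Icc (0 : ℝ) 1) (t : ℝ) : ‖C.rho s t‖ ≤ 3 * B := by
  have h1 := hB.one_le
  have h2 := hB.rest_le
  have h0 := hB.nonneg
  rcases C.rho_mem s hs t with ⟨c, hc, h⟩ | ⟨k, u, hu, x, h⟩ <;> rw [h]
  · refine (norm_add_le _ _).trans ?_
    rw [norm_smul, Real.norm_eq_abs, abs_of_nonneg hc.1]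
    have h3 : ‖C.p0 - C.one‖ ≤ 2 * B := (norm_sub_le _ _).trans (by linarith)
    have h4 : c * ‖C.p0 - C.one‖ ≤ ‖C.p0 - C.one‖ :=
      mul_le_of_le_one_left (norm_nonneg _) hc.2
    linarith
  · refine (norm_add_le _ _).trans ?_
    have h3 := hB.path_le 0 (by norm_num) k u hu x
    rw [iteratedDeriv_zero] at h3
    linarith

theorem rho_deriv_early (s : ℕ → ℝ) {t : ℝ} (ht : t < C.sch.tau0) :
    deriv (C.rho s) t = 0 := by
  rw [(Filter.eventuallyEq_of_mem (Iio_mem_nhds ht)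
    (fun y hy => C.rho_early s (le_of_lt hy)) : C.rho s =ᶠ[𝓝 t] fun _ => C.one).deriv_eq,
    deriv_const]

end Ctrl

variable {D : ℕ}

/-- Positivity, unit mean and the round start of the shapes. -/
structure ShapeOK {P : ℕ} (L : LoopFam (Gal D) P) (one p0 : Gal D) (c0 : ℝ) : Prop where
  c0_pos : 0 < c0
  one_eq : ∀ θ, res one.poly θ = 1
  seg : ∀ c ∈ Icc (0 : ℝ) 1, ∀ θ, c0 ≤ res (one + c • (p0 - one)).poly θ
  loop : ∀ k, ∀ u ∈ Icc (0 : ℝ) 1, ∀ x θ, c0 ≤ res (p0 + L.path k u x).poly θ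
  mean_rest : part 0 p0 = part 0 one
  mean_loop : ∀ k, ∀ u ∈ Icc (0 : ℝ) 1, ∀ x, part 0 (L.path k u x) = 0

theorem exists_pos_lower {Y : Type*} [TopologicalSpace Y] {S : Set Y} (hS : IsCompact S)
    {F : Y → ℝ} (hF : ContinuousOn F S) (hpos : ∀ y ∈ S, 0 < F y) :
    ∃ c, 0 < c ∧ ∀ y ∈ S, c ≤ F y := by
  rcases S.eq_empty_or_nonempty with h | h
  · exact ⟨1, one_pos, fun y hy => absurd hy (h ▸ Set.notMem_empty y)⟩
  · obtain ⟨z, hz, hmin⟩ := hS.exists_isMinOn h hF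
    exact ⟨F z, hpos z hz, fun y hy => hmin hy⟩

theorem loop_lower {P : ℕ} (L : LoopFam (Gal D) P) (p0 : Gal D) (k : Fin P)
    (hL : ∀ u ∈ Icc (0 : ℝ) 1, ∀ x θ, 0 < res (p0 + L.path k u x).poly θ) :
    ∃ c, 0 < c ∧ ∀ u ∈ Icc (0 : ℝ) 1, ∀ x ∈ Icc (1 / 4 : ℝ) (1 / 2), ∀ θ,
      c ≤ res (p0 + L.path k u x).poly θ := by
  have hg : Continuous fun z : ℝ × ℝ => sphFn D (p0 + L.path k z.1 z.2) :=
    (sphFn D).continuous.comp (continuous_const.add (L.smooth k).continuous)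
  obtain ⟨c, hc, hcl⟩ := exists_pos_lower
    ((isCompact_Icc (a := (0 : ℝ)) (b := 1)).prod (isCompact_Icc (a := (1 / 4 : ℝ)) (b := 1 / 2))
      |>.prod (isCompact_univ (X := Sph 3)))
    (F := fun z => sphFn D (p0 + L.path k z.1.1 z.1.2) z.2)
    (continuous_eval.comp ((hg.comp continuous_fst).prodMk continuous_snd)).continuousOn
    (fun z hz => hL z.1.1 hz.1.1 z.1.2 z.2)
  exact ⟨c, hc, fun u hu x hx θ => hcl ((u, x), θ) ⟨⟨hu, hx⟩, mem_univ θ⟩⟩

theorem res_segment {one p0 : Gal D} (h1 : ∀ θ, res one.poly θ = 1) (r : ℝ) (θ : Sph 3) :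
    res (one + r • (p0 - one)).poly θ = (1 - r) * 1 + r * res p0.poly θ := by
  rw [← sphFn_apply, map_add, map_smul, map_sub]
  simp only [ContinuousMap.add_apply, ContinuousMap.smul_apply, ContinuousMap.sub_apply,
    sphFn_apply, h1, smul_eq_mul]
  ring

/-- Positivity on the range gives a positive lower bound. -/
theorem exists_shapeOK {P : ℕ} (L : LoopFam (Gal D) P) (one p0 : Gal D)
    (h1 : ∀ θ, res one.poly θ = 1) (hp : ∀ θ, 0 < res p0.poly θ)
    (hL : ∀ k, ∀ u ∈ Icc (0 : ℝ) 1, ∀ x θ, 0 < res (p0 + L.path k u x).poly θ)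
    (hm : part 0 p0 = part 0 one)
    (hmL : ∀ k, ∀ u ∈ Icc (0 : ℝ) 1, ∀ x, part 0 (L.path k u x) = 0) :
    ∃ c0, ShapeOK L one p0 c0 := by
  obtain ⟨cp, hcp, hcpl⟩ := exists_pos_lower (isCompact_univ (X := Sph 3))
    (sphFn D p0).continuous.continuousOn (fun θ _ => hp θ)
  choose c hc hcl using fun k => loop_lower L p0 k (hL k)
  obtain ⟨m, hm0, hm1, hmp, hmc⟩ : ∃ m : ℝ, 0 < m ∧ m ≤ 1 ∧ m ≤ cp ∧ ∀ k, m ≤ c k := by
    have hs : (0 : ℝ) ≤ ∑ k, (c k)⁻¹ := Finset.sum_nonneg fun k _ => inv_nonneg.2 (hc k).le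
    have hi : (0 : ℝ) < cp⁻¹ := inv_pos.2 hcp
    refine ⟨(1 + cp⁻¹ + ∑ k, (c k)⁻¹)⁻¹, inv_pos.2 (by linarith), inv_le_one_of_one_le₀
      (by linarith), inv_le_of_inv_le₀ hcp (by linarith), fun k => inv_le_of_inv_le₀ (hc k) ?_⟩
    linarith [Finset.single_le_sum (f := fun j => (c j)⁻¹) (fun j _ => inv_nonneg.2 (hc j).le)
      (Finset.mem_univ k)]
  refine ⟨m, hm0, h1, fun r hr θ => ?_, fun k u hu x θ => ?_, hm, hmL⟩
  · rw [res_segment h1]
    have e1 : m ≤ res p0.poly θ := hmp.trans (hcpl θ (mem_univ θ))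
    nlinarith [hr.1, hr.2]
  · by_cases hx : x ∈ Icc (1 / 4 : ℝ) (1 / 2)
    · exact (hmc k).trans (hcl k u hu x hx θ)
    · rw [L.supp k u x hx, add_zero]
      exact hmp.trans (hcpl θ (mem_univ θ))

namespace Ctrl

variable {C : Ctrl (Gal D)} {B c0 : ℝ}

theorem rho_pos (hC : ShapeOK C.loops C.one C.p0 c0) {s : ℕ → ℝ}
    (hs : ∀ n, s n ∈ Icc (0 : ℝ) 1) (t : ℝ) (θ : Sph 3) : c0 ≤ res (C.rho s t).poly θ := by
  rcases C.rho_mem s hs t with ⟨c, hc, h⟩ | ⟨k, u, hu, x, h⟩ <;> rw [h]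
  exacts [hC.seg c hc θ, hC.loop k u hu x θ]

theorem part_deriv_rho (hC : ShapeOK C.loops C.one C.p0 c0) {s : ℕ → ℝ}
    (hs : ∀ n, s n ∈ Icc (0 : ℝ) 1) (t : ℝ) : part 0 (deriv (C.rho s) t) = 0 := by
  have hconst : (fun y => partL 0 (C.rho s y)) = fun _ => part 0 C.one := by
    funext y
    rcases C.rho_mem s hs y with ⟨c, hc, h⟩ | ⟨k, u, hu, x, h⟩ <;> rw [h]
    · rw [map_add, map_smul, map_sub]
      simp only [partL_apply, hC.mean_rest, sub_self, smul_zero, add_zero]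
    · rw [map_add]
      simp only [partL_apply, hC.mean_rest, hC.mean_loop k u hu x, add_zero]
  have h1 := (partL 0).hasFDerivAt.comp_hasDerivAt t
    ((C.contDiff_rho s).differentiable (by simp) t).hasDerivAt
  rw [show (⇑(partL 0) ∘ C.rho s) = fun y => partL 0 (C.rho s y) from rfl, hconst] at h1
  exact (h1.unique (hasDerivAt_const t _)).trans rfl

/-- The equation of the correction along the control. -/
theorem casimir_om (hC : ShapeOK C.loops C.one C.p0 c0) {a : ℝ → ℝ} {s : ℕ → ℝ}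
    (hs : ∀ n, s n ∈ Icc (0 : ℝ) 1) (t : ℝ) (x : Space 3) :
    ∑ i, rot i (rot i (omF a (C.rho s) t)) x = -(a t) ^ 2 * gfn (deriv (C.rho s)) t x :=
  casimir_omF (part_deriv_rho hC hs t) x

/-- Before `tau0` the shape is round and the correction vanishes. -/
theorem early (hC : ShapeOK C.loops C.one C.p0 c0) (a : ℝ → ℝ) (s : ℕ → ℝ) {t : ℝ}
    (ht : t < C.sch.tau0) (θ : Sph 3) :
    gfn (C.rho s) t (θ : Space 3) = 1 ∧ ∀ x, omF a (C.rho s) t x = 0 := by
  refine ⟨?_, fun x => ?_⟩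
  · rw [gfn_sph, C.rho_early s ht.le]
    exact hC.one_eq θ
  · simp [omF, gfn, omC_eq_zero (rho_deriv_early s ht), evalFun]

theorem second_le {k p p' τ Q q A : ℝ} (hk : 0 ≤ k) (hp : p ≤ p') (hp' : 0 ≤ p') (hτ : 0 < τ)
    (h1 : 1 / τ ≤ 1) (hq : 1 / τ ^ 2 ≤ Q * q) (hA : 0 ≤ A * q) :
    k * (p / τ ^ 2 + A * q * (p / τ)) ≤ k * p' * (Q + A) * q := by
  have f1 : p / τ ^ 2 ≤ p' * (Q * q) := by
    rw [div_eq_mul_one_div]
    exact (mul_le_mul_of_nonneg_right hp (by positivity)).trans (mul_le_mul_of_nonneg_left hq hp')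
  have f2 : p / τ ≤ p' := by
    rw [div_eq_mul_one_div]
    exact (mul_le_mul_of_nonneg_right hp (by positivity)).trans (mul_le_of_le_one_right hp' h1)
  calc k * (p / τ ^ 2 + A * q * (p / τ)) ≤ k * (p' * (Q * q) + A * q * p') :=
        mul_le_mul_of_nonneg_left (add_le_add f1 (mul_le_mul_of_nonneg_left f2 hA)) hk
    _ = k * p' * (Q + A) * q := by ring

/-- The shape bound. -/
theorem rho_bounds (hB : PathBd C.loops C.one C.p0 B) {s : ℕ → ℝ}
    (hs : ∀ n, s n ∈ Icc (0 : ℝ) 1) (t : ℝ) (θ : Sph 3) :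
    |gfn (C.rho s) t (θ : Space 3)| ≤ ‖sphFn D‖ * rotK D ^ 3 * (3 * B) ∧
      (∀ i, |rot i (gfn (C.rho s) t) (θ : Space 3)| ≤ ‖sphFn D‖ * rotK D ^ 3 * (3 * B)) ∧
      (∀ i j, |rot i (rot j (gfn (C.rho s) t)) (θ : Space 3)| ≤
        ‖sphFn D‖ * rotK D ^ 3 * (3 * B)) ∧
      ∀ i j k, |rot i (rot j (rot k (gfn (C.rho s) t))) (θ : Space 3)| ≤
        ‖sphFn D‖ * rotK D ^ 3 * (3 * B) := by
  simp only [rot_gfn]
  exact abs_rots_le _ (norm_rho_le hB hs t) θ

/-- The derivative hypotheses of the Ricci bound: numbers `η ≤ K / tau0` with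
`η ^ 2, |a' / a| η ≤ K budget`, the first order quantities below `η` and the second order ones
below `K budget`. -/
theorem exists_ricci_bounds (D : ℕ) (B M A : ℝ) : ∃ K, 0 ≤ K ∧ ∀ C : Ctrl (Gal D),
    PathBd C.loops C.one C.p0 B → 1 ≤ C.sch.tau0 → C.sch.t1 ≤ M * C.sch.tau0 →
    (1 + C.sch.kap) * C.sch.P ≤ M → ∀ a : ℝ → ℝ,
    (∀ t, C.sch.tau0 ≤ t → 0 < a t ∧ a t ≤ 1 ∧ |deriv a t| ≤ A * qrate C.sch.tau0 t * a t) →
    ∀ s : ℕ → ℝ, (∀ n, s n ∈ Icc (0 : ℝ) 1) → ∀ t, C.sch.tau0 ≤ t →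
    ∃ η, 0 ≤ η ∧ η ≤ K / C.sch.tau0 ∧ η ^ 2 ≤ K * qrate C.sch.tau0 t ∧
      |deriv a t / a t| * η ≤ K * qrate C.sch.tau0 t ∧ ∀ θ : Sph 3,
      (|gfn (deriv (C.rho s)) t (θ : Space 3)| ≤ η ∧
        (∀ i, |rot i (gfn (deriv (C.rho s)) t) (θ : Space 3)| ≤ η) ∧
        |omF a (C.rho s) t (θ : Space 3)| ≤ η ∧
        (∀ i, |rot i (omF a (C.rho s) t) (θ : Space 3)| ≤ η) ∧
        ∀ i j, |rot i (rot j (omF a (C.rho s) t)) (θ : Space 3)| ≤ η) ∧
      |gfn (deriv (deriv (C.rho s))) t (θ : Space 3)| ≤ K * qrate C.sch.tau0 t ∧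
        |gfn (omD a (C.rho s)) t (θ : Space 3)| ≤ K * qrate C.sch.tau0 t := by
  set b := boundK D * |pathK B|
  set Q := (9 * (M * (1 + M)) ^ 2 + (1 + |M|) ^ 2)
  have hbK : 0 ≤ boundK D := by
    rw [boundK]
    have := one_le_rotK D
    have := ContinuousLinearMap.opNorm_nonneg (sphFn D)
    have := ContinuousLinearMap.opNorm_nonneg (Linv D)
    positivity
  have hb : 0 ≤ b := mul_nonneg hbK (abs_nonneg _)
  have hQ : 0 ≤ Q := by positivity
  refine ⟨b + b ^ 2 * Q + |A| * b + b * (Q + |A|), by positivity, ?_⟩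
  intro C hB h1 hM1 hM2 a ha s hs t ht
  obtain ⟨ha0, ha1, had⟩ := ha t ht
  obtain ⟨τ, hτ, r1, r2, hcase⟩ := rho_rates_deriv hB hs t
  have htau := C.sch.htau0
  have hτ0 : 0 < τ := htau.trans_le hτ
  have ht0 : 0 ≤ t := htau.le.trans ht
  set q := qrate C.sch.tau0 t
  have hq0 : 0 ≤ q := budget_nonneg htau ht0
  have hqQ : 1 / τ ^ 2 ≤ Q * q := by
    rcases hcase with ⟨hle, he⟩ | ⟨h, hh, he⟩
    · rw [he]
      refine (le_budget htau ht0 (Y := 1 + |M|) ?_).trans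
        (mul_le_mul_of_nonneg_right (by simp only [Q]; nlinarith) hq0)
      have : t / C.sch.tau0 ≤ M := by rw [div_le_iff₀ htau]; linarith
      linarith [le_abs_self M]
    · rw [he]
      refine (C.sch.inv_tau_sq_le_budget h ⟨?_, hh.2⟩ C.ht1_nonneg hM1 hM2).trans
        (mul_le_mul_of_nonneg_right (by simp only [Q]; nlinarith) hq0)
      exact le_trans (le_trans (by nlinarith [Nat.cast_nonneg (α := ℝ) h])
        (C.sch.hstart_ge h)) hh.1
  have hA : |deriv a t| ≤ |A| * q * a t :=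
    had.trans (mul_le_mul_of_nonneg_right (mul_le_mul_of_nonneg_right (le_abs_self A) hq0) ha0.le)
  have hAq : |A| * q ≤ |A| := by
    refine mul_le_of_le_one_right (abs_nonneg A) ((budget_le htau ht0).trans ?_)
    exact inv_le_one_of_one_le₀ (one_le_pow₀ h1)
  have hpk : pathK B ≤ |pathK B| := le_abs_self _
  have hAq0 : 0 ≤ |A| * q := mul_nonneg (abs_nonneg A) hq0
  set η := b / τ with hη
  have hη0 : 0 ≤ η := div_nonneg hb hτ0.le
  have hinv : 1 / τ ≤ 1 := by rw [div_le_one hτ0]; linarith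
  refine ⟨η, hη0, ?_, ?_, ?_, fun θ => ?_⟩
  · refine (div_le_div_of_nonneg_left hb htau hτ).trans (div_le_div_of_nonneg_right ?_ htau.le)
    nlinarith [mul_nonneg (sq_nonneg b) hQ, mul_nonneg (abs_nonneg A) hb, mul_nonneg hb hQ]
  · rw [hη, div_pow, div_eq_mul_one_div]
    refine (mul_le_mul_of_nonneg_left hqQ (sq_nonneg b)).trans ?_
    rw [← mul_assoc]
    refine mul_le_mul_of_nonneg_right ?_ hq0
    nlinarith [mul_nonneg (abs_nonneg A) hb, mul_nonneg hb hQ]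
  · have h3 : |deriv a t / a t| ≤ |A| * q := by
      rw [abs_div, abs_of_pos ha0, div_le_iff₀ ha0]
      exact hA
    have h4 : η ≤ b := by rw [hη, div_eq_mul_one_div]; exact mul_le_of_le_one_right hb hinv
    refine (mul_le_mul h3 h4 hη0 (by positivity)).trans ?_
    rw [mul_right_comm]
    refine mul_le_mul_of_nonneg_right ?_ hq0
    nlinarith [mul_nonneg (sq_nonneg b) hQ, mul_nonneg (abs_nonneg A) hb, mul_nonneg hb hQ]
  · have hα : |deriv a t| ≤ |A| * q :=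
      hA.trans (mul_le_of_le_one_right (by positivity) ha1)
    obtain ⟨⟨w1, w2, w3, w4, w5⟩, w6, w7⟩ := weight_bounds ha0.le ha1 hα r1 r2 θ
    have e1 : boundK D * (pathK B / τ) ≤ η := by
      rw [hη, ← mul_div_assoc]
      exact div_le_div_of_nonneg_right (mul_le_mul_of_nonneg_left hpk hbK) hτ0.le
    have e2 : boundK D * (pathK B / τ ^ 2 + |A| * q * (pathK B / τ)) ≤
        (b + b ^ 2 * Q + |A| * b + b * (Q + |A|)) * q := by
      refine (second_le hbK (le_abs_self _) (abs_nonneg _) hτ0 hinv hqQ hAq0).trans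
        (mul_le_mul_of_nonneg_right ?_ hq0)
      exact le_add_of_nonneg_left (add_nonneg (add_nonneg hb (mul_nonneg (sq_nonneg b) hQ))
        (mul_nonneg (abs_nonneg A) hb))
    exact ⟨⟨w1.trans e1, fun i => (w2 i).trans e1, w3.trans e1, fun i => (w4 i).trans e1,
      fun i j => (w5 i j).trans e1⟩, w6.trans e2, w7.trans e2⟩

/-- The hypotheses on the profile for the rates of the weights. -/
structure ProfileRate (S : Sched) (A : ℝ) (a : ℝ → ℝ) : Prop where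
  smooth : ContDiff ℝ (⊤ : ℕ∞) a
  pos : ∀ t, 0 < a t
  le_one : ∀ t, a t ≤ 1
  start : ∀ t ≤ 0, a t = 1
  rate : ∀ t, |deriv a t| ≤ A / S.tau0 * a t
  late : ∀ t, S.tau0 ≤ t → |deriv a t| ≤ A * qrate S.tau0 t * a t

theorem profileRate_of_isProfile {S : Sched} {K eps A E : ℝ} {a : ℝ → ℝ}
    (h : IsProfile K eps A E S.tau0 a) : ProfileRate S (max A E) a where
  smooth := h.smooth
  pos t := lt_of_lt_of_le (Real.sqrt_pos.2 (by norm_num)) (h.lower t)
  le_one := h.le_one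
  start := h.one_of_nonpos
  rate t := (h.deriv_small t).trans (mul_le_mul_of_nonneg_right
    (div_le_div_of_nonneg_right (le_max_left A E) S.htau0.le)
    (le_trans (Real.sqrt_nonneg _) (h.lower t)))
  late t ht := (h.deriv_late t ht).trans (mul_le_mul_of_nonneg_right
    (mul_le_mul_of_nonneg_right (le_max_right A E)
      (budget_nonneg S.htau0 (S.htau0.le.trans ht)))
    (le_trans (Real.sqrt_nonneg _) (h.lower t)))

/-- The rates of the two weights: globally `K / tau0`, in half block `h` also `K / tau h`. -/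
theorem exists_weight_rates (D : ℕ) (B A c0 : ℝ) : ∃ K, 1 ≤ K ∧ ∀ C : Ctrl (Gal D),
    PathBd C.loops C.one C.p0 B → ShapeOK C.loops C.one C.p0 c0 → K ≤ C.sch.tau0 →
    ∀ a, ProfileRate C.sch A a → ∀ s : ℕ → ℝ, (∀ n, s n ∈ Icc (0 : ℝ) 1) → ∀ t θ,
      (1 / 2 ≤ nuF a (C.rho s) t (θ : Sph 3) ∧ nuF a (C.rho s) t (θ : Sph 3) ≤ 3 / 2) ∧
      (|massCD a (C.rho s) t θ| ≤ K / C.sch.tau0 * massC a (C.rho s) t θ ∧
        |nuCD a (C.rho s) t θ| ≤ K / C.sch.tau0 * nuC a (C.rho s) t θ) ∧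
      ∀ h, t ∈ Icc (C.sch.hstart h) (C.sch.hstart (h + 1)) →
        |massCD a (C.rho s) t θ| ≤ K / C.sch.tau h * massC a (C.rho s) t θ ∧
          |nuCD a (C.rho s) t θ| ≤ K / C.sch.tau h * nuC a (C.rho s) t θ := by
  set b := boundK D * |pathK B|
  set α := 144 * |A|
  have hbK : 0 ≤ boundK D := by
    rw [boundK]
    have := one_le_rotK D
    have := ContinuousLinearMap.opNorm_nonneg (sphFn D)
    have := ContinuousLinearMap.opNorm_nonneg (Linv D)
    positivity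
  have hb : 0 ≤ b := mul_nonneg hbK (abs_nonneg _)
  have hα : 0 ≤ α := by positivity
  refine ⟨1 + 2 * α + b / |c0| + 2 * b * (1 + α) + 2 * b,
    by nlinarith [div_nonneg hb (abs_nonneg c0), mul_nonneg hb hα], ?_⟩
  intro C hB hC hK a ha s hs t θ
  have htau := C.sch.htau0
  have hc0 := hC.c0_pos
  rw [abs_of_pos hc0] at hK ⊢
  have h2b : 2 * b + 1 ≤ C.sch.tau0 := by
    nlinarith [div_nonneg hb hc0.le, mul_nonneg hb hα]
  have h1 : 1 ≤ C.sch.tau0 := by linarith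
  have hpk := le_abs_self (pathK B)
  have key : ∀ τ, C.sch.tau0 ≤ τ → ‖deriv (C.rho s) t‖ ≤ pathK B / τ →
      ‖deriv (deriv (C.rho s)) t‖ ≤ pathK B / τ ^ 2 → |deriv a t| ≤ α / τ * a t →
      (1 / 2 ≤ nuF a (C.rho s) t (θ : Space 3) ∧ nuF a (C.rho s) t (θ : Space 3) ≤ 3 / 2) ∧
      |massCD a (C.rho s) t θ| ≤
          (1 + 2 * α + b / c0 + 2 * b * (1 + α) + 2 * b) / τ * massC a (C.rho s) t θ ∧
        |nuCD a (C.rho s) t θ| ≤
          (1 + 2 * α + b / c0 + 2 * b * (1 + α) + 2 * b) / τ * nuC a (C.rho s) t θ := by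
    intro τ hτ r1 r2 hd
    have hτ0 : 0 < τ := htau.trans_le hτ
    have hτ1 : 1 ≤ τ := h1.trans hτ
    have r1' : ‖deriv (C.rho s) t‖ ≤ |pathK B| / τ :=
      r1.trans (div_le_div_of_nonneg_right hpk hτ0.le)
    have r2' : ‖deriv (deriv (C.rho s)) t‖ ≤ |pathK B| / τ ^ 2 :=
      r2.trans (div_le_div_of_nonneg_right hpk (by positivity))
    have hsm : boundK D * (|pathK B| / τ) ≤ 1 / 2 := by
      rw [← mul_div_assoc, div_le_iff₀ hτ0]
      linarith
    obtain ⟨hn, hnu, hw⟩ := weight_rate (ha.pos t) (ha.le_one t) hd r1' r2' hc0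
      (fun φ => rho_pos hC hs t φ) hsm θ
    have hνpos : 0 ≤ nuC a (C.rho s) t θ := by rw [nuC_apply]; linarith [hn.1]
    have hmass : 0 ≤ massC a (C.rho s) t θ := by
      have hν : ∀ φ : Sph 3, 1 / 2 ≤ nuF a (C.rho s) t (φ : Space 3) := fun φ =>
        (weight_rate (ha.pos t) (ha.le_one t) hd r1' r2' hc0 (fun ψ => rho_pos hC hs t ψ)
          hsm φ).1.1
      rw [(massC_apply hν θ).1, massF, safeInv_eq hn.1]
      exact mul_nonneg (mul_nonneg (sq_nonneg _) (le_trans hc0.le (rho_pos hC hs t θ)))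
        (inv_nonneg.2 (by linarith [hn.1]))
    have e : boundK D * (|pathK B| / τ ^ 2 + α / τ * (|pathK B| / τ)) ≤ b * (1 + α) / τ := by
      rw [show boundK D * (|pathK B| / τ ^ 2 + α / τ * (|pathK B| / τ)) =
        b * (1 + α) / τ * (1 / τ) by simp only [b]; field_simp]
      refine mul_le_of_le_one_right (by positivity) ?_
      rw [div_le_one hτ0]
      exact hτ1
    refine ⟨hn, hw.trans (mul_le_mul_of_nonneg_right ?_ hmass),
      hnu.trans (mul_le_mul_of_nonneg_right ?_ hνpos)⟩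
    · have e2 : boundK D * (|pathK B| / τ) / c0 = b / c0 / τ := by
        simp only [b]; field_simp
      rw [mul_assoc 2 (boundK D), e2]
      refine (add_le_add le_rfl (mul_le_mul_of_nonneg_left e zero_le_two)).trans ?_
      rw [show 2 * (α / τ) + b / c0 / τ + 2 * (b * (1 + α) / τ) =
        (2 * α + b / c0 + 2 * b * (1 + α)) / τ by ring]
      exact div_le_div_of_nonneg_right (by linarith) hτ0.le
    · rw [mul_assoc 2 (boundK D)]
      refine (mul_le_mul_of_nonneg_left e zero_le_two).trans ?_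
      rw [← mul_div_assoc]
      exact div_le_div_of_nonneg_right (by
        nlinarith [div_nonneg hb hc0.le]) hτ0.le
  have hA0 : A ≤ α := by
    have := le_abs_self A
    have := abs_nonneg A
    simp only [α]; linarith
  have hd0 : |deriv a t| ≤ α / C.sch.tau0 * a t :=
    (ha.rate t).trans (mul_le_mul_of_nonneg_right (div_le_div_of_nonneg_right hA0 htau.le)
      (ha.pos t).le)
  obtain ⟨τ, hτ, r1, r2, -⟩ := rho_rates_deriv hB hs t
  have hpB : 0 ≤ pathK B := pathK_nonneg hB.nonneg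
  obtain ⟨hn, hglob⟩ := key _ le_rfl (r1.trans (div_le_div_of_nonneg_left hpB htau hτ))
    (r2.trans (div_le_div_of_nonneg_left hpB (by positivity)
      (pow_le_pow_left₀ htau.le hτ 2))) hd0
  refine ⟨hn, hglob, fun h hh => ?_⟩
  have e : iteratedDeriv 2 (C.rho s) = deriv (deriv (C.rho s)) := by
    rw [iteratedDeriv_succ, iteratedDeriv_one]
  have q1 := (rho_rates hB hs (m := 1) le_rfl (by norm_num) t).2 h hh
  have q2 := (rho_rates hB hs (m := 2) (by norm_num) le_rfl t).2 h hh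
  rw [iteratedDeriv_one, pow_one] at q1
  rw [e] at q2
  refine (key _ (C.sch.tau0_le_tau h) q1 q2 ?_).2
  have ht0 : C.sch.tau0 ≤ t := by
    have := C.sch.hstart_ge h
    have := C.ht1
    nlinarith [hh.1, Nat.cast_nonneg (α := ℝ) h]
  refine (ha.late t ht0).trans (mul_le_mul_of_nonneg_right ?_ (ha.pos t).le)
  calc A * qrate C.sch.tau0 t ≤ |A| * qrate C.sch.tau0 t :=
        mul_le_mul_of_nonneg_right (le_abs_self A) (budget_nonneg htau (htau.le.trans ht0))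
    _ ≤ |A| * (144 / C.sch.tau h) :=
        mul_le_mul_of_nonneg_left (C.sch.budget_le_inv_tau h h1 C.ht1_nonneg hh.1) (abs_nonneg A)
    _ = α / C.sch.tau h := by simp only [α]; ring

/-- The Galerkin trace data on `[t₀, t₂]` with `t₀ ≤ 0`, with the global rate. -/
theorem exists_trace_data {A c0 : ℝ} {K : ℝ} {C : Ctrl (Gal D)}
    (hC : ShapeOK C.loops C.one C.p0 c0) {a : ℝ → ℝ} (ha : ProfileRate C.sch A a) {s : ℕ → ℝ}
    (hs : ∀ n, s n ∈ Icc (0 : ℝ) 1) (hK0 : 0 ≤ K) (hK : K ≤ C.sch.tau0)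
    (hb : ∀ t θ, (1 / 2 ≤ nuF a (C.rho s) t (θ : Sph 3) ∧
      nuF a (C.rho s) t (θ : Sph 3) ≤ 3 / 2) ∧
      (|massCD a (C.rho s) t θ| ≤ K / C.sch.tau0 * massC a (C.rho s) t θ ∧
        |nuCD a (C.rho s) t θ| ≤ K / C.sch.tau0 * nuC a (C.rho s) t θ))
    (N : ℕ) {t0 t2 : ℝ} (h0 : t0 ≤ 0) (h02 : t0 ≤ t2)
    {amin : ℝ} (hamin : 0 < amin) (ham : ∀ t, amin ≤ a t) :
    ∃ P : TraceData (Gal N) t0 t2 (K / C.sch.tau0),
      P.K = (fun t => stiffOp N (nuC a (C.rho s) t)) ∧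
      P.G = (fun t => massOp N (massC a (C.rho s) t)) ∧
      P.G' = (fun t => massOp N (massCD a (C.rho s) t)) ∧ P.B t0 = degOp N := by
  have hν : ∀ t, ∀ θ : Sph 3, 1 / 2 ≤ nuF a (C.rho s) t (θ : Space 3) := fun t θ => (hb t θ).1.1
  have htau := C.sch.htau0
  have hsm := C.contDiff_rho s
  have hone := weights_eq_one (a := a) (p := C.rho s)
    (rho_deriv_early s (lt_of_le_of_lt h0 htau))
    (fun θ => by rw [C.rho_early s (h0.trans htau.le)]; exact hC.one_eq θ) (ha.start t0 h0)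
  refine exists_galerkinData N h02 (m := amin ^ 2 * c0 * (2 / 3))
    (by have := hC.c0_pos; positivity) (div_nonneg hK0 htau.le) ((div_le_one htau).2 hK)
    (continuous_massC ha.smooth hsm hν) (continuous_nuC ha.smooth hsm) (fun t θ => ?_)
    (fun t θ => by rw [nuC_apply]; linarith [hν t θ])
    (fun t _ => (hasDerivAt_massC ha.smooth hsm (hν t)).hasDerivWithinAt)
    (fun t _ => (hasDerivAt_nuC ha.smooth hsm t).hasDerivWithinAt)
    (fun t _ θ => (hb t θ).2.1) (fun t _ θ => (hb t θ).2.2) hone.1 hone.2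
  rw [(massC_apply (hν t) θ).1, massF, safeInv_eq (hν t θ)]
  have := hC.c0_pos
  refine mul_le_mul (mul_le_mul (pow_le_pow_left₀ hamin.le (ham t) 2) (rho_pos hC hs t θ)
    hC.c0_pos.le (sq_nonneg _)) ?_ (by norm_num) (mul_nonneg (sq_nonneg _)
    (le_trans hC.c0_pos.le (rho_pos hC hs t θ)))
  rw [← one_div, le_div_iff₀ (by linarith [hν t θ])]
  linarith [(hb t θ).1.2]

end Ctrl

end

end Vale.Agent.P225.Disproof
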