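import Vale.Agent.P225.Disproof.Strata
import Vale.Agent.P225.Disproof.Loops
import Vale.Agent.P225.Disproof.Normalise
import Vale.Agent.P225.Disproof.LoopWord
import Vale.Agent.P225.Disproof.PencilScale
import Vale.Agent.P225.Disproof.CentrePert
import Vale.Agent.P225.Disproof.CertCone
import Vale.Agent.P225.Disproof.WeightsCtrl

/-!
# P225: the rest shape and the loop families

From centres for the gaps `225 .. 728` (`CentreHyp`): one degree, a rest shape of mean one near the
round one with all gaps of `224 .. 729` open, and the loops of these gaps through admissible shapes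
of mean one, with a uniform margin in the curvature inequality.
-/

namespace Vale.Agent.P225.Disproof.Strata

open MvPolynomial MeasureTheory Set Filter Topology
open scoped RealInnerProductSpace

noncomputable section

variable {D : ℕ}

/-- Gap `l` is open at a shape. -/
def gapAt (D : ℕ) (l : ℕ) (p : Gal D) : Prop := Gap (pencil (wt D p)) l

/-- The spectral projection above gap `l` at a shape. -/
def projAt (D : ℕ) (l : ℕ) (p : Gal D) : L2S →L[ℝ] L2S := topProj (pencil (wt D p)) l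

/-- Centres for all gaps of the loops, in every large degree. -/
def CentreHyp (D₀ : ℕ) : Prop :=
  ∀ D, D₀ ≤ D → ∀ V : Set (Gal D), Strat V → ∀ U : Set (Gal D), IsOpen U → Convex ℝ U → U ⊆ V →
    V ⊆ Ocone D → (∀ e ∈ Icc 0 certE, ∃ p ∈ U, wt D p = sphAlg 3 (certP e)) →
    ∀ j ∈ Icc 225 728, Nonempty (CentreAt U (gapAt D) (projAt D) 224 729 j)

/-- The round shape. -/
def oneG (D : ℕ) : Gal D :=
  Gal.mk 1 (mem_harmUpTo.2 ⟨by simp [totalDegree_one], by simp [lapP]⟩)

theorem res_oneG (θ : Sph 3) : res (oneG D).poly θ = 1 := by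
  simp [oneG, Gal.poly_mk, res, evalFun]

theorem wt_oneG : wt D (oneG D) = 1 := ContinuousMap.ext fun θ => by
  rw [wt_eval, res_oneG]; rfl

/-- The harmonic form of `z ^ 2 - 1 / 3`. -/
def zzP : MvPolynomial (Fin 3) ℝ :=
  MvPolynomial.C (2 / 3) * (X 2 * X 2) - MvPolynomial.C (1 / 3) * (X 0 * X 0 + X 1 * X 1)

theorem isHomogeneous_zzP : zzP.IsHomogeneous 2 := by
  have h : ∀ i : Fin 3, (X i * X i : MvPolynomial (Fin 3) ℝ).IsHomogeneous 2 := fun i =>
    (isHomogeneous_X ℝ i).mul (isHomogeneous_X ℝ i)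
  exact ((h 2).C_mul _).sub (((h 0).add (h 1)).C_mul _)

theorem lapP_zzP : lapP zzP = 0 := by
  simp [zzP, lapP, Fin.sum_univ_three, Derivation.leibniz, pderiv_X, Pi.single_apply, map_add,
    map_sub]
  have e : MvPolynomial.C (σ := Fin 3) (2 / 3 : ℝ) =
      MvPolynomial.C 3⁻¹ + MvPolynomial.C 3⁻¹ := by rw [← map_add]; norm_num
  rw [e]
  ring

/-- The crossing segment as shapes. -/
def certG (e : ℝ) : Gal 2 :=
  oneG 2 + e • Gal.mk zzP (mem_harmUpTo.2 ⟨isHomogeneous_zzP.totalDegree_le, lapP_zzP⟩)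

theorem certG_zero : certG 0 = oneG 2 := by simp [certG]

theorem wt_certG (e : ℝ) : wt 2 (certG e) = sphAlg 3 (certP e) := ContinuousMap.ext fun θ => by
  rw [wt_eval, sphAlg_apply, certG, map_add, map_smul, res_add, res_smul, res_oneG, Gal.poly_mk,
    show evalFun (certP e) (θ : Space 3) = res (certP e) θ from rfl, res_certP]
  simp only [zzP, res, evalFun, map_sub, map_mul, map_add, eval_C, eval_X]
  linear_combination (-(e / 3)) * sum_sq_sph θ

theorem lapRes_certG (e : ℝ) (θ : Sph 3) :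
    lapRes (certG e) θ = ∑ j, res (rotP j (rotP j (certP e))) θ := by
  rw [sum_rotP_certP]
  simp [lapRes, certG, oneG, zzP, res, evalFun, Gal.poly_mk, Fin.sum_univ_three, Derivation.leibniz,
    map_add, map_sub, rotP_apply, pderiv_X, Pi.single_apply]
  linear_combination 2 * e * sum_sq_sph θ

theorem certG_mem_ocone {e : ℝ} (he : e ∈ Icc 0 certE) : certG e ∈ Ocone 2 := by
  have hr : ∀ θ, res (certG e).poly θ = res (certP e) θ := fun θ => by
    rw [← wt_eval, wt_certG, sphAlg_apply]; rfl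
  have hm : tot (wt 2 (certG e)) = tot 1 := by
    rw [tot_eq, tot_eq]
    simp only [wt_eval, hr, ContinuousMap.one_apply]
    exact integral_certP e
  refine ⟨fun θ => by rw [hr]; linarith [res_certP_pos he.1 he.2 θ], fun θ => ?_⟩
  have h := cert_cone he.1 he.2 θ
  rw [coneExpr, hm, div_self (tot_pos (w := 1) fun θ => by simp).ne', hr, lapRes_certG, mul_one]
  linarith

/-- The curvature expression of a shape of mean one. -/
def coneMean (p : Gal D) (θ : Sph 3) : ℝ :=
  18 / 25 * res p.poly θ ^ 2 + lapRes p θ / 2 - res p.poly θ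

/-- The mean. -/
def meanL (D : ℕ) : Gal D →L[ℝ] ℝ := (tot 1)⁻¹ • tot.comp (wt D)

theorem tot_one_pos : 0 < tot (1 : C(Sph 3, ℝ)) := tot_pos fun θ => by simp

theorem meanL_apply (p : Gal D) : meanL D p = tot (wt D p) / tot 1 := by
  simp [meanL, div_eq_inv_mul]

theorem meanL_oneG : meanL D (oneG D) = 1 := by
  rw [meanL_apply, wt_oneG, div_self tot_one_pos.ne']

theorem meanL_pos {p : Gal D} (hp : p ∈ Ocone D) : 0 < meanL D p := by
  rw [meanL_apply]
  exact div_pos (tot_pos (wt_mem_posW hp.1)) tot_one_pos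

theorem coneMean_neg {p : Gal D} (hp : p ∈ Ocone D) (hm : meanL D p = 1) (θ : Sph 3) :
    coneMean p θ < 0 := by
  have h := hp.2 θ
  rw [meanL_apply, div_eq_one_iff_eq tot_one_pos.ne'] at hm
  rwa [coneExpr, hm, div_self tot_one_pos.ne', mul_one] at h

theorem smul_mem_ocone {p : Gal D} (hp : p ∈ Ocone D) {c : ℝ} (hc : 0 < c) :
    c • p ∈ Ocone D := by
  have hr : ∀ θ, res (c • p).poly θ = c * res p.poly θ := fun θ => by rw [map_smul, res_smul]
  refine ⟨fun θ => by rw [hr]; exact mul_pos hc (hp.1 θ), fun θ => ?_⟩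
  have hl : lapRes (c • p) θ = c * lapRes p θ := by
    simpa using lapRes_comb p 0 c 0 θ
  have h : coneExpr (c • p) θ = c * coneExpr p θ := by
    rw [coneExpr, coneExpr, hr, hl, map_smul (wt D), map_smul tot, smul_eq_mul]
    have := (tot_pos (wt_mem_posW hp.1)).ne'
    field_simp
  rw [h]
  exact mul_neg_of_pos_of_neg hc (hp.2 θ)

/-- The constant part is the mean. -/
theorem part_zero_eq (p : Gal D) : part 0 p = meanL D p • oneG D := by
  refine Gal.ext ?_
  set c := coeff 0 p.poly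
  have hz : ∀ l, l ≠ 0 → meanL D (part l p) = 0 := fun l hl => by
    rw [meanL_apply, tot_eq]
    have h := sphIp_eq_zero (i := l) (j := 0) hl
      (homogeneousComponent_isHomogeneous l p.poly)
      (lapP_homogeneousComponent l p.poly (mem_harmUpTo.1 p.mem).2)
      (isHomogeneous_one (Fin 3) ℝ) (by simp [lapP])
    simp only [sphIp, res, evalFun, map_one, mul_one] at h
    simp only [wt_eval, res, evalFun, part, Gal.poly_mk, h, zero_div]
  have h0 : part 0 p = c • oneG D := Gal.ext (by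
    simp [part, oneG, Gal.poly_mk, map_smul, homogeneousComponent_zero, c, smul_eq_C_mul])
  have hm : meanL D p = c := by
    conv_lhs => rw [← sum_part p, map_sum,
      Finset.sum_eq_single 0 (fun l _ hl => hz l hl) (by simp)]
    rw [h0, map_smul, meanL_oneG, smul_eq_mul, mul_one]
  rw [hm, h0]

/-- A curve of shapes on a compact parameter set keeps a margin. -/
theorem exists_cone_margin {Y : Type*} [TopologicalSpace Y] {S : Set Y} (hS : IsCompact S)
    {g : Y → Gal D} (hg : ContinuousOn g S) (h : ∀ y ∈ S, ∀ θ, coneMean (g y) θ < 0) :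
    ∃ m > (0 : ℝ), ∀ y ∈ S, ∀ θ, coneMean (g y) θ ≤ -m := by
  have h1 : Continuous fun z : Gal D × Sph 3 => coneMean z.1 z.2 := by
    have a : Continuous fun z : Gal D × Sph 3 => res z.1.poly z.2 :=
      continuous_res_gal LinearMap.id
    have b : Continuous fun z : Gal D × Sph 3 => lapRes z.1 z.2 :=
      continuous_finsetSum _ fun j _ =>
        continuous_res_gal ((rotP j).toLinearMap.comp (rotP j).toLinearMap)
    exact ((continuous_const.mul (a.pow 2)).add (b.div_const 2)).sub a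
  have hc : ContinuousOn (fun z : Y × Sph 3 => -coneMean (g z.1) z.2) (S ×ˢ univ) :=
    (h1.comp_continuousOn ((hg.comp continuousOn_fst fun z hz => hz.1).prodMk continuousOn_snd)).neg
  obtain ⟨m, hm, hle⟩ := exists_pos_lower (hS.prod isCompact_univ) hc fun z hz =>
    neg_pos.2 (h z.1 hz.1 z.2)
  exact ⟨m, hm, fun y hy θ => le_neg.2 (hle (y, θ) ⟨hy, trivial⟩)⟩

theorem gapAt_smul {l : ℕ} {p : Gal D} {c : ℝ} (hc : 0 < c) (h : gapAt D l p) :
    gapAt D l (c • p) := by
  simp only [gapAt, map_smul, pencil_smul]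
  exact (gap_smul _ hc l).2 h

theorem projAt_smul {j : ℕ} {p : Gal D} {c : ℝ} (hc : 0 < c) (hp : ∀ θ, 0 < res p.poly θ)
    (h : gapAt D j p) : projAt D j (c • p) = projAt D j p := by
  simp only [projAt, map_smul, pencil_smul]
  exact topProj_smul (goodOp_pencil (wt_mem_posW hp)) hc h

/-- A loop in a smaller set of shapes is a loop in a larger one. -/
def loopMono {O O' : Set (Gal D)} (h : O ⊆ O') {j : ℕ} {p₀ : Gal D}
    (L : LoopAt O (gapAt D) (projAt D) 224 729 j p₀) :
    LoopAt O' (gapAt D) (projAt D) 224 729 j p₀ :=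
  { L with mem := fun s hs x => h (L.mem s hs x) }

/-- The admissible shapes of mean one. -/
def unitCone (D : ℕ) : Set (Gal D) := {p ∈ Ocone D | meanL D p = 1}

/-- Loops of all gaps at a rest shape near the round one, given the centres. -/
theorem exists_loops {D₀ : ℕ} (hC : CentreHyp D₀) {δ : ℝ} (hδ : 0 < δ) :
    ∃ D, 2 ≤ D ∧ ∃ one p₀ : Gal D, (∀ θ, res one.poly θ = 1) ∧ ‖wt D p₀ - 1‖ < δ ∧
      one ∈ unitCone D ∧ p₀ ∈ unitCone D ∧ (∀ l ∈ Icc 224 729, gapAt D l p₀) ∧
      ∃ L : ∀ j, j ∈ Icc 225 728 → LoopAt (unitCone D) (gapAt D) (projAt D) 224 729 j p₀,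
        (∃ c₀, ShapeOK (wordFam L) one p₀ c₀) ∧ ∃ m > (0 : ℝ),
          (∀ c ∈ Icc (0 : ℝ) 1, ∀ θ, coneMean (one + c • (p₀ - one)) θ ≤ -m) ∧
          ∀ k, ∀ s ∈ Icc (0 : ℝ) 1, ∀ x θ, coneMean (p₀ + (wordFam L).path k s x) θ ≤ -m := by
  classical
  set Dst := max 2 D₀
  have h2 : 2 ≤ Dst := le_max_left _ _
  set K := (fun e => up h2 (certG e)) '' Icc 0 certE
  have hK : IsCompact K := isCompact_Icc.image (by
    have h := (up h2).continuous.comp (continuous_const.add (continuous_id.smul continuous_const) :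
      Continuous fun e : ℝ => certG e)
    exact h)
  have hKc : Convex ℝ K := by
    rintro _ ⟨e, he, rfl⟩ _ ⟨f, hf, rfl⟩ a b ha hb hab
    refine ⟨a * e + b * f, convex_Icc _ _ he hf ha hb hab, ?_⟩
    simp only [← map_smul, ← map_add]
    congr 1
    simp only [certG]
    rw [show b = 1 - a by linarith]
    module
  have hKO : K ⊆ Ocone Dst := by
    rintro _ ⟨e, he, rfl⟩
    exact up_mem_ocone h2 (certG_mem_ocone he)
  obtain ⟨D, hD, V, hV, hKV, hVO⟩ := exists_strat hK hKO
  set K' := up hD '' K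
  obtain ⟨U, hU, hUc, hKU, hUV⟩ := exists_convex_nhd (hK.image (up hD).continuous)
    (hKc.linear_image (up hD).toLinearMap) hV.isOpen hKV
  have hseg : ∀ e ∈ Icc 0 certE, ∃ p ∈ U, wt D p = sphAlg 3 (certP e) := fun e he =>
    ⟨up hD (up h2 (certG e)), hKU ⟨_, ⟨e, he, rfl⟩, rfl⟩, by rw [wt_up, wt_up, wt_certG]⟩
  have hcentre := hC D ((le_max_right _ _).trans hD) V hV U hU hUc hUV hVO hseg
  -- the round shape and the rest shape
  have hone : oneG D ∈ U := by
    refine hKU ⟨_, ⟨0, ⟨le_rfl, by rw [certE]; norm_num⟩, rfl⟩, ?_⟩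
    simp only [certG_zero]
    exact Gal.ext rfl
  have hum : ContinuousAt (unitMean (meanL D)) (oneG D) :=
    ((meanL D).continuous.continuousAt.inv₀ (by rw [meanL_oneG]; norm_num)).smul continuousAt_id
  have hev : ∀ᶠ p in 𝓝 (oneG D), p ∈ U ∧ unitMean (meanL D) p ∈ U ∧
      ‖wt D (unitMean (meanL D) p) - 1‖ < δ := by
    refine Eventually.and (hU.mem_nhds hone) ((hum.eventually_mem (hU.mem_nhds ?_)).and
      ((((wt D).continuous.continuousAt.comp hum).sub continuousAt_const).norm.eventually_lt_const ?_))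
    · rw [unitMean_of_eq_one meanL_oneG]; exact hone
    · simp only [Pi.sub_apply, Function.comp_apply]
      rw [unitMean_of_eq_one meanL_oneG, wt_oneG, sub_self, norm_zero]
      exact hδ
  obtain ⟨W, hW, hWo, hoW⟩ := eventually_nhds_iff.1 hev
  obtain ⟨q, hqW, hq⟩ := hV.exists_allOpen hWo (fun p hp => hUV (hW p hp).1) ⟨_, hoW⟩
  obtain ⟨hqU, hpU, hpδ⟩ := hW q hqW
  have hφq : 0 < meanL D q := meanL_pos (hVO (hUV hqU))
  set p₀ := unitMean (meanL D) q
  have hp1 : meanL D p₀ = 1 := map_unitMean hφq.ne'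
  have hp0 : p₀ ∈ unitCone D := ⟨hVO (hUV hpU), hp1⟩
  have hp0g : ∀ l ∈ Icc 224 729, gapAt D l p₀ := fun l hl =>
    gapAt_smul (inv_pos.2 hφq) (hq l (mem_gapWindow.2 hl))
  have hpos : ∀ p ∈ U, ∀ θ, 0 < wt D p θ := fun p hp => hV.pos p (hUV hp)
  have hjoin : ∀ p ∈ U, ∀ q ∈ U, (∀ l ∈ Icc 224 729, gapAt D l p) →
      (∀ l ∈ Icc 224 729, gapAt D l q) → ∃ v ∈ U,
        (∀ z ∈ segment ℝ v p, z ∈ U ∧ ∀ l ∈ Icc 224 729, gapAt D l z) ∧
        ∀ z ∈ segment ℝ v q, z ∈ U ∧ ∀ l ∈ Icc 224 729, gapAt D l z := by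
    intro p hp q hq hpo hqo
    obtain ⟨v, hv, h1, h2⟩ := hV.exists_two_segments hUc hU hUV hp hq
      (fun l hl => hpo l (mem_gapWindow.1 hl)) (fun l hl => hqo l (mem_gapWindow.1 hl))
    exact ⟨v, hv, fun z hz => ⟨(h1 hz).1, fun l hl => (h1 hz).2 l (mem_gapWindow.2 hl)⟩,
      fun z hz => ⟨(h2 hz).1, fun l hl => (h2 hz).2 l (mem_gapWindow.2 hl)⟩⟩
  have hloop : ∀ j, j ∈ Icc 225 728 →
      Nonempty (LoopAt (unitCone D) (gapAt D) (projAt D) 224 729 j p₀) := by
    intro j hj
    obtain ⟨C⟩ := hcentre j hj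
    obtain ⟨L⟩ := Loops.loopAt_of_centre (j := j) ⟨by linarith [hj.1], by linarith [hj.2]⟩ C hpU
      hp0g hjoin
      (continuousOn_topProj
        (fun p hp => ((continuousAt_pencil (tot_pos (hpos p hp.1)).ne').comp
          (wt D).continuous.continuousAt).continuousWithinAt)
        (fun p hp => goodOp_pencil (hpos p hp.1)) fun p hp => hp.2)
      (fun p _ _ v => (topSpace (pencil (wt D p)) j).starProjection_eq_self_iff.2
        ((topSpace (pencil (wt D p)) j).starProjection_apply_mem v))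
      (fun p hp _ =>
        (LinearEquiv.ofEq _ _ (Submodule.range_starProjection
          (topSpace (pencil (wt D p)) j))).finrank_eq.trans
          ((goodOp_pencil (hpos p hp)).finrank_topSpace j))
    obtain ⟨L', -⟩ := exists_loopAt_unitMean (isOpenGap := gapAt D) (proj := projAt D) (meanL D)
      (fun p hp => meanL_pos hp)
      (fun p hp c hc => smul_mem_ocone hp hc) (fun l p _ c hc h => gapAt_smul hc h)
      (fun p hp h c hc => projAt_smul hc hp.1 h) (loopMono (hUV.trans hVO) L) hp1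
    exact ⟨L'⟩
  let L' : ∀ j, j ∈ Icc 225 728 → LoopAt (unitCone D) (gapAt D) (projAt D) 224 729 j p₀ :=
    fun j hj => (hloop j hj).some
  have hone' : oneG D ∈ unitCone D := ⟨hVO (hUV hone), meanL_oneG⟩
  have hseg' : ∀ c ∈ Icc (0 : ℝ) 1, oneG D + c • (p₀ - oneG D) ∈ unitCone D := fun c hc => by
    refine ⟨?_, by simp [meanL_oneG, hp1]⟩
    exact (convex_ocone D).segment_subset hone'.1 hp0.1
      (segment_eq_image' ℝ (oneG D) p₀ ▸ ⟨c, hc, rfl⟩)
  have hpath : ∀ k, ∀ s ∈ Icc (0 : ℝ) 1, ∀ x,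
      p₀ + (wordFam fun j hj => L' j hj).path k s x ∈ unitCone D := fun k s hs x =>
    (wordFam_spec _ k hs x).1
  refine ⟨D, (le_max_left 2 D₀).trans hD, oneG D, p₀, res_oneG, hpδ, hone', hp0, hp0g,
    fun j hj => L' j hj, ?_, ?_⟩
  · refine exists_shapeOK _ _ _ res_oneG hp0.1.1 (fun k u hu x => (hpath k u hu x).1.1) ?_ ?_
    · rw [part_zero_eq, part_zero_eq, hp1, meanL_oneG]
    · intro k u hu x
      have h := (hpath k u hu x).2
      rw [map_add, hp1, add_eq_left] at h
      rw [part_zero_eq, h, zero_smul]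
  set L := wordFam fun j hj => L' j hj
  obtain ⟨m₁, hm₁, hs₁⟩ := exists_cone_margin (isCompact_Icc (a := (0 : ℝ)) (b := 1))
    (g := fun c : ℝ => oneG D + c • (p₀ - oneG D)) (by fun_prop)
    fun c hc θ => coneMean_neg (hseg' c hc).1 (hseg' c hc).2 θ
  choose mk hmk hsk using fun k => exists_cone_margin
    ((isCompact_Icc (a := (0 : ℝ)) (b := 1)).prod (isCompact_Icc (a := (1 / 4 : ℝ)) (b := 1 / 2)))
    (g := fun z : ℝ × ℝ => p₀ + L.path k z.1 z.2)
    ((continuous_const.add (L.smooth k).continuous).continuousOn)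
    fun z hz θ => coneMean_neg (hpath k z.1 hz.1 z.2).1 (hpath k z.1 hz.1 z.2).2 θ
  set S := m₁⁻¹ + ∑ k, (mk k)⁻¹
  have hS : 0 < S :=
    add_pos_of_pos_of_nonneg (inv_pos.2 hm₁) (Finset.sum_nonneg fun k _ => (inv_pos.2 (hmk k)).le)
  have hm1 : S⁻¹ ≤ m₁ := inv_le_of_inv_le₀ hm₁
    (le_add_of_nonneg_right (Finset.sum_nonneg fun k _ => (inv_pos.2 (hmk k)).le))
  refine ⟨S⁻¹, inv_pos.2 hS, fun c hc θ => (hs₁ c hc θ).trans (neg_le_neg hm1),
    fun k s hs x θ => ?_⟩
  by_cases hx : x ∈ Icc (1 / 4 : ℝ) (1 / 2)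
  · refine (hsk k (s, x) ⟨hs, hx⟩ θ).trans (neg_le_neg (inv_le_of_inv_le₀ (hmk k) ?_))
    have := Finset.single_le_sum (f := fun i => (mk i)⁻¹) (fun i _ => (inv_pos.2 (hmk i)).le)
      (Finset.mem_univ k)
    linarith [inv_pos.2 hm₁]
  · rw [L.supp k s x hx, add_zero]
    have h := hs₁ 1 ⟨zero_le_one, le_rfl⟩ θ
    rw [one_smul, add_sub_cancel] at h
    exact h.trans (neg_le_neg hm1)

end

end Vale.Agent.P225.Disproof.Strata
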