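import Vale.Agent.P225.Disproof.CentreCircle
import Vale.Agent.P225.Disproof.CentreDisc
import Vale.Agent.P225.Disproof.LoopsExist

/-!
# P225, module F: centres for all gaps of the loops

In every large degree each gap `225 .. 728` has a centre in any convex open set of admissible
shapes around the crossing segment.
-/

namespace Vale.Agent.P225.Disproof.Strata

open MvPolynomial Set

noncomputable section

/-- The centre lemma. -/
theorem exists_centreHyp : ∃ D₀, CentreHyp D₀ := by
  classical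
  have h : ∀ j : ℕ, ∃ N : ℕ, j ∈ Icc 225 728 → ∀ D, N ≤ D → ∀ U : Set (Gal D), IsOpen U →
      (∀ p ∈ U, wt D p ∈ PosW) → (∀ e ∈ Icc 0 certE, ∃ p ∈ U, wt D p = sphAlg 3 (certP e)) →
      ∃ g : ℝ → Gal D, ContDiff ℝ 1 g ∧ g 0 = g 1 ∧
        (∀ x ∈ Icc (0 : ℝ) 1, g x ∈ U ∧ Gap (pencil (wt D (g x))) j) ∧
        TurnsBy j (fun x => topProj (pencil (wt D (g x))) j) 0 1 (-1) := fun j => by
    by_cases hj : j ∈ Icc 225 728
    · obtain ⟨N, hN⟩ := exists_flipping_loop hj
      exact ⟨N, fun _ => hN⟩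
    · exact ⟨0, fun h => absurd h hj⟩
  choose N hN using h
  refine ⟨(Finset.Icc 225 728).sup N, fun D hD V hV U hU hUc hUV _ hseg j hj => ?_⟩
  have hle : N j ≤ D := (Finset.le_sup (f := N) (Finset.mem_Icc.2 hj)).trans hD
  obtain ⟨g, hg, hper, hgU, hturn⟩ :=
    hN j hj D hle U hU (fun p hp => hV.pos p (hUV hp)) hseg
  exact exists_centreAt_of_loop hV hU hUc hUV hj g hg hper hgU hturn

end

end Vale.Agent.P225.Disproof.Strata
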