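import Vale.Agent.P225.Disproof.Select
import Vale.Agent.P225.Disproof.Mix.Half

/-!
# P225: choosing the parameters over a horizon

Half blocks alternate: the first of a pair is chosen for the fixed flag, the second for the flag
the first one produced. The properties of a half block depend only on the parameters up to its end.
-/

namespace Vale.Agent.P225.Disproof

open Set

noncomputable section

/-- Parameters for `n` pairs of half blocks. -/
theorem exists_pairs {P : ℕ} {Y : Type*} (Low : ℕ → (ℕ → ℝ) → Prop)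
    (A B : ℕ → (ℕ → ℝ) → Y → Prop) (n : ℕ)
    (hLow : ∀ i s s', (∀ m < 2 * i * P, s m = s' m) → Low i s → Low i s')
    (hAdep : ∀ i s s' y, (∀ m < (2 * i + 1) * P, s m = s' m) → A i s y → A i s' y)
    (hBdep : ∀ i s s' y, (∀ m < (2 * i + 2) * P, s m = s' m) → B i s y → B i s' y)
    (hA : ∀ i < n, ∀ s ∈ paramCube, Low i s →
      ∃ u ∈ Icc (0 : Fin P → ℝ) 1, ∃ y, A i (merge P (2 * i) s u) y)
    (hB : ∀ i < n, ∀ s ∈ paramCube, ∀ y, A i s y →
      ∃ u ∈ Icc (0 : Fin P → ℝ) 1, B i (merge P (2 * i + 1) s u) y)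
    (hzero : ∀ s ∈ paramCube, Low 0 s)
    (hnext : ∀ i < n, ∀ s ∈ paramCube, ∀ y, A i s y → B i s y → Low (i + 1) s) :
    ∃ s ∈ paramCube, ∀ i < n, Low i s ∧ ∃ y, A i s y ∧ B i s y := by
  induction n with
  | zero => exact ⟨0, fun m => by simp, fun i hi => absurd hi (Nat.not_lt_zero i)⟩
  | succ n ih =>
    obtain ⟨s, hs, hgood⟩ := ih (fun i hi => hA i (Nat.lt_succ_of_lt hi))
      (fun i hi => hB i (Nat.lt_succ_of_lt hi)) (fun i hi => hnext i (Nat.lt_succ_of_lt hi))
    have hlow : Low n s := by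
      rcases Nat.eq_zero_or_pos n with rfl | hn
      · exact hzero s hs
      · obtain ⟨-, y, h1, h2⟩ := hgood (n - 1) (by omega)
        have h3 := hnext (n - 1) (by omega) s hs y h1 h2
        rwa [Nat.sub_add_cancel hn] at h3
    obtain ⟨u, hu, y, hy⟩ := hA n (Nat.lt_succ_self n) s hs hlow
    set s1 := merge P (2 * n) s u
    have hs1 : s1 ∈ paramCube := merge_mem hs hu
    obtain ⟨v, hv, hy'⟩ := hB n (Nat.lt_succ_self n) s1 hs1 y hy
    set s2 := merge P (2 * n + 1) s1 v with hs2def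
    have hpast : ∀ m < 2 * n * P, s m = s2 m := fun m hm => by
      rw [hs2def, merge_before s1 v (by rw [add_mul]; omega)]; exact (merge_before s u hm).symm
    refine ⟨s2, merge_mem hs1 hv, fun i hi => ?_⟩
    rcases (Nat.lt_succ_iff.1 hi).eq_or_lt with rfl | hlt
    · refine ⟨hLow i s s2 hpast hlow, y, hAdep i s1 s2 y (fun m hm => ?_) hy, hy'⟩
      exact (merge_before s1 v hm).symm
    · obtain ⟨h1, z, h2, h3⟩ := hgood i hlt
      have hle : (2 * i + 2) * P ≤ 2 * n * P := Nat.mul_le_mul_right P (by omega)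
      refine ⟨hLow i s s2 (fun m hm => hpast m (by rw [add_mul] at hle; omega)) h1, z,
        hAdep i s s2 z (fun m hm => hpast m ?_) h2, hBdep i s s2 z (fun m hm => hpast m ?_) h3⟩
      · simp only [add_mul, one_mul] at hm hle; omega
      · omega

variable {E : Type*} [NormedAddCommGroup E] [InnerProductSpace ℝ E] [FiniteDimensional ℝ E]
  {a b ε : ℝ}

/-- Two dual systems agree up to `c`. -/
def AgreeUpTo (S S' : DualSys E a b ε) (c : ℝ) : Prop :=
  ∀ t ∈ Icc a c, S.N t = S'.N t ∧ S.En t = S'.En t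

theorem AgreeUpTo.cone_eq {S S' : DualSys E a b ε} {c t : ℝ} (h : AgreeUpTo S S' c)
    (ht : t ∈ Icc a c) (μ : ℝ) (x : E) : S.cone μ t x = S'.cone μ t x := by
  simp [DualSys.cone, (h t ht).1, (h t ht).2]

theorem AgreeUpTo.nrm_eq {S S' : DualSys E a b ε} {c t : ℝ} (h : AgreeUpTo S S' c)
    (ht : t ∈ Icc a c) (x : E) : S.nrm t x = S'.nrm t x := by
  simp [DualSys.nrm, (h t ht).1]

/-- A half block depends only on the system up to its end. -/
theorem Half.congr {S S' : DualSys E a b ε} {lev : ℕ → ℝ} {lo M : ℕ} {c T t0 te t1 : ℝ}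
    {F W H : ℕ → Submodule ℝ E} (h : Half S lev lo M c T t0 te t1 F W H)
    (hag : AgreeUpTo S S' t1) (h0 : a ≤ t0) (h01 : t0 ≤ te) (h12 : te ≤ t1) (hT : 0 ≤ T) :
    Half S' lev lo M c T t0 te t1 F W H := by
  have m0 : t0 ∈ Icc a t1 := ⟨h0, h01.trans h12⟩
  have m1 : t1 ∈ Icc a t1 := ⟨m0.1.trans m0.2, le_rfl⟩
  refine { h with
    W_low := fun l h1 h2 τ hτ x hx => ?_
    W_end := fun l h1 h2 x hx hx0 => ?_
    H_end := fun l h1 h2 x hx => ?_
    H_high := fun l h1 h2 τ hτ x hx => ?_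
    H_start := fun x hx => ?_ }
  · have hm : τ ∈ Icc a t1 := ⟨by linarith [hτ.1], hτ.2⟩
    rw [← hag.cone_eq hm, ← hag.nrm_eq hm]
    exact h.W_low l h1 h2 τ hτ x hx
  · rw [← hag.cone_eq m1]
    exact h.W_end l h1 h2 x hx hx0
  · rw [← hag.cone_eq m1]
    exact h.H_end l h1 h2 x hx
  · have hm : τ ∈ Icc a t1 := ⟨by linarith [hτ.1], by linarith [hτ.2]⟩
    rw [← hag.cone_eq hm, ← hag.nrm_eq hm]
    exact h.H_high l h1 h2 τ hτ x hx
  · rw [← hag.cone_eq m0]
    exact h.H_start x hx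

end

end Vale.Agent.P225.Disproof
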