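import Vale.Agent.P225.Disproof.TimedCtrl
import Vale.Agent.P225.Disproof.Recursion

/-!
# P225: the dual systems of the control in the form of the recursion

`seqSys s` is the system of the sequence `s` clamped to the cube.
-/

namespace Vale.Agent.P225.Disproof

open Set
open scoped RealInnerProductSpace

noncomputable section

attribute [local irreducible] Mix.loops merge Sched.ck

/-- A sequence clamped to the cube. -/
def clampSeq (s : ℕ → ℝ) : paramCube :=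
  ⟨fun n => max 0 (min 1 (s n)), fun _ => ⟨le_max_left _ _, max_le zero_le_one (min_le_left _ _)⟩⟩

theorem clampSeq_val {s : ℕ → ℝ} (hs : s ∈ paramCube) : clampSeq s = ⟨s, hs⟩ :=
  Subtype.ext (funext fun n => by
    show max 0 (min 1 (s n)) = s n
    rw [min_eq_right (hs n).2, max_eq_right (hs n).1])

attribute [local semireducible] merge in
theorem merge_cast {P P' : ℕ} (e : P = P') (h : ℕ) (s : ℕ → ℝ) (u : Fin P' → ℝ) :
    merge P h s (fun k => u (Fin.cast e k)) = merge P' h s u := by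
  subst e
  rfl

variable {X : Type*} [NormedAddCommGroup X] [InnerProductSpace ℝ X]
  {W : X →L[ℝ] C(Sph 3, ℝ)} {L : LoopFam X wordLen} {p0 : X} {Λ : Levels W L p0}
  {C : Ctrl X} {N : ℕ} {t0 H ε : ℝ}
  {E : Type*} [NormedAddCommGroup E] [InnerProductSpace ℝ E] [FiniteDimensional ℝ E]
  {F : TraceFam W C N t0 H ε Λ.g}

namespace SlowFam

variable (Z : SlowFam Λ F E)

/-- The system of a sequence. -/
def seqSys (s : ℕ → ℝ) : DualSys E C.sch.t1 H ε := Z.sys (clampSeq s)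

theorem seqSys_top (s : ℕ → ℝ) : |(Z.seqSys s).top| ≤ Λ.top :=
  le_of_eq (abs_of_nonneg (Λ.g_pos.le.trans Λ.g_le_top))

/-- Dependence on the past only. -/
theorem seqSys_agree {h : ℕ} (hH : C.sch.hstart h ≤ H) {s s' : ℕ → ℝ}
    (hs : ∀ m < h * C.sch.P, s m = s' m) :
    AgreeUpTo (Z.seqSys s) (Z.seqSys s') (C.sch.hstart h) := fun t ht =>
  (Z.agree (s := clampSeq s) (s' := clampSeq s') (n := h * C.sch.P)
    (fun m hm => by simp only [clampSeq, hs m hm]) ⟨ht.1, ht.2.trans hH⟩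
    (by rw [← C.sch.hstart_eq_slotStart]; exact ht.2)).2

/-- The norm of the system is the weighted norm of the orbit. -/
theorem seqSys_nrm {s : ℕ → ℝ} (hs : s ∈ paramCube) (t : ℝ) (x : E) :
    (Z.seqSys s).nrm t x = (F.P ⟨s, hs⟩).nrm t (Z.U ⟨s, hs⟩ t x) := by
  rw [seqSys, clampSeq_val hs, sys, (Z.dual _).dualSys_nrm]
  rfl

include Z in
/-- The split at any time of the schedule, for the end of the slow solutions. -/
theorem top_split (h : CtrlSmall Λ C N ε) (s : paramCube) {t : ℝ} (ht : t ∈ Icc C.sch.t1 H) :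
    ((F.P s).tail C.sch.t1 F.le_t1).Split t (topLev Λ C s t) Λ.g (Module.finrank ℝ E) := by
  rw [Z.dim]
  exact h.level_split F top_mem_win ht (h.ctrl.mem_top s.2 ht.1)

variable (h : CtrlSmall Λ C N ε) {K : TimeConsts Λ.g Λ.top}
include h

/-- Low planes at the start of the schedule. -/
theorem seqSys_init (s : ℕ → ℝ) (l : ℕ) (h1 : botDim ≤ l) (h2 : l ≤ slowDim) :
    ∃ Wl : Submodule ℝ E, Module.finrank ℝ Wl = l ∧
      ∀ x ∈ Wl, x ≠ 0 → (Z.seqSys s).cone (Λ.lev l) C.sch.t1 x < 0 :=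
  Z.exists_start_flag h (clampSeq s) l h1 h2

variable (hτ : 4 * K.L < C.sch.tau0) (hκ : 1 ≤ C.sch.kap)
include hτ hκ

/-- Every rest has all gaps open. -/
theorem seqSys_rest {i : ℕ} (hH : C.sch.hstart (i + 1) ≤ H) (s : ℕ → ℝ) :
    RestHyp (Z.seqSys s) Λ.lev botDim slowDim K.c K.T (C.sch.ck i C.sch.P)
      (C.sch.hstart (i + 1)) := by
  have hb : BlockTime C K H i := ⟨hτ, hκ, hH⟩
  have hsub := hb.step_sub le_rfl
  have hr : ∀ t ∈ Icc (C.sch.ck i C.sch.P) (C.sch.ck i (C.sch.P + 1)),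
      C.rho (clampSeq s : ℕ → ℝ) t = p0 := fun t ht =>
    h.ctrl.eq_rest le_rfl ht fun hlt => absurd hlt (lt_irrefl _)
  rw [← C.sch.ck_last]
  exact ⟨fun l h1 h2 => Z.rest_open h hb h1 h2 hsub hr,
    fun τ hτ' x => Z.rest_top h hb (hsub hτ') (hr τ hτ') x⟩

/-- Some parameters of a half block reverse a low flag. -/
theorem seqSys_half {i : ℕ} (hH : C.sch.hstart (i + 1) ≤ H) {s : ℕ → ℝ} (hs : s ∈ paramCube)
    {Fl : ℕ → Submodule ℝ E}
    (hFd : ∀ l, botDim ≤ l → l ≤ slowDim → Module.finrank ℝ (Fl l) = l)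
    (hFm : ∀ l, botDim ≤ l → l < slowDim → Fl l ≤ Fl (l + 1))
    (hFn : ∀ l, botDim ≤ l → l ≤ slowDim → ∀ x ∈ Fl l, x ≠ 0 →
      (Z.seqSys s).cone (Λ.lev l) (C.sch.hstart i) x < 0) :
    ∃ u ∈ Icc (0 : Fin C.sch.P → ℝ) 1, ∃ Wl Hl : ℕ → Submodule ℝ E,
      Half (Z.seqSys (merge C.sch.P i s u)) Λ.lev botDim slowDim K.c K.T (C.sch.hstart i)
        (C.sch.ck i C.sch.P) (C.sch.hstart (i + 1)) Fl Wl Hl := by
  have hP : C.sch.P = wordLen := h.ctrl.hP
  obtain ⟨u, hu, Wl, Hl, hhalf⟩ := Z.exists_half_ctrl h (i := i) ⟨hτ, hκ, hH⟩ ⟨s, hs⟩ hFd hFm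
    fun l h1 h2 x hx hx0 => by
      have h3 := hFn l h1 h2 x hx hx0
      rwa [seqSys, clampSeq_val hs, ← C.sch.ck_zero] at h3
  refine ⟨fun k => u (Fin.cast hP k), ⟨fun k => hu.1 _, fun k => hu.2 _⟩, Wl, Hl, ?_⟩
  have e : clampSeq (merge C.sch.P i s fun k => u (Fin.cast hP k)) = blockParam ⟨s, hs⟩ i u := by
    rw [merge_cast hP, clampSeq_val (merge_mem hs hu)]
    exact Subtype.ext (blockParam_val ⟨s, hs⟩ i hu).symm
  rw [seqSys, e, ← C.sch.ck_zero, ← C.sch.ck_last, hP]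
  exact hhalf

end SlowFam

end

end Vale.Agent.P225.Disproof
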