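import Vale.Agent.P225.Disproof.BlockTimes
import Mathlib.Analysis.Calculus.ContDiff.Basic
import Mathlib.Analysis.Calculus.Deriv.Comp

/-!
# P225: the derivatives of the loops are jointly smooth and uniformly bounded
-/

namespace Vale.Agent.P225.Disproof

open Set Filter Topology

noncomputable section

variable {X : Type*} [NormedAddCommGroup X] [NormedSpace ℝ X]

/-- The iterated derivative in the second variable of a smooth function is smooth. -/
theorem contDiff_iteratedDeriv_snd {f : ℝ → ℝ → X}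
    (hf : ContDiff ℝ (⊤ : ℕ∞) fun p : ℝ × ℝ => f p.1 p.2) :
    ∀ m : ℕ, ContDiff ℝ (⊤ : ℕ∞) fun p : ℝ × ℝ => iteratedDeriv m (f p.1) p.2 := by
  intro m
  induction m with
  | zero => simpa using hf
  | succ m ih =>
    set F := fun p : ℝ × ℝ => iteratedDeriv m (f p.1) p.2
    have hd : ContDiff ℝ (⊤ : ℕ∞) fun p => fderiv ℝ F p (0, 1) :=
      (ih.fderiv_right (by simp)).clm_apply contDiff_const
    have e : (fun p : ℝ × ℝ => iteratedDeriv (m + 1) (f p.1) p.2) =
        fun p => fderiv ℝ F p (0, 1) := by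
      funext p
      rw [iteratedDeriv_succ]
      have h1 : HasDerivAt (fun y => F (p.1, y)) (fderiv ℝ F p (0, 1)) p.2 :=
        (show HasFDerivAt F (fderiv ℝ F p) ((fun y : ℝ => (p.1, y)) p.2) from
          ((ih.differentiable (by simp)) p).hasFDerivAt).comp_hasDerivAt p.2
          (show HasDerivAt (fun y : ℝ => (p.1, y)) (0, 1) p.2 from
            (hasDerivAt_const p.2 p.1).prodMk (hasDerivAt_id p.2))
      exact h1.deriv
    rw [e]
    exact hd

namespace LoopFam

variable {P : ℕ} (L : LoopFam X P)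

theorem iteratedDeriv_path_zero (k : Fin P) (m : ℕ) (s : ℝ) {x : ℝ}
    (hx : x ∉ Icc (1 / 4 : ℝ) (1 / 2)) : iteratedDeriv m (L.path k s) x = 0 := by
  have h : L.path k s =ᶠ[𝓝 x] fun _ => (0 : X) :=
    Filter.eventuallyEq_of_mem (isClosed_Icc.isOpen_compl.mem_nhds hx) fun y hy => L.supp k s y hy
  rw [h.iteratedDeriv_eq m]
  simp

/-- Every derivative of the loops is bounded on the parameter interval. -/
theorem exists_path_bound (m : ℕ) :
    ∃ B : ℝ, 0 ≤ B ∧ ∀ k, ∀ s ∈ Icc (0 : ℝ) 1, ∀ x, ‖iteratedDeriv m (L.path k s) x‖ ≤ B := by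
  choose C hC using fun k =>
    (isCompact_Icc.prod (isCompact_Icc (a := (1 / 4 : ℝ)) (b := 1 / 2))).exists_bound_of_continuousOn
      (s := Icc (0 : ℝ) 1 ×ˢ Icc (1 / 4 : ℝ) (1 / 2))
      (contDiff_iteratedDeriv_snd (L.smooth k) m).continuous.continuousOn
  refine ⟨∑ k, |C k|, Finset.sum_nonneg fun k _ => abs_nonneg _, fun k s hs x => ?_⟩
  have hk : |C k| ≤ ∑ j, |C j| :=
    Finset.single_le_sum (fun j _ => abs_nonneg (C j)) (Finset.mem_univ k)
  by_cases hx : x ∈ Icc (1 / 4 : ℝ) (1 / 2)
  · exact ((hC k (s, x) ⟨hs, hx⟩).trans (le_abs_self _)).trans hk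
  · rw [L.iteratedDeriv_path_zero k m s hx, norm_zero]
    exact (abs_nonneg _).trans hk

end LoopFam

namespace Sched

variable (C : Sched) (L : LoopFam X C.P)

theorem iteratedDeriv_dev (s : ℕ → ℝ) (n m : ℕ) (t : ℝ) :
    iteratedDeriv m ((C.slots L s).dev n) t = (C.slotLen n)⁻¹ ^ m •
      iteratedDeriv m (L.path ⟨n % C.P, Nat.mod_lt n C.hP⟩ (s n))
        ((C.slotLen n)⁻¹ * (t - C.slotStart n)) := by
  set f := L.path ⟨n % C.P, Nat.mod_lt n C.hP⟩ (s n) with hf
  have hfs : ContDiff ℝ m f :=
    ((L.smooth _).comp (contDiff_const.prodMk contDiff_id)).of_le (by exact_mod_cast le_top)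
  have e : (C.slots L s).dev n = fun x => f ((C.slotLen n)⁻¹ * (x - C.slotStart n)) := by
    funext x
    simp [slots, hf, div_eq_inv_mul]
  rw [e, congrFun (iteratedDeriv_comp_sub_const m (fun x => f ((C.slotLen n)⁻¹ * x))
    (C.slotStart n)) t]
  exact congrFun (iteratedDeriv_comp_const_smul hfs _) _

/-- Every derivative of the sum of the deviations is continuous in parameters and time. -/
theorem continuous_iteratedDeriv_total (m : ℕ) :
    Continuous fun p : (ℕ → ℝ) × ℝ => iteratedDeriv m (C.slots L p.1).total p.2 := by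
  refine continuous_iff_continuousAt.2 fun p => ?_
  by_cases h : ∃ n, p.2 ∈ Icc (C.slotStart n + C.slotLen n / 4) (C.slotStart n + C.slotLen n / 2)
  · obtain ⟨n, hn⟩ := h
    have hlen : 0 < C.slotLen n := C.tau_pos _
    have hin : p.2 ∈ Ioo (C.slotStart n) (C.slotStart n + C.slotLen n) :=
      ⟨by linarith [hn.1], by linarith [hn.2]⟩
    have hev : ∀ᶠ q : (ℕ → ℝ) × ℝ in 𝓝 p,
        (C.slotLen n)⁻¹ ^ m • iteratedDeriv m (L.path ⟨n % C.P, Nat.mod_lt n C.hP⟩ (q.1 n))
          ((C.slotLen n)⁻¹ * (q.2 - C.slotStart n)) =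
          iteratedDeriv m (C.slots L q.1).total q.2 := by
      filter_upwards [(isOpen_Ioo.preimage continuous_snd).mem_nhds hin] with q hq
      rw [((C.slots L q.1).total_eq_dev_nhds (n := n) hq).iteratedDeriv_eq m,
        C.iteratedDeriv_dev L q.1 n m q.2]
    refine ContinuousAt.congr ?_ hev
    have hg : Continuous fun q : (ℕ → ℝ) × ℝ =>
        (q.1 n, (C.slotLen n)⁻¹ * (q.2 - C.slotStart n)) :=
      ((continuous_apply n).comp continuous_fst).prodMk
        (continuous_const.mul (continuous_snd.sub continuous_const))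
    have hc : Continuous fun q : (ℕ → ℝ) × ℝ =>
        iteratedDeriv m (L.path ⟨n % C.P, Nat.mod_lt n C.hP⟩ (q.1 n))
          ((C.slotLen n)⁻¹ * (q.2 - C.slotStart n)) :=
      (contDiff_iteratedDeriv_snd (L.smooth ⟨n % C.P, Nat.mod_lt n C.hP⟩) m).continuous.comp hg
    exact (hc.const_smul _).continuousAt
  · obtain ⟨N, hN⟩ := (C.slotStart_tendsto.eventually (eventually_gt_atTop (p.2 + 1))).exists_forall_of_atTop
    have hopen : ∀ n ∈ Finset.range N, ∀ᶠ x in 𝓝 p.2,
        x ∉ Icc (C.slotStart n + C.slotLen n / 4) (C.slotStart n + C.slotLen n / 2) := fun n _ =>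
      isClosed_Icc.isOpen_compl.mem_nhds fun hn => h ⟨n, hn⟩
    have hev : ∀ᶠ q : (ℕ → ℝ) × ℝ in 𝓝 p,
        (0 : X) = iteratedDeriv m (C.slots L q.1).total q.2 := by
      filter_upwards [continuous_snd.continuousAt.eventually
        ((eventually_all_finset (Finset.range N)).2 hopen),
        continuous_snd.continuousAt.eventually (eventually_lt_nhds (show p.2 < p.2 + 1 by linarith))]
        with q h1 h2
      have hout : ∀ n, q.2 ∉ Icc (C.slotStart n + C.slotLen n / 4)
          (C.slotStart n + C.slotLen n / 2) := fun n hn => by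
        rcases lt_or_ge n N with hlt | hge
        · exact h1 n (Finset.mem_range.2 hlt) hn
        · linarith [hN n hge, hn.1, show 0 < C.slotLen n from C.tau_pos _]
      rw [((C.slots L q.1).total_eq_zero_nhds hout).iteratedDeriv_eq m]
      simp
    exact continuousAt_const.congr hev

end Sched

namespace Ctrl

variable (C : Ctrl X)

/-- Every derivative of the shape is continuous in parameters and time. -/
theorem continuous_iteratedDeriv_rho (m : ℕ) :
    Continuous fun p : (ℕ → ℝ) × ℝ => iteratedDeriv m (C.rho p.1) p.2 := by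
  have hsw : ContDiff ℝ (m : ℕ∞) fun t => C.one + C.switch t • (C.p0 - C.one) :=
    contDiff_const.add (C.contDiff_switch.smul contDiff_const)
  have e : (fun p : (ℕ → ℝ) × ℝ => iteratedDeriv m (C.rho p.1) p.2) = fun p =>
      iteratedDeriv m (fun t => C.one + C.switch t • (C.p0 - C.one)) p.2 +
        iteratedDeriv m (C.sch.slots C.loops p.1).total p.2 := by
    funext p
    have h2 : ContDiff ℝ (m : ℕ∞) (C.sch.slots C.loops p.1).total :=
      ((C.sch.slots C.loops p.1).contDiff_total fun n =>
        ((C.loops.smooth _).of_le (by exact_mod_cast le_top)).comp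
          (contDiff_const.prodMk ((contDiff_id.sub contDiff_const).div_const _)))
    exact iteratedDeriv_fun_add hsw.contDiffAt h2.contDiffAt
  rw [e]
  exact ((hsw.continuous_iteratedDeriv m le_rfl).comp continuous_snd).add
    (C.sch.continuous_iteratedDeriv_total C.loops m)

end Ctrl

end

end Vale.Agent.P225.Disproof
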