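import Mathlib.Topology.MetricSpace.Sequences
import Mathlib.Topology.Instances.Real.Lemmas
import Mathlib.Topology.Metrizable.Basic

/-!
# P225: choosing the parameters block by block, and a convergent subsequence
-/

namespace Vale.Agent.P225.Disproof

open Set Filter Topology

noncomputable section

/-- The unit cube of parameters. -/
def paramCube : Set (ℕ → ℝ) := {s | ∀ n, s n ∈ Icc (0 : ℝ) 1}

theorem isCompact_paramCube : IsCompact paramCube := by
  have : paramCube = Set.univ.pi fun _ : ℕ => Icc (0 : ℝ) 1 := by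
    ext s; simp [paramCube, Pi.le_def, forall_and]
  rw [this]
  exact isCompact_univ_pi fun _ => isCompact_Icc

/-- `merge P h s u` uses `u` in block `h` and `s` elsewhere. -/
def merge (P h : ℕ) (s : ℕ → ℝ) (u : Fin P → ℝ) (n : ℕ) : ℝ :=
  if hn : h * P ≤ n ∧ n < h * P + P then u ⟨n - h * P, by omega⟩ else s n

theorem merge_apply {P h : ℕ} (s : ℕ → ℝ) (u : Fin P → ℝ) (k : Fin P) :
    merge P h s u (h * P + k) = u k := by
  have hk := k.2
  simp [merge, show h * P + (k : ℕ) < h * P + P by omega]

theorem merge_before {P h n : ℕ} (s : ℕ → ℝ) (u : Fin P → ℝ) (hn : n < h * P) :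
    merge P h s u n = s n := dif_neg fun hc => by omega

theorem merge_mem {P h : ℕ} {s : ℕ → ℝ} (hs : s ∈ paramCube) {u : Fin P → ℝ}
    (hu : u ∈ Icc (0 : Fin P → ℝ) 1) : merge P h s u ∈ paramCube := fun n => by
  simp only [merge]
  split_ifs with hn
  · exact ⟨hu.1 _, hu.2 _⟩
  · exact hs n

theorem continuous_merge (P h : ℕ) (s : ℕ → ℝ) :
    Continuous fun u : Fin P → ℝ => merge P h s u := by
  refine continuous_pi fun n => ?_
  simp only [merge]
  split_ifs with hn
  · exact continuous_apply _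
  · exact continuous_const

/-- Properties depending on the slots of blocks `≤ h` can be achieved block by block. -/
theorem exists_params {P : ℕ} (Good : ℕ → (ℕ → ℝ) → Prop)
    (hdep : ∀ h s s', (∀ n < (h + 1) * P, s n = s' n) → Good h s → Good h s')
    (H : ℕ) (hstep : ∀ h < H, ∀ s ∈ paramCube, (∀ g < h, Good g s) →
      ∃ u ∈ Icc (0 : Fin P → ℝ) 1, Good h (merge P h s u)) :
    ∃ s ∈ paramCube, ∀ h < H, Good h s := by
  induction H with
  | zero => exact ⟨0, fun n => by simp, fun h hh => absurd hh (Nat.not_lt_zero h)⟩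
  | succ H ih =>
    obtain ⟨s, hs, hgood⟩ := ih fun h hh => hstep h (Nat.lt_succ_of_lt hh)
    obtain ⟨u, hu, hu'⟩ := hstep H (Nat.lt_succ_self H) s hs hgood
    refine ⟨merge P H s u, merge_mem hs hu, fun h hh => ?_⟩
    rcases (Nat.lt_succ_iff.1 hh).eq_or_lt with rfl | hlt
    · exact hu'
    · refine hdep h s _ (fun n hn => (merge_before s u ?_).symm) (hgood h hlt)
      exact lt_of_lt_of_le hn (Nat.mul_le_mul_right P hlt)

/-- Parameters have a convergent subsequence. -/
theorem exists_params_limit {s : ℕ → ℕ → ℝ} (hs : ∀ k, s k ∈ paramCube) :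
    ∃ t ∈ paramCube, ∃ φ : ℕ → ℕ, StrictMono φ ∧ Tendsto (fun k => s (φ k)) atTop (𝓝 t) :=
  isCompact_paramCube.tendsto_subseq hs

end

end Vale.Agent.P225.Disproof
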