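import Vale.Agent.P225.Disproof.MassCone

/-!
# P225: trace data, flows, spectral planes, growth criterion and contraction
-/

namespace Vale.Agent.P225.Disproof

open Set Filter Topology
open scoped RealInnerProductSpace

noncomputable section

variable {V : Type*} [NormedAddCommGroup V] [InnerProductSpace ℝ V] [FiniteDimensional ℝ V]

/-- The trace data of a pencil. -/
theorem exists_traceData {a b ε : ℝ} (hab : a ≤ b) {K K' G G' : ℝ → V →L[ℝ] V} {m : ℝ}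
    (hm : 0 < m) (hK : Continuous K) (hG : Continuous G)
    (hKs : ∀ t, ∀ x y : V, ⟪K t x, y⟫ = ⟪x, K t y⟫)
    (hGs : ∀ t, ∀ x y : V, ⟪G t x, y⟫ = ⟪x, G t y⟫)
    (hGm : ∀ t, ∀ x : V, m * ‖x‖ ^ 2 ≤ ⟪x, G t x⟫) (hK0 : ∀ t, ∀ x : V, 0 ≤ ⟪x, K t x⟫)
    (hε : 0 ≤ ε) (hε1 : ε ≤ 1)
    (hdK : ∀ t ∈ Icc a b, HasDerivWithinAt K (K' t) (Icc a b) t)
    (hdG : ∀ t ∈ Icc a b, HasDerivWithinAt G (G' t) (Icc a b) t)
    (hK' : ∀ t ∈ Icc a b, ∀ x : V, |⟪x, K' t x⟫| ≤ ε * ⟪x, K t x⟫)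
    (hG' : ∀ t ∈ Icc a b, ∀ x : V, |⟪x, G' t x⟫| ≤ ε * ⟪x, G t x⟫)
    (B₀ : V →L[ℝ] V) (hB₀s : ∀ x y : V, ⟪B₀ x, y⟫ = ⟪x, B₀ y⟫) (hB₀ : ∀ x : V, 0 ≤ ⟪x, B₀ x⟫)
    (ha : K a = B₀ + B₀ * Ring.inverse (G a) * B₀) :
    ∃ P : TraceData V a b ε, P.K = K ∧ P.G = G ∧ P.G' = G' ∧ P.B a = B₀ := by
  obtain ⟨B, U, hBa, -, hBU⟩ := exists_mass_dtn hab hm hK hG hKs hGs hGm hK0 B₀ hB₀s hB₀
  have hF := mass_barrier hab hm hε hε1 (fun t _ => hGs t) (fun t _ => hKs t) (fun t _ => hGm t)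
    hdK hdG hK' hG' (fun t ht => (hBU t ht).1) (fun t ht => (hBU t ht).2.2.2.1)
    (fun t ht => (hBU t ht).2.2.2.2) (by rw [hBa]; exact ha)
  exact ⟨{ K := K, G := G, G' := G', B := B, m := m, hm := hm, hε := hε, hε1 := hε1
           symG := fun t _ => hGs t
           symB := fun t ht => (hBU t ht).2.2.2.1
           nonnegB := fun t ht => (hBU t ht).2.2.2.2
           coercive := fun t _ => hGm t
           derivG := hdG
           boundG := hG'
           derivB := fun t ht => (hBU t ht).1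
           boundB := hF }, rfl, rfl, rfl, hBa⟩

namespace TraceData

variable {a b ε : ℝ} {P : TraceData V a b ε} {s₁ s₂ : ℝ}

theorem continuousOn_inverse : ContinuousOn (fun t => Ring.inverse (P.G t)) (Icc a b) :=
  fun t ht => (hasFDerivAt_ringInverse (𝕜 := ℝ)
    (isUnit_of_coercive P.hm (P.coercive t ht)).unit).continuousAt.comp_continuousWithinAt_of_eq
      (P.derivG t ht).continuousWithinAt
      (isUnit_of_coercive P.hm (P.coercive t ht)).unit_spec.symm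

/-- The generator of the flow. -/
def gen (P : TraceData V a b ε) (t : ℝ) : V →L[ℝ] V := Ring.inverse (P.G t) * P.B t

theorem gen_apply (t : ℝ) (x : V) : P.gen t x = P.vel t x := by
  simp [gen, vel]

theorem continuousOn_gen : ContinuousOn P.gen (Icc a b) :=
  continuousOn_inverse.mul fun t ht => (P.derivB t ht).continuousWithinAt

theorem exists_isSol (h₁ : a ≤ s₁) (h₂ : s₂ ≤ b) (h : s₁ ≤ s₂) (x : V) :
    ∃ u : ℝ → V, P.IsSol s₁ s₂ u ∧ u s₁ = x := by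
  have hsub : Icc s₁ s₂ ⊆ Icc a b := Icc_subset_Icc h₁ h₂
  obtain ⟨u, hu, hu'⟩ := exists_linear
    (B := fun s => IccExtend h ((Icc s₁ s₂).domRestrict P.gen) s)
    ((continuousOn_gen.mono hsub).domRestrict.Icc_extend') h x
  refine ⟨u, fun t ht => ?_, hu⟩
  have h2 := hu' t ht
  rwa [show IccExtend h ((Icc s₁ s₂).domRestrict P.gen) t = P.gen t from IccExtend_of_mem _ _ ht,
    gen_apply] at h2

theorem exists_isSol_back (h₁ : a ≤ s₁) (h₂ : s₂ ≤ b) (h : s₁ ≤ s₂) (x : V) :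
    ∃ u : ℝ → V, P.IsSol s₁ s₂ u ∧ u s₂ = x := by
  have hsub : Icc s₁ s₂ ⊆ Icc a b := Icc_subset_Icc h₁ h₂
  obtain ⟨u, hu, hu'⟩ := exists_linear_back
    (B := fun s => IccExtend h ((Icc s₁ s₂).domRestrict P.gen) s)
    ((continuousOn_gen.mono hsub).domRestrict.Icc_extend') h x
  refine ⟨u, fun t ht => ?_, hu⟩
  have h2 := hu' t ht
  rwa [show IccExtend h ((Icc s₁ s₂).domRestrict P.gen) t = P.gen t from IccExtend_of_mem _ _ ht,
    gen_apply] at h2

theorem exists_isDual (hG' : ContinuousOn P.G' (Icc a b)) (h₁ : a ≤ s₁) (h₂ : s₂ ≤ b)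
    (h : s₁ ≤ s₂) (x : V) :
    (∃ z : ℝ → V, P.IsDual s₁ s₂ z ∧ z s₁ = x) ∧ ∃ z : ℝ → V, P.IsDual s₁ s₂ z ∧ z s₂ = x := by
  have hsub : Icc s₁ s₂ ⊆ Icc a b := Icc_subset_Icc h₁ h₂
  set L := fun t => -P.gen t - Ring.inverse (P.G t) * P.G' t with hLdef
  have hL : ContinuousOn L (Icc s₁ s₂) :=
    ((continuousOn_gen.neg.sub (continuousOn_inverse.mul hG')).mono hsub)
  have he : ∀ t ∈ Icc s₁ s₂, ∀ y, IccExtend h ((Icc s₁ s₂).domRestrict L) t y =
      -P.vel t y - Ring.inverse (P.G t) (P.G' t y) := fun t ht y => by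
    rw [show IccExtend h ((Icc s₁ s₂).domRestrict L) t = L t from IccExtend_of_mem _ _ ht]
    simp [hLdef, gen_apply]
  constructor
  · obtain ⟨u, hu, hu'⟩ := exists_linear
      (B := fun s => IccExtend h ((Icc s₁ s₂).domRestrict L) s) hL.domRestrict.Icc_extend' h x
    exact ⟨u, fun t ht => he t ht (u t) ▸ hu' t ht, hu⟩
  · obtain ⟨u, hu, hu'⟩ := exists_linear_back
      (B := fun s => IccExtend h ((Icc s₁ s₂).domRestrict L) s) hL.domRestrict.Icc_extend' h x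
    exact ⟨u, fun t ht => he t ht (u t) ▸ hu' t ht, hu⟩

/-- No solution decays faster than `exp (-ε t)`; in particular solutions are unique backwards. -/
theorem rate_floor (h₁ : a ≤ s₁) (h₂ : s₂ ≤ b) (h : s₁ ≤ s₂) {u : ℝ → V}
    (hu : P.IsSol s₁ s₂ u) :
    Real.exp (-ε * (s₂ - s₁)) * P.nrm s₁ (u s₁) ≤ P.nrm s₂ (u s₂) := by
  have h := rate_lower (P := P) h₁ h₂ h hu (μ := 0) fun t ht => by
    simpa [eng] using P.nonnegB t (Icc_subset_Icc h₁ h₂ ht) (u t)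
  simpa using h

/-- Cauchy-Schwarz in the weighted norm. -/
theorem inner_sq_le {t : ℝ} (ht : t ∈ Icc a b) (x y : V) :
    ⟪x, P.G t y⟫ ^ 2 ≤ P.nrm t x * P.nrm t y := by
  have hq : ∀ r : ℝ, 0 ≤ P.nrm t y * (r * r) + 2 * ⟪x, P.G t y⟫ * r + P.nrm t x := fun r => by
    have h := nrm_nonneg (P := P) ht (x + r • y)
    have e : ⟪y, P.G t x⟫ = ⟪x, P.G t y⟫ := by rw [← P.symG t ht, real_inner_comm]
    simp only [nrm, map_add, map_smul, inner_add_left, inner_add_right, real_inner_smul_left,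
      real_inner_smul_right, e] at h ⊢
    linarith
  have h := discrim_le_zero hq
  rw [discrim] at h
  linarith

/-- A gap at `μ` is a gap at nearby levels. -/
theorem Gap.shift {t μ μ' g : ℝ} (ht : t ∈ Icc a b) (h : P.Gap t μ g) (hd : |μ' - μ| ≤ g) :
    P.Gap t μ' (g - |μ' - μ|) := by
  intro x
  set d := |μ' - μ| with hd'
  set y := P.vel t x - μ • x
  have e : P.vel t x - μ' • x = y - (μ' - μ) • x := by simp only [y, sub_smul]; abel
  have hx := nrm_nonneg (P := P) ht x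
  have hy := nrm_nonneg (P := P) ht y
  have hcs : ((μ' - μ) * ⟪y, P.G t x⟫) ^ 2 ≤ d ^ 2 * (P.nrm t y * P.nrm t x) := by
    rw [mul_pow, hd', sq_abs]
    exact mul_le_mul_of_nonneg_left (inner_sq_le ht y x) (sq_nonneg _)
  have hexp : P.nrm t (y - (μ' - μ) • x) =
      P.nrm t y - 2 * ((μ' - μ) * ⟪y, P.G t x⟫) + (μ' - μ) ^ 2 * P.nrm t x := by
    have e2 : ⟪x, P.G t y⟫ = ⟪y, P.G t x⟫ := by rw [← P.symG t ht, real_inner_comm]
    simp only [nrm, map_sub, map_smul, inner_sub_left, inner_sub_right, real_inner_smul_left,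
      real_inner_smul_right, e2]
    ring
  rw [e, hexp, ← sq_abs (μ' - μ), ← hd']
  set Y := Real.sqrt (P.nrm t y)
  set X := Real.sqrt (P.nrm t x)
  have hY : Y ^ 2 = P.nrm t y := Real.sq_sqrt hy
  have hX : X ^ 2 = P.nrm t x := Real.sq_sqrt hx
  have h1 : g * X ≤ Y := by
    refine (sq_le_sq₀ (mul_nonneg (le_trans (abs_nonneg _) hd) (Real.sqrt_nonneg _))
      (Real.sqrt_nonneg _)).1 ?_
    rw [mul_pow, hX, hY]
    exact h x
  have h2 : (μ' - μ) * ⟪y, P.G t x⟫ ≤ d * (Y * X) := by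
    refine (abs_le_of_sq_le_sq' ?_ (mul_nonneg (abs_nonneg _)
      (mul_nonneg (Real.sqrt_nonneg _) (Real.sqrt_nonneg _)))).2
    rw [mul_pow d (Y * X), mul_pow Y X, hX, hY]
    exact hcs
  have h3 : ((g - d) * X) ^ 2 ≤ (Y - d * X) ^ 2 :=
    pow_le_pow_left₀ (mul_nonneg (by linarith) (Real.sqrt_nonneg _)) (by linarith) 2
  rw [← hX, ← hY]
  linarith

/-- The planes spanned by the spectrum of the generator on either side of a gap. -/
theorem spectral_split {t μ g : ℝ} (ht : t ∈ Icc a b) (hgap : P.Gap t μ g) :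
    ∃ S S' : Submodule ℝ V, IsCompl S S' ∧
      (∀ x ∈ S, P.eng t x ≤ (μ - g) * P.nrm t x) ∧
      (∀ x ∈ S', (μ + g) * P.nrm t x ≤ P.eng t x) ∧
      ∀ x ∈ S, ∀ y ∈ S', ⟪x, P.G t y⟫ = 0 ∧ ⟪x, P.B t y⟫ = 0 := by
  classical
  obtain ⟨T, hTs, hTb, hTGT, hTT⟩ := exists_invSqrt P.hm (P.coercive t ht) (P.symG t ht)
  have hDs : (((T * P.B t * T : V →L[ℝ] V)) : V →ₗ[ℝ] V).IsSymmetric := fun x y => by
    show ⟪(T * P.B t * T) x, y⟫ = ⟪x, (T * P.B t * T) y⟫
    simp only [mul_apply_eq_comp, hTs, P.symB t ht]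
  set e := hDs.eigenvectorBasis rfl
  set d := hDs.eigenvalues rfl
  have hDe : ∀ i, (T * P.B t * T) (e i) = d i • e i := fun i => by
    have h := hDs.apply_eigenvectorBasis rfl i
    exact h
  have hN : ∀ z w, ⟪T z, P.G t (T w)⟫ = ⟪z, w⟫ := fun z w => by rw [hTs, hTGT]
  have hE : ∀ z i, ⟪T z, P.B t (T (e i))⟫ = d i * ⟪z, e i⟫ := fun z i => by
    rw [hTs, ← real_inner_smul_right, ← hDe]
    rfl
  have hd : ∀ i, d i ≤ μ - g ∨ μ + g ≤ d i := fun i => by
    have h := hgap (T (e i))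
    have e1 : P.vel t (T (e i)) - μ • T (e i) = (d i - μ) • T (e i) := by
      rw [sub_smul, vel, ← hTT, mul_apply_eq_comp, ← map_smul T (d i), ← hDe]
      rfl
    rw [e1, nrm, nrm, map_smul, real_inner_smul_left, real_inner_smul_right, hN,
      real_inner_self_eq_norm_sq, e.orthonormal.1 i] at h
    by_contra hc
    push Not at hc
    nlinarith [mul_pos (sub_pos.2 hc.1) (sub_pos.2 hc.2)]
  set f := fun i => T (e i)
  have hf : ∀ i j, ⟪f i, P.G t (f j)⟫ = if i = j then 1 else 0 := fun i j => by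
    rw [hN]; exact e.inner_eq_ite i j
  have hB : ∀ i j, ⟪f i, P.B t (f j)⟫ = if i = j then d j else 0 := fun i j => by
    rw [hE, e.inner_eq_ite]
    split_ifs <;> simp
  set S := Submodule.span ℝ (f '' {i | d i ≤ μ - g})
  set S' := Submodule.span ℝ (f '' {i | ¬ d i ≤ μ - g})
  have horth : ∀ x ∈ S, ∀ y ∈ S', ⟪x, P.G t y⟫ = 0 ∧ ⟪x, P.B t y⟫ = 0 := by
    intro x hx y hy
    induction hx using Submodule.span_induction with
    | mem x hx =>
      obtain ⟨i, hi, rfl⟩ := hx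
      induction hy using Submodule.span_induction with
      | mem y hy =>
        obtain ⟨j, hj, rfl⟩ := hy
        have hij : i ≠ j := fun h => hj (h ▸ hi)
        exact ⟨(hf i j).trans (if_neg hij), (hB i j).trans (if_neg hij)⟩
      | zero => simp
      | add u v _ _ hu hv => simp only [map_add, inner_add_right]; simp [hu, hv]
      | smul r u _ hu => simp only [map_smul, real_inner_smul_right]; simp [hu]
    | zero => simp
    | add u v _ _ hu hv => simp only [inner_add_left]; simp [hu, hv]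
    | smul r u _ hu => simp only [real_inner_smul_left]; simp [hu]
  have hsub : ∀ (A : Set (Fin (Module.finrank ℝ V))) (r : ℝ), ∀ x ∈ Submodule.span ℝ (f '' A),
      P.eng t x - r * P.nrm t x = ∑ i, (d i - r) * ⟪x, P.G t (f i)⟫ ^ 2 ∧
      ∀ i ∉ A, ⟪x, P.G t (f i)⟫ = 0 := by
    intro A r x hx
    constructor
    · obtain ⟨z, rfl⟩ := hTb.2 x
      simp only [eng, nrm, f, hN]
      have e3 : ⟪T z, P.B t (T z)⟫ = ∑ i, d i * ⟪z, e i⟫ ^ 2 := by
        conv_lhs => arg 3; rw [← e.sum_repr' z]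
        simp only [map_sum, map_smul, inner_sum, real_inner_smul_right, hE]
        exact Finset.sum_congr rfl fun i _ => by rw [real_inner_comm z (e i)]; ring
      rw [e3, ← e.sum_inner_mul_inner z z, Finset.mul_sum, ← Finset.sum_sub_distrib]
      exact Finset.sum_congr rfl fun i _ => by rw [real_inner_comm z (e i)]; ring
    · intro i hi
      induction hx using Submodule.span_induction with
      | mem y hy =>
        obtain ⟨j, hj, rfl⟩ := hy
        exact (hf j i).trans (if_neg fun h => hi (by subst h; exact hj))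
      | zero => simp
      | add u v _ _ hu hv => rw [inner_add_left, hu, hv, add_zero]
      | smul r u _ hu => rw [real_inner_smul_left, hu, mul_zero]
  refine ⟨S, S', ⟨?_, ?_⟩, fun x hx => ?_, fun x hx => ?_, horth⟩
  · rw [disjoint_iff, Submodule.eq_bot_iff]
    rintro x ⟨hx, hx'⟩
    have h := (horth x hx x hx').1
    have hc := P.coercive t ht x
    rw [h] at hc
    exact norm_eq_zero.1 (pow_eq_zero_iff two_ne_zero |>.1
      (le_antisymm (nonpos_of_mul_nonpos_right hc P.hm) (sq_nonneg _)))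
  · rw [codisjoint_iff, eq_top_iff]
    intro x _
    obtain ⟨z, rfl⟩ := hTb.2 x
    rw [← e.sum_repr' z, map_sum]
    refine Submodule.sum_mem _ fun i _ => ?_
    rw [map_smul]
    refine Submodule.smul_mem _ _ ?_
    by_cases h : d i ≤ μ - g
    · exact Submodule.mem_sup_left (Submodule.subset_span ⟨i, h, rfl⟩)
    · exact Submodule.mem_sup_right (Submodule.subset_span ⟨i, h, rfl⟩)
  · obtain ⟨h1, h2⟩ := hsub _ (μ - g) x hx
    have : ∑ i, (d i - (μ - g)) * ⟪x, P.G t (f i)⟫ ^ 2 ≤ 0 := Finset.sum_nonpos fun i _ => by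
      by_cases hi : d i ≤ μ - g
      · exact mul_nonpos_of_nonpos_of_nonneg (by linarith) (sq_nonneg _)
      · rw [h2 i hi]; simp
    linarith
  · obtain ⟨h1, h2⟩ := hsub _ (μ + g) x hx
    have : 0 ≤ ∑ i, (d i - (μ + g)) * ⟪x, P.G t (f i)⟫ ^ 2 := Finset.sum_nonneg fun i _ => by
      by_cases hi : d i ≤ μ - g
      · rw [h2 i (not_not.2 hi)]; simp
      · exact mul_nonneg (by linarith [(hd i).resolve_left hi]) (sq_nonneg _)
    linarith

/-- Growth criterion: a solution that grows slower than the high cone allows starts low. -/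
theorem low_of_growth (h₁ : a ≤ s₁) (h₂ : s₂ ≤ b) (h : s₁ ≤ s₂) {u : ℝ → V}
    (hu : P.IsSol s₁ s₂ u) {μ g : ℝ} (hμ : 0 ≤ μ) (hgε : ε * (2 * μ + 1) ≤ 2 * g ^ 2)
    (hgap : ∀ t ∈ Icc s₁ s₂, P.Gap t μ g)
    (hgrow : P.nrm s₂ (u s₂) < Real.exp ((2 * μ - ε) * (s₂ - s₁)) * P.nrm s₁ (u s₁)) :
    P.eng s₁ (u s₁) ≤ μ * P.nrm s₁ (u s₁) := by
  by_contra hc
  push Not at hc
  refine absurd (rate_lower h₁ h₂ h hu fun t ht => ?_) (not_le.2 hgrow)
  have h3 := cone_mono h₁ h₂ hu hμ hgε hgap ⟨le_rfl, h⟩ ht ht.1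
  simp only [intervalIntegral.integral_same, Real.exp_zero, one_mul] at h3
  linarith [(mul_nonneg_iff_of_pos_left (Real.exp_pos _)).1 ((sub_pos.2 hc).le.trans h3)]

/-- Rate of the dual flow inside the high cone. -/
theorem dual_rate_upper (h₁ : a ≤ s₁) (h₂ : s₂ ≤ b) (h : s₁ ≤ s₂) {z : ℝ → V}
    (hz : P.IsDual s₁ s₂ z) {μ : ℝ}
    (hc : ∀ t ∈ Icc s₁ s₂, μ * P.nrm t (z t) ≤ P.eng t (z t)) :
    P.nrm s₂ (z s₂) ≤ Real.exp (-(2 * μ - ε) * (s₂ - s₁)) * P.nrm s₁ (z s₁) := by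
  have h1 := monotoneOn_exp_mul (k := fun _ => 2 * μ - ε) continuous_const
    (fun t ht => (deriv_nrm (P := P) h₁ h₂ hz ht).neg) (fun t ht => ?_)
    ⟨le_rfl, h⟩ ⟨h, le_rfl⟩ h
  · simp only [intervalIntegral.integral_same, Real.exp_zero, one_mul, Pi.neg_apply,
      intervalIntegral.integral_const, smul_eq_mul, mul_neg, neg_le_neg_iff] at h1
    rw [neg_mul, Real.exp_neg, le_inv_mul_iff₀ (Real.exp_pos _), mul_comm (2 * μ - ε)]
    exact h1
  · have hs : t ∈ Icc a b := Icc_subset_Icc h₁ h₂ ht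
    have hr : P.G t (Ring.inverse (P.G t) (P.G' t (z t))) = P.G' t (z t) :=
      apply_inverse (isUnit_of_coercive P.hm (P.coercive t hs)) _
    have h2 := (abs_le.1 (P.boundG t hs (z t))).1
    have h3 := hc t ht
    rw [inner_sub_left, inner_neg_left, eng_eq_inner_vel (P := P) hs, ← P.symG t hs _ (z t), hr,
      real_inner_comm (z t)]
    simp only [Pi.neg_apply, nrm] at h2 h3 ⊢
    linarith

/-- Contraction: a low solution and a high dual solution are nearly orthogonal at the start. -/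
theorem contraction (hab : a < b) (h₁ : a ≤ s₁) (h₂ : s₂ ≤ b) (h : s₁ ≤ s₂) {u z : ℝ → V}
    (hu : P.IsSol s₁ s₂ u) (hz : P.IsDual s₁ s₂ z) {μ₁ μ₂ : ℝ}
    (hcu : ∀ t ∈ Icc s₁ s₂, P.eng t (u t) ≤ μ₁ * P.nrm t (u t))
    (hcz : ∀ t ∈ Icc s₁ s₂, μ₂ * P.nrm t (z t) ≤ P.eng t (z t)) :
    ⟪u s₁, P.G s₁ (z s₁)⟫ ^ 2 ≤ Real.exp ((2 * μ₁ - 2 * μ₂ + 2 * ε) * (s₂ - s₁)) *
      (P.nrm s₁ (u s₁) * P.nrm s₁ (z s₁)) := by
  rw [← pairing_const hab h₁ h₂ hu hz ⟨h, le_rfl⟩]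
  have hs2 : s₂ ∈ Icc a b := ⟨h₁.trans h, h₂⟩
  refine (inner_sq_le hs2 _ _).trans ?_
  refine (mul_le_mul (rate_upper h₁ h₂ h hu hcu) (dual_rate_upper h₁ h₂ h hz hcz)
    (nrm_nonneg hs2 _) (mul_nonneg (Real.exp_nonneg _)
      (nrm_nonneg ⟨h₁, h.trans h₂⟩ _))).trans (le_of_eq ?_)
  rw [show (2 * μ₁ - 2 * μ₂ + 2 * ε) * (s₂ - s₁) =
    (2 * μ₁ + ε) * (s₂ - s₁) + -(2 * μ₂ - ε) * (s₂ - s₁) by ring, Real.exp_add]
  ring

end TraceData

end

end Vale.Agent.P225.Disproof
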