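import Vale.Agent.P225.Disproof.Galerkin
import Vale.Agent.P225.Disproof.MassTrace

/-!
# P225: mass and stiffness operators on the Galerkin spaces

`massOp N w` is the operator of `∫ w p q` and `stiffOp N w` that of `∫ w ∑ i, rot i p · rot i q`.
Both are continuous linear in the weight `w ∈ C(S², ℝ)`. For weights varying at relative rate `ε`
they give the trace data of the truncated equation `(e^t G u')' = e^t K u`.
-/

namespace Vale.Agent.P225.Disproof

open MvPolynomial MeasureTheory Set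
open scoped RealInnerProductSpace

noncomputable section

/-- The integral against a fixed function, linear in the weight. -/
def pairInt (f : C(Sph 3, ℝ)) : C(Sph 3, ℝ) →L[ℝ] ℝ :=
  LinearMap.mkContinuous
    { toFun := fun w => ∫ θ, w θ * f θ ∂(sig 3)
      map_add' := fun v w => by
        simp only [ContinuousMap.add_apply, add_mul]
        exact integral_add (integrable_sig (v.continuous.mul f.continuous))
          (integrable_sig (w.continuous.mul f.continuous))
      map_smul' := fun r w => by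
        simp only [ContinuousMap.smul_apply, smul_eq_mul, mul_assoc, integral_const_mul,
          RingHom.id_apply] }
    (∫ θ, |f θ| ∂(sig 3)) fun w => by
      show ‖∫ θ, w θ * f θ ∂(sig 3)‖ ≤ _
      refine (norm_integral_le_integral_norm _).trans ?_
      rw [mul_comm, ← integral_const_mul]
      refine integral_mono (integrable_sig (w.continuous.mul f.continuous).norm)
        (integrable_sig (continuous_const.mul f.continuous.abs)) fun θ => ?_
      simp only [norm_mul, Real.norm_eq_abs]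
      exact mul_le_mul_of_nonneg_right (w.norm_coe_le_norm θ) (abs_nonneg _)

/-- The product of two restrictions. -/
def resMul (p q : MvPolynomial (Fin 3) ℝ) : C(Sph 3, ℝ) :=
  ⟨fun θ => res p θ * res q θ, (continuous_res p).mul (continuous_res q)⟩

theorem pairInt_resMul (p q : MvPolynomial (Fin 3) ℝ) (w : C(Sph 3, ℝ)) :
    pairInt (resMul p q) w = ∫ θ, w θ * (res p θ * res q θ) ∂(sig 3) := rfl

/-- The mass operator, linear in the weight. -/
def massOp (N : ℕ) : C(Sph 3, ℝ) →L[ℝ] Gal N →L[ℝ] Gal N :=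
  ∑ k : Fin (Module.finrank ℝ (Gal N)), ∑ l : Fin (Module.finrank ℝ (Gal N)),
    (pairInt (resMul (stdOrthonormalBasis ℝ (Gal N) k).poly
      (stdOrthonormalBasis ℝ (Gal N) l).poly)).smulRight
      ((innerSL ℝ (stdOrthonormalBasis ℝ (Gal N) k)).smulRight (stdOrthonormalBasis ℝ (Gal N) l))

theorem inner_massOp {N : ℕ} (w : C(Sph 3, ℝ)) (p q : Gal N) :
    ⟪massOp N w p, q⟫ = ∫ θ, w θ * (res p.poly θ * res q.poly θ) ∂(sig 3) := by
  set e := stdOrthonormalBasis ℝ (Gal N)
  have hL : ∀ (v : Gal N) (θ : Sph 3), res v.poly θ = ∑ k, ⟪e k, v⟫ * res (e k).poly θ :=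
    fun v θ => by
      conv_lhs => rw [← e.sum_repr' v]
      simp only [map_sum, map_smul, res, evalFun, MvPolynomial.smul_eval]
  have h1 : ⟪massOp N w p, q⟫ =
      ∑ k, ∑ l, pairInt (resMul (e k).poly (e l).poly) w * (⟪e k, p⟫ * ⟪e l, q⟫) := by
    simp only [massOp, sum_apply, smul_apply, ContinuousLinearMap.smulRight_apply,
      innerSL_apply_apply, sum_inner, real_inner_smul_left]
    rfl
  rw [h1]
  simp only [pairInt_resMul, ← integral_mul_const]
  have hi : ∀ k l, Integrable (fun θ => w θ * (res (e k).poly θ * res (e l).poly θ) *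
      (⟪e k, p⟫ * ⟪e l, q⟫)) (sig 3) := fun k l =>
    integrable_sig ((w.continuous.mul ((continuous_res _).mul (continuous_res _))).mul
      continuous_const)
  rw [Finset.sum_congr rfl fun k _ => (integral_finsetSum _ fun l _ => hi k l).symm,
    ← integral_finsetSum _ fun k _ => integrable_finsetSum _ fun l _ => hi k l]
  congr 1
  funext θ
  rw [hL p θ, hL q θ, Finset.sum_mul_sum, Finset.mul_sum]
  refine Finset.sum_congr rfl fun k _ => ?_
  rw [Finset.mul_sum]
  exact Finset.sum_congr rfl fun l _ => by ring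

theorem massOp_symm {N : ℕ} (w : C(Sph 3, ℝ)) (p q : Gal N) :
    ⟪massOp N w p, q⟫ = ⟪p, massOp N w q⟫ := by
  rw [real_inner_comm (massOp N w q) p, inner_massOp, inner_massOp]
  exact integral_congr_ae (Filter.Eventually.of_forall fun θ => by ring)

theorem massOp_nonneg {N : ℕ} {w : C(Sph 3, ℝ)} (hw : ∀ θ, 0 ≤ w θ) (p : Gal N) :
    0 ≤ ⟪p, massOp N w p⟫ := by
  rw [← massOp_symm, inner_massOp]
  exact integral_nonneg fun θ => mul_nonneg (hw θ) (mul_self_nonneg _)

theorem massOp_one (N : ℕ) : massOp N 1 = 1 :=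
  ContinuousLinearMap.ext fun p => ext_inner_right ℝ fun q => by
    rw [inner_massOp, one_apply_eq_self, inner_gal, sphIp]
    simp

/-- The stiffness operator, linear in the weight. -/
def stiffOp (N : ℕ) : C(Sph 3, ℝ) →L[ℝ] Gal N →L[ℝ] Gal N :=
  -∑ i, (ContinuousLinearMap.compL ℝ (Gal N) (Gal N) (Gal N) (rotG i)).comp
    (((ContinuousLinearMap.compL ℝ (Gal N) (Gal N) (Gal N)).flip (rotG i)).comp (massOp N))

theorem inner_stiffOp {N : ℕ} (w : C(Sph 3, ℝ)) (p q : Gal N) :
    ⟪stiffOp N w p, q⟫ = ∑ i, ⟪massOp N w (rotG i p), rotG i q⟫ := by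
  simp only [stiffOp, neg_apply, sum_apply, ContinuousLinearMap.comp_apply,
    ContinuousLinearMap.compL_apply, ContinuousLinearMap.flip_apply, inner_neg_left, sum_inner,
    ← Finset.sum_neg_distrib, inner_rotG, neg_neg]

theorem stiffOp_symm {N : ℕ} (w : C(Sph 3, ℝ)) (p q : Gal N) :
    ⟪stiffOp N w p, q⟫ = ⟪p, stiffOp N w q⟫ := by
  rw [real_inner_comm (stiffOp N w q) p, inner_stiffOp, inner_stiffOp]
  exact Finset.sum_congr rfl fun i _ => by rw [massOp_symm, real_inner_comm]

theorem stiffOp_nonneg {N : ℕ} {w : C(Sph 3, ℝ)} (hw : ∀ θ, 0 ≤ w θ) (p : Gal N) :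
    0 ≤ ⟪p, stiffOp N w p⟫ := by
  rw [← stiffOp_symm, inner_stiffOp]
  exact Finset.sum_nonneg fun i _ => by rw [massOp_symm]; exact massOp_nonneg hw _

theorem stiffOp_one (N : ℕ) : stiffOp N 1 = degOp N * degOp N + degOp N := by
  rw [← formOp_round]
  refine ContinuousLinearMap.ext fun p => ext_inner_right ℝ fun q => ?_
  rw [inner_stiffOp, massOp_one,
    inner_formOp (b := roundB) (by exact continuous_const) (fun θ i j => by simp [roundB, eq_comm]),
    bForm]
  simp only [roundB, ite_mul, one_mul, zero_mul, Finset.sum_ite_eq, Finset.mem_univ, if_true,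
    one_apply_eq_self]
  rw [integral_finsetSum _ fun i _ => ?_]
  · rfl
  · exact integrable_sig ((continuous_res _).mul (continuous_res _))

/-- A weight bound gives the bound of the forms. -/
theorem weight_bound {N : ℕ} (Op : C(Sph 3, ℝ) →L[ℝ] Gal N →L[ℝ] Gal N)
    (hOp : ∀ w : C(Sph 3, ℝ), (∀ θ, 0 ≤ w θ) → ∀ p, 0 ≤ ⟪p, Op w p⟫) {ε : ℝ}
    {v w : C(Sph 3, ℝ)} (h : ∀ θ, |v θ| ≤ ε * w θ) (p : Gal N) :
    |⟪p, Op v p⟫| ≤ ε * ⟪p, Op w p⟫ := by
  have h1 := hOp (ε • w - v) (fun θ => by
    simpa using (le_abs_self _).trans (h θ)) p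
  have h2 := hOp (ε • w + v) (fun θ => by
    have := (neg_le_abs _).trans (h θ)
    simp only [ContinuousMap.add_apply, ContinuousMap.smul_apply, smul_eq_mul]
    linarith) p
  simp only [map_add, map_sub, map_smul, sub_apply, add_apply, smul_apply,
    inner_add_right, inner_sub_right, real_inner_smul_right] at h1 h2
  rw [abs_le]
  constructor <;> linarith

theorem massOp_coercive {N : ℕ} {m : ℝ} {w : C(Sph 3, ℝ)} (hw : ∀ θ, m ≤ w θ) (p : Gal N) :
    m * ‖p‖ ^ 2 ≤ ⟪p, massOp N w p⟫ := by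
  have h := massOp_nonneg (w := w - m • 1) (fun θ => by simpa using hw θ) p
  simp only [map_sub, map_smul, massOp_one, sub_apply, smul_apply, one_apply_eq_self,
    inner_sub_right, real_inner_smul_right, real_inner_self_eq_norm_sq] at h
  linarith

/-- The trace data of the Galerkin system with weights `ν` (mass) and `ω` (stiffness). -/
theorem exists_galerkinData (N : ℕ) {a b ε m : ℝ} (hab : a ≤ b) (hm : 0 < m) (hε : 0 ≤ ε)
    (hε1 : ε ≤ 1) {ν ν' ω ω' : ℝ → C(Sph 3, ℝ)} (hν : Continuous ν) (hω : Continuous ω)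
    (hνm : ∀ t θ, m ≤ ν t θ) (hω0 : ∀ t θ, 0 ≤ ω t θ)
    (hdν : ∀ t ∈ Icc a b, HasDerivWithinAt ν (ν' t) (Icc a b) t)
    (hdω : ∀ t ∈ Icc a b, HasDerivWithinAt ω (ω' t) (Icc a b) t)
    (hν' : ∀ t ∈ Icc a b, ∀ θ, |ν' t θ| ≤ ε * ν t θ)
    (hω' : ∀ t ∈ Icc a b, ∀ θ, |ω' t θ| ≤ ε * ω t θ) (hνa : ν a = 1) (hωa : ω a = 1) :
    ∃ P : TraceData (Gal N) a b ε, P.K = (fun t => stiffOp N (ω t)) ∧
      P.G = (fun t => massOp N (ν t)) ∧ P.G' = (fun t => massOp N (ν' t)) ∧ P.B a = degOp N := by
  refine exists_traceData hab (K' := fun t => stiffOp N (ω' t)) hm ((stiffOp N).continuous.comp hω)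
    ((massOp N).continuous.comp hν) (fun t => stiffOp_symm _) (fun t => massOp_symm _)
    (fun t => massOp_coercive (hνm t)) (fun t => stiffOp_nonneg (hω0 t)) hε hε1
    (fun t ht => (stiffOp N).hasFDerivAt.comp_hasDerivWithinAt t (hdω t ht))
    (fun t ht => (massOp N).hasFDerivAt.comp_hasDerivWithinAt t (hdν t ht))
    (fun t ht => weight_bound (stiffOp N) (fun w hw => stiffOp_nonneg hw) (hω' t ht))
    (fun t ht => weight_bound (massOp N) (fun w hw => massOp_nonneg hw) (hν' t ht))
    (degOp N) degOp_symm degOp_nonneg ?_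
  simp only [Function.comp_apply]
  rw [hνa, hωa, massOp_one, stiffOp_one, Ring.inverse_one, mul_one]
  abel

end

end Vale.Agent.P225.Disproof
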