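import Vale.Agent.P225.Disproof.LimitElliptic
import Mathlib.Analysis.Calculus.IteratedDeriv.Lemmas

/-!
# P225: Galerkin solutions and their differentiated equations

A solution of `(G u')' + G u' = K u` is smooth, and its `j`-th time derivative `v` satisfies
`(G v' + f)' + (G v' + f) = K v + g`, where `f` and `g` are built from lower time derivatives by
mass and stiffness operators with bounded weights.
-/

namespace Vale.Agent.P225.Disproof

open MeasureTheory Set Filter Topology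
open scoped RealInnerProductSpace ContDiff

noncomputable section

/-- A solution of the truncated equation on a set of times. -/
def IsGalSol (N : ℕ) (w ν : ℝ → Space 3 → ℝ) (s : Set ℝ) (u : ℝ → Gal N) : Prop :=
  ∀ t ∈ s, HasDerivAt u (deriv u t) t ∧
    HasDerivAt (fun r => massOp N (sphC (w r)) (deriv u r))
      (stiffOp N (sphC (ν t)) (u t) - massOp N (sphC (w t)) (deriv u t)) t

variable {ι : Type*} {L : ι → ℕ} {w ν : ι → ℝ → Space 3 → ℝ} {c : ℝ} {s : Set ℝ}
  {u : ∀ i, ℝ → Gal (L i)}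

theorem hasDerivAt_op' {E : Type*} [NormedAddCommGroup E] [NormedSpace ℝ E]
    (Op : C(Sph 3, ℝ) →L[ℝ] E)
    {v : ι → ℝ → Space 3 → ℝ} (hv : Wgt v) (i : ι) (t : ℝ) :
    HasDerivAt (fun r => Op (sphC (v i r))) (Op (sphC (dtW (v i) t))) t :=
  Op.hasFDerivAt.comp_hasDerivAt t (hv.hasDerivAt_sphC i t)

theorem contDiff_op' {E : Type*} [NormedAddCommGroup E] [NormedSpace ℝ E]
    (Op : C(Sph 3, ℝ) →L[ℝ] E)
    {v : ι → ℝ → Space 3 → ℝ} (hv : Wgt v) (i : ι) :
    ContDiff ℝ ∞ fun r => Op (sphC (v i r)) := by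
  refine contDiff_infty.2 fun n => ?_
  induction n generalizing v with
  | zero =>
    exact contDiff_zero.2 (continuous_iff_continuousAt.2 fun t => (hasDerivAt_op' Op hv i t).continuousAt)
  | succ n ih =>
    rw [show ((n + 1 : ℕ) : WithTop ℕ∞) = (n : WithTop ℕ∞) + 1 by norm_cast, contDiff_succ_iff_deriv]
    refine ⟨fun t => (hasDerivAt_op' Op hv i t).differentiableAt, by simp, ?_⟩
    rw [show deriv (fun r => Op (sphC (v i r))) = fun r => Op (sphC (dtW (v i) r)) from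
      funext fun r => (hasDerivAt_op' Op hv i r).deriv]
    exact ih hv.dt

theorem hasDerivAt_op {N : ℕ} (Op : C(Sph 3, ℝ) →L[ℝ] Gal N →L[ℝ] Gal N)
    {v : ι → ℝ → Space 3 → ℝ} (hv : Wgt v) (i : ι) (t : ℝ) :
    HasDerivAt (fun r => Op (sphC (v i r))) (Op (sphC (dtW (v i) t))) t :=
  hasDerivAt_op' (E := Gal N →L[ℝ] Gal N) Op hv i t

theorem contDiff_op {N : ℕ} (Op : C(Sph 3, ℝ) →L[ℝ] Gal N →L[ℝ] Gal N)
    {v : ι → ℝ → Space 3 → ℝ} (hv : Wgt v) (i : ι) :
    ContDiff ℝ ∞ fun r => Op (sphC (v i r)) :=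
  contDiff_op' (E := Gal N →L[ℝ] Gal N) Op hv i

/-- The standing hypotheses on a family of solutions. -/
structure GalFam (L : ι → ℕ) (w ν : ι → ℝ → Space 3 → ℝ) (c : ℝ) (s : Set ℝ)
    (u : ∀ i, ℝ → Gal (L i)) : Prop where
  wgtw : Wgt w
  wgtν : Wgt ν
  cpos : 0 < c
  loww : ∀ i t, ∀ θ : Sph 3, c ≤ w i t θ
  lowν : ∀ i t, ∀ θ : Sph 3, c ≤ ν i t θ
  isOpen : IsOpen s
  sol : ∀ i, IsGalSol (L i) (w i) (ν i) s (u i)

namespace GalFam

theorem massCoercive (H : GalFam L w ν c s u) (i : ι) (t : ℝ) (p : Gal (L i)) :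
    c * ‖p‖ ^ 2 ≤ ⟪p, massOp (L i) (sphC (w i t)) p⟫ :=
  massOp_coercive (fun θ => by rw [sphC_apply ((H.wgtw.1 i).continuous t)]; exact H.loww i t θ) p

theorem stiffCoercive (H : GalFam L w ν c s u) (i : ι) (t : ℝ) (p : Gal (L i)) :
    c * ∑ j, ‖rotG j p‖ ^ 2 ≤ ⟪stiffOp (L i) (sphC (ν i t)) p, p⟫ :=
  stiffOp_coercive (fun θ => by rw [sphC_apply ((H.wgtν.1 i).continuous t)]; exact H.lowν i t θ) p

/-- The solutions are smooth. -/
theorem contDiffOn (H : GalFam L w ν c s u) (i : ι) : ContDiffOn ℝ ∞ (u i) s := by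
  set G := fun t => massOp (L i) (sphC (w i t)) with hGdef
  have hG : ContDiff ℝ ∞ G := contDiff_op (massOp (L i)) H.wgtw i
  have hK : ContDiff ℝ ∞ fun t => stiffOp (L i) (sphC (ν i t)) :=
    contDiff_op (stiffOp (L i)) H.wgtν i
  have hU : ∀ t, IsUnit (G t) := fun t => isUnit_of_coercive H.cpos (H.massCoercive i t)
  have hinv : ContDiff ℝ ∞ fun t => Ring.inverse (G t) := contDiff_iff_contDiffAt.2 fun t => by
    have h1 := contDiffAt_ringInverse (𝕜 := ℝ) (R := Gal (L i) →L[ℝ] Gal (L i)) (n := ∞) (hU t).unit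
    rw [(hU t).unit_spec] at h1
    exact h1.comp t hG.contDiffAt
  set q := fun t => G t (deriv (u i) t) with hqdef
  have hdu : ∀ t, deriv (u i) t = Ring.inverse (G t) (q t) := fun t =>
    (inverse_apply (hU t) _).symm
  have hdq : ∀ t ∈ s, deriv q t = stiffOp (L i) (sphC (ν i t)) (u i t) - q t := fun t ht =>
    ((H.sol i) t ht).2.deriv
  have key : ∀ n : ℕ, ContDiffOn ℝ n (u i) s ∧ ContDiffOn ℝ n q s := by
    intro n
    induction n with
    | zero =>
      simp only [Nat.cast_zero, contDiffOn_zero]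
      exact ⟨fun t ht => ((H.sol i) t ht).1.continuousAt.continuousWithinAt,
        fun t ht => ((H.sol i) t ht).2.continuousAt.continuousWithinAt⟩
    | succ n ih =>
      rw [show ((n + 1 : ℕ) : WithTop ℕ∞) = (n : WithTop ℕ∞) + 1 by norm_cast,
        contDiffOn_succ_iff_deriv_of_isOpen H.isOpen, contDiffOn_succ_iff_deriv_of_isOpen H.isOpen]
      refine ⟨⟨fun t ht => ((H.sol i) t ht).1.differentiableAt.differentiableWithinAt, by simp, ?_⟩,
        fun t ht => ((H.sol i) t ht).2.differentiableAt.differentiableWithinAt, by simp, ?_⟩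
      · refine (((hinv.of_le (mod_cast le_top)).contDiffOn).clm_apply ih.2).congr fun t _ => hdu t
      · refine ((((hK.of_le (mod_cast le_top)).contDiffOn).clm_apply ih.1).sub ih.2).congr hdq
  exact contDiffOn_infty.2 fun n => (key n).1

theorem contDiffOn_iteratedDeriv (H : GalFam L w ν c s u) (i : ι) (j : ℕ) :
    ContDiffOn ℝ ∞ (iteratedDeriv j (u i)) s := by
  induction j with
  | zero => rw [iteratedDeriv_zero]; exact H.contDiffOn i
  | succ j ih => rw [iteratedDeriv_succ]; exact ih.deriv_of_isOpen H.isOpen (by simp)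

theorem hasDerivAt_iteratedDeriv (H : GalFam L w ν c s u) (i : ι) (j : ℕ) {t : ℝ} (ht : t ∈ s) :
    HasDerivAt (iteratedDeriv j (u i)) (iteratedDeriv (j + 1) (u i) t) t := by
  rw [iteratedDeriv_succ]
  exact ((((H.contDiffOn_iteratedDeriv i j).differentiableOn (by simp)) t ht).differentiableAt
    (H.isOpen.mem_nhds ht)).hasDerivAt

theorem continuousAt_iteratedDeriv (H : GalFam L w ν c s u) (i : ι) (j : ℕ) {t : ℝ} (ht : t ∈ s) :
    ContinuousAt (iteratedDeriv j (u i)) t :=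
  (H.hasDerivAt_iteratedDeriv i j ht).continuousAt

end GalFam

/-- Combinations of `Op (weight) (time derivative of order < k)`. -/
inductive Lin (Op : ∀ N, C(Sph 3, ℝ) →L[ℝ] Gal N →L[ℝ] Gal N) (u : ∀ i, ℝ → Gal (L i)) (k : ℕ) :
    (∀ i, ℝ → Gal (L i)) → Prop
  | zero : Lin Op u k fun _ _ => 0
  | base (v : ι → ℝ → Space 3 → ℝ) (hv : Wgt v) (j : ℕ) (hj : j < k) :
      Lin Op u k fun i t => Op (L i) (sphC (v i t)) (iteratedDeriv j (u i) t)
  | add {R R' : ∀ i, ℝ → Gal (L i)} (h : Lin Op u k R) (h' : Lin Op u k R') :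
      Lin Op u k fun i t => R i t + R' i t

variable {Op : ∀ N, C(Sph 3, ℝ) →L[ℝ] Gal N →L[ℝ] Gal N} {k : ℕ} {R : ∀ i, ℝ → Gal (L i)}

theorem Lin.mono {k' : ℕ} (hk : k ≤ k') (h : Lin Op u k R) : Lin Op u k' R := by
  induction h with
  | zero => exact .zero
  | base v hv j hj => exact .base v hv j (hj.trans_le hk)
  | add _ _ ih ih' => exact .add ih ih'

theorem Lin.deriv (H : GalFam L w ν c s u) (h : Lin Op u k R) :
    ∃ R', Lin Op u (k + 1) R' ∧ ∀ i, ∀ t ∈ s, HasDerivAt (R i) (R' i t) t := by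
  induction h with
  | zero => exact ⟨_, .zero, fun i t _ => hasDerivAt_const t 0⟩
  | base v hv j hj =>
    refine ⟨_, .add (.base _ hv.dt j (hj.trans (Nat.lt_succ_self k)))
      (.base v hv (j + 1) (Nat.succ_lt_succ hj)), fun i t ht => ?_⟩
    exact (hasDerivAt_op (Op (L i)) hv i t).clm_apply
      (H.hasDerivAt_iteratedDeriv i j ht)
  | add _ _ ih ih' =>
    obtain ⟨A, hA, hA'⟩ := ih
    obtain ⟨B, hB, hB'⟩ := ih'
    exact ⟨_, .add hA hB, fun i t ht => (hA' i t ht).add (hB' i t ht)⟩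

theorem Lin.bound {Φ Ψ : ∀ N, Gal N → Gal N → ℝ} (h : Lin Op u k R)
    (hadd : ∀ N a b p, Φ N (a + b) p ≤ Φ N a p + Φ N b p) (hzero : ∀ N p, Φ N 0 p ≤ 0)
    (hpos : ∀ N v p, 0 ≤ Ψ N v p)
    (hop : ∀ v : ι → ℝ → Space 3 → ℝ, Wgt v → ∃ C, 0 ≤ C ∧ ∀ i t p q,
      Φ (L i) (Op (L i) (sphC (v i t)) p) q ≤ C * Ψ (L i) p q) :
    ∃ C, 0 ≤ C ∧ ∀ i t q,
      Φ (L i) (R i t) q ≤ C * ∑ j ∈ Finset.range k, Ψ (L i) (iteratedDeriv j (u i) t) q := by
  induction h with
  | zero => exact ⟨0, le_rfl, fun i t q => by simpa using hzero (L i) q⟩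
  | base v hv j hj =>
    obtain ⟨C, hC0, hC⟩ := hop v hv
    exact ⟨C, hC0, fun i t q => (hC i t _ q).trans (mul_le_mul_of_nonneg_left
      (Finset.single_le_sum (f := fun j => Ψ (L i) (iteratedDeriv j (u i) t) q)
        (fun j _ => hpos _ _ _) (Finset.mem_range.2 hj)) hC0)⟩
  | add _ _ ih ih' =>
    obtain ⟨A, hA0, hA⟩ := ih
    obtain ⟨B, hB0, hB⟩ := ih'
    refine ⟨A + B, add_nonneg hA0 hB0, fun i t q => (hadd _ _ _ _).trans ?_⟩
    rw [add_mul]
    exact add_le_add (hA i t q) (hB i t q)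

theorem Lin.bound_sob_mass (h : Lin massOp u k R) (m : ℕ) :
    ∃ C, 0 ≤ C ∧ ∀ i t,
      sob m (R i t) ≤ C * ∑ j ∈ Finset.range k, sob m (iteratedDeriv j (u i) t) := by
  obtain ⟨C, hC0, hC⟩ := h.bound (Φ := fun N a _ => sob m a) (Ψ := fun N a _ => sob m a)
    (fun N a b _ => sob_add_le m a b) (fun N _ => le_of_eq (by simpa using sob_smul m 0 (0 : Gal N)))
    (fun N a _ => sob_nonneg m a)
    (fun v hv => let ⟨C, hC0, hC⟩ := hv.exists_sob_mass m; ⟨C, hC0, fun i t p _ => hC i t p⟩)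
  exact ⟨C, hC0, fun i t => hC i t 0⟩

theorem Lin.bound_sob_stiff (h : Lin stiffOp u k R) (m : ℕ) :
    ∃ C, 0 ≤ C ∧ ∀ i t,
      sob m (R i t) ≤ C * ∑ j ∈ Finset.range k, sob (m + 2) (iteratedDeriv j (u i) t) := by
  obtain ⟨C, hC0, hC⟩ := h.bound (Φ := fun N a _ => sob m a) (Ψ := fun N a _ => sob (m + 2) a)
    (fun N a b _ => sob_add_le m a b) (fun N _ => le_of_eq (by simpa using sob_smul m 0 (0 : Gal N)))
    (fun N a _ => sob_nonneg (m + 2) a)
    (fun v hv => let ⟨C, hC0, hC⟩ := hv.exists_sob_stiff m; ⟨C, hC0, fun i t p _ => hC i t p⟩)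
  exact ⟨C, hC0, fun i t => hC i t 0⟩

theorem Lin.bound_pair (h : Lin stiffOp u k R) :
    ∃ C, 0 ≤ C ∧ ∀ i t q,
      |⟪R i t, q⟫| ≤ C * (∑ j ∈ Finset.range k, rot1 (iteratedDeriv j (u i) t)) * rot1 q := by
  obtain ⟨C, hC0, hC⟩ := h.bound (Φ := fun N a q => |⟪a, q⟫|)
    (Ψ := fun N a q => rot1 a * rot1 q)
    (fun N a b q => by rw [inner_add_left]; exact abs_add_le _ _)
    (fun N q => by simp) (fun N a q => mul_nonneg (rot1_nonneg a) (rot1_nonneg q))
    (fun v hv => let ⟨C, hC0, hC⟩ := hv.exists_stiff_pair (L := L)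
      ⟨C, hC0, fun i t p q => by rw [← mul_assoc]; exact hC i t p q⟩)
  exact ⟨C, hC0, fun i t q => (hC i t q).trans (le_of_eq (by rw [← Finset.sum_mul, mul_assoc]))⟩

/-- The equation of the `j`-th time derivative. -/
theorem GalFam.exists_eqn (H : GalFam L w ν c s u) (j : ℕ) :
    ∃ f g : ∀ i, ℝ → Gal (L i), Lin massOp u (j + 1) f ∧ Lin stiffOp u j g ∧
      ∀ i, ∀ t ∈ s,
        HasDerivAt (fun r => massOp (L i) (sphC (w i r)) (iteratedDeriv (j + 1) (u i) r) + f i r)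
          (stiffOp (L i) (sphC (ν i t)) (iteratedDeriv j (u i) t) + g i t -
            (massOp (L i) (sphC (w i t)) (iteratedDeriv (j + 1) (u i) t) + f i t)) t := by
  induction j with
  | zero =>
    refine ⟨_, _, .zero, .zero, fun i t ht => ?_⟩
    simpa using ((H.sol i) t ht).2
  | succ j ih =>
    obtain ⟨f, g, hf, hg, hQ⟩ := ih
    obtain ⟨f', hf', hfd⟩ := hf.deriv H
    obtain ⟨g', hg', hgd⟩ := hg.deriv H
    refine ⟨_, _, .add (.base _ H.wgtw.dt (j + 1) (Nat.lt_succ_self _)) hf',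
      .add (.base _ H.wgtν.dt j (Nat.lt_succ_self _)) hg', fun i t ht => ?_⟩
    have heq : ∀ r ∈ s, massOp (L i) (sphC (w i r)) (iteratedDeriv (j + 2) (u i) r) +
        (massOp (L i) (sphC (dtW (w i) r)) (iteratedDeriv (j + 1) (u i) r) + f' i r) =
        stiffOp (L i) (sphC (ν i r)) (iteratedDeriv j (u i) r) + g i r -
          (massOp (L i) (sphC (w i r)) (iteratedDeriv (j + 1) (u i) r) + f i r) := fun r hr => by
      have h1 := ((hasDerivAt_op (massOp (L i)) H.wgtw i r).clm_apply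
        (H.hasDerivAt_iteratedDeriv i (j + 1) hr)).add (hfd i r hr)
      have h2 := (hQ i r hr).unique h1
      rw [h2]
      abel
    have h3 := (((hasDerivAt_op (stiffOp (L i)) H.wgtν i t).clm_apply
      (H.hasDerivAt_iteratedDeriv i j ht)).add (hgd i t ht)).sub (hQ i t ht)
    refine (h3.congr_of_eventuallyEq ?_).congr_deriv ?_
    · filter_upwards [H.isOpen.mem_nhds ht] with r hr
      exact heq r hr
    · rw [← heq t ht]
      abel

/-- The stiffness of a time derivative is a combination of mass and lower stiffness terms. -/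
theorem GalFam.exists_stiff_eq (H : GalFam L w ν c s u) (j : ℕ) :
    ∃ R g : ∀ i, ℝ → Gal (L i), Lin massOp u (j + 3) R ∧ Lin stiffOp u j g ∧
      ∀ i, ∀ t ∈ s, stiffOp (L i) (sphC (ν i t)) (iteratedDeriv j (u i) t) = R i t - g i t := by
  obtain ⟨f, g, hf, hg, hQ⟩ := H.exists_eqn j
  obtain ⟨f', hf', hfd⟩ := hf.deriv H
  refine ⟨_, g, .add (.add (.base _ H.wgtw.dt (j + 1) (by omega))
    (.base _ H.wgtw (j + 2) (by omega))) (.add (hf'.mono (by omega))
    (.add (.base _ H.wgtw (j + 1) (by omega)) (hf.mono (by omega)))), hg, fun i t ht => ?_⟩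
  have h1 := ((hasDerivAt_op (massOp (L i)) H.wgtw i t).clm_apply
    (H.hasDerivAt_iteratedDeriv i (j + 1) ht)).add (hfd i t ht)
  have h2 := (hQ i t ht).unique h1
  rw [eq_add_of_sub_eq (show stiffOp (L i) (sphC (ν i t)) (iteratedDeriv j (u i) t) + g i t -
      (massOp (L i) (sphC (w i t)) (iteratedDeriv (j + 1) (u i) t) + f i t) = _ from h2) |>
      eq_sub_of_add_eq]
  abel

end

end Vale.Agent.P225.Disproof
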