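import Vale.Agent.P225.Disproof.DualBound
import Vale.Agent.P225.Disproof.GalerkinPencil
import Vale.Agent.P225.Disproof.LimitEqn
import Mathlib.Analysis.SpecialFunctions.Exponential

/-!
# P225: the slow solutions handed to the limit

From the dual system started at `c`, whose orbits decay no faster than `K exp (2 d (t - c))`, we get
solutions on the whole interval `[a, b]`, as many as the dimension of the slow plane, that grow at
most like `exp (d (t - c))` after `c`, stay bounded before `c` and are independent at `c`, with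
constants that involve neither the space nor the horizon `b`.
-/

namespace Vale.Agent.P225.Disproof

open Set Filter Topology
open scoped RealInnerProductSpace

noncomputable section

variable {V : Type*} [NormedAddCommGroup V] [InnerProductSpace ℝ V] [FiniteDimensional ℝ V]
  {E : Type*} [NormedAddCommGroup E] [InnerProductSpace ℝ E] [FiniteDimensional ℝ E]

namespace TraceData

variable {a b ε : ℝ}

/-- The restriction to a final interval. -/
def tail (P : TraceData V a b ε) (c : ℝ) (hc : a ≤ c) : TraceData V c b ε :=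
  have hs : Icc c b ⊆ Icc a b := Icc_subset_Icc_left hc
  { K := P.K, G := P.G, G' := P.G', B := P.B, m := P.m, hm := P.hm, hε := P.hε, hε1 := P.hε1
    symG := fun t ht => P.symG t (hs ht)
    symB := fun t ht => P.symB t (hs ht)
    nonnegB := fun t ht => P.nonnegB t (hs ht)
    coercive := fun t ht => P.coercive t (hs ht)
    derivG := fun t ht => (P.derivG t (hs ht)).mono hs
    boundG := fun t ht => P.boundG t (hs ht)
    derivB := fun t ht => (P.derivB t (hs ht)).mono hs
    boundB := fun t ht => P.boundB t (hs ht) }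

/-- The bound of the weighted norm of the slow solutions, with `τ = c - a`. -/
def slowConst (g top ε K τ : ℝ) : ℝ :=
  Real.exp τ * (Real.exp (2 * top + 1) * (2 * (top + g) / g)) + K / sepConst (g / 2) top ε ^ 2

variable {P : TraceData V a b ε}

/-- Two solutions with the same final value are equal. -/
theorem IsSol.eq_of_end {s₁ s₂ : ℝ} (h₁ : a ≤ s₁) (h₂ : s₂ ≤ b) {u v : ℝ → V}
    (hu : P.IsSol s₁ s₂ u) (hv : P.IsSol s₁ s₂ v) (h : u s₂ = v s₂) :
    ∀ t ∈ Icc s₁ s₂, u t = v t := fun t ht => by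
  have h1 := rate_floor (P := P) (h₁.trans ht.1) h₂ ht.2 ((hu.sub hv).mono ht.1 le_rfl)
  simp only [h, sub_self] at h1
  rw [show P.nrm s₂ 0 = 0 by simp [nrm]] at h1
  exact sub_eq_zero.1 (eq_zero_of_nrm_le (P := P) ⟨h₁.trans ht.1, ht.2.trans h₂⟩
    (nonpos_of_mul_nonpos_right h1 (Real.exp_pos _)))

/-- An orthonormal basis of the orbit space for the weighted norm at a time. -/
theorem DualStart.exists_unit_frame {U : ℝ → E →L[ℝ] V} {ν ν' : ℝ → ℝ} {g top : ℝ}
    (hs : DualStart P U ν ν' g top) :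
    ∃ x : Fin (Module.finrank ℝ E) → E,
      ∀ z : Fin (Module.finrank ℝ E) → ℝ, P.nrm a (U a (∑ i, z i • x i)) = ∑ i, z i ^ 2 := by
  have ha : a ∈ Icc a b := hs.ht0
  set A : E →ₗ[ℝ] E :=
    ((ContinuousLinearMap.adjoint (U a)).comp ((P.G a).comp (U a))).toLinearMap
  have hA : A.IsSymmetric := fun x y => by
    simp only [A, ContinuousLinearMap.coe_coe, ContinuousLinearMap.comp_apply,
      ContinuousLinearMap.adjoint_inner_left, ContinuousLinearMap.adjoint_inner_right, P.symG a ha]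
  set e := hA.eigenvectorBasis rfl
  set d := hA.eigenvalues rfl
  have hAe : ∀ i, A (e i) = d i • e i := hA.apply_eigenvectorBasis rfl
  have hN : ∀ y : E, P.nrm a (U a y) = ⟪y, A y⟫ := fun y => by
    simp only [A, nrm, ContinuousLinearMap.coe_coe, ContinuousLinearMap.comp_apply,
      ContinuousLinearMap.adjoint_inner_right]
  have hd : ∀ i, 0 < d i := fun i => by
    refine lt_of_not_ge fun h => e.orthonormal.ne_zero i (hs.inj ?_)
    rw [map_zero]
    refine eq_zero_of_nrm_le (P := P) ha ?_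
    rwa [hN, hAe, real_inner_smul_right, real_inner_self_eq_norm_sq, e.orthonormal.1 i, one_pow,
      mul_one]
  refine ⟨fun i => (Real.sqrt (d i))⁻¹ • e i, fun z => ?_⟩
  rw [hN]
  simp only [smul_smul, map_sum, map_smul, hAe]
  rw [e.orthonormal.inner_sum]
  refine Finset.sum_congr rfl fun i _ => ?_
  have h := Real.sqrt_pos.2 (hd i)
  simp only [RCLike.conj_to_real]
  field_simp
  rw [Real.sq_sqrt (hd i).le]

/-- The slow solutions on the whole interval. -/
theorem exists_slowSolutions {c : ℝ} (hac : a ≤ c) {U : ℝ → E →L[ℝ] V} {ν ν' : ℝ → ℝ}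
    {g top : ℝ} (hs : DualStart (P.tail c hac) U ν ν' g top) (hg2 : ε < g / 2)
    (hsm2 : ∀ t ∈ Icc c b, ε * (2 * ν t + 1) + |ν' t| ≤ g ^ 2 / 2)
    (hgν : ∀ t ∈ Icc c b, g ≤ ν t) (hb : P.Split b (ν b) g (Module.finrank ℝ E))
    {K d : ℝ} (hK : 0 ≤ K) (hd : 0 ≤ d)
    (hC : ∀ t ∈ Icc c b, ∀ x : E,
      P.nrm c (U c x) ≤ K * Real.exp (2 * d * (t - c)) * P.nrm t (U t x)) :
    ∃ u : Fin (Module.finrank ℝ E) → ℝ → V, (∀ m, P.IsSol a b (u m)) ∧
      (∀ m, ∀ t ∈ Icc a b,
        P.nrm t (u m t) ≤ slowConst g top ε K (c - a) * Real.exp (2 * d * max (t - c) 0)) ∧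
      ∀ z : Fin (Module.finrank ℝ E) → ℝ, ∑ i, z i ^ 2 ≤ P.nrm c (∑ i, z i • u i c) := by
  have hcb : c ≤ b := hs.hab.le
  have hcI : c ∈ Icc a b := ⟨hac, hcb⟩
  obtain ⟨x, hx⟩ := hs.exists_unit_frame
  choose v hv hvproj hvlow hv0 hvb using fun i => hs.exists_plane_bound hg2 hsm2 hgν hb hC (x i)
  obtain ⟨R, hR, hRsol⟩ := P.exists_solMap le_rfl le_rfl (hac.trans hcb)
  have hvP : ∀ i, P.IsSol c b (v i) := hv
  have heq : ∀ i, ∀ t ∈ Icc c b, R t (v i b) = v i t := fun i =>
    IsSol.eq_of_end hac le_rfl ((hRsol _).mono hac le_rfl) (hvP i)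
      (by rw [hR, one_apply_eq_self])
  refine ⟨fun i t => R t (v i b), fun i => hRsol _, fun i => ?_, fun z => ?_⟩
  · have hx1 : P.nrm c (U c (x i)) = 1 := by
      have h := hx (Pi.single i 1)
      simpa [Pi.single_apply, ite_smul, ite_pow, tail, nrm] using h
    have htop : 0 ≤ top := (hs.levelν c ⟨le_rfl, hcb⟩).1.trans (hs.levelν c ⟨le_rfl, hcb⟩).2
    have hstart : P.nrm c (v i c) ≤ 2 * (top + g) / g := by
      have h : g / 2 * P.nrm c (v i c) ≤ (ν c + g) * P.nrm c (U c (x i)) := hv0 i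
      rw [hx1, mul_one] at h
      rw [le_div_iff₀ hs.hg]
      linarith [(hs.levelν c ⟨le_rfl, hcb⟩).2]
    set A := 2 * (top + g) / g
    have hA : 0 ≤ A := div_nonneg (by linarith [hs.hg]) hs.hg.le
    have hE1 : (1 : ℝ) ≤ Real.exp (2 * top + 1) := Real.one_le_exp (by linarith)
    have hsep := pow_pos (sepConst_pos (top := top) hg2) 2
    have hfirst : 0 ≤ Real.exp (c - a) * (Real.exp (2 * top + 1) * A) := by positivity
    have hlast : 0 ≤ K / sepConst (g / 2) top ε ^ 2 := div_nonneg hK hsep.le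
    have hS : 0 ≤ slowConst g top ε K (c - a) := add_nonneg hfirst hlast
    intro t ht
    show P.nrm t (R t (v i b)) ≤ _
    have hexp : (1 : ℝ) ≤ Real.exp (2 * d * max (t - c) 0) :=
      Real.one_le_exp (mul_nonneg (mul_nonneg zero_le_two hd) (le_max_right _ _))
    rcases le_or_gt t (c + 1) with h1 | h1
    · refine le_trans ?_ (le_mul_of_one_le_right hS hexp)
      refine le_trans ?_ (le_add_of_nonneg_right hlast)
      rcases le_or_gt t c with h2 | h2
      · have h := rate_floor (P := P) ht.1 hcb h2 ((hRsol (v i b)).mono ht.1 hcb)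
        rw [heq i c ⟨le_rfl, hcb⟩, neg_mul, Real.exp_neg,
          inv_mul_le_iff₀ (Real.exp_pos _)] at h
        refine h.trans (mul_le_mul (Real.exp_le_exp.2 ?_)
          (hstart.trans (le_mul_of_one_le_left hA hE1)) (nrm_nonneg hcI _) (Real.exp_nonneg _))
        exact (mul_le_of_le_one_left (sub_nonneg.2 h2) P.hε1).trans (by linarith [ht.1])
      · have hlow : ∀ r ∈ Icc c t, P.eng r (v i r) ≤ top * P.nrm r (v i r) := fun r hr =>
          le_trans (hvlow i r ⟨hr.1, hr.2.trans ht.2⟩) (mul_le_mul_of_nonneg_right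
            (hs.levelν r ⟨hr.1, hr.2.trans ht.2⟩).2
            (nrm_nonneg (P := P) ⟨hac.trans hr.1, hr.2.trans ht.2⟩ _))
        have h := rate_upper (P := P) hac ht.2 h2.le ((hvP i).mono le_rfl ht.2) hlow
        rw [heq i t ⟨h2.le, ht.2⟩]
        refine h.trans (le_trans (mul_le_mul (Real.exp_le_exp.2 ?_) hstart (nrm_nonneg hcI _)
          (Real.exp_nonneg _)) (le_mul_of_one_le_left (by positivity)
            (Real.one_le_exp (sub_nonneg.2 hac))))
        have h3 : 2 * top + ε ≤ 2 * top + 1 := by linarith [P.hε1]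
        exact (mul_le_of_le_one_right (by linarith [P.hε]) (by linarith)).trans h3
    · have htI : t ∈ Icc (c + 1) b := ⟨h1.le, ht.2⟩
      rw [heq i t ⟨by linarith, ht.2⟩, max_eq_left (by linarith)]
      have h : sepConst (g / 2) top ε ^ 2 * P.nrm t (v i t) ≤
          K * Real.exp (2 * d * (t - c)) * P.nrm c (U c (x i)) := hvb i t htI
      rw [hx1, mul_one, ← le_div_iff₀' hsep, ← div_mul_eq_mul_div] at h
      exact h.trans (mul_le_mul_of_nonneg_right (le_add_of_nonneg_left hfirst) (Real.exp_nonneg _))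
  · set w := U c (∑ i, z i • x i) with hw
    set u := ∑ i, z i • v i c with hu
    have huc : ∑ i, z i • R c (v i b) = u :=
      Finset.sum_congr rfl fun i _ => by rw [heq i c ⟨le_rfl, hcb⟩]
    have hperp : ∀ y, ⟪u - w, P.G c (U c y)⟫ = 0 := fun y => by
      have e : u - w = ∑ i, z i • (v i c - U c (x i)) := by
        simp only [hu, hw, map_sum, map_smul, smul_sub, Finset.sum_sub_distrib]
      rw [e, sum_inner]
      refine Finset.sum_eq_zero fun i _ => ?_
      rw [real_inner_smul_left]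
      have h : ⟪v i c - U c (x i), P.G c (U c y)⟫ = 0 := hvproj i y
      rw [h, mul_zero]
    have e : P.nrm c u = P.nrm c w + P.nrm c (u - w) := by
      have h1 : ⟪w, P.G c (u - w)⟫ = 0 := by
        rw [← P.symG c hcI, real_inner_comm]; exact hperp _
      conv_lhs => rw [show u = w + (u - w) by abel]
      simp only [nrm, map_add, inner_add_left, inner_add_right, h1]
      rw [show ⟪u - w, P.G c w⟫ = 0 from hperp _]
      ring
    have hz : P.nrm c w = ∑ i, z i ^ 2 := hx z
    show ∑ i, z i ^ 2 ≤ P.nrm c (∑ i, z i • R c (v i b))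
    rw [huc, e, hz]
    exact le_add_of_nonneg_right (nrm_nonneg hcI _)

/-- A solution from time `0` continues to negative times by the flow of its initial generator,
which does not increase the norm there. -/
theorem exists_extend_back {P : TraceData V 0 b ε} (hb : 0 ≤ b) {D : V →L[ℝ] V}
    (hD : ∀ x, 0 ≤ ⟪x, D x⟫) (h0 : ∀ x, P.vel 0 x = D x) {u : ℝ → V} (hu : P.IsSol 0 b u) :
    ∃ w : ℝ → V, (∀ t ∈ Icc 0 b, w t = u t) ∧ (∀ t ≤ 0, ‖w t‖ ≤ ‖u 0‖) ∧
      ∀ t < b, HasDerivAt w (if t ≤ 0 then D (w t) else P.vel t (w t)) t := by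
  set p : ℝ → V := fun t => NormedSpace.exp (t • D) (u 0) with hp
  have hp0 : p 0 = u 0 := by simp [hp]
  have hpd : ∀ t, HasDerivAt p (D (p t)) t := fun t => by
    simpa [hp] using
      (hasDerivAt_exp_smul_const' (𝕂 := ℝ) D t).clm_apply (hasDerivAt_const t (u 0))
  set w : ℝ → V := fun t => if t ≤ 0 then p t else u t with hw
  have hwneg : ∀ t ≤ 0, w t = p t := fun t ht => if_pos ht
  have hwpos : ∀ t ∈ Icc 0 b, w t = u t := fun t ht => by
    rcases ht.1.eq_or_lt with h | h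
    · subst h; rw [hwneg _ le_rfl, hp0]
    · exact if_neg (not_le.2 h)
  refine ⟨w, hwpos, fun t ht => ?_, fun t ht => ?_⟩
  · have hm : MonotoneOn (fun r => ⟪p r, p r⟫) (Icc t 0) :=
      monotoneOn_Icc (fun r _ => ((hpd r).inner ℝ (hpd r)).hasDerivWithinAt) fun r _ => by
        rw [real_inner_comm (p r) (D (p r))]
        exact add_nonneg (hD _) (hD _)
    have h := hm ⟨le_rfl, ht⟩ ⟨ht, le_rfl⟩ ht
    simp only [real_inner_self_eq_norm_sq, hp0] at h
    rw [hwneg t ht]
    exact (sq_le_sq₀ (norm_nonneg _) (norm_nonneg _)).1 h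
  · rcases lt_trichotomy t 0 with h | h | h
    · rw [if_pos h.le, hwneg t h.le]
      exact (hpd t).congr_of_eventuallyEq
        (eventuallyEq_of_mem (Iio_mem_nhds h) fun r hr => hwneg r (le_of_lt hr))
    · subst h
      rw [if_pos le_rfl, hwneg _ le_rfl]
      have h1 : HasDerivWithinAt w (D (p 0)) (Iic 0) 0 :=
        ((hpd 0).hasDerivWithinAt).congr hwneg (hwneg _ le_rfl)
      have h2 : HasDerivWithinAt w (D (p 0)) (Icc 0 b) 0 := by
        rw [hp0, ← h0]
        exact (hu 0 ⟨le_rfl, hb⟩).congr hwpos (hwpos _ ⟨le_rfl, hb⟩)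
      refine (h1.union h2).hasDerivAt ?_
      refine mem_of_superset (Iio_mem_nhds ht) fun r hr => ?_
      rcases le_or_gt r 0 with h' | h'
      exacts [Or.inl h', Or.inr ⟨h'.le, le_of_lt hr⟩]
    · rw [if_neg (not_le.2 h), hwpos t ⟨h.le, ht.le⟩]
      exact ((hu t ⟨h.le, ht.le⟩).hasDerivAt (Icc_mem_nhds h ht)).congr_of_eventuallyEq
        (mem_of_superset (Icc_mem_nhds h ht) hwpos)

end TraceData

/-- The slow solutions of the Galerkin system on the whole line up to the horizon, with constants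
that involve neither `N` nor the horizon. -/
theorem exists_galSlowSolutions {N M : ℕ} {H ε : ℝ} {P : TraceData (Gal N) 0 H ε}
    {wt : ℝ → C(Sph 3, ℝ)} {lo hi : ℝ} (hlo : 0 < lo) (hhi : 0 < hi)
    (hG : ∀ t ∈ Icc (0 : ℝ) H, P.G t = massOp N (wt t))
    (hwt : ∀ t ∈ Icc (0 : ℝ) H, ∀ θ, lo ≤ wt t θ ∧ wt t θ ≤ hi) (hwt0 : wt 0 = 1)
    (hB0 : P.B 0 = degOp N) {c : ℝ} (hc : 0 ≤ c) {U : ℝ → E →L[ℝ] Gal N} {ν ν' : ℝ → ℝ}
    {g top : ℝ} (hs : TraceData.DualStart (P.tail c hc) U ν ν' g top) (hg2 : ε < g / 2)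
    (hsm2 : ∀ t ∈ Icc c H, ε * (2 * ν t + 1) + |ν' t| ≤ g ^ 2 / 2)
    (hgν : ∀ t ∈ Icc c H, g ≤ ν t) (hb : P.Split H (ν H) g (Module.finrank ℝ E))
    (hM : Module.finrank ℝ E = M) {K d : ℝ} (hK : 0 ≤ K) (hd : 0 ≤ d)
    (hC : ∀ t ∈ Icc c H, ∀ x : E,
      P.nrm c (U c x) ≤ K * Real.exp (2 * d * (t - c)) * P.nrm t (U t x)) :
    ∃ u : Fin M → ℝ → Gal N, (∀ m, P.IsSol 0 H (u m)) ∧
      (∀ m, ∀ t < H, HasDerivAt (u m) (if t ≤ 0 then degOp N (u m t) else P.vel t (u m t)) t) ∧
      (∀ m, ∀ t ≤ H, ‖u m t‖ ≤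
        Real.sqrt (TraceData.slowConst g top ε K c / lo) * Real.exp (d * max t 0)) ∧
      ∀ z : Fin M → ℝ, hi⁻¹ * ∑ i, z i ^ 2 ≤ ‖∑ i, z i • u i c‖ ^ 2 := by
  subst hM
  have hcH : c ≤ H := hs.hab.le
  have hH : 0 ≤ H := hc.trans hcH
  obtain ⟨v, hv, hvn, hvz⟩ := TraceData.exists_slowSolutions hc hs hg2 hsm2 hgν hb hK hd hC
  rw [sub_zero] at hvn
  set S := TraceData.slowConst g top ε K c
  have hvel : ∀ x, P.vel 0 x = degOp N x := fun x => by
    rw [TraceData.vel, hG 0 ⟨le_rfl, hH⟩, hwt0, massOp_one, Ring.inverse_one, hB0, one_apply_eq_self]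
  choose u hu hneg hder using fun m => P.exists_extend_back hH degOp_nonneg hvel (hv m)
  refine ⟨u, fun m t ht => ?_, hder, fun m t ht => ?_, fun z => ?_⟩
  · rw [hu m t ht]
    exact (hv m t ht).congr (hu m) (hu m t ht)
  · have key : ∀ r ∈ Icc (0 : ℝ) H,
        ‖v m r‖ ≤ Real.sqrt (S / lo) * Real.exp (d * max r 0) := fun r hr => by
      have hS : 0 ≤ S := nonneg_of_mul_nonneg_left
        ((TraceData.nrm_nonneg (P := P) hr _).trans (hvn m r hr)) (Real.exp_pos _)
      have h1 : lo * ‖v m r‖ ^ 2 ≤ S * Real.exp (2 * d * max r 0) := by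
        have h2 : lo * ‖v m r‖ ^ 2 ≤ S * Real.exp (2 * d * max (r - c) 0) := by
          refine (massOp_coercive (fun θ => (hwt r hr θ).1) (v m r)).trans ?_
          rw [← hG r hr]
          exact hvn m r hr
        exact h2.trans (mul_le_mul_of_nonneg_left (Real.exp_le_exp.2 (mul_le_mul_of_nonneg_left
          (max_le_max (sub_le_self _ hc) le_rfl) (mul_nonneg zero_le_two hd))) hS)
      rw [← le_div_iff₀' hlo, ← div_mul_eq_mul_div] at h1
      refine (Real.le_sqrt (norm_nonneg _) ?_).2 h1 |>.trans (le_of_eq ?_)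
      · exact mul_nonneg (div_nonneg hS hlo.le) (Real.exp_nonneg _)
      · rw [Real.sqrt_mul (div_nonneg hS hlo.le), ← Real.exp_half]
        ring_nf
    rcases le_or_gt t 0 with h | h
    · refine (hneg m t h).trans ((key 0 ⟨le_rfl, hH⟩).trans (le_of_eq ?_))
      rw [max_self, max_eq_right h]
    · rw [hu m t ⟨h.le, ht⟩]
      exact key t ⟨h.le, ht⟩
  · simp only [fun i => hu i c ⟨hc, hcH⟩]
    set y := ∑ i, z i • v i c
    have h := massOp_nonneg (N := N) (w := hi • 1 - wt c)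
      (fun θ => by simpa using (hwt c ⟨hc, hcH⟩ θ).2) y
    simp only [map_sub, map_smul, massOp_one, sub_apply, smul_apply, one_apply_eq_self,
      inner_sub_right, real_inner_smul_right, real_inner_self_eq_norm_sq, ← hG c ⟨hc, hcH⟩] at h
    rw [inv_mul_le_iff₀ hhi]
    have h2 : ∑ i, z i ^ 2 ≤ ⟪y, P.G c y⟫ := hvz z
    linarith

/-- A solution of the trace flow, continued by the flow of `degOp` before time `0`, solves the
truncated equation up to the horizon when both weights are `1` before time `0`. -/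
theorem isGalSol_of_deriv {N : ℕ} {H ε : ℝ} {P : TraceData (Gal N) 0 H ε} (hH : 0 < H)
    {w ν : ℝ → Space 3 → ℝ}
    (hG : ∀ t ∈ Icc (0 : ℝ) H, P.G t = massOp N (sphC (w t)))
    (hK : ∀ t ∈ Icc (0 : ℝ) H, P.K t = stiffOp N (sphC (ν t))) (hB0 : P.B 0 = degOp N)
    (hw : ∀ t ≤ 0, sphC (w t) = 1) (hν : ∀ t ≤ 0, sphC (ν t) = 1) {u : ℝ → Gal N}
    (hu : ∀ t < H, HasDerivAt u (if t ≤ 0 then degOp N (u t) else P.vel t (u t)) t) :
    IsGalSol N w ν (Iio H) u := by
  set q := fun r => massOp N (sphC (w r)) (deriv u r) with hq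
  have hneg : ∀ r < H, r ≤ 0 → q r = degOp N (u r) := fun r hr hr0 => by
    simp only [hq, (hu r hr).deriv, if_pos hr0, hw r hr0, massOp_one, one_apply_eq_self]
  have hpos : ∀ r ∈ Ico (0 : ℝ) H, q r = P.B r (u r) := fun r hr => by
    rcases hr.1.eq_or_lt with h | h
    · subst h; rw [hneg 0 hr.2 le_rfl, hB0]
    · simp only [hq, (hu r hr.2).deriv, if_neg (not_le.2 h), ← hG r ⟨hr.1, hr.2.le⟩,
        TraceData.G_vel (P := P) ⟨hr.1, hr.2.le⟩]
  intro t ht
  have ht' : t < H := ht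
  refine ⟨(hu t ht').differentiableAt.hasDerivAt, ?_⟩
  show HasDerivAt q (stiffOp N (sphC (ν t)) (u t) - q t) t
  have hleft : t ≤ 0 → HasDerivWithinAt q (stiffOp N (sphC (ν t)) (u t) - q t) (Iic 0) t := by
    intro h
    refine ((((degOp N).hasFDerivAt.comp_hasDerivAt t (hu t ht')).hasDerivWithinAt).congr
      (fun r hr => hneg r (lt_of_le_of_lt hr hH) hr)
      (hneg t ht' h)).congr_deriv ?_
    rw [if_pos h, hneg t ht' h, hν t h, stiffOp_one, add_apply, mul_apply_eq_comp,
      add_sub_cancel_right]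
  have hright : 0 ≤ t →
      HasDerivWithinAt q (stiffOp N (sphC (ν t)) (u t) - q t) (Ico 0 H) t := by
    intro h
    refine ((((P.derivB t ⟨h, ht'.le⟩).mono Ico_subset_Icc_self).clm_apply
      (hu t ht').hasDerivWithinAt).congr hpos (hpos t ⟨h, ht'⟩)).congr_deriv ?_
    have e : P.B t (if t ≤ 0 then degOp N (u t) else P.vel t (u t)) = P.B t (P.vel t (u t)) := by
      split_ifs with h'
      · obtain rfl : t = 0 := le_antisymm h' h
        rw [TraceData.vel, hG 0 ⟨le_rfl, ht'.le⟩, hw 0 le_rfl, massOp_one, Ring.inverse_one, hB0,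
          one_apply_eq_self]
      · rfl
    rw [e, hpos t ⟨h, ht'⟩, ← hK t ⟨h, ht'.le⟩, sub_apply, sub_apply, mul_apply_eq_comp,
      mul_apply_eq_comp, TraceData.vel, sub_add_cancel]
  rcases lt_trichotomy t 0 with h | h | h
  · exact (hleft h.le).hasDerivAt (Iic_mem_nhds h)
  · subst h
    refine ((hleft le_rfl).union (hright le_rfl)).hasDerivAt (mem_of_superset (Iio_mem_nhds ht') ?_)
    intro r hr
    rcases le_or_gt r 0 with h' | h'
    exacts [Or.inl h', Or.inr ⟨h'.le, hr⟩]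
  · exact (hright h.le).hasDerivAt (Ico_mem_nhds h ht')

end

end Vale.Agent.P225.Disproof
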