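import Vale.Agent.P225.Disproof.CtrlLevels
import Vale.Agent.P225.Disproof.CtrlCont
import Vale.Agent.P225.Disproof.Agree
import Vale.Agent.P225.Disproof.SlowSolutions
import Vale.Agent.P225.Disproof.Select

/-!
# P225: the Galerkin family of a control and its dual systems

`TraceFam` is trace data for every parameter, with weights local in the shape and close to it from
the start of the schedule. The slow dual orbits start at one map for all parameters and depend
continuously on them, and on the past only.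
-/

namespace Vale.Agent.P225.Disproof

open MeasureTheory Set Filter Topology
open scoped RealInnerProductSpace

noncomputable section

variable {X : Type*} [NormedAddCommGroup X] [InnerProductSpace ℝ X]

/-- Trace data along the control, one for each parameter. -/
structure TraceFam (W : X →L[ℝ] C(Sph 3, ℝ)) (C : Ctrl X) (N : ℕ) (t0 H ε δ : ℝ) where
  P : paramCube → TraceData (Gal N) t0 H ε
  nu : paramCube → ℝ → C(Sph 3, ℝ)
  om : paramCube → ℝ → C(Sph 3, ℝ)
  nuD : paramCube → ℝ → C(Sph 3, ℝ)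
  eqK : ∀ s, (P s).K = fun t => stiffOp N (om s t)
  eqG : ∀ s, (P s).G = fun t => massOp N (nu s t)
  eqG' : ∀ s, (P s).G' = fun t => massOp N (nuD s t)
  start : ∀ s, (P s).B t0 = degOp N
  le_t1 : t0 ≤ C.sch.t1
  lt_H : C.sch.t1 < H
  cont_nu : Continuous fun p : paramCube × ℝ => nu p.1 p.2
  cont_om : Continuous fun p : paramCube × ℝ => om p.1 p.2
  cont_nuD : Continuous fun p : paramCube × ℝ => nuD p.1 p.2
  locality : ∀ (s s' : paramCube) (t : ℝ), C.rho s =ᶠ[𝓝 t] C.rho s' →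
    nu s t = nu s' t ∧ om s t = om s' t ∧ nuD s t = nuD s' t
  close : ∀ (s : paramCube) (t : ℝ), C.sch.t1 ≤ t → ∀ θ, |om s t θ - 1| ≤ δ / 4 ∧
    |nu s t θ - W (C.rho s t) θ| ≤ δ / 4 * W (C.rho s t) θ

namespace TraceFam

variable {W : X →L[ℝ] C(Sph 3, ℝ)} {C : Ctrl X} {N : ℕ} {t0 H ε δ : ℝ}
  (F : TraceFam W C N t0 H ε δ)

include F in
theorem le_H : t0 ≤ H := F.le_t1.trans F.lt_H.le

theorem cont_K : Continuous fun p : paramCube × Icc t0 H => (F.P p.1).K p.2 := by
  simp only [F.eqK]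
  exact (stiffOp N).continuous.comp
    (F.cont_om.comp (continuous_fst.prodMk (continuous_subtype_val.comp continuous_snd)))

theorem cont_G : Continuous fun p : paramCube × Icc t0 H => (F.P p.1).G p.2 := by
  simp only [F.eqG]
  exact (massOp N).continuous.comp
    (F.cont_nu.comp (continuous_fst.prodMk (continuous_subtype_val.comp continuous_snd)))

theorem cont_G' : Continuous fun p : paramCube × Icc t0 H => (F.P p.1).G' p.2 := by
  simp only [F.eqG']
  exact (massOp N).continuous.comp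
    (F.cont_nuD.comp (continuous_fst.prodMk (continuous_subtype_val.comp continuous_snd)))

theorem cont_B : Continuous fun p : paramCube × Icc t0 H => (F.P p.1).B p.2 :=
  TraceData.continuous_B F.P F.le_H F.cont_K F.cont_G (by simp only [F.start]; exact continuous_const)

theorem cont_gen : Continuous fun p : paramCube × Icc t0 H => (F.P p.1).gen p.2 := by
  refine (continuous_iff_continuousAt.2 fun p => ?_).mul F.cont_B
  have hu := isUnit_of_coercive (F.P p.1).hm ((F.P p.1).coercive p.2 p.2.2)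
  exact (hasFDerivAt_ringInverse (𝕜 := ℝ) hu.unit).continuousAt.comp_of_eq F.cont_G.continuousAt
    hu.unit_spec.symm

theorem cont_B_at (t : ℝ) (ht : t ∈ Icc t0 H) : Continuous fun s => (F.P s).B t :=
  F.cont_B.comp (continuous_id.prodMk (continuous_const (y := (⟨t, ht⟩ : Icc t0 H))))

theorem cont_G_at (t : ℝ) (ht : t ∈ Icc t0 H) : Continuous fun s => (F.P s).G t :=
  F.cont_G.comp (continuous_id.prodMk (continuous_const (y := (⟨t, ht⟩ : Icc t0 H))))

/-- The data up to the start of slot `n` depend only on the earlier slots. -/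
theorem agree {s s' : paramCube} {n : ℕ} (hs : ∀ m < n, (s : ℕ → ℝ) m = (s' : ℕ → ℝ) m)
    {c : ℝ} (h0 : t0 ≤ c) (hc : c ≤ C.sch.slotStart n) (hcH : c ≤ H) {t : ℝ}
    (ht : t ∈ Icc t0 c) : (F.P s).G t = (F.P s').G t ∧ (F.P s).G' t = (F.P s').G' t ∧
      (F.P s).B t = (F.P s').B t ∧ (F.P s).gen t = (F.P s').gen t := by
  have hloc : ∀ r ∈ Icc t0 c, F.nu s r = F.nu s' r ∧ F.om s r = F.om s' r ∧
      F.nuD s r = F.nuD s' r := fun r hr =>
    F.locality s s' r (C.rho_congr hs (hr.2.trans hc))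
  have hK : ∀ r ∈ Icc t0 c, (F.P s).K r = (F.P s').K r := fun r hr => by
    rw [F.eqK, F.eqK]; simp only [(hloc r hr).2.1]
  have hG : ∀ r ∈ Icc t0 c, (F.P s).G r = (F.P s').G r := fun r hr => by
    rw [F.eqG, F.eqG]; simp only [(hloc r hr).1]
  have hKc : ContinuousOn (F.P s).K (Icc t0 c) := by
    rw [F.eqK]
    exact ((stiffOp N).continuous.comp
      (F.cont_om.comp (Continuous.prodMk_right s))).continuousOn
  have hB := TraceData.B_eq_of_agree (F.P s) (F.P s') h0 hcH hK hG hKc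
    (by rw [F.start, F.start]) t ht
  exact ⟨hG t ht, by rw [F.eqG', F.eqG']; simp only [(hloc t ht).2.2], hB,
    by rw [TraceData.gen, TraceData.gen, hG t ht, hB]⟩

/-- A good level gives the split of the trace map from the start of the schedule. -/
theorem split {j : ℕ} {m g : ℝ} {s : paramCube} {t : ℝ} (ht : t ∈ Icc C.sch.t1 H)
    (hgood : GoodLevel (W (C.rho s t)) j m g δ) (hw : ∀ θ, 0 < W (C.rho s t) θ) (hj : 1 ≤ j)
    (hεg : ε ≤ δ) (hN : 2 * ‖W (C.rho s t)‖ / ((N : ℝ) + 1) ≤ δ) :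
    (F.P s).Split t m g (j + 1) :=
  hgood.split hw hj ⟨F.le_t1.trans ht.1, ht.2⟩ (congrFun (F.eqK s) t) (congrFun (F.eqG s) t) hεg hN
    (fun θ => (F.close s t ht.1 θ).1) fun θ => (F.close s t ht.1 θ).2

end TraceFam

variable {W : X →L[ℝ] C(Sph 3, ℝ)} {L : LoopFam X wordLen} {p0 : X}

/-- The standing hypotheses: large space, small rates against the margins of the levels. -/
structure CtrlSmall (Λ : Levels W L p0) (C : Ctrl X) (N : ℕ) (ε : ℝ) : Prop where
  loops : LoopsOK W L p0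
  ctrl : CtrlOf C L p0
  hN : Λ.N0 ≤ N
  eps_le : ε ≤ Λ.g / 8
  rate : ∀ (s : paramCube) (t : ℝ),
    ε * (2 * Λ.top + 2) + Λ.C * ‖deriv (C.rho s) t‖ ≤ Λ.g ^ 2 / 4

namespace CtrlSmall

variable {Λ : Levels W L p0} {C : Ctrl X} {N : ℕ} {ε : ℝ} (h : CtrlSmall Λ C N ε)
include h

theorem eps_le_g : ε ≤ Λ.g := by linarith [h.eps_le, Λ.g_pos]

/-- The level of an open gap along the control moves slowly. -/
theorem level_deriv {l : ℕ} (hl : l ∈ Icc 224 729) (s : paramCube) {t : ℝ} (S : Set ℝ)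
    (hq : C.rho s t ∈ openShapes L p0 l) :
    HasDerivWithinAt (fun r => Λ.lv l (C.rho s r))
      (fderiv ℝ (Λ.lv l) (C.rho s t) (deriv (C.rho s) t)) S t ∧
    |fderiv ℝ (Λ.lv l) (C.rho s t) (deriv (C.rho s) t)| ≤ Λ.C * ‖deriv (C.rho s) t‖ :=
  ⟨((Λ.smooth l).differentiable (by simp) _).hasFDerivAt.comp_hasDerivWithinAt t
      ((C.contDiff_rho s).differentiable (by simp) t).hasDerivAt.hasDerivWithinAt,
    ((fderiv ℝ (Λ.lv l) (C.rho s t)).le_opNorm _).trans
      (mul_le_mul_of_nonneg_right (Λ.good l hl _ hq).2.2 (norm_nonneg _))⟩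

theorem level_split {t0 H : ℝ} (F : TraceFam W C N t0 H ε Λ.g) {l : ℕ} (hl : l ∈ Icc 224 729)
    {s : paramCube} {t : ℝ} (ht : t ∈ Icc C.sch.t1 H) (hq : C.rho s t ∈ openShapes L p0 l) :
    (F.P s).Split t (Λ.lv l (C.rho s t)) Λ.g (l + 1) :=
  F.split ht (Λ.good l hl _ hq).1 (h.loops.on_openShapes hl hq).1 (by linarith [hl.1]) h.eps_le_g
    (Λ.trunc l hl _ hq N h.hN)

end CtrlSmall

/-- The top level along the control. -/
def topLev (Λ : Levels W L p0) (C : Ctrl X) (s : paramCube) (t : ℝ) : ℝ :=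
  Λ.lv 729 (C.rho s t)

/-- Its speed. -/
def topLevD (Λ : Levels W L p0) (C : Ctrl X) (s : paramCube) (t : ℝ) : ℝ :=
  fderiv ℝ (Λ.lv 729) (C.rho s t) (deriv (C.rho s) t)

theorem top_mem_win : 729 ∈ Icc 224 729 := ⟨by norm_num, le_rfl⟩

/-- The slow orbits of every parameter, from one initial map. -/
structure SlowFam {N : ℕ} {t0 H ε δ : ℝ} {C : Ctrl X} (Λ : Levels W L p0)
    (F : TraceFam W C N t0 H ε δ) (E : Type*) [NormedAddCommGroup E] [InnerProductSpace ℝ E]
    [FiniteDimensional ℝ E] where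
  U : paramCube → ℝ → E →L[ℝ] Gal N
  ι : E →L[ℝ] Gal N
  dim : Module.finrank ℝ E = slowDim
  init : ∀ s, U s C.sch.t1 = ι
  dual : ∀ s, TraceData.DualStart ((F.P s).tail C.sch.t1 F.le_t1) (U s) (topLev Λ C s)
    (topLevD Λ C s) Λ.g Λ.top

variable {Λ : Levels W L p0} {C : Ctrl X} {N : ℕ} {t0 H ε : ℝ}
  {E : Type*} [NormedAddCommGroup E] [InnerProductSpace ℝ E] [FiniteDimensional ℝ E]

/-- The slow orbits exist. -/
theorem exists_slowFam (h : CtrlSmall Λ C N ε) (F : TraceFam W C N t0 H ε Λ.g)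
    (hE : Module.finrank ℝ E = slowDim) : Nonempty (SlowFam Λ F E) := by
  have hsub : Icc C.sch.t1 H ⊆ Icc t0 H := Icc_subset_Icc_left F.le_t1
  have hG' : ∀ s, ContinuousOn ((F.P s).tail C.sch.t1 F.le_t1).G' (Icc C.sch.t1 H) := fun s => by
    show ContinuousOn (F.P s).G' _
    rw [F.eqG']
    exact ((massOp N).continuous.comp
      (F.cont_nuD.comp (Continuous.prodMk_right s))).continuousOn
  have hcν : ∀ s, Continuous (topLev Λ C s) := fun s =>
    (Λ.smooth 729).continuous.comp (C.contDiff_rho s).continuous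
  have hd : ∀ s : paramCube, ∀ t ∈ Icc C.sch.t1 H,
      HasDerivWithinAt (topLev Λ C s) (topLevD Λ C s t) (Icc C.sch.t1 H) t ∧
      |topLevD Λ C s t| ≤ Λ.C * ‖deriv (C.rho s) t‖ ∧
      0 ≤ topLev Λ C s t ∧ topLev Λ C s t ≤ Λ.top ∧
      (F.P s).Split t (topLev Λ C s t) Λ.g slowDim := fun s t ht => by
    have hq := h.ctrl.mem_top s.2 ht.1
    obtain ⟨a, b⟩ := h.level_deriv top_mem_win s (Icc C.sch.t1 H) hq
    have hg := Λ.good 729 top_mem_win _ hq
    exact ⟨a, b, by have := hg.1.2.1; have := Λ.g_pos; simp only [topLev]; linarith,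
      hg.2.1, h.level_split F top_mem_win ht hq⟩
  have hsm : ∀ s : paramCube, ∀ t ∈ Icc C.sch.t1 H,
      ε * (2 * topLev Λ C s t + 2) + |topLevD Λ C s t| ≤ Λ.g ^ 2 := fun s t ht => by
    obtain ⟨-, b, -, d, -⟩ := hd s t ht
    have h1 := mul_le_mul_of_nonneg_left (show 2 * topLev Λ C s t + 2 ≤ 2 * Λ.top + 2 by linarith)
      (F.P s).hε
    nlinarith [h.rate s t, Λ.g_pos]
  set s₀ : paramCube := ⟨fun _ => 0, fun _ => by simp⟩
  obtain ⟨U₀, hU₀⟩ := TraceData.exists_dualStart (P := (F.P s₀).tail C.sch.t1 F.le_t1) (E := E)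
    F.lt_H (hG' s₀) Λ.g_pos (hcν s₀) (fun t ht => (hd s₀ t ht).1)
    (fun t ht => ⟨(hd s₀ t ht).2.2.1, (hd s₀ t ht).2.2.2.1⟩) (hsm s₀)
    (fun t ht => (hd s₀ t ht).2.2.2.2.1)
    (by rw [hE]; exact (hd s₀ C.sch.t1 ⟨le_rfl, F.lt_H.le⟩).2.2.2.2)
  choose U hU hUd using fun s =>
    TraceData.exists_orbit ((F.P s).tail C.sch.t1 F.le_t1) F.lt_H.le (hG' s) (U₀ C.sch.t1)
  refine ⟨⟨U, U₀ C.sch.t1, hE, hU, fun s => ?_⟩⟩
  obtain ⟨hG, -, hB, -⟩ := F.agree (s := s) (s' := s₀) (n := 0)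
    (fun m hm => absurd hm (Nat.not_lt_zero m)) (c := C.sch.t1) F.le_t1
    (by simp [Sched.slotStart, Sched.hstart]) F.lt_H.le (t := C.sch.t1) ⟨F.le_t1, le_rfl⟩
  have hν : topLev Λ C s C.sch.t1 = topLev Λ C s₀ C.sch.t1 := by
    simp only [topLev, h.ctrl.start_rest]
  refine ⟨F.lt_H, hUd s, by rw [hU]; exact hU₀.inj, Λ.g_pos, hcν s, fun t ht => (hd s t ht).1,
    fun t ht => ⟨(hd s t ht).2.2.1, (hd s t ht).2.2.2.1⟩, hsm s,
    fun t ht => (hd s t ht).2.2.2.2.1, fun x => ?_, fun u hu => ?_, fun u hu x => ?_⟩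
  · show ⟪_, (F.P s).B _ _⟫ ≤ _ * ⟪_, (F.P s).G _ _⟫
    rw [hU, hν, hG, hB]
    exact hU₀.start x
  · have hu' : ∀ x : E, ⟪u, (F.P s₀).G C.sch.t1 (U₀ C.sch.t1 x)⟫ = 0 := fun x => by
      have := hu x
      rwa [hU, show ((F.P s).tail C.sch.t1 F.le_t1).G C.sch.t1 = (F.P s₀).G C.sch.t1 from hG] at this
    show _ * ⟪_, (F.P s).G _ _⟫ ≤ ⟪_, (F.P s).B _ _⟫
    rw [hν, hG, hB]
    exact hU₀.perp u hu'
  · have hu' : ∀ x : E, ⟪u, (F.P s₀).G C.sch.t1 (U₀ C.sch.t1 x)⟫ = 0 := fun x => by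
      have := hu x
      rwa [hU, show ((F.P s).tail C.sch.t1 F.le_t1).G C.sch.t1 = (F.P s₀).G C.sch.t1 from hG] at this
    show ⟪u, (F.P s).B _ _⟫ = 0
    rw [hU, hB]
    exact hU₀.perpB u hu' x

namespace SlowFam

variable {F : TraceFam W C N t0 H ε Λ.g} (Z : SlowFam Λ F E)

/-- The dual system of a parameter. -/
def sys (s : paramCube) : DualSys E C.sch.t1 H ε := (Z.dual s).dualSys

theorem cont_U : Continuous fun p : paramCube × Icc C.sch.t1 H => Z.U p.1 p.2 := by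
  have hI : Continuous fun p : paramCube × Icc C.sch.t1 H =>
      ((p.1, ⟨p.2, Icc_subset_Icc_left F.le_t1 p.2.2⟩) : paramCube × Icc t0 H) :=
    continuous_fst.prodMk (continuous_subtype_val.comp continuous_snd |>.subtype_mk _)
  exact TraceData.continuous_orbit (fun s => (F.P s).tail C.sch.t1 F.le_t1) F.lt_H.le
    (by exact F.cont_gen.comp hI) (by exact F.cont_G.comp hI) (by exact F.cont_G'.comp hI)
    (by simp only [Z.init]; exact continuous_const) fun s x => (Z.dual s).orbit x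

theorem cont_forms {t : ℝ} (ht : t ∈ Icc C.sch.t1 H) :
    (Continuous fun s => (Z.sys s).N t) ∧ Continuous fun s => (Z.sys s).En t := by
  have hI : Continuous fun p : paramCube × Icc C.sch.t1 H =>
      ((p.1, ⟨p.2, Icc_subset_Icc_left F.le_t1 p.2.2⟩) : paramCube × Icc t0 H) :=
    continuous_fst.prodMk (continuous_subtype_val.comp continuous_snd |>.subtype_mk _)
  have hG : Continuous fun p : paramCube × Icc C.sch.t1 H =>
      ((F.P p.1).tail C.sch.t1 F.le_t1).G p.2 := F.cont_G.comp hI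
  have hB : Continuous fun p : paramCube × Icc C.sch.t1 H =>
      ((F.P p.1).tail C.sch.t1 F.le_t1).B p.2 := F.cont_B.comp hI
  obtain ⟨hN, hE⟩ := TraceData.continuous_dualSys (P := fun s => (F.P s).tail C.sch.t1 F.le_t1)
    (U := Z.U) Z.dual Z.cont_U hG hB
  have hc : Continuous fun s : paramCube => (s, (⟨t, ht⟩ : Icc C.sch.t1 H)) :=
    continuous_id.prodMk continuous_const
  have hN' := hN.comp hc
  have hE' := hE.comp hc
  simp only [Function.comp_def] at hN' hE'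
  exact ⟨hN', hE'⟩

/-- The systems depend on the past only. -/
theorem agree {s s' : paramCube} {n : ℕ} (hs : ∀ m < n, (s : ℕ → ℝ) m = (s' : ℕ → ℝ) m)
    {t : ℝ} (ht : t ∈ Icc C.sch.t1 H) (hc : t ≤ C.sch.slotStart n) :
    Z.U s t = Z.U s' t ∧ (Z.sys s).N t = (Z.sys s').N t ∧ (Z.sys s).En t = (Z.sys s').En t := by
  have ha : ∀ r ∈ Icc C.sch.t1 t, (F.P s).G r = (F.P s').G r ∧ (F.P s).G' r = (F.P s').G' r ∧
      (F.P s).B r = (F.P s').B r ∧ (F.P s).gen r = (F.P s').gen r := fun r hr =>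
    F.agree hs (F.le_t1.trans ht.1) hc ht.2 ⟨F.le_t1.trans hr.1, hr.2⟩
  have hU : Z.U s t = Z.U s' t := ContinuousLinearMap.ext fun x =>
    TraceData.dual_eq_of_agree (F.P s) (F.P s') F.le_t1 ht.1 ht.2
      (fun r hr => (ha r hr).2.2.2) (fun r hr => (ha r hr).1) (fun r hr => (ha r hr).2.1)
      (by rw [F.eqG']; exact ((massOp N).continuous.comp
        (F.cont_nuD.comp (Continuous.prodMk_right s))).continuousOn)
      ((Z.dual s).orbit x) ((Z.dual s').orbit x) (by simp only [Z.init]) t ⟨ht.1, le_rfl⟩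
  obtain ⟨hG, -, hB, -⟩ := ha t ⟨ht.1, le_rfl⟩
  have hG' : ((F.P s).tail C.sch.t1 F.le_t1).G t = ((F.P s').tail C.sch.t1 F.le_t1).G t := hG
  have hB' : ((F.P s).tail C.sch.t1 F.le_t1).B t = ((F.P s').tail C.sch.t1 F.le_t1).B t := hB
  refine ⟨hU, ?_, ?_⟩ <;> simp only [sys, TraceData.DualStart.dualSys, hU, hG', hB']

end SlowFam

end

end Vale.Agent.P225.Disproof
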