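import Vale.Agent.P225.Disproof.PencilOp

/-!
# P225: first order behaviour of an exact cluster

Near a weight where `r` consecutive eigenvalues coincide and the gaps around them are open,
`clusterF` vanishes wherever the cluster stays exact, and its strict derivative is the traceless
part of `h ↦ ∫ h v_a v_b` for the eigenfunctions `v_a` of the cluster. No eigenvalue has to be
differentiated: the cluster projection only enters through products of two small Lipschitz terms.
-/

namespace Vale.Agent.P225.Disproof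

open MeasureTheory Set Filter Topology
open scoped RealInnerProductSpace

noncomputable section

/-- The gaps around the cluster `i, ..., i + r - 1` are open. -/
def OuterGaps (w : C(Sph 3, ℝ)) (i r : ℕ) : Prop :=
  (i = 0 ∨ Gap (pencil w) i) ∧ Gap (pencil w) (i + r)

/-- The cluster is exact. -/
def Exact (w : C(Sph 3, ℝ)) (i r : ℕ) : Prop :=
  ∀ a, a < r → nu (pencil w) (i + a) = nu (pencil w) i

/-- The projection on the cluster. -/
def clusterProj (w : C(Sph 3, ℝ)) (i r : ℕ) : L2S →L[ℝ] L2S :=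
  topProj (pencil w) (i + r) - topProj (pencil w) i

/-- The eigenvectors of the cluster at `w₀`. -/
def clusterVec (w₀ : C(Sph 3, ℝ)) (i : ℕ) {r : ℕ} (a : Fin r) : L2S :=
  eigvec (pencil w₀) (i + a)

/-- The eigenfunctions of the cluster at `w₀`. -/
def clusterFun (w₀ : C(Sph 3, ℝ)) (i : ℕ) {r : ℕ} (a : Fin r) : L2S :=
  lift w₀ (clusterVec w₀ i a)

/-- The compressed operator. -/
def clusterA (w₀ : C(Sph 3, ℝ)) (i r : ℕ) (a b : Fin r) (w : C(Sph 3, ℝ)) : ℝ :=
  ⟪pencil w (clusterVec w₀ i a), clusterProj w i r (clusterVec w₀ i b)⟫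

/-- The compressed projection. -/
def clusterB (w₀ : C(Sph 3, ℝ)) (i r : ℕ) (a b : Fin r) (w : C(Sph 3, ℝ)) : ℝ :=
  ⟪clusterVec w₀ i a, clusterProj w i r (clusterVec w₀ i b)⟫

/-- The map that vanishes on exact clusters. -/
def clusterF (w₀ : C(Sph 3, ℝ)) (i r : ℕ) (a b : Fin r) (w : C(Sph 3, ℝ)) : ℝ :=
  clusterA w₀ i r a b w -
    (∑ c, clusterB w₀ i r c c w)⁻¹ * (∑ c, clusterA w₀ i r c c w) * clusterB w₀ i r a b w

/-- The functional `h ↦ ∫ h x y`. -/
def pairD (x y : L2S) : C(Sph 3, ℝ) →L[ℝ] ℝ :=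
  (innerSL ℝ y).comp ((ContinuousLinearMap.apply ℝ L2S x).comp mulOp)

theorem pairD_apply (x y : L2S) (h : C(Sph 3, ℝ)) : pairD x y h = ⟪mulOp h x, y⟫ := by
  show ⟪y, mulOp h x⟫ = _
  exact real_inner_comm _ _

/-- The derivative of `clusterF` at the exact cluster. -/
def clusterD (w₀ : C(Sph 3, ℝ)) (i r : ℕ) (a b : Fin r) : C(Sph 3, ℝ) →L[ℝ] ℝ :=
  pairD (clusterFun w₀ i a) (clusterFun w₀ i b) -
    ((if a = b then (1 : ℝ) else 0) / r) • ∑ c : Fin r, pairD (clusterFun w₀ i c) (clusterFun w₀ i c)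

/-- Positive weights form an open set. -/
theorem eventually_pos {w₀ : C(Sph 3, ℝ)} (hw : ∀ θ, 0 < w₀ θ) :
    ∀ᶠ w in 𝓝 w₀, ∀ θ, 0 < w θ := by
  obtain ⟨θ₀, -, hθ₀⟩ := isCompact_univ.exists_isMinOn
    ⟨⟨EuclideanSpace.single 0 1, by simp⟩, trivial⟩ w₀.continuous.continuousOn
  filter_upwards [Metric.ball_mem_nhds w₀ (hw θ₀)] with w h θ
  rw [Metric.mem_ball, dist_eq_norm] at h
  have h1 := (abs_le.1 ((w - w₀).norm_coe_le_norm θ)).1
  rw [ContinuousMap.sub_apply] at h1
  linarith [show w₀ θ₀ ≤ w₀ θ from hθ₀ (mem_univ θ)]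

theorem contDiffAt_pencil {w₀ : C(Sph 3, ℝ)} (hw : tot w₀ ≠ 0) :
    ContDiffAt ℝ 1 pencil w₀ := by
  have h1 : ContDiffAt ℝ 1 redMass w₀ :=
    mulOp.contDiff.contDiffAt.sub ((tot.contDiff.contDiffAt.inv hw).smul
      ((outer.contDiff.contDiffAt.comp w₀ wvec.contDiff.contDiffAt).clm_apply
        wvec.contDiff.contDiffAt))
  exact contDiffAt_const.clm_comp (h1.clm_comp contDiffAt_const)

theorem continuousAt_pencil {w₀ : C(Sph 3, ℝ)} (hw : tot w₀ ≠ 0) : ContinuousAt pencil w₀ :=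
  (contDiffAt_pencil hw).continuousAt

/-- The derivative of one matrix entry of the pencil. -/
theorem hasStrictFDerivAt_form {w₀ : C(Sph 3, ℝ)} (hw : tot w₀ ≠ 0) (x y : L2S) :
    HasStrictFDerivAt (fun w => ⟪pencil w x, y⟫) (pairD (lift w₀ x) (lift w₀ y)) w₀ := by
  set lx : L2S → C(Sph 3, ℝ) →L[ℝ] ℝ := fun z => (innerSL ℝ (resolv z)).comp wvec with hlx
  have hlx' : ∀ z w, lx z w = ⟪wvec w, resolv z⟫ := fun z w => by
    show ⟪resolv z, wvec w⟫ = _
    exact real_inner_comm _ _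
  have hfun : (fun w => ⟪pencil w x, y⟫) = fun w =>
      pairD (resolv x) (resolv y) w - (tot w)⁻¹ * lx x w * lx y w := by
    funext w
    rw [pencil, ContinuousLinearMap.comp_apply, ContinuousLinearMap.comp_apply, inner_resolv,
      pairD_apply, redMass, hlx', hlx']
    simp only [sub_apply, smul_apply, outer_apply, inner_sub_left, real_inner_smul_left]
    ring
  have hd := (pairD (resolv x) (resolv y)).hasStrictFDerivAt (x := w₀) |>.sub
    ((((hasStrictDerivAt_inv hw).comp_hasStrictFDerivAt w₀ tot.hasStrictFDerivAt).mul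
      (lx x).hasStrictFDerivAt).mul (lx y).hasStrictFDerivAt)
  rw [hfun]
  refine hd.congr_fderiv (ContinuousLinearMap.ext fun h => ?_)
  have e1 : ⟪mulOp h oneH, oneH⟫ = tot h := by
    rw [mulOp_oneH, real_inner_comm]
    rfl
  have e2 : ∀ z, ⟪mulOp h oneH, z⟫ = ⟪wvec h, z⟫ := fun z => by rw [mulOp_oneH]
  simp only [Function.comp_apply, Pi.mul_apply, sub_apply, add_apply, smul_apply, smul_eq_mul,
    pairD_apply, hlx', lift, map_sub,
    map_smul, inner_sub_left, inner_sub_right, real_inner_smul_left, real_inner_smul_right,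
    mulOp_symm h (resolv x) oneH, e1, e2]
  rw [real_inner_comm (mulOp h oneH) (resolv x), e2]
  field_simp
  ring

/-- A product of two Lipschitz maps vanishing at a point has derivative zero there. -/
theorem hasStrictFDerivAt_inner_zero {X H : Type*} [NormedAddCommGroup X] [NormedSpace ℝ X]
    [NormedAddCommGroup H] [InnerProductSpace ℝ H] {u v : X → H} {x₀ : X} {s : Set X} {K : ℝ}
    (hs : s ∈ 𝓝 x₀) (hu : ∀ x ∈ s, ∀ y ∈ s, ‖u x - u y‖ ≤ K * ‖x - y‖)
    (hv : ∀ x ∈ s, ∀ y ∈ s, ‖v x - v y‖ ≤ K * ‖x - y‖) (hu0 : u x₀ = 0) (hv0 : v x₀ = 0) :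
    HasStrictFDerivAt (fun x => ⟪u x, v x⟫) (0 : X →L[ℝ] ℝ) x₀ := by
  refine HasStrictFDerivAt.of_isLittleO (Asymptotics.IsLittleO.of_bound fun c hc => ?_)
  have hx₀ := mem_of_mem_nhds hs
  have h1 : ∀ᶠ p : X × X in 𝓝 (x₀, x₀), p.1 ∈ s ∧ p.2 ∈ s :=
    ((continuous_fst.tendsto (x₀, x₀)).eventually (p := fun x => x ∈ s) hs).and
      ((continuous_snd.tendsto (x₀, x₀)).eventually (p := fun x => x ∈ s) hs)
  have h2 : ∀ᶠ p : X × X in 𝓝 (x₀, x₀), K ^ 2 * (‖p.1 - x₀‖ + ‖p.2 - x₀‖) < c := by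
    refine (Continuous.tendsto (by fun_prop) (x₀, x₀)).eventually_lt_const ?_
    simpa using hc
  filter_upwards [h1, h2] with p hp hp2
  obtain ⟨hp1, hp1'⟩ := hp
  simp only [zero_apply, sub_zero, Real.norm_eq_abs]
  have e : ⟪u p.1, v p.1⟫ - ⟪u p.2, v p.2⟫ = ⟪u p.1 - u p.2, v p.1⟫ + ⟪u p.2, v p.1 - v p.2⟫ := by
    rw [inner_sub_left, inner_sub_right]; ring
  have hv1 : ‖v p.1‖ ≤ K * ‖p.1 - x₀‖ := by simpa [hv0] using hv _ hp1 _ hx₀
  have hu2 : ‖u p.2‖ ≤ K * ‖p.2 - x₀‖ := by simpa [hu0] using hu _ hp1' _ hx₀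
  rw [e]
  refine (abs_add_le _ _).trans ((add_le_add (abs_real_inner_le_norm _ _)
    (abs_real_inner_le_norm _ _)).trans ?_)
  have a1 := mul_le_mul (hu _ hp1 _ hp1') hv1 (norm_nonneg _)
    ((norm_nonneg _).trans (hu _ hp1 _ hp1'))
  have a2 := mul_le_mul hu2 (hv _ hp1 _ hp1') (norm_nonneg _) ((norm_nonneg _).trans hu2)
  refine (add_le_add a1 a2).trans ?_
  calc K * ‖p.1 - p.2‖ * (K * ‖p.1 - x₀‖) + K * ‖p.2 - x₀‖ * (K * ‖p.1 - p.2‖)
      = K ^ 2 * (‖p.1 - x₀‖ + ‖p.2 - x₀‖) * ‖p.1 - p.2‖ := by ring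
    _ ≤ c * ‖p.1 - p.2‖ := mul_le_mul_of_nonneg_right hp2.le (norm_nonneg _)

/-- The top projection is Lipschitz near a weight with an open gap. -/
theorem exists_topProj_lipschitz_weight {w₀ : C(Sph 3, ℝ)} (hw : ∀ θ, 0 < w₀ θ) {j : ℕ}
    (hg : j = 0 ∨ Gap (pencil w₀) j) :
    ∃ s ∈ 𝓝 w₀, ∃ K : ℝ, 0 ≤ K ∧ ∀ w ∈ s, ∀ w' ∈ s,
      ‖topProj (pencil w) j - topProj (pencil w') j‖ ≤ K * ‖w - w'‖ := by
  rcases hg with rfl | hg
  · exact ⟨univ, univ_mem, 0, le_rfl, fun w _ w' _ => by simp [topProj_zero]⟩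
  obtain ⟨δ, hδ, K, hK, hlip⟩ := exists_topProj_lipschitz hg
  have ht := (tot_pos hw).ne'
  obtain ⟨L, t, ht', hL⟩ := (contDiffAt_pencil ht).exists_lipschitzOnWith
  refine ⟨{w | (∀ θ, 0 < w θ) ∧ ‖pencil w - pencil w₀‖ < δ ∧ w ∈ t}, ?_, K * L, by positivity,
    fun w hw₁ w' hw₂ => ?_⟩
  · refine (eventually_pos hw).and (Eventually.and ?_ ht')
    have := (continuousAt_pencil ht).eventually (Metric.ball_mem_nhds _ hδ)
    simpa [dist_eq_norm] using this
  · refine (hlip _ _ (goodOp_pencil hw₁.1) (goodOp_pencil hw₂.1) hw₁.2.1 hw₂.2.1).trans ?_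
    rw [mul_assoc]
    exact mul_le_mul_of_nonneg_left (hL.norm_sub_le hw₁.2.2 hw₂.2.2) hK

theorem exists_clusterProj_lipschitz {w₀ : C(Sph 3, ℝ)} (hw : ∀ θ, 0 < w₀ θ) {i r : ℕ}
    (hg : OuterGaps w₀ i r) :
    ∃ s ∈ 𝓝 w₀, ∃ K : ℝ, 0 ≤ K ∧ ∀ w ∈ s, ∀ w' ∈ s,
      ‖clusterProj w i r - clusterProj w' i r‖ ≤ K * ‖w - w'‖ := by
  obtain ⟨s, hs, K, hK, h⟩ := exists_topProj_lipschitz_weight hw hg.1
  obtain ⟨s', hs', K', hK', h'⟩ := exists_topProj_lipschitz_weight hw (Or.inr hg.2)
  refine ⟨s ∩ s', inter_mem hs hs', K' + K, by positivity, fun w hw₁ w' hw₂ => ?_⟩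
  rw [clusterProj, clusterProj, sub_sub_sub_comm, add_mul]
  exact (norm_sub_le _ _).trans
    (add_le_add (h' w hw₁.2 w' hw₂.2) (h w hw₁.1 w' hw₂.1))

/-- On an exact cluster the operator is scalar. -/
theorem pencil_clusterProj {w : C(Sph 3, ℝ)} (hw : ∀ θ, 0 < w θ) {i r : ℕ} (he : Exact w i r)
    (x : L2S) : pencil w (clusterProj w i r x) = nu (pencil w) i • clusterProj w i r x := by
  have hT := goodOp_pencil hw
  set T := pencil w
  have key : ∀ a, a ≤ r → ∀ z ∈ topSpace T (i + a), z ∈ (topSpace T i)ᗮ → T z = nu T i • z := by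
    intro a
    induction a with
    | zero =>
      intro _ z hz hz'
      have : z = 0 := inner_self_eq_zero.1 ((Submodule.mem_orthogonal _ _).1 hz' z hz)
      simp [this]
    | succ a ih =>
      intro ha z hz hz'
      obtain ⟨s, hs, t, ht, rfl⟩ := Submodule.mem_sup.1
        (show z ∈ topSpace T (i + a) ⊔ Submodule.span ℝ {nextVec T (topSpace T (i + a))} from hz)
      obtain ⟨c, rfl⟩ := Submodule.mem_span_singleton.1 ht
      have he' : eigvec T (i + a) ∈ (topSpace T i)ᗮ :=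
        Submodule.orthogonal_le (topSpace_mono T (Nat.le_add_right i a)) (hT.eigvec_spec _).2.1
      have hs' : s ∈ (topSpace T i)ᗮ := by
        have := Submodule.sub_mem _ hz' (Submodule.smul_mem _ c he')
        simpa [eigvec] using this
      show T (s + c • eigvec T (i + a)) = nu T i • (s + c • eigvec T (i + a))
      rw [map_add, map_smul, ih (by omega) s hs hs', (hT.eigvec_spec _).2.2.1, he a (by omega),
        smul_add, smul_comm]
  have hle := topSpace_mono T (Nat.le_add_right i r)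
  refine key r le_rfl _ (Submodule.sub_mem _ ((topSpace T (i + r)).starProjection_apply_mem x)
    (hle ((topSpace T i).starProjection_apply_mem x))) ?_
  have h1 : clusterProj w i r x =
      (x - topProj T i x) - (x - topProj T (i + r) x) := by
    simp [clusterProj, T]
  show clusterProj w i r x ∈ _
  rw [h1]
  exact Submodule.sub_mem _ ((topSpace T i).sub_starProjection_mem_orthogonal x)
    (Submodule.orthogonal_le hle ((topSpace T (i + r)).sub_starProjection_mem_orthogonal x))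

theorem clusterProj_clusterVec {w₀ : C(Sph 3, ℝ)} (hw : ∀ θ, 0 < w₀ θ) (i : ℕ) {r : ℕ}
    (a : Fin r) : clusterProj w₀ i r (clusterVec w₀ i a) = clusterVec w₀ i a := by
  have hT := goodOp_pencil hw
  rw [clusterProj, sub_apply, topProj, topProj, clusterVec,
    Submodule.starProjection_eq_self_iff.2 (eigvec_mem _ (by omega : i + (a : ℕ) < i + r)),
    (Submodule.starProjection_apply_eq_zero_iff _).2
      (Submodule.orthogonal_le (topSpace_mono _ (Nat.le_add_right i a)) (hT.eigvec_spec _).2.1)]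
  exact sub_zero _

theorem clusterProj_idem_symm {w : C(Sph 3, ℝ)} (i r : ℕ) (x y : L2S) :
    ⟪clusterProj w i r x, clusterProj w i r y⟫ = ⟪x, clusterProj w i r y⟫ := by
  set T := pencil w
  have hle := topSpace_mono T (Nat.le_add_right i r)
  have hz : clusterProj w i r y ∈ topSpace T (i + r) ∧ clusterProj w i r y ∈ (topSpace T i)ᗮ := by
    refine ⟨Submodule.sub_mem _ ((topSpace T (i + r)).starProjection_apply_mem y)
      (hle ((topSpace T i).starProjection_apply_mem y)), ?_⟩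
    have h1 : clusterProj w i r y = (y - topProj T i y) - (y - topProj T (i + r) y) := by
      simp [clusterProj, T]
    rw [h1]
    exact Submodule.sub_mem _ ((topSpace T i).sub_starProjection_mem_orthogonal y)
      (Submodule.orthogonal_le hle ((topSpace T (i + r)).sub_starProjection_mem_orthogonal y))
  have e : ∀ z, ⟪clusterProj w i r x, z⟫ = ⟪x, clusterProj w i r z⟫ := fun z => by
    simp only [clusterProj, topProj, sub_apply, inner_sub_left, inner_sub_right,
      Submodule.inner_starProjection_left_eq_right]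
  have e2 : clusterProj w i r (clusterProj w i r y) = clusterProj w i r y := by
    generalize clusterProj w i r y = z at hz ⊢
    simp only [clusterProj, topProj, sub_apply]
    rw [Submodule.starProjection_eq_self_iff.2 hz.1,
      (Submodule.starProjection_apply_eq_zero_iff _).2 hz.2, sub_zero]
  rw [e, e2]

variable {w₀ : C(Sph 3, ℝ)} {i r : ℕ}

theorem clusterB_eq (hw : ∀ θ, 0 < w₀ θ) (a b : Fin r) (w : C(Sph 3, ℝ)) :
    clusterB w₀ i r a b w = (if a = b then 1 else 0) -
      ⟪clusterProj w i r (clusterVec w₀ i a) - clusterVec w₀ i a,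
        clusterProj w i r (clusterVec w₀ i b) - clusterVec w₀ i b⟫ := by
  have h : ⟪clusterVec w₀ i a, clusterVec w₀ i b⟫ = if a = b then 1 else 0 := by
    rw [clusterVec, clusterVec, (goodOp_pencil hw).inner_eigvec]
    simp [Fin.val_inj]
  have h2 : ⟪clusterProj w i r (clusterVec w₀ i a), clusterVec w₀ i b⟫ =
      ⟪clusterVec w₀ i a, clusterProj w i r (clusterVec w₀ i b)⟫ := by
    rw [real_inner_comm, ← clusterProj_idem_symm, real_inner_comm, clusterProj_idem_symm]
  simp only [inner_sub_left, inner_sub_right, clusterProj_idem_symm, h2, h, clusterB]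
  ring

theorem hasStrictFDerivAt_clusterB (hw : ∀ θ, 0 < w₀ θ) (hg : OuterGaps w₀ i r) (a b : Fin r) :
    HasStrictFDerivAt (clusterB w₀ i r a b) (0 : C(Sph 3, ℝ) →L[ℝ] ℝ) w₀ := by
  obtain ⟨s, hs, K, hK, hlip⟩ := exists_clusterProj_lipschitz hw hg
  have hx : ∀ c : Fin r, ‖clusterVec w₀ i c‖ = 1 := fun c =>
    ((goodOp_pencil hw).eigvec_spec _).1
  have hu : ∀ c : Fin r, ∀ w ∈ s, ∀ w' ∈ s,
      ‖(clusterProj w i r (clusterVec w₀ i c) - clusterVec w₀ i c) -
        (clusterProj w' i r (clusterVec w₀ i c) - clusterVec w₀ i c)‖ ≤ K * ‖w - w'‖ := by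
    intro c w hw₁ w' hw₂
    rw [sub_sub_sub_cancel_right, ← sub_apply]
    refine ((clusterProj w i r - clusterProj w' i r).le_opNorm _).trans ?_
    rw [hx, mul_one]
    exact hlip w hw₁ w' hw₂
  have h0 := hasStrictFDerivAt_inner_zero hs (hu a) (hu b)
    (by rw [clusterProj_clusterVec hw, sub_self]) (by rw [clusterProj_clusterVec hw, sub_self])
  have h1 := (hasStrictFDerivAt_const ((if a = b then 1 else 0) : ℝ) w₀).sub h0
  rw [sub_zero] at h1
  exact h1.congr_of_eventuallyEq (Eventually.of_forall fun w => (clusterB_eq hw a b w).symm)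

theorem hasStrictFDerivAt_clusterA (hw : ∀ θ, 0 < w₀ θ) (hg : OuterGaps w₀ i r)
    (he : Exact w₀ i r) (a b : Fin r) :
    HasStrictFDerivAt (clusterA w₀ i r a b)
      (pairD (clusterFun w₀ i a) (clusterFun w₀ i b)) w₀ := by
  obtain ⟨s, hs, K, hK, hlip⟩ := exists_clusterProj_lipschitz hw hg
  obtain ⟨L, t, ht, hL⟩ := (contDiffAt_pencil (tot_pos hw).ne').exists_lipschitzOnWith
  set ν := nu (pencil w₀) i
  have hT := goodOp_pencil hw
  have hxa : pencil w₀ (clusterVec w₀ i a) = ν • clusterVec w₀ i a := by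
    rw [clusterVec, (hT.eigvec_spec _).2.2.1, he a a.2]
  have hx : ∀ c : Fin r, ‖clusterVec w₀ i c‖ = 1 := fun c => (hT.eigvec_spec _).1
  have h0 := hasStrictFDerivAt_inner_zero (K := max K L)
    (u := fun w => pencil w (clusterVec w₀ i a) - ν • clusterVec w₀ i a)
    (v := fun w => clusterProj w i r (clusterVec w₀ i b) - clusterVec w₀ i b) (inter_mem hs ht)
    (fun w hw₁ w' hw₂ => by
      rw [sub_sub_sub_cancel_right, ← sub_apply]
      refine ((pencil w - pencil w').le_opNorm _).trans ?_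
      rw [hx, mul_one]
      exact (hL.norm_sub_le hw₁.2 hw₂.2).trans
        (mul_le_mul_of_nonneg_right (le_max_right _ _) (norm_nonneg _)))
    (fun w hw₁ w' hw₂ => by
      rw [sub_sub_sub_cancel_right, ← sub_apply]
      refine ((clusterProj w i r - clusterProj w' i r).le_opNorm _).trans ?_
      rw [hx, mul_one]
      exact (hlip w hw₁.1 w' hw₂.1).trans
        (mul_le_mul_of_nonneg_right (le_max_left _ _) (norm_nonneg _)))
    (by rw [hxa, sub_self]) (by rw [clusterProj_clusterVec hw, sub_self])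
  have hB := (hasStrictFDerivAt_clusterB hw hg a b).const_mul ν
  have hB' := (hB.sub (hasStrictFDerivAt_const (ν * ⟪clusterVec w₀ i a, clusterVec w₀ i b⟫) w₀))
  rw [smul_zero, sub_zero] at hB'
  have h := ((hasStrictFDerivAt_form (tot_pos hw).ne' (clusterVec w₀ i a) (clusterVec w₀ i b)).add
    h0).add hB'
  rw [add_zero, add_zero] at h
  refine h.congr_of_eventuallyEq (Eventually.of_forall fun w => ?_)
  simp only [Pi.add_apply, Pi.sub_apply, clusterA, clusterB, inner_sub_left, inner_sub_right,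
    real_inner_smul_left]
  ring

theorem clusterB_self (hw : ∀ θ, 0 < w₀ θ) (a b : Fin r) :
    clusterB w₀ i r a b w₀ = if a = b then 1 else 0 := by
  rw [clusterB_eq hw, clusterProj_clusterVec hw, sub_self, inner_zero_left, sub_zero]

/-- The strict derivative of `clusterF`. -/
theorem hasStrictFDerivAt_clusterF (hw : ∀ θ, 0 < w₀ θ) (hg : OuterGaps w₀ i r) (hr : 1 ≤ r)
    (he : Exact w₀ i r) (a b : Fin r) :
    HasStrictFDerivAt (clusterF w₀ i r a b) (clusterD w₀ i r a b) w₀ := by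
  have hsB : ∑ c, clusterB w₀ i r c c w₀ = r := by
    simp [clusterB_self hw]
  have hr0 : (r : ℝ) ≠ 0 := by positivity
  have hSB := HasStrictFDerivAt.sum (u := Finset.univ) fun c _ => hasStrictFDerivAt_clusterB hw hg c c
  have hSA := HasStrictFDerivAt.sum (u := Finset.univ) fun c _ =>
    hasStrictFDerivAt_clusterA hw hg he c c
  have hinv := (hasStrictDerivAt_inv (by rw [Finset.sum_apply, hsB]; exact hr0 :
    (∑ c, clusterB w₀ i r c c) w₀ ≠ 0)).comp_hasStrictFDerivAt w₀ hSB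
  have h := (hasStrictFDerivAt_clusterA hw hg he a b).sub
    ((hinv.mul hSA).mul (hasStrictFDerivAt_clusterB hw hg a b))
  refine (h.congr_of_eventuallyEq (Eventually.of_forall fun w => ?_)).congr_fderiv ?_
  · simp [clusterF]
  · refine ContinuousLinearMap.ext fun z => ?_
    simp only [clusterD, sub_apply, add_apply, smul_apply, smul_eq_mul, sum_apply, zero_apply,
      Finset.sum_const_zero, mul_zero, zero_add, add_zero, Function.comp_apply, Finset.sum_apply,
      hsB, clusterB_self hw, if_pos, Pi.mul_apply, Finset.sum_const, Finset.card_univ,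
      Fintype.card_fin, nsmul_eq_mul, mul_one]
    split_ifs <;> field_simp <;> ring

/-- `clusterF` vanishes wherever the cluster is exact. -/
theorem eventually_clusterF_eq_zero (hw : ∀ θ, 0 < w₀ θ) (hg : OuterGaps w₀ i r) (hr : 1 ≤ r) :
    ∀ᶠ w in 𝓝 w₀, Exact w i r → ∀ a b : Fin r, clusterF w₀ i r a b w = 0 := by
  have hsB : ∑ c, clusterB w₀ i r c c w₀ = r := by simp [clusterB_self hw]
  have hc : ContinuousAt (fun w => ∑ c, clusterB w₀ i r c c w) w₀ :=
    tendsto_finsetSum _ fun c _ => (hasStrictFDerivAt_clusterB hw hg c c).continuousAt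
  filter_upwards [eventually_pos hw, hc.eventually_ne (by rw [hsB]; positivity)] with w hwp hne he a b
  have hA : ∀ c d : Fin r, clusterA w₀ i r c d w = nu (pencil w) i * clusterB w₀ i r c d w :=
    fun c d => by
      rw [clusterA, clusterB, (goodOp_pencil hwp).symm, pencil_clusterProj hwp he,
        real_inner_smul_right]
  simp only [clusterF, hA, ← Finset.mul_sum]
  field_simp
  ring

end

end Vale.Agent.P225.Disproof
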