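import Vale.Agent.P225.Disproof.StrataBridge
import Vale.Agent.P225.Disproof.GalerkinPencil
import Vale.Agent.P225.Disproof.PencilCluster

/-!
# P225, module F2: a degree of test shapes that works on a neighbourhood

`qForm` pairs a weight with quadratic combinations of normalised pencil eigenfunctions. If at every
polynomial shape the combinations are independent as functions, then near each of them some fixed
degree of test shapes already separates them.
-/

namespace Vale.Agent.P225.Disproof.Strata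

open MvPolynomial MeasureTheory Set Filter Topology
open scoped RealInnerProductSpace

noncomputable section

/-- The weight of a shape. -/
def wt (D : ℕ) : Gal D →L[ℝ] C(Sph 3, ℝ) :=
  LinearMap.toContinuousLinearMap ((sphAlg 3).toLinearMap.comp Gal.poly)

theorem wt_apply {D : ℕ} (p : Gal D) : wt D p = sphAlg 3 p.poly := rfl

theorem wt_eval {D : ℕ} (p : Gal D) (θ : Sph 3) : wt D p θ = res p.poly θ := sphAlg_apply _ _

/-- Shapes of lower degree are shapes of higher degree. -/
def up {D D' : ℕ} (h : D ≤ D') : Gal D →L[ℝ] Gal D' :=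
  LinearMap.toContinuousLinearMap
    { toFun := fun p => Gal.mk p.poly
        (mem_harmUpTo.2 ⟨(mem_harmUpTo.1 p.mem).1.trans h, (mem_harmUpTo.1 p.mem).2⟩)
      map_add' := fun p q => Gal.ext (by simp [Gal.poly_mk])
      map_smul' := fun r p => Gal.ext (by simp [Gal.poly_mk]) }

theorem wt_up {D D' : ℕ} (h : D ≤ D') (p : Gal D) : wt D' (up h p) = wt D p := rfl

/-- The positive weights. -/
def PosW : Set C(Sph 3, ℝ) := {w | ∀ θ, 0 < w θ}

theorem isOpen_posW : IsOpen PosW := by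
  have h := ContinuousMap.isOpen_setOfPred_mapsTo (X := Sph 3) (Y := ℝ) isCompact_univ
    (U := Ioi (0 : ℝ)) isOpen_Ioi
  simpa [PosW, MapsTo] using h

theorem continuousAt_lift {w : C(Sph 3, ℝ)} (hw : tot w ≠ 0) (x : L2S) :
    ContinuousAt (fun z : C(Sph 3, ℝ) × L2S => lift z.1 z.2) (w, x) := by
  have h1 : Continuous fun z : C(Sph 3, ℝ) × L2S => resolv z.2 :=
    resolv.continuous.comp continuous_snd
  have h2 : ContinuousAt
      (fun z : C(Sph 3, ℝ) × L2S => (tot z.1)⁻¹ * ⟪wvec z.1, resolv z.2⟫) (w, x) :=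
    (((tot.continuous.comp continuous_fst).continuousAt (x := (w, x))).inv₀ hw).mul
      ((wvec.continuous.comp continuous_fst).inner h1).continuousAt
  exact h1.continuousAt.sub (h2.smul (continuousAt_const (y := oneH)))

/-- A normalised eigenfunction. -/
def st (w : C(Sph 3, ℝ)) (i : ℕ) : L2S :=
  (Real.sqrt (nu (pencil w) i))⁻¹ • lift w (eigvec (pencil w) i)

theorem continuous_pairD (h : C(Sph 3, ℝ)) : Continuous fun z : L2S × L2S => pairD z.1 z.2 h :=
  continuous_snd.inner ((mulOp h).continuous.comp continuous_fst)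

theorem pairD_wvec {f g : Space 3 → ℝ} (hf : Continuous f) (hg : Continuous g)
    (h : C(Sph 3, ℝ)) :
    pairD (wvec (sphFun f hf)) (wvec (sphFun g hg)) h =
      ∫ θ : Sph 3, h θ * (f θ * g θ) ∂(sig 3) := by
  rw [pairD_apply, mulOp_wvec, inner_wvec]
  exact integral_congr_ae (Eventually.of_forall fun θ => by simp; ring)

variable {m k : ℕ}

/-- The quadratic combinations of some functions, tested by a weight. -/
def qForm (u : Fin m → L2S) (Q : Fin k → Matrix (Fin m) (Fin m) ℝ) :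
    C(Sph 3, ℝ) →L[ℝ] (Fin k → ℝ) :=
  ContinuousLinearMap.pi fun c => ∑ a, ∑ b, Q c a b • pairD (u a) (u b)

theorem qForm_apply (u : Fin m → L2S) (Q : Fin k → Matrix (Fin m) (Fin m) ℝ) (h : C(Sph 3, ℝ))
    (c : Fin k) : qForm u Q h c = ∑ a, ∑ b, Q c a b * pairD (u a) (u b) h := by
  simp [qForm]

/-- Shapes of degree `D` separate the combinations `Q` of the states `ι`. -/
def Spans (D : ℕ) (w : C(Sph 3, ℝ)) (ι : Fin m → ℕ) (Q : Fin k → Matrix (Fin m) (Fin m) ℝ) :
    Prop :=
  Function.Surjective fun h : Gal D => qForm (fun a => st w (ι a)) Q (wt D h)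

theorem Spans.mono {D D' : ℕ} (hD : D ≤ D') {w : C(Sph 3, ℝ)} {ι : Fin m → ℕ}
    {Q : Fin k → Matrix (Fin m) (Fin m) ℝ} (h : Spans D w ι Q) : Spans D' w ι Q := fun v => by
  obtain ⟨g, hg⟩ := h v
  exact ⟨up hD g, hg⟩

/-- Combinations that live inside the classes of `rel` and are traceless on each of them. -/
def Adm (rel : Fin m → Fin m → Prop) (Q : Fin k → Matrix (Fin m) (Fin m) ℝ) : Prop :=
  ∀ c, (∀ a b, Q c a b ≠ 0 → rel a b) ∧
    ∀ t : Fin m → ℝ, (∀ a b, rel a b → t a = t b) → ∑ a, Q c a a * t a = 0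

/-- The rank property of the limit states: some admissible combinations are independent. -/
def HasRank (rel : Fin m → Fin m → Prop) (k : ℕ) : Prop :=
  ∀ (p : MvPolynomial (Fin 3) ℝ) (lam : Fin m → ℝ) (F : Fin m → Space 3 → ℝ),
    (∀ θ : Sph 3, 0 < res p θ) → (∀ a, 0 < lam a ∧ F a ∈ efun (lam a) p) →
    (∀ a b, rel a b → lam a = lam b) →
    (∀ a b, ∫ θ : Sph 3, res p θ * F a θ * F b θ ∂(sig 3) = if a = b then 1 else 0) →
    ∃ Q : Fin k → Matrix (Fin m) (Fin m) ℝ, Adm rel Q ∧
      LinearIndependent ℝ fun c => fun θ : Sph 3 => ∑ a, ∑ b, Q c a b * (F a θ * F b θ)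

/-- An invertible value table makes a linear map onto. -/
theorem surjective_of_det {V : Type*} [AddCommGroup V] [Module ℝ V] (L : V →ₗ[ℝ] (Fin k → ℝ))
    (g : Fin k → V) (h : (Matrix.of fun c j => L (g j) c).det ≠ 0) : Function.Surjective L := by
  intro v
  set M : Matrix (Fin k) (Fin k) ℝ := Matrix.of fun c j => L (g j) c with hM
  refine ⟨∑ j, M⁻¹.mulVec v j • g j, funext fun c => ?_⟩
  have e : M.mulVec (M⁻¹.mulVec v) = v := by
    rw [Matrix.mulVec_mulVec, Matrix.mul_nonsing_inv _ (isUnit_iff_ne_zero.2 h), Matrix.one_mulVec]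
  conv_rhs => rw [← e]
  simp only [map_sum, map_smul, Finset.sum_apply, Pi.smul_apply, smul_eq_mul, Matrix.mulVec,
    dotProduct]
  exact Finset.sum_congr rfl fun j _ => by simp [hM, mul_comm]

/-- Test shapes for independent combinations, with the limit of their value table. -/
theorem exists_test_shapes {G : Fin m → Space 3 → ℝ} (hGc : ∀ a, Continuous (G a))
    {Q : Fin k → Matrix (Fin m) (Fin m) ℝ}
    (hind : LinearIndependent ℝ fun c => fun θ : Sph 3 => ∑ a, ∑ b, Q c a b * (G a θ * G b θ))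
    {u : ℕ → Fin m → L2S}
    (hut : ∀ a, Tendsto (fun n => u n a) atTop (𝓝 (wvec (sphFun (G a) (hGc a))))) :
    ∃ d, ∃ g : Fin k → Gal d,
      Tendsto (fun n => (Matrix.of fun c j => qForm (u n) Q (wt d (g j)) c).det) atTop (𝓝 1) := by
  have hqc : ∀ c, Continuous fun x : Space 3 => ∑ a, ∑ b, Q c a b * (G a x * G b x) := fun c =>
    continuous_finsetSum _ fun a _ => continuous_finsetSum _ fun b _ =>
      continuous_const.mul ((hGc a).mul (hGc b))
  obtain ⟨q, hq⟩ := exists_dual_polys hqc hind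
  set d := Finset.univ.sup fun j => (q j).totalDegree
  choose g hg using fun j => exists_harm_rep (D := d) (p := q j)
    (Finset.le_sup (f := fun j => (q j).totalDegree) (Finset.mem_univ j))
  refine ⟨d, g, ?_⟩
  set u₀ := fun a => wvec (sphFun (G a) (hGc a))
  have h1 : (Matrix.of fun c j => qForm u₀ Q (wt d (g j)) c) = 1 := by
    refine Matrix.ext fun c j => ?_
    rw [Matrix.of_apply, qForm_apply, Matrix.one_apply, ← hq c j]
    simp only [u₀, pairD_wvec, wt_eval, hg, ← integral_const_mul]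
    have hi : ∀ a b, Integrable
        (fun θ : Sph 3 => Q c a b * (res (q j) θ * (G a θ * G b θ))) (sig 3) := fun a b =>
      integrable_sig (continuous_const.mul ((continuous_res _).mul
        (((hGc a).mul (hGc b)).comp continuous_subtype_val)))
    rw [Finset.sum_congr rfl fun a _ => (integral_finsetSum _ fun b _ => hi a b).symm,
      ← integral_finsetSum _ fun a _ => integrable_finsetSum _ fun b _ => hi a b]
    refine integral_congr_ae (Eventually.of_forall fun θ => ?_)
    simp only [Finset.mul_sum]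
    exact Finset.sum_congr rfl fun a _ => Finset.sum_congr rfl fun b _ => by ring
  have hgoal : Tendsto (fun n => (Matrix.of fun c j => qForm (u n) Q (wt d (g j)) c).det) atTop
      (𝓝 (Matrix.of fun c j => qForm u₀ Q (wt d (g j)) c).det) := by
    refine (continuous_id.matrix_det.tendsto _).comp
      (tendsto_pi_nhds.2 fun c => tendsto_pi_nhds.2 fun j => ?_)
    simp only [Matrix.of_apply, qForm_apply]
    exact tendsto_finsetSum _ fun a _ => tendsto_finsetSum _ fun b _ =>
      (((continuous_pairD _).tendsto (u₀ a, u₀ b)).comp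
        ((hut a).prodMk_nhds (hut b))).const_mul _
  rwa [h1, Matrix.det_one] at hgoal

/-- The mass pairing of two scaled orthonormal eigenvectors. -/
theorem inner_scaled {ι' : Type*} [DecidableEq ι'] {a b : ι'} {w : C(Sph 3, ℝ)} (hw : tot w ≠ 0)
    {ν : ι' → ℝ} {y : ι' → L2S} (hν : 0 < ν a) (hy : pencil w (y a) = ν a • y a)
    (ho : ⟪y a, y b⟫ = if a = b then 1 else 0) :
    ⟪mulOp w ((Real.sqrt (ν a))⁻¹ • lift w (y a)), (Real.sqrt (ν b))⁻¹ • lift w (y b)⟫ =
      if a = b then 1 else 0 := by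
  rw [map_smul, real_inner_smul_left, real_inner_smul_right, ← inner_pencil hw, hy,
    real_inner_smul_left, ho]
  split_ifs with hab
  · subst hab
    rw [mul_one, ← mul_assoc, ← mul_inv, Real.mul_self_sqrt hν.le, inv_mul_cancel₀ hν.ne']
  · ring

/-- Normalised states converge with their eigenvectors. -/
theorem tendsto_st {w : ℕ → C(Sph 3, ℝ)} {w₀ : C(Sph 3, ℝ)} (hwt : Tendsto w atTop (𝓝 w₀))
    (ht₀ : tot w₀ ≠ 0) {i : ℕ} {ν : ℝ} (hν₀ : 0 < ν)
    (hν : Tendsto (fun n => nu (pencil (w n)) i) atTop (𝓝 ν)) {y : L2S}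
    (hy : Tendsto (fun n => eigvec (pencil (w n)) i) atTop (𝓝 y)) :
    Tendsto (fun n => st (w n) i) atTop (𝓝 ((Real.sqrt ν)⁻¹ • lift w₀ y)) := by
  have h1 := (continuousAt_lift ht₀ y).tendsto.comp (hwt.prodMk_nhds hy)
  exact (hν.sqrt.inv₀ (Real.sqrt_pos.2 hν₀).ne').smul h1

/-- A degree that works near a polynomial shape. -/
theorem exists_deg_spans {rel : Fin m → Fin m → Prop} (hrel : HasRank rel k) {ι : Fin m → ℕ}
    (hι : Function.Injective ι) {p₀ : MvPolynomial (Fin 3) ℝ} (hp₀ : ∀ θ : Sph 3, 0 < res p₀ θ) :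
    ∃ D, ∀ᶠ w in 𝓝 (sphAlg 3 p₀),
      (∀ a b, rel a b → nu (pencil w) (ι a) = nu (pencil w) (ι b)) →
        ∃ Q, Adm rel Q ∧ Spans (k := k) D w ι Q := by
  by_contra hcon
  push Not at hcon
  set w₀ := sphAlg 3 p₀
  have hw₀ : w₀ ∈ PosW := fun θ => by rw [sphAlg_apply]; exact hp₀ θ
  have hev : ∀ n : ℕ, ∀ᶠ w in 𝓝 w₀, w ∈ PosW ∧ dist w w₀ < 1 / (n + 1) := fun n =>
    Filter.inter_mem (isOpen_posW.mem_nhds hw₀) (Metric.ball_mem_nhds _ (by positivity))
  choose w hw hwd using fun n => ((hcon n).and_eventually (hev n)).exists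
  have hwt : Tendsto w atTop (𝓝 w₀) := tendsto_iff_dist_tendsto_zero.2
    (squeeze_zero (fun n => dist_nonneg) (fun n => (hwd n).2.le)
      tendsto_one_div_add_atTop_nhds_zero_nat)
  have ht₀ : tot w₀ ≠ 0 := (tot_pos hw₀).ne'
  have hG₀ := goodOp_pencil hw₀
  have hG : ∀ n, GoodOp (pencil (w n)) := fun n => goodOp_pencil (hwd n).1
  have hT : Tendsto (fun n => pencil (w n)) atTop (𝓝 (pencil w₀)) :=
    (continuousAt_pencil ht₀).tendsto.comp hwt
  have hν : ∀ a, Tendsto (fun n => nu (pencil (w n)) (ι a)) atTop (𝓝 (nu (pencil w₀) (ι a))) :=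
    fun a => ((continuous_nu (ι a)).tendsto _).comp hT
  set ν₀ := fun a => nu (pencil w₀) (ι a)
  have hν₀ : ∀ a, 0 < ν₀ a := fun a => hG₀.nu_pos _
  obtain ⟨φ, hφ, y, hy, hye⟩ := exists_subseq_eigen hG₀.compact hT
    (x := fun n a => eigvec (pencil (w n)) (ι a)) (fun n a => ((hG n).eigvec_spec _).1)
    (fun n a => ((hG n).eigvec_spec _).2.2.1) hν fun a => (hν₀ a).ne'
  have hφt := hφ.tendsto_atTop
  have horth : ∀ a b, ⟪y a, y b⟫ = if a = b then 1 else 0 := fun a b =>
    tendsto_nhds_unique ((hy a).inner (hy b)) (by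
      simp only [(hG _).inner_eigvec, hι.eq_iff]
      exact tendsto_const_nhds)
  choose F hF hFc hFv using fun a => exists_efun_of_eigen hp₀ (hν₀ a) (hye a)
  set G : Fin m → Space 3 → ℝ := fun a => (Real.sqrt (ν₀ a))⁻¹ • F a
  have hGc : ∀ a, Continuous (G a) := fun a => (hFc a).const_smul (Real.sqrt (ν₀ a))⁻¹
  set u₀ := fun a => wvec (sphFun (G a) (hGc a))
  have hu₀ : ∀ a, u₀ a = (Real.sqrt (ν₀ a))⁻¹ • lift w₀ (y a) := fun a => by
    rw [hFv, ← map_smul]
    rfl
  have hpair : ∀ (h : C(Sph 3, ℝ)) a b,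
      pairD (u₀ a) (u₀ b) h = ∫ θ : Sph 3, h θ * (G a θ * G b θ) ∂(sig 3) := fun h a b =>
    pairD_wvec _ _ h
  have hnorm : ∀ a b, ∫ θ : Sph 3, res p₀ θ * G a θ * G b θ ∂(sig 3) =
      if a = b then 1 else 0 := fun a b => by
    have h1 : ∫ θ : Sph 3, res p₀ θ * G a θ * G b θ ∂(sig 3) = pairD (u₀ a) (u₀ b) w₀ := by
      rw [hpair]
      exact integral_congr_ae (Eventually.of_forall fun θ => by
        simp [w₀, sphAlg_apply, res, mul_assoc])
    rw [h1, pairD_apply, hu₀, hu₀]
    exact inner_scaled ht₀ (hν₀ a) (hye a) (horth a b)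
  obtain ⟨Q, hQ, hind⟩ := hrel p₀ (fun a => (ν₀ a)⁻¹) G hp₀
    (fun a => ⟨inv_pos.2 (hν₀ a), Submodule.smul_mem _ _ (hF a)⟩)
    (fun a b hab => congrArg _ (tendsto_nhds_unique (hν a) ((hν b).congr fun n =>
      ((hw n).1 a b hab).symm))) hnorm
  have hut : ∀ a, Tendsto (fun n => st (w (φ n)) (ι a)) atTop (𝓝 (u₀ a)) := fun a => by
    rw [hu₀]
    exact tendsto_st (hwt.comp hφt) ht₀ (hν₀ a) ((hν a).comp hφt) (hy a)
  obtain ⟨d, g, hlim⟩ := exists_test_shapes hGc hind (u := fun n a => st (w (φ n)) (ι a)) hut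
  obtain ⟨n, hn, hdn⟩ := ((hlim.eventually_ne one_ne_zero).and
    (hφt.eventually_ge_atTop d)).exists
  refine (hw (φ n)).2 Q hQ (Spans.mono hdn ?_)
  exact surjective_of_det ((qForm (fun a => st (w (φ n)) (ι a)) Q).toLinearMap.comp (wt d).toLinearMap) g hn

end

end Vale.Agent.P225.Disproof.Strata
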