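import Vale.Agent.P225.Disproof.WeightsWgt
import Vale.Agent.P225.Disproof.CtrlFam
import Vale.Agent.P225.Disproof.StrataUniform

/-!
# P225: the trace family of a control with a profile

The weights `massC`, `nuC` of a control and a profile give a `TraceFam` for the shape weight
`(18 / 25) • wt D`, and for a long time scale the rates fit any margin.
-/

namespace Vale.Agent.P225.Disproof

open Set Filter Topology Met3 Strata
open scoped RealInnerProductSpace

noncomputable section

/-- The rates fit any positive margin once the time scale is long. -/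
theorem exists_rate {X : Type*} [NormedAddCommGroup X] [NormedSpace ℝ X] (B K top Clev : ℝ)
    {δ : ℝ} (hδ : 0 < δ) : ∃ τs : ℝ, ∀ C : Ctrl X, PathBd C.loops C.one C.p0 B →
    τs ≤ C.sch.tau0 → ∀ s : ℕ → ℝ, (∀ n, s n ∈ Icc (0 : ℝ) 1) → ∀ t,
      K / C.sch.tau0 * (2 * top + 2) + Clev * ‖deriv (C.rho s) t‖ ≤ δ ∧ K / C.sch.tau0 ≤ δ := by
  refine ⟨(|K * (2 * top + 2)| + |K| + |Clev| * |pathK B|) / δ, fun C hB hτ s hs t => ?_⟩
  have h0 := C.sch.htau0
  obtain ⟨τ, hτ0, r1, -, -⟩ := Ctrl.rho_rates_deriv hB hs t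
  have hr : ‖deriv (C.rho s) t‖ ≤ |pathK B| / C.sch.tau0 :=
    r1.trans ((div_le_div_of_nonneg_right (le_abs_self _) (h0.le.trans hτ0)).trans
      (div_le_div_of_nonneg_left (abs_nonneg _) h0 hτ0))
  have h1 := (mul_le_mul_of_nonneg_right (le_abs_self Clev) (norm_nonneg (deriv (C.rho s) t))).trans
    (mul_le_mul_of_nonneg_left hr (abs_nonneg Clev))
  have h2 : (|K * (2 * top + 2)| + |K| + |Clev| * |pathK B|) / C.sch.tau0 ≤ δ := by
    rw [div_le_iff₀ h0]
    rw [div_le_iff₀ hδ] at hτ
    linarith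
  have h3 : K / C.sch.tau0 * (2 * top + 2) ≤ |K * (2 * top + 2)| / C.sch.tau0 := by
    rw [div_mul_eq_mul_div]
    exact div_le_div_of_nonneg_right (le_abs_self _) h0.le
  have h4 : K / C.sch.tau0 ≤ |K| / C.sch.tau0 := div_le_div_of_nonneg_right (le_abs_self _) h0.le
  have h5 : 0 ≤ |K| / C.sch.tau0 := div_nonneg (abs_nonneg _) h0.le
  have h6 : 0 ≤ |Clev| * (|pathK B| / C.sch.tau0) :=
    mul_nonneg (abs_nonneg _) (div_nonneg (abs_nonneg _) h0.le)
  have h7 : 0 ≤ |K * (2 * top + 2)| / C.sch.tau0 := div_nonneg (abs_nonneg _) h0.le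
  rw [add_div, add_div, mul_div_assoc] at h2
  constructor <;> linarith

variable {D : ℕ}

/-- The weights of a control depend continuously on parameters and time. -/
theorem continuous_weights {C : Ctrl (Gal D)} {a : ℝ → ℝ} (ha : ContDiff ℝ (⊤ : ℕ∞) a)
    (hν : ∀ (s : paramCube) t (θ : Sph 3), 1 / 2 ≤ nuF a (C.rho s) t (θ : Space 3)) :
    (Continuous fun p : paramCube × ℝ => massC a (C.rho p.1) p.2) ∧
      (Continuous fun p : paramCube × ℝ => nuC a (C.rho p.1) p.2) ∧
      Continuous fun p : paramCube × ℝ => massCD a (C.rho p.1) p.2 := by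
  have hin : Continuous fun p : paramCube × ℝ => ((p.1 : ℕ → ℝ), p.2) :=
    (continuous_subtype_val.comp continuous_fst).prodMk continuous_snd
  have h0 := (C.continuous_iteratedDeriv_rho 0).comp hin
  have h1 := (C.continuous_iteratedDeriv_rho 1).comp hin
  have h2 := (C.continuous_iteratedDeriv_rho 2).comp hin
  have e : ∀ r, iteratedDeriv 2 (C.rho r) = deriv (deriv (C.rho r)) := fun r => by
    rw [iteratedDeriv_succ, iteratedDeriv_one]
  simp only [Function.comp_def, iteratedDeriv_zero, iteratedDeriv_one, e] at h0 h1 h2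
  have ha0 : Continuous fun p : paramCube × ℝ => a p.2 := ha.continuous.comp continuous_snd
  have ha1 : Continuous fun p : paramCube × ℝ => deriv a p.2 :=
    (contDiff_infty_iff_deriv.1 ha).2.continuous.comp continuous_snd
  have hom : Continuous fun p : paramCube × ℝ => omC a (C.rho p.1) p.2 :=
    (ha0.pow 2).neg.smul ((Linv D).continuous.comp h1)
  have homD : Continuous fun p : paramCube × ℝ => omD a (C.rho p.1) p.2 :=
    (((continuous_const.mul ha0).mul ha1).neg.smul ((Linv D).continuous.comp h1)).add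
      ((ha0.pow 2).neg.smul ((Linv D).continuous.comp h2))
  have hnu : Continuous fun p : paramCube × ℝ => nuC a (C.rho p.1) p.2 :=
    continuous_const.add ((sphFn D).continuous.comp hom)
  have hinv : Continuous fun p : paramCube × ℝ => Ring.inverse (nuC a (C.rho p.1) p.2) := by
    refine continuous_iff_continuousAt.2 fun p => ?_
    have hu : IsUnit (nuC a (C.rho p.1) p.2) :=
      (ContinuousMap.isUnit_iff_forall_ne_zero _).2 fun θ => by
        rw [nuC_apply]
        linarith [hν p.1 p.2 θ]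
    exact (hasFDerivAt_ringInverse (𝕜 := ℝ) hu.unit).continuousAt.comp_of_eq hnu.continuousAt
      hu.unit_spec.symm
  have hS0 := (sphFn D).continuous.comp h0
  exact ⟨(ha0.pow 2).smul (hS0.mul hinv), hnu,
    (((continuous_const.mul ha0).mul ha1).smul (hS0.mul hinv)).add ((ha0.pow 2).smul
      ((((sphFn D).continuous.comp h1).mul hinv).sub (hS0.mul
        ((hinv.mul ((sphFn D).continuous.comp homD)).mul hinv))))⟩

/-- The weights at a time are read off the germ of the shape. -/
theorem weights_local {p p' : ℝ → Gal D} {t : ℝ} (h : p =ᶠ[𝓝 t] p') (a : ℝ → ℝ) :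
    massC a p t = massC a p' t ∧ nuC a p t = nuC a p' t ∧ massCD a p t = massCD a p' t := by
  simp only [massC, nuC, massCD, nuCD, omC, omD, h.eq_of_nhds, h.deriv.eq_of_nhds,
    h.deriv.deriv.eq_of_nhds, and_self]

/-- After `tau0` the weights are close to `1` and to `18 / 25` of the shape. -/
theorem weights_close {a r o δ : ℝ} (ha : 18 / 25 ≤ a) (ha' : a ≤ 18 / 25 + δ / 20)
    (ho : |o| ≤ δ / 20) (hn : 1 / 2 ≤ 1 + o) (hr : 0 ≤ r) :
    |a * r / (1 + o) - 18 / 25 * r| ≤ δ / 4 * (18 / 25 * r) := by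
  have ho' := abs_le.1 ho
  have hn0 : 0 < 1 + o := by linarith
  rw [show a * r / (1 + o) - 18 / 25 * r = (a - 18 / 25 - 18 / 25 * o) / (1 + o) * r by
    field_simp; ring, abs_mul, abs_of_nonneg hr, ← mul_assoc]
  refine mul_le_mul_of_nonneg_right ?_ hr
  rw [abs_div, abs_of_pos hn0, div_le_iff₀ hn0]
  rw [abs_le]
  constructor <;> nlinarith

/-- The trace family of a control with a profile. -/
theorem exists_traceFam (D : ℕ) (B A E c0 : ℝ) : ∃ K : ℝ, 1 ≤ K ∧ ∀ δ : ℝ, 0 < δ →
    ∃ τs : ℝ, K ≤ τs ∧ ∀ C : Ctrl (Gal D),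
    PathBd C.loops C.one C.p0 B → ShapeOK C.loops C.one C.p0 c0 → τs ≤ C.sch.tau0 →
    ∀ (Kp eps : ℝ) (a : ℝ → ℝ), IsProfile Kp eps A E C.sch.tau0 a → eps ≤ δ / 20 →
    ∀ (N : ℕ) (H : ℝ), C.sch.t1 < H →
      ∃ F : TraceFam ((18 / 25 : ℝ) • wt D) C N 0 H (K / C.sch.tau0) δ,
        (F.nu = fun (s : paramCube) t => massC a (C.rho s) t) ∧
        (F.om = fun (s : paramCube) t => nuC a (C.rho s) t) ∧
        (F.nuD = fun (s : paramCube) t => massCD a (C.rho s) t) ∧
        (∀ (s : paramCube) t, F.nu s t = sphC (massF a (C.rho s) t) ∧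
          F.om s t = sphC (nuF a (C.rho s) t) ∧ F.nuD s t = sphC (dtW (massF a (C.rho s)) t)) ∧
        (∀ (s : paramCube) t (θ : Sph 3), 1 / 2 ≤ nuF a (C.rho s) t (θ : Space 3) ∧
          nuF a (C.rho s) t (θ : Space 3) ≤ 3 / 2) ∧
        ∀ (s : paramCube), ∀ t ≤ 0, F.nu s t = 1 ∧ F.om s t = 1 := by
  obtain ⟨K, hK1, hK⟩ := Ctrl.exists_weight_rates D B (max A E) c0
  refine ⟨K, hK1, fun δ hδ => ⟨max K (20 * abs (boundK D * |pathK B|) / δ),
    le_max_left _ _, ?_⟩⟩
  intro C hB hC hτ Kp eps a ha heps N H hH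
  have htau := C.sch.htau0
  have hKτ : K ≤ C.sch.tau0 := (le_max_left _ _).trans hτ
  have hpr := Ctrl.profileRate_of_isProfile ha
  have hrate := hK C hB hC hKτ a hpr
  have hν : ∀ (s : paramCube) t (θ : Sph 3), 1 / 2 ≤ nuF a (C.rho s) t (θ : Space 3) :=
    fun s t θ => (hrate s s.2 t θ).1.1
  have hamin : (0 : ℝ) < √(18 / 25) := Real.sqrt_pos.2 (by norm_num)
  choose P hP using fun s : paramCube => Ctrl.exists_trace_data (C := C) hC hpr s.2
    (zero_le_one.trans hK1) hKτ (fun t θ => ⟨(hrate s s.2 t θ).1, (hrate s s.2 t θ).2.1⟩) N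
    (le_refl (0 : ℝ)) (C.ht1_nonneg.trans hH.le) hamin ha.lower
  obtain ⟨hc1, hc2, hc3⟩ := continuous_weights (C := C) ha.smooth hν
  have hclose : ∀ (s : paramCube) (t : ℝ), C.sch.t1 ≤ t → ∀ θ,
      |nuC a (C.rho s) t θ - 1| ≤ δ / 4 ∧
      |massC a (C.rho s) t θ - ((18 / 25 : ℝ) • wt D) (C.rho s t) θ| ≤
        δ / 4 * ((18 / 25 : ℝ) • wt D) (C.rho s t) θ := by
    intro s t ht θ
    have ht0 : C.sch.tau0 ≤ t := le_trans (by linarith [C.ht1, htau]) ht
    have ha0 : 0 ≤ a t := hamin.le.trans (ha.lower t)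
    obtain ⟨τ, hτ0, r1, r2, -⟩ := Ctrl.rho_rates_deriv hB s.2 t
    have hr1 : ‖deriv (C.rho s) t‖ ≤ |pathK B| / C.sch.tau0 :=
      r1.trans ((div_le_div_of_nonneg_right (le_abs_self _) (htau.le.trans hτ0)).trans
        (div_le_div_of_nonneg_left (abs_nonneg _) htau hτ0))
    have hw := (weight_bounds ha0 (ha.le_one t) (le_refl |deriv a t|) hr1 r2 θ).1.2.2.1
    have ho : |omF a (C.rho s) t (θ : Space 3)| ≤ δ / 20 := by
      refine hw.trans ?_
      rw [← mul_div_assoc, div_le_iff₀ htau]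
      have h := (le_max_right _ _).trans hτ
      rw [div_le_iff₀ hδ] at h
      linarith [le_abs_self (boundK D * |pathK B|)]
    have hn := hν s t θ
    refine ⟨?_, ?_⟩
    · rw [nuC_apply, nuF, add_sub_cancel_left]
      linarith
    · rw [(massC_apply (hν s t) θ).1, massF, safeInv_eq hn, ← div_eq_mul_inv, gfn_sph,
        smul_apply, ContinuousMap.smul_apply, wt_eval, smul_eq_mul, nuF]
      rw [nuF] at hn
      refine weights_close ?_ ((ha.sq_late t ht0).trans (by linarith)) ho hn
        (hC.c0_pos.le.trans (Ctrl.rho_pos hC s.2 t θ))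
      have h1 := pow_le_pow_left₀ hamin.le (ha.lower t) 2
      rwa [Real.sq_sqrt (by norm_num)] at h1
  refine ⟨{ P := P
            nu := fun s t => massC a (C.rho s) t
            om := fun s t => nuC a (C.rho s) t
            nuD := fun s t => massCD a (C.rho s) t
            eqK := fun s => (hP s).1
            eqG := fun s => (hP s).2.1
            eqG' := fun s => (hP s).2.2.1
            start := fun s => (hP s).2.2.2
            le_t1 := C.ht1_nonneg
            lt_H := hH
            cont_nu := hc1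
            cont_om := hc2
            cont_nuD := hc3
            locality := fun s s' t h => weights_local h a
            close := hclose }, rfl, rfl, rfl, fun s t => ?_, fun s t θ => (hrate s s.2 t θ).1,
      fun s t ht => ?_⟩
  · obtain ⟨e1, e2, e3⟩ := C.sphC_weights ha.smooth s (hν s) t
    exact ⟨e1.symm, e2.symm, e3.symm⟩
  exact weights_eq_one (Ctrl.rho_deriv_early _ (lt_of_le_of_lt ht htau))
    (fun θ => by rw [C.rho_early _ (ht.trans htau.le)]; exact hC.one_eq θ) (ha.one_of_nonpos t ht)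

end

end Vale.Agent.P225.Disproof
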