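import Vale.Agent.P225.Disproof.Control

/-!
# P225: checkpoints of a half block, and dependence of the shape on the past

Checkpoint `k ≤ P` of half block `h` is the start of slot `k` (`k = P`: the start of the rest),
checkpoint `P + 1` is the end of the half block.
-/

namespace Vale.Agent.P225.Disproof

open Set Filter Topology

noncomputable section

namespace Sched

variable (C : Sched)

/-- The checkpoints of half block `h`. -/
def ck (h k : ℕ) : ℝ := if k ≤ C.P then C.hstart h + (k : ℝ) * C.tau h else C.hstart (h + 1)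

theorem ck_zero (h : ℕ) : C.ck h 0 = C.hstart h := by simp [ck]

theorem ck_last (h : ℕ) : C.ck h (C.P + 1) = C.hstart (h + 1) := by simp [ck]

theorem ck_mid {h k : ℕ} (hk : k ≤ C.P) : C.ck h k = C.hstart h + (k : ℝ) * C.tau h := if_pos hk

theorem slotStart_eq {h k : ℕ} (hk : k < C.P) :
    C.slotStart (h * C.P + k) = C.ck h k ∧ C.slotLen (h * C.P + k) = C.tau h := by
  have hd : (h * C.P + k) / C.P = h := by
    rw [add_comm, Nat.add_mul_div_right _ _ C.hP, Nat.div_eq_of_lt hk, zero_add]
  have hm : (h * C.P + k) % C.P = k := by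
    rw [add_comm, Nat.add_mul_mod_self_right, Nat.mod_eq_of_lt hk]
  simp [slotStart, slotLen, hd, hm, C.ck_mid hk.le]

theorem ck_succ {h k : ℕ} (hk : k < C.P) : C.ck h (k + 1) = C.ck h k + C.tau h := by
  rw [C.ck_mid hk, C.ck_mid hk.le]
  push_cast
  ring

theorem ck_rest (h : ℕ) : C.ck h (C.P + 1) = C.ck h C.P + C.kap * C.P * C.tau h := by
  rw [C.ck_last, C.ck_mid le_rfl, C.hstart_succ, halfLen]
  ring

theorem ck_step {h k : ℕ} (hk : k ≤ C.P) : C.ck h k ≤ C.ck h (k + 1) := by
  rcases hk.eq_or_lt with rfl | hlt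
  · have : 0 ≤ C.kap * C.P * C.tau h :=
      mul_nonneg (mul_nonneg C.hkap (by positivity)) (C.tau_pos h).le
    linarith [C.ck_rest h]
  · linarith [C.ck_succ (h := h) hlt, C.tau_pos h]

theorem ck_mem {h k : ℕ} (hk : k ≤ C.P + 1) :
    C.ck h k ∈ Icc (C.hstart h) (C.hstart (h + 1)) := by
  rcases le_or_gt k C.P with h1 | h1
  · rw [C.ck_mid h1]
    have h2 : (k : ℝ) * C.tau h ≤ C.P * C.tau h :=
      mul_le_mul_of_nonneg_right (by exact_mod_cast h1) (C.tau_pos h).le
    constructor
    · linarith [mul_nonneg (Nat.cast_nonneg k) (C.tau_pos h).le]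
    · linarith [C.tau_le_halfLen h, C.hstart_succ h]
  · rw [show k = C.P + 1 by omega, C.ck_last]
    exact ⟨C.hstart_mono (Nat.le_succ h), le_rfl⟩

theorem hstart_eq_slotStart (h : ℕ) : C.hstart h = C.slotStart (h * C.P) := by
  have := (C.slotStart_eq (h := h) C.hP).1
  rw [add_zero, C.ck_zero] at this
  exact this.symm

end Sched

variable {X : Type*} [NormedAddCommGroup X] [NormedSpace ℝ X]

namespace Ctrl

variable (C : Ctrl X)

/-- The shape up to the start of slot `N`, with its germ, depends only on the earlier slots. -/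
theorem rho_congr {s s' : ℕ → ℝ} {N : ℕ} (hs : ∀ n < N, s n = s' n) {t : ℝ}
    (ht : t ≤ C.sch.slotStart N) : C.rho s =ᶠ[𝓝 t] C.rho s' := by
  have hlt : t < C.sch.slotStart N + C.sch.slotLen N / 4 := by
    have : 0 < C.sch.slotLen N := C.sch.tau_pos _
    linarith
  refine Filter.eventuallyEq_of_mem (Iio_mem_nhds hlt) fun x hx => ?_
  have e : (C.sch.slots C.loops s).total x = (C.sch.slots C.loops s').total x := by
    refine tsum_congr fun n => ?_
    by_cases hn : n < N
    · simp [Sched.slots, hs n hn]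
    · have hout : x ∉ Icc (C.sch.slotStart n + C.sch.slotLen n / 4)
          (C.sch.slotStart n + C.sch.slotLen n / 2) := fun hm => by
        rcases (not_lt.1 hn).eq_or_lt with rfl | hlt2
        · linarith [hm.1, show x < _ from hx]
        · have h1 : C.sch.slotStart N + C.sch.slotLen N ≤ C.sch.slotStart n :=
            (C.sch.slots C.loops s).start_add_le hlt2
          linarith [hm.1, show x < _ from hx, show 0 < C.sch.slotLen N from C.sch.tau_pos _,
            show 0 < C.sch.slotLen n from C.sch.tau_pos _]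
      exact ((C.sch.slots C.loops s).supp n x hout).trans
        ((C.sch.slots C.loops s').supp n x hout).symm
  show C.one + _ + _ = C.one + _ + _
  rw [e]

/-- Between two checkpoints only the slot of the first one acts. -/
theorem rho_ck (s : ℕ → ℝ) {h k : ℕ} (hk : k < C.sch.P) {t : ℝ}
    (ht : t ∈ Icc (C.sch.ck h k) (C.sch.ck h (k + 1))) :
    C.rho s t = C.p0 + C.loops.path ⟨k, hk⟩ (s (h * C.sch.P + k))
      ((t - C.sch.ck h k) / C.sch.tau h) := by
  obtain ⟨e1, e2⟩ := C.sch.slotStart_eq (h := h) hk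
  have hτ := C.sch.tau_pos h
  have h1 : C.sch.t1 ≤ C.sch.hstart h := by
    simpa [Sched.hstart] using C.sch.hstart_mono (Nat.zero_le h)
  have hge : 2 * C.sch.tau0 ≤ t :=
    C.ht1.trans (h1.trans ((C.sch.ck_mem (by omega)).1.trans ht.1))
  rw [C.rho_eq_shape s hge]
  have hs := C.sch.ck_succ (h := h) hk
  rcases eq_or_lt_of_le ht.1 with h0 | h0
  · rw [← h0, sub_self, zero_div, C.loops.supp _ _ _ (by simp), add_zero, Sched.shape,
      (C.sch.slots C.loops s).total_eq_zero fun n hn => ?_, add_zero]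
    rcases lt_or_ge n (h * C.sch.P + k) with hn' | hn'
    · have h3 : C.sch.slotStart n + C.sch.slotLen n ≤ C.sch.slotStart (h * C.sch.P + k) :=
        (C.sch.slots C.loops s).start_add_le hn'
      have hpos : 0 < C.sch.slotLen n := C.sch.tau_pos _
      have h4 : C.sch.ck h k ≤ C.sch.slotStart n + C.sch.slotLen n / 2 := hn.2
      linarith
    · have h3 := (C.sch.slots C.loops s).start_strictMono.monotone hn'
      have hpos : 0 < C.sch.slotLen n := C.sch.tau_pos _
      have h4 : C.sch.slotStart n + C.sch.slotLen n / 4 ≤ C.sch.ck h k := hn.1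
      have h5 : C.sch.slotStart (h * C.sch.P + k) ≤ C.sch.slotStart n := h3
      linarith
  rcases eq_or_lt_of_le ht.2 with hl | hl
  · rw [hl, hs, add_sub_cancel_left, div_self hτ.ne', C.loops.supp _ _ _ (by norm_num), add_zero,
      Sched.shape, (C.sch.slots C.loops s).total_eq_zero fun n hn => ?_, add_zero]
    have h4 : C.sch.slotStart n + C.sch.slotLen n / 4 ≤ C.sch.ck h k + C.sch.tau h := hn.1
    have h5 : C.sch.ck h k + C.sch.tau h ≤ C.sch.slotStart n + C.sch.slotLen n / 2 := hn.2
    have hpos : 0 < C.sch.slotLen n := C.sch.tau_pos _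
    rcases lt_trichotomy n (h * C.sch.P + k) with hn' | rfl | hn'
    · have h3 : C.sch.slotStart n + C.sch.slotLen n ≤ C.sch.slotStart (h * C.sch.P + k) :=
        (C.sch.slots C.loops s).start_add_le hn'
      linarith
    · linarith
    · have h3 : C.sch.slotStart (h * C.sch.P + k) + C.sch.slotLen (h * C.sch.P + k) ≤
          C.sch.slotStart n := (C.sch.slots C.loops s).start_add_le hn'
      linarith
  have hin : t ∈ Ioo (C.sch.slotStart (h * C.sch.P + k))
      (C.sch.slotStart (h * C.sch.P + k) + C.sch.slotLen (h * C.sch.P + k)) := by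
    rw [e1, e2]; exact ⟨h0, by linarith⟩
  rw [C.sch.shape_slot C.loops C.p0 s _ hin, e1, e2]
  have hm : (h * C.sch.P + k) % C.sch.P = k := by
    rw [add_comm, Nat.add_mul_mod_self_right, Nat.mod_eq_of_lt hk]
  simp only [hm]

/-- The rest of a half block. -/
theorem rho_rest (s : ℕ → ℝ) (h : ℕ) {t : ℝ}
    (ht : t ∈ Icc (C.sch.ck h C.sch.P) (C.sch.ck h (C.sch.P + 1))) : C.rho s t = C.p0 := by
  have h1 : C.sch.t1 ≤ C.sch.hstart h := by
    simpa [Sched.hstart] using C.sch.hstart_mono (Nat.zero_le h)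
  rw [C.rho_eq_shape s (C.ht1.trans (h1.trans ((C.sch.ck_mem (Nat.le_succ _)).1.trans ht.1))),
    C.sch.shape_rest C.loops C.p0 s h]
  rw [C.sch.ck_mid le_rfl, C.sch.ck_last] at ht
  exact ht

end Ctrl

end

end Vale.Agent.P225.Disproof
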