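import Vale.Agent.P225.Disproof.DualFlow

/-!
# P225: an open gap of the trace map is open for the dual system; the slow plane of solutions
-/

namespace Vale.Agent.P225.Disproof

open Set Filter Topology
open scoped RealInnerProductSpace

noncomputable section

variable {V : Type*} [NormedAddCommGroup V] [InnerProductSpace ℝ V] [FiniteDimensional ℝ V]
  {E : Type*} [NormedAddCommGroup E] [InnerProductSpace ℝ E] [FiniteDimensional ℝ E]

/-- A subspace contains one of every smaller dimension. -/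
theorem exists_le_finrank_eq {W : Submodule ℝ E} {k : ℕ} (hk : k ≤ Module.finrank ℝ W) :
    ∃ H : Submodule ℝ E, H ≤ W ∧ Module.finrank ℝ H = k := by
  set v : Fin k → E := fun i => ((Module.finBasis ℝ W) (Fin.castLE hk i) : E)
  have hv : LinearIndependent ℝ v :=
    ((Module.finBasis ℝ W).linearIndependent.map' W.subtype W.ker_subtype).comp _
      (Fin.castLE_injective hk)
  refine ⟨Submodule.span ℝ (Set.range v), Submodule.span_le.2 ?_, ?_⟩
  · rintro _ ⟨i, rfl⟩
    exact Subtype.prop _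
  · rw [finrank_span_eq_card hv, Fintype.card_fin]

namespace TraceData

variable {a b ε : ℝ} {P : TraceData V a b ε}

/-- The constant in the separation of the low solutions from the orthogonal of the orbits. -/
def sepConst (d top ε : ℝ) : ℝ :=
  (1 - Real.exp (-(d - ε))) * Real.exp (-(2 * top + 2 * ε) / 2)

theorem sepConst_pos {d top ε : ℝ} (h : ε < d) : 0 < sepConst d top ε :=
  mul_pos (sub_pos.2 (Real.exp_lt_one_iff.2 (by linarith))) (Real.exp_pos _)

/-- Solutions with prescribed value at the right end, linearly. -/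
theorem exists_solMap (P : TraceData V a b ε) {s₁ s₂ : ℝ} (h₁ : a ≤ s₁) (h₂ : s₂ ≤ b)
    (h : s₁ ≤ s₂) :
    ∃ R : ℝ → V →L[ℝ] V, R s₂ = 1 ∧ ∀ v, P.IsSol s₁ s₂ fun t => R t v := by
  have hsub : Icc s₁ s₂ ⊆ Icc a b := Icc_subset_Icc h₁ h₂
  obtain ⟨R, hR, hR'⟩ := exists_linear_back
    (B := fun s => ContinuousLinearMap.compL ℝ V V V
      (IccExtend h ((Icc s₁ s₂).domRestrict P.gen) s))
    ((ContinuousLinearMap.compL ℝ V V V).continuous.comp
      (continuousOn_gen.mono hsub).domRestrict.Icc_extend') h 1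
  refine ⟨R, hR, fun v t ht => ?_⟩
  have h2 := (hR' t ht).clm_apply (hasDerivWithinAt_const t _ v)
  rw [show IccExtend h ((Icc s₁ s₂).domRestrict P.gen) t = P.gen t from IccExtend_of_mem _ _ ht] at h2
  simpa [gen_apply] using h2

namespace DualStart

variable {U : ℝ → E →L[ℝ] V} {ν ν' : ℝ → ℝ} {g top : ℝ} (hs : DualStart P U ν ν' g top)
include hs

/-- The orthogonal projection onto the orbit space, as a linear map. -/
theorem exists_projMap {t : ℝ} (ht : t ∈ Icc a b) :
    ∃ Q : V →ₗ[ℝ] E, ∀ u : V, ∀ y : E, ⟪u - U t (Q u), P.G t (U t y)⟫ = 0 := by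
  choose f hf using hs.exists_proj ht
  have huniq : ∀ u x, (∀ y, ⟪u - U t x, P.G t (U t y)⟫ = 0) → f u = x := fun u x hx => by
    refine hs.orbit_inj ht (sub_eq_zero.1 ?_)
    refine eq_zero_of_nrm_le (P := P) ht (le_of_eq ?_)
    have h1 := hx (f u - x)
    have h2 := hf u (f u - x)
    rw [map_sub, inner_sub_left] at h1 h2
    simp only [nrm, inner_sub_left]
    linarith
  refine ⟨{ toFun := f, map_add' := fun u v => huniq _ _ fun y => ?_,
            map_smul' := fun r u => huniq _ _ fun y => ?_ }, hf⟩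
  · rw [map_add, add_sub_add_comm, inner_add_left, hf u y, hf v y, add_zero]
  · rw [RingHom.id_apply, map_smul, ← smul_sub, real_inner_smul_left, hf u y, mul_zero]

omit [FiniteDimensional ℝ E] in
/-- A low solution is separated from the orthogonal of the orbits. -/
theorem orbit_separation {s : ℝ} (hs1 : a + 1 ≤ s) (hs2 : s ≤ b) {u : ℝ → V}
    (hu : P.IsSol (s - 1) s u) {μ : ℝ → ℝ} (hcμ : Continuous μ) {d : ℝ}
    (hd : ∀ t ∈ Icc (s - 1) s, μ t + d ≤ ν t) (hd0 : 0 ≤ d)
    (hlow : ∀ t ∈ Icc (s - 1) s, P.eng t (u t) ≤ μ t * P.nrm t (u t)) {x : E}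
    (hx : ∀ y, ⟪u s - U s x, P.G s (U s y)⟫ = 0) :
    sepConst d top ε * Real.sqrt (P.nrm s (u s)) ≤ Real.sqrt (P.nrm s (U s x)) := by
  have hsI : s ∈ Icc a b := ⟨by linarith, hs2⟩
  obtain ⟨w, hw, hws⟩ := exists_isSol_back (P := P) le_rfl hs2 (by linarith : a ≤ s) (u s - U s x)
  have hperp : ∀ y, ⟪w s, P.G s (U s y)⟫ = 0 := by rw [hws]; exact hx
  have h := separation (P := P) (Λ := 2 * top + ε) (by linarith : a ≤ s - 1) hs2 (by linarith) hu
    (hw.mono (by linarith) le_rfl) hcμ hs.contν hd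
    (fun t ht => by
      have := hd t ht
      have := (hs.levelν t ⟨by linarith [ht.1], ht.2.trans hs2⟩).2
      linarith) hlow
    (fun t ht => hs.perp_high hsI hw hperp ⟨by linarith [ht.1], ht.2⟩)
    (by rw [hws, sub_sub_cancel, ← P.symG s hsI, real_inner_comm]; exact hx x)
  rw [show s - (s - 1) = 1 by ring, hws, sub_sub_cancel, mul_one, mul_one,
    show 2 * top + ε + ε = 2 * top + 2 * ε by ring] at h
  exact h

variable {s₁ s₂ : ℝ} (hsub : Icc s₁ s₂ ⊆ Icc a b) {μ μ' : ℝ → ℝ} {w δ T c : ℝ}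
  (hcμ : Continuous μ) (hdμ : ∀ t ∈ Icc s₁ s₂, HasDerivWithinAt μ (μ' t) (Icc s₁ s₂) t)
  (hμ : ∀ t ∈ Icc s₁ s₂, 0 ≤ μ t ∧ μ t ≤ top)
  (hw : ∀ t ∈ Icc s₁ s₂, ε * (2 * μ t + 2) + |μ' t| + δ ≤ w ^ 2)
  (hδ : 0 ≤ δ) (hT : 0 ≤ T)
  (hc : c ≤ δ * T * Real.exp (-(2 * top + 3 * ε) * T))
include hsub hcμ hdμ hμ hw hδ hT hc

/-- An open gap of the trace map below the top one is open for the dual system. -/
theorem open_of_split {l : ℕ} (hsplit : ∀ t ∈ Icc s₁ s₂, P.Split t (μ t) w l)
    (hwμ : ∀ t ∈ Icc s₁ s₂, 0 < w ∧ w ≤ 2 * μ t) (hsep : ∀ t ∈ Icc s₁ s₂, μ t + w / 2 ≤ ν t)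
    (hw2 : ∀ t ∈ Icc s₁ s₂, ε * (2 * μ t + 2) + |μ' t| ≤ w ^ 2 / 2) (hl : l ≤ Module.finrank ℝ E)
    (hT1 : 1 ≤ T) (hTκ : Real.exp (-(w / 2 - 2 * ε) * (T - 1)) < sepConst w top ε ^ 2)
    (hεw : ε < w) (hcw : c ≤ w / 4) :
    hs.dualSys.Open μ c T l s₁ s₂ := by
  have hw' : ∀ t ∈ Icc s₁ s₂, ε * (2 * μ t + 2) + |μ' t| + δ ≤ (2 - ε) * w ^ 2 := fun t ht =>
    (hw t ht).trans (by nlinarith [P.hε1, sq_nonneg w])
  refine
    { inside := hsub
      low_forward := fun x t ht t' ht' h =>
        low_forward hs hsub hcμ hdμ hμ hw' hδ (fun r hr => (hsplit r hr).1) hT hc x ht ht' h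
      high_backward := fun x t ht t' ht' h =>
        high_backward hs hsub hcμ hdμ hμ hw' hδ (fun r hr => (hsplit r hr).1) hT hc x ht ht' h
      exists_low := fun t ht => ?_
      exists_high := fun t ht => ?_ }
  · -- project the spectral low solutions onto the orbits
    have htI : t ∈ Icc s₁ s₂ := ⟨by linarith [ht.1], ht.2⟩
    set s := t - T + 1 with hsdef
    have hI : Icc (s - 1) t ⊆ Icc s₁ s₂ := Icc_subset_Icc (by linarith [ht.1]) ht.2
    have hIab := hI.trans hsub
    have hs1 : a + 1 ≤ s := by linarith [(hIab ⟨le_rfl, by linarith⟩).1]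
    have hs2 : s ≤ b := (hIab ⟨by linarith, by linarith⟩).2
    have hsI : s ∈ Icc a b := ⟨by linarith, hs2⟩
    have ht2 : t ≤ b := (hsub htI).2
    obtain ⟨hgapt, S, S', hSS, hSl, hSlow, -, -⟩ := hsplit t htI
    obtain ⟨R, hR, hRsol⟩ := P.exists_solMap (by linarith : a ≤ s - 1) ht2 (by linarith : s - 1 ≤ t)
    obtain ⟨Q, hQ⟩ := hs.exists_projMap hsI
    set Φ : S →ₗ[ℝ] E := Q.comp (((R s : V →L[ℝ] V) : V →ₗ[ℝ] V).comp S.subtype)
    have hlow : ∀ x : S, ∀ r ∈ Icc (s - 1) t,
        P.eng r (R r (x : V)) ≤ (μ r - w / 2) * P.nrm r (R r (x : V)) := fun x r hr => by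
      have hi : Icc r t ⊆ Icc s₁ s₂ := (Icc_subset_Icc_left hr.1).trans hI
      refine low_backward (P := P) (μ := fun q => μ q - w / 2) (μ' := μ') (g := w / 2)
        (hIab hr).1 ht2 hr.2 ((hRsol x).mono hr.1 le_rfl) (by fun_prop)
        (fun q hq => by linarith [(hwμ q (hi hq)).2])
        (fun q hq => ((hdμ q (hi hq)).mono hi).sub_const _)
        (fun q hq => by
          have := hw2 q (hi hq)
          have h0 : 0 ≤ ε * (1 + w) := mul_nonneg P.hε (by linarith [(hwμ q (hi hq)).1])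
          linarith)
        (fun q hq => ?_) ?_
      · have h1 := (hsplit q (hi hq)).1.shift (hsub (hi hq)) (μ' := μ q - w / 2)
          (by rw [sub_sub_cancel_left, abs_neg, abs_of_pos (half_pos (hwμ q (hi hq)).1)]
              linarith [(hwμ q (hi hq)).1])
        rwa [sub_sub_cancel_left, abs_neg, abs_of_pos (half_pos (hwμ q (hi hq)).1), sub_half] at h1
      · rw [hR, one_apply_eq_self]
        have h1 := hSlow x x.2
        have h2 := mul_nonneg (half_pos (hwμ t htI).1).le (nrm_nonneg (P := P) (hsub htI) (x : V))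
        linarith
    have key : ∀ x : S,
        sepConst w top ε * Real.sqrt (P.nrm s (R s (x : V))) ≤ Real.sqrt (P.nrm s (U s (Φ x))) :=
      fun x => hs.orbit_separation hs1 hs2 ((hRsol x).mono le_rfl (by linarith))
        (μ := fun q => μ q - w / 2) (by fun_prop)
        (fun q hq => by linarith [hsep q (hI ⟨hq.1, by linarith [hq.2]⟩)]) (hwμ t htI).1.le
        (fun q hq => hlow x q ⟨hq.1, by linarith [hq.2]⟩) (hQ _)
    have hΦ : Function.Injective Φ := (injective_iff_map_eq_zero Φ).2 fun x hx => by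
      have h1 := key x
      rw [hx, map_zero, show P.nrm s 0 = 0 by simp [nrm], Real.sqrt_zero] at h1
      have h2 : P.nrm s (R s (x : V)) ≤ 0 :=
        Real.sqrt_eq_zero'.1 (le_antisymm (nonpos_of_mul_nonpos_right h1
          (sepConst_pos hεw)) (Real.sqrt_nonneg _))
      have h3 := rate_upper_level (P := P) (μ := fun q => μ q - w / 2) hsI.1 ht2 (by linarith)
        ((hRsol x).mono (by linarith) le_rfl) (by fun_prop)
        fun q hq => hlow x q ⟨by linarith [hq.1], hq.2⟩
      rw [hR, one_apply_eq_self] at h3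
      exact Subtype.ext (eq_zero_of_nrm_le (P := P) (hsub htI)
        (h3.trans (mul_nonpos_of_nonneg_of_nonpos (Real.exp_nonneg _) h2)))
    refine ⟨LinearMap.range Φ, by rw [LinearMap.finrank_range_of_inj hΦ, hSl], ?_⟩
    rintro _ ⟨x, rfl⟩
    rw [hs.dualSys_cone, hs.dualSys_nrm]
    set z := fun r => U r (Φ x)
    set u := fun r => R r (x : V)
    have hu : P.IsSol s t u := (hRsol x).mono (by linarith) le_rfl
    have hz : P.IsDual s t z := (hs.orbit _).mono hsI.1 ht2
    have htab := hsub htI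
    have hN := nrm_nonneg (P := P) htab (z t)
    suffices h : P.eng t (z t) ≤ (μ t - w / 4) * P.nrm t (z t) by
      have := mul_le_mul_of_nonneg_right hcw hN
      simp only [z] at this h ⊢
      linarith
    by_contra hcon
    push Not at hcon
    have hzpos : 0 < P.nrm t (z t) := by
      refine lt_of_not_ge fun h0 => ?_
      rw [eq_zero_of_nrm_le (P := P) htab h0] at hcon
      simp [eng, nrm] at hcon
    have hhigh : ∀ r ∈ Icc s t, (μ r - w / 4) * P.nrm r (z r) ≤ P.eng r (z r) := fun r hr => by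
      have hi : Icc r t ⊆ Icc s₁ s₂ := (Icc_subset_Icc_left (by linarith [hr.1])).trans hI
      have hrI := hsub (hi ⟨le_rfl, hr.2⟩)
      have h := dual_low_forward (P := P) (μ := fun q => μ q - w / 4) (μ' := μ') (w := 3 * w / 4)
        hs.hab hrI.1 ht2 hr.2 (hz.mono hr.1 le_rfl) (by fun_prop)
        (fun q hq => by linarith [(hwμ q (hi hq)).1, (hwμ q (hi hq)).2])
        (fun q hq => ((hdμ q (hi hq)).mono hi).sub_const _)
        (fun q hq => by
          have h1 := hw2 q (hi hq)
          have h0 : 0 ≤ ε * w := mul_nonneg P.hε (hwμ q (hi hq)).1.le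
          have h2 := mul_le_mul_of_nonneg_right (by linarith [P.hε1] : (1 : ℝ) ≤ 2 - ε)
            (sq_nonneg (3 * w / 4))
          have h3 := sq_nonneg w
          rw [show (3 * w / 4) ^ 2 = 9 / 16 * w ^ 2 by ring] at h2 ⊢
          linarith)
        fun q hq => ?_
      · have h4 := h.trans (mul_nonpos_of_nonneg_of_nonpos (Real.exp_nonneg _)
          (neg_nonpos.2 (sub_nonneg.2 hcon.le)))
        linarith
      · have hwp := (hwμ q (hi hq)).1
        have h1 := (hsplit q (hi hq)).1.shift (hsub (hi hq)) (μ' := μ q - w / 4)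
          (by rw [sub_sub_cancel_left, abs_neg, abs_of_pos (by linarith)]; linarith)
        rwa [sub_sub_cancel_left, abs_neg, abs_of_pos (by linarith : 0 < w / 4),
          show w - w / 4 = 3 * w / 4 by ring] at h1
    have hA := rate_upper_level (P := P) (μ := fun q => μ q - w / 2) hsI.1 ht2 (by linarith) hu
      (by fun_prop) fun r hr => hlow x r ⟨by linarith [hr.1], hr.2⟩
    have hB := dual_rate_upper_level (P := P) (μ := fun q => μ q - w / 4) hsI.1 ht2 (by linarith)
      hz (by fun_prop) hhigh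
    set A := ∫ r in s..t, (2 * (μ r - w / 2) + ε) with hAdef
    set B := ∫ r in s..t, (2 * (μ r - w / 4) - ε) with hBdef
    have hAB : A - B = -(w / 2 - 2 * ε) * (T - 1) := by
      rw [hAdef, hBdef, ← intervalIntegral.integral_sub
        (Continuous.intervalIntegrable (by fun_prop) _ _)
        (Continuous.intervalIntegrable (by fun_prop) _ _)]
      rw [show (fun r => 2 * (μ r - w / 2) + ε - (2 * (μ r - w / 4) - ε)) =
        fun _ => -(w / 2 - 2 * ε) by funext r; ring]
      rw [intervalIntegral.integral_const, smul_eq_mul, hsdef]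
      ring
    have hpair : P.nrm s (z s) = ⟪u t, P.G t (z t)⟫ := by
      rw [pairing_const hs.hab hsI.1 ht2 hu hz ⟨by linarith, le_rfl⟩]
      have h1 := hQ (u s) (Φ x)
      rw [inner_sub_left] at h1
      simp only [nrm, z, u]
      exact (sub_eq_zero.1 h1).symm
    have hcs := inner_sq_le (P := P) htab (u t) (z t)
    rw [← hpair] at hcs
    have hk := key x
    have hk2 : sepConst w top ε ^ 2 * P.nrm s (u s) ≤ P.nrm s (z s) := by
      have h1 := pow_le_pow_left₀ (mul_nonneg (sepConst_pos hεw).le (Real.sqrt_nonneg _)) hk 2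
      rwa [mul_pow, Real.sq_sqrt (nrm_nonneg (P := P) hsI _),
        Real.sq_sqrt (nrm_nonneg (P := P) hsI _)] at h1
    set κ := sepConst w top ε ^ 2
    have hp0 : 0 < P.nrm s (z s) := (mul_pos (Real.exp_pos B) hzpos).trans_le hB
    have h1 : κ * P.nrm s (z s) ≤ Real.exp A * P.nrm t (z t) := by
      refine le_of_mul_le_mul_left ?_ hp0
      calc P.nrm s (z s) * (κ * P.nrm s (z s)) = κ * P.nrm s (z s) ^ 2 := by ring
        _ ≤ κ * (Real.exp A * P.nrm s (u s) * P.nrm t (z t)) :=
            mul_le_mul_of_nonneg_left (hcs.trans (mul_le_mul_of_nonneg_right hA hN)) (sq_nonneg _)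
        _ = κ * P.nrm s (u s) * (Real.exp A * P.nrm t (z t)) := by ring
        _ ≤ P.nrm s (z s) * (Real.exp A * P.nrm t (z t)) :=
            mul_le_mul_of_nonneg_right hk2 (by positivity)
    have h2 : κ * Real.exp B ≤ Real.exp A := by
      refine le_of_mul_le_mul_right ?_ hzpos
      refine le_trans (le_of_eq (mul_assoc _ _ _)) (le_trans ?_ h1)
      exact mul_le_mul_of_nonneg_left hB (sq_nonneg _)
    have h3 : κ ≤ Real.exp (A - B) := by
      rw [Real.exp_sub, le_div_iff₀ (Real.exp_pos _)]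
      exact h2
    rw [hAB] at h3
    linarith
  · have htI : t ∈ Icc s₁ s₂ := ⟨ht.1, by linarith [ht.2]⟩
    obtain ⟨-, S, S', hSS, hSl, -, hhigh, -⟩ := hsplit t htI
    have hdim : Module.finrank ℝ E - l ≤
        Module.finrank ℝ (S'.comap ((U t : E →L[ℝ] V) : E →ₗ[ℝ] V)) := by
      set f := S'.mkQ.comp ((U t : E →L[ℝ] V) : E →ₗ[ℝ] V)
      have h1 := LinearMap.finrank_range_add_finrank_ker f
      have h2 := Submodule.finrank_le (LinearMap.range f)
      have h3 := Submodule.finrank_quotient_add_finrank S'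
      have h4 := Submodule.finrank_add_eq_of_isCompl hSS
      rw [show LinearMap.ker f = S'.comap ((U t : E →L[ℝ] V) : E →ₗ[ℝ] V) by
        rw [LinearMap.ker_comp, Submodule.ker_mkQ]] at h1
      omega
    obtain ⟨H, hH, hHd⟩ := exists_le_finrank_eq hdim
    refine ⟨H, by omega, fun x hx => ?_⟩
    rw [hs.dualSys_cone, hs.dualSys_nrm]
    have h1 := hhigh _ (hH hx)
    have h2 := mul_le_mul_of_nonneg_right (show c ≤ w by linarith [(hwμ t htI).1])
      (nrm_nonneg (P := P) (hsub htI) (U t x))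
    simp only [ContinuousLinearMap.coe_coe] at h1
    linarith

/-- The top gap is open, with the whole space as its low plane. -/
theorem open_top (hgap : ∀ t ∈ Icc s₁ s₂, P.Gap t (μ t) w) (hle : ∀ t ∈ Icc s₁ s₂, ν t ≤ μ t) :
    hs.dualSys.Open μ c T (Module.finrank ℝ E) s₁ s₂ := by
  have hw' : ∀ t ∈ Icc s₁ s₂, ε * (2 * μ t + 2) + |μ' t| + δ ≤ (2 - ε) * w ^ 2 := fun t ht =>
    (hw t ht).trans (by nlinarith [P.hε1, sq_nonneg w])
  refine
    { inside := hsub
      low_forward := fun x t ht t' ht' h =>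
        low_forward hs hsub hcμ hdμ hμ hw' hδ hgap hT hc x ht ht' h
      high_backward := fun x t ht t' ht' h =>
        high_backward hs hsub hcμ hdμ hμ hw' hδ hgap hT hc x ht ht' h
      exists_low := fun t ht => ⟨⊤, finrank_top ℝ E, fun x _ => ?_⟩
      exists_high := fun t ht => ⟨⊥, by simp, fun x hx => ?_⟩ }
  · have hp : t - T ∈ Icc s₁ s₂ := ⟨by linarith [ht.1], by linarith [ht.2]⟩
    refine (low_forward hs hsub hcμ hdμ hμ hw' hδ hgap hT hc x hp (t' := t)
      ⟨by linarith, ht.2⟩ ?_).2 (by linarith)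
    rw [hs.dualSys_cone]
    have h1 := hs.orbit_low (hsub hp) x
    have h2 := mul_le_mul_of_nonneg_right (hle _ hp) (nrm_nonneg (P := P) (hsub hp) (U (t - T) x))
    linarith
  · rw [(Submodule.mem_bot ℝ).1 hx, hs.dualSys_cone, hs.dualSys_nrm]
    simp [eng, nrm]

end DualStart

end TraceData

end

end Vale.Agent.P225.Disproof
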