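import Vale.Agent.P225.Disproof.GapAlong
import Vale.Agent.P225.Disproof.DualOpen
import Vale.Agent.P225.Disproof.LoopSpec

/-!
# P225: the sign of the mixing equation on a face of the parameter cube

Along a slot with gap `j` open a low plane stays low, so its coordinates in a moving frame have a
determinant of constant sign. A frame turning by `sgn` makes the sign at the end equal to `sgn`.
-/

namespace Vale.Agent.P225.Disproof

open MeasureTheory Set Filter Topology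
open scoped RealInnerProductSpace Matrix

noncomputable section

variable {V : Type*} [NormedAddCommGroup V] [InnerProductSpace ℝ V] [FiniteDimensional ℝ V]
  {E : Type*} [NormedAddCommGroup E] [InnerProductSpace ℝ E] [FiniteDimensional ℝ E]

omit [FiniteDimensional ℝ V] [FiniteDimensional ℝ E] in
/-- A change of frame changes the coordinates by the transposed matrix. -/
theorem det_coordMap_change {l : ℕ} (G Q : V →L[ℝ] V) (f f' : Fin l → V) (U : E →L[ℝ] V)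
    (M : Matrix (Fin l) (Fin l) ℝ) (hM : ∀ k, f' k = ∑ m, M m k • f m)
    (J : EuclideanSpace ℝ (Fin l) →L[ℝ] E) :
    (TraceData.coordMap G Q f' U ∘L J).det =
      M.det * (TraceData.coordMap G Q f U ∘L J).det := by
  have e : ((TraceData.coordMap G Q f' U ∘L J : EuclideanSpace ℝ (Fin l) →L[ℝ] _) :
      EuclideanSpace ℝ (Fin l) →ₗ[ℝ] EuclideanSpace ℝ (Fin l)) =
      (Matrix.toEuclideanLin M.transpose).comp
        ((TraceData.coordMap G Q f U ∘L J : EuclideanSpace ℝ (Fin l) →L[ℝ] _) :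
          EuclideanSpace ℝ (Fin l) →ₗ[ℝ] EuclideanSpace ℝ (Fin l)) := by
    refine LinearMap.ext fun v => PiLp.ext fun k => ?_
    simp only [ContinuousLinearMap.coe_coe, LinearMap.comp_apply, ContinuousLinearMap.comp_apply,
      Matrix.toLpLin_apply]
    rw [TraceData.coordMap_apply, hM, sum_inner]
    simp [Matrix.mulVec, dotProduct, TraceData.coordMap_apply, real_inner_smul_left]
  unfold ContinuousLinearMap.det
  rw [e, LinearMap.det_comp, Matrix.toEuclideanLin_eq_toLin_orthonormal, LinearMap.det_toLin,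
    Matrix.det_transpose]

namespace TraceData.DualStart

variable {a b ε : ℝ} {P : TraceData V a b ε} {U : ℝ → E →L[ℝ] V} {ν ν' : ℝ → ℝ} {g top : ℝ}
  (hs : DualStart P U ν ν' g top)
include hs

/-- The sign of the coordinates at the end of an open slot. -/
theorem face_sign {s₁ s₂ : ℝ} (h₁ : a ≤ s₁) (h₂ : s₂ ≤ b) (h : s₁ ≤ s₂) {μ μ' : ℝ → ℝ}
    {w : ℝ} {l : ℕ} (hcμ : Continuous μ)
    (hdμ : ∀ t ∈ Icc s₁ s₂, HasDerivWithinAt μ (μ' t) (Icc s₁ s₂) t)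
    (hw0 : 0 < w) (hwμ : ∀ t ∈ Icc s₁ s₂, w ≤ μ t)
    (hsmall : ∀ t ∈ Icc s₁ s₂, ε * (2 * μ t + 2) + |μ' t| ≤ w ^ 2)
    (hsplit : ∀ t ∈ Icc s₁ s₂, P.Split t (μ t) w l)
    {f : ℝ → Fin l → V} (hf : ContinuousOn f (Icc s₁ s₂))
    (hlow : ∀ t ∈ Icc s₁ s₂, ∃ α, α < (μ t - w) ^ 2 + (1 - ε) * (μ t - w) - ε ∧
      LinearIndependent ℝ (f t) ∧
      ∀ u ∈ Submodule.span ℝ (Set.range (f t)), ⟪u, P.K t u⟫ ≤ α * P.nrm t u)
    {f₀ : Fin l → V} {A B : Matrix (Fin l) (Fin l) ℝ} {sgn : ℝ}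
    (hA : ∀ k, f s₁ k = ∑ m, A m k • f₀ m) (hB : ∀ k, f s₂ k = ∑ m, B m k • f₀ m)
    (hAB : 0 < sgn * (A.det * B.det)) {Q₁ Q₂ : V →L[ℝ] V}
    (hQ₁ : IsSpecProj (P.G s₁) (P.B s₁) (μ s₁) w Q₁)
    (hQ₂ : IsSpecProj (P.G s₂) (P.B s₂) (μ s₂) w Q₂) {J : EuclideanSpace ℝ (Fin l) →L[ℝ] E}
    (hJ : ∀ v, coordMap (P.G s₁) Q₁ f₀ (U s₁) (J v) = v)
    (hJlow : ∀ v, P.eng s₁ (U s₁ (J v)) ≤ μ s₁ * P.nrm s₁ (U s₁ (J v))) :
    0 < sgn * (coordMap (P.G s₂) Q₂ f₀ (U s₂) ∘L J).det := by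
  have hsub : Icc s₁ s₂ ⊆ Icc a b := Icc_subset_Icc h₁ h₂
  have hI₁ : s₁ ∈ Icc s₁ s₂ := ⟨le_rfl, h⟩
  have hI₂ : s₂ ∈ Icc s₁ s₂ := ⟨h, le_rfl⟩
  choose! Q hQ hQl using fun t (ht : t ∈ Icc s₁ s₂) =>
    exists_specProj (P := P) (hsub ht) (hsplit t ht)
  have hcG : Continuous fun t : Icc s₁ s₂ => P.G t := by
    exact (show ContinuousOn P.G (Icc s₁ s₂) from fun t ht =>
      ((P.derivG t (hsub ht)).continuousWithinAt).mono hsub).domRestrict
  have hcB : Continuous fun t : Icc s₁ s₂ => P.B t := by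
    exact (show ContinuousOn P.B (Icc s₁ s₂) from fun t ht =>
      ((P.derivB t (hsub ht)).continuousWithinAt).mono hsub).domRestrict
  have hcU : Continuous fun t : Icc s₁ s₂ => U t := by
    exact (show ContinuousOn U (Icc s₁ s₂) from continuousOn_clm_apply.2 fun x t ht =>
      ((hs.orbit x) t (hsub ht)).continuousWithinAt.mono hsub).domRestrict
  have hcQ : Continuous fun t : Icc s₁ s₂ => Q t :=
    continuous_specProj (P := fun _ : Icc s₁ s₂ => P) (τ := fun t => ⟨t, hsub t.2⟩)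
      hcG hcB (hcμ.comp continuous_subtype_val) hw0 (fun t => hwμ t t.2) fun t => hQ t t.2
  set D := fun t : Icc s₁ s₂ => (coordMap (P.G t) (Q t) (f t) (U t) ∘L J).det with hDdef
  have hDc : Continuous D := ContinuousLinearMap.continuous_det.comp
    ((continuous_coordMap hcG hcQ hf.domRestrict hcU).clm_comp continuous_const)
  have hne : ∀ t : Icc s₁ s₂, D t ≠ 0 := fun t hzero => by
    obtain ⟨α, hα, hfi, hfK⟩ := hlow t t.2
    have hinj : Function.Injective (coordMap (P.G t) (Q t) (f t) (U t) ∘L J) := by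
      refine (injective_iff_map_eq_zero _).2 fun v hv => ?_
      have h3 := (coordMap_eq_zero_iff (P := P) (hsub t.2) hw0.le (hwμ t t.2) hα (hQ t t.2)
        (hQl t t.2) hfi hfK (U t) (J v)).1 hv
      have h4 := high_of_specProj_eq_zero (P := P) (hQ t t.2) h3
      have hi : Icc s₁ (t : ℝ) ⊆ Icc s₁ s₂ := Icc_subset_Icc_right t.2.2
      have h5 := dual_low_forward (P := P) hs.hab h₁ (t.2.2.trans h₂) t.2.1
        ((hs.orbit (J v)).mono h₁ (t.2.2.trans h₂)) hcμ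
        (fun r hr => by linarith [hwμ r (hi hr)]) (fun r hr => (hdμ r (hi hr)).mono hi)
        (fun r hr => (hsmall r (hi hr)).trans (by nlinarith [P.hε1, sq_nonneg w]))
        fun r hr => (hsplit r (hi hr)).1
      have h6 := (mul_nonneg_iff_of_pos_left (Real.exp_pos _)).1
        ((neg_nonneg.2 (sub_nonpos.2 (hJlow v))).trans h5)
      have h7 : U t (J v) = 0 := eq_zero_of_nrm_le (P := P) (hsub t.2)
        (nonpos_of_mul_nonpos_right (by linarith : w * P.nrm t (U t (J v)) ≤ 0) hw0)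
      have h8 : J v = 0 := hs.orbit_inj (hsub t.2) (h7.trans (map_zero _).symm)
      have h9 := hJ v
      rw [h8, map_zero] at h9
      exact h9.symm
    exact (LinearMap.ker_eq_bot.2 hinj).not_gt (LinearMap.bot_lt_ker_of_det_eq_zero hzero)
  have huniq : ∀ (t : ℝ) (ht : t ∈ Icc s₁ s₂) (R : V →L[ℝ] V),
      IsSpecProj (P.G t) (P.B t) (μ t) w R → Q t = R := fun t ht R hR =>
    specProj_unique (P := P) (hsub ht) hw0 (hwμ t ht) (hQ t ht) hR
  have hD₁ : D ⟨s₁, hI₁⟩ = A.det := by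
    simp only [hDdef, huniq s₁ hI₁ Q₁ hQ₁]
    rw [det_coordMap_change _ _ f₀ (f s₁) _ A hA,
      show coordMap (P.G s₁) Q₁ f₀ (U s₁) ∘L J = ContinuousLinearMap.id ℝ _ from
        ContinuousLinearMap.ext hJ]
    simp [ContinuousLinearMap.det]
  have hD₂ : D ⟨s₂, hI₂⟩ = B.det * (coordMap (P.G s₂) Q₂ f₀ (U s₂) ∘L J).det := by
    simp only [hDdef, huniq s₂ hI₂ Q₂ hQ₂]
    exact det_coordMap_change _ _ f₀ (f s₂) _ B hB J
  set X := (coordMap (P.G s₂) Q₂ f₀ (U s₂) ∘L J).det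
  have hpos : 0 < A.det * (B.det * X) := by
    rw [← hD₁, ← hD₂]
    refine lt_of_not_ge fun hle => ?_
    have : PreconnectedSpace (Icc s₁ s₂) := Subtype.preconnectedSpace isPreconnected_Icc
    rcases mul_nonpos_iff.1 hle with ⟨hp, hq⟩ | ⟨hp, hq⟩
    · obtain ⟨t, ht⟩ := intermediate_value_univ (⟨s₂, hI₂⟩ : Icc s₁ s₂) ⟨s₁, hI₁⟩ hDc ⟨hq, hp⟩
      exact hne t ht
    · obtain ⟨t, ht⟩ := intermediate_value_univ (⟨s₁, hI₁⟩ : Icc s₁ s₂) ⟨s₂, hI₂⟩ hDc ⟨hp, hq⟩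
      exact hne t ht
  have hsq : 0 < (A.det * B.det) ^ 2 :=
    pow_two_pos_of_ne_zero (by intro h0; rw [h0, mul_zero] at hAB; exact lt_irrefl _ hAB)
  refine pos_of_mul_pos_left (b := (A.det * B.det) ^ 2) ?_ hsq.le
  rw [show sgn * X * (A.det * B.det) ^ 2 = sgn * (A.det * B.det) * (A.det * (B.det * X)) by ring]
  exact mul_pos hAB hpos

end TraceData.DualStart

/-- A change of top frames as a change of Galerkin frames, with the same determinant. -/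
theorem galFrame_change (N : ℕ) {j : ℕ} {e e' : Fin j → L2S} {C : Matrix (Fin j) (Fin j) ℝ}
    (hC : ∀ k, e' k = ∑ m, C m k • e m) :
    ∃ M : Matrix (Fin (j + 1)) (Fin (j + 1)) ℝ,
      (∀ k, galFrame N e' k = ∑ m, M m k • galFrame N e m) ∧ M.det = C.det := by
  refine ⟨Matrix.of (Fin.cons (Fin.cons 1 0) fun i => Fin.cons 0 (C i)), fun k => ?_, ?_⟩
  · refine Fin.cases ?_ (fun k => ?_) k
    · simp [Fin.sum_univ_succ, galFrame, Matrix.of_apply]
    · simp [Fin.sum_univ_succ, galFrame, Matrix.of_apply, hC, map_sum, map_smul]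
  · rw [Matrix.det_succ_column_zero, Fin.sum_univ_succ]
    simp [Matrix.of_apply, Matrix.submatrix]
    rfl

/-- The sign on a face: the loop turns the top space of the pencil by `sgn`. -/
theorem face_sign_of_turns {N : ℕ} {a b ε : ℝ} {P : TraceData (Gal N) a b ε}
    {U : ℝ → E →L[ℝ] Gal N} {ν ν' : ℝ → ℝ} {g top : ℝ}
    (hs : TraceData.DualStart P U ν ν' g top) {s₁ s₂ : ℝ} (h₁ : a ≤ s₁) (h₂ : s₂ ≤ b)
    (h : s₁ < s₂) {j : ℕ} (hj : 1 ≤ j) {μ μ' : ℝ → ℝ} {w δ : ℝ} (hcμ : Continuous μ)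
    (hdμ : ∀ t ∈ Icc s₁ s₂, HasDerivWithinAt μ (μ' t) (Icc s₁ s₂) t)
    (hsmall : ∀ t ∈ Icc s₁ s₂, ε * (2 * μ t + 2) + |μ' t| ≤ w ^ 2) (hεδ : ε ≤ δ)
    {ρ νw ω : ℝ → C(Sph 3, ℝ)} (hρ : ∀ t ∈ Icc s₁ s₂, ∀ θ, 0 < ρ t θ)
    (hgood : ∀ t ∈ Icc s₁ s₂, GoodLevel (ρ t) j (μ t) w δ)
    (hK : ∀ t ∈ Icc s₁ s₂, P.K t = stiffOp N (ω t))
    (hG : ∀ t ∈ Icc s₁ s₂, P.G t = massOp N (νw t))
    (hN : ∀ t ∈ Icc s₁ s₂, 2 * ‖ρ t‖ / ((N : ℝ) + 1) ≤ δ)
    (hω : ∀ t ∈ Icc s₁ s₂, ∀ θ, |ω t θ - 1| ≤ δ / 4)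
    (hν : ∀ t ∈ Icc s₁ s₂, ∀ θ, |νw t θ - ρ t θ| ≤ δ / 4 * ρ t θ) {sgn : ℝ}
    (hturn : TurnsBy j (fun x => topProj (pencil (ρ (s₁ + x * (s₂ - s₁)))) j) 0 1 sgn)
    {e₀ : Fin j → L2S} (he₀ : LinearIndependent ℝ e₀)
    (he₀T : ∀ i, e₀ i ∈ topSpace (pencil (ρ s₁)) j) {Q₁ Q₂ : Gal N →L[ℝ] Gal N}
    (hQ₁ : IsSpecProj (P.G s₁) (P.B s₁) (μ s₁) w Q₁)
    (hQ₂ : IsSpecProj (P.G s₂) (P.B s₂) (μ s₂) w Q₂)
    {J : EuclideanSpace ℝ (Fin (j + 1)) →L[ℝ] E}
    (hJ : ∀ v, TraceData.coordMap (P.G s₁) Q₁ (galFrame N e₀) (U s₁) (J v) = v)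
    (hJlow : ∀ v, P.eng s₁ (U s₁ (J v)) ≤ μ s₁ * P.nrm s₁ (U s₁ (J v))) :
    0 < sgn * (TraceData.coordMap (P.G s₂) Q₂ (galFrame N e₀) (U s₂) ∘L J).det := by
  obtain ⟨e, hec, he, C, hC, hCd⟩ := hturn
  have hlen : 0 < s₂ - s₁ := sub_pos.2 h
  set φ : ℝ → ℝ := fun t => (t - s₁) / (s₂ - s₁) with hφ
  have hφI : ∀ t ∈ Icc s₁ s₂, φ t ∈ Icc (0 : ℝ) 1 := fun t ht =>
    ⟨div_nonneg (by linarith [ht.1]) hlen.le, (div_le_one hlen).2 (by linarith [ht.2])⟩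
  have hback : ∀ t, s₁ + φ t * (s₂ - s₁) = t := fun t => by
    simp only [hφ]; field_simp; ring
  have hI₁ : s₁ ∈ Icc s₁ s₂ := ⟨le_rfl, h.le⟩
  have heT : ∀ t ∈ Icc s₁ s₂, LinearIndependent ℝ (e (φ t)) ∧
      ∀ i, e (φ t) i ∈ topSpace (pencil (ρ t)) j := fun t ht => by
    refine ⟨(he _ (hφI t ht)).1, fun i => ?_⟩
    have h1 := (he _ (hφI t ht)).2 i
    simp only [hback] at h1
    rw [← h1]
    exact Submodule.starProjection_apply_mem _ _
  have hspan : Submodule.span ℝ (Set.range e₀) = topSpace (pencil (ρ s₁)) j := by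
    have hfd : FiniteDimensional ℝ (topSpace (pencil (ρ s₁)) j) := inferInstance
    refine Submodule.eq_of_le_of_finrank_le (Submodule.span_le.2 ?_) ?_
    · rintro _ ⟨i, rfl⟩; exact he₀T i
    · rw [finrank_span_eq_card he₀, Fintype.card_fin,
        (goodOp_pencil (hρ s₁ hI₁)).finrank_topSpace j]
  have he0 : ∀ i, e 0 i ∈ Submodule.span ℝ (Set.range e₀) := fun i => by
    rw [hspan]
    have h1 := (heT s₁ hI₁).2 i
    rwa [show φ s₁ = 0 by simp [hφ]] at h1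
  choose c hc using fun k => (Submodule.mem_span_range_iff_exists_fun ℝ).1 (he0 k)
  set A : Matrix (Fin j) (Fin j) ℝ := fun m k => c k m
  have hA : ∀ k, e 0 k = ∑ m, A m k • e₀ m := fun k => (hc k).symm
  have hAdet : A.det ≠ 0 := fun h0 => by
    obtain ⟨v, hv, hv0⟩ := Matrix.exists_mulVec_eq_zero_iff.2 h0
    refine hv (funext ((Fintype.linearIndependent_iff.1 (he 0 ⟨le_rfl, zero_le_one⟩).1) v ?_))
    simp only [hA, Finset.smul_sum, smul_smul]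
    rw [Finset.sum_comm]
    refine Finset.sum_eq_zero fun m _ => ?_
    rw [← Finset.sum_smul]
    have h2 : ∑ k, v k * A m k = 0 := by
      simpa [Matrix.mulVec, dotProduct, mul_comm] using congrFun hv0 m
    rw [h2, zero_smul]
  have hB : ∀ k, e 1 k = ∑ m, (A * C) m k • e₀ m := fun k => by
    simp only [hC, hA, Finset.smul_sum, smul_smul, Matrix.mul_apply, Finset.sum_smul]
    rw [Finset.sum_comm]
    exact Finset.sum_congr rfl fun m _ => Finset.sum_congr rfl fun i _ => by rw [mul_comm]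
  obtain ⟨A', hA', hA'd⟩ := galFrame_change N hA
  obtain ⟨B', hB', hB'd⟩ := galFrame_change N hB
  refine hs.face_sign h₁ h₂ h.le hcμ hdμ (hgood s₁ hI₁).1 (fun t ht => (hgood t ht).2.1) hsmall
    (fun t ht => (hgood t ht).split (hρ t ht) hj ⟨h₁.trans ht.1, ht.2.trans h₂⟩ (hK t ht)
      (hG t ht) hεδ (hN t ht) (hω t ht) (hν t ht))
    (f := fun t => galFrame N (e (φ t))) ?_
    (fun t ht => (hgood t ht).frame (hρ t ht) hj (hK t ht) (hG t ht) hεδ (hN t ht) (hω t ht)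
      (hν t ht) (heT t ht).1 (heT t ht).2)
    (A := A') (B := B') ?_ ?_ ?_ hQ₁ hQ₂ hJ hJlow
  · exact (continuous_galFrame N continuous_id).comp_continuousOn
      (hec.comp ((continuousOn_id.sub continuousOn_const).div_const _) hφI)
  · simpa [hφ] using hA'
  · simpa [hφ, div_self hlen.ne'] using hB'
  · rw [hA'd, hB'd, Matrix.det_mul]
    have : 0 < A.det ^ 2 := pow_two_pos_of_ne_zero hAdet
    nlinarith [mul_pos this hCd]

end

end Vale.Agent.P225.Disproof
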