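import Vale.Agent.P225.Disproof.PencilCluster
import Vale.Agent.P225.Disproof.PencilScale
import Mathlib.Algebra.Order.Antidiag.FinsuppEquiv
import Mathlib.RingTheory.MvPolynomial.Basic

/-!
# P225: the round spectrum and the rest budget

The round pencil has the value `1 / (l (l + 1))` with multiplicity `2 l + 1`. Hence the rest
exponents `psi` near the round weight are at most `1.1786 (√j + 1/2) - 1/2`, and mirrored pairs
stay below `52`.
-/

namespace Vale.Agent.P225.Disproof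

open MvPolynomial MeasureTheory Set Filter Topology
open scoped RealInnerProductSpace

noncomputable section

/-! ### Dimensions of the levels -/

theorem finrank_hom3 (l : ℕ) :
    Module.finrank ℝ (homogeneousSubmodule (Fin 3) ℝ l) = (l + 2).choose 2 := by
  have hs : {d : Fin 3 →₀ ℕ | d.degree = l} =
      ↑((Finset.univ : Finset (Fin 3)).finsuppAntidiag l) := by
    ext d
    simp [Finset.mem_finsuppAntidiag, Finsupp.degree_eq_sum]
  rw [homogeneousSubmodule_eq_finsupp_supported,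
    show (AddMonoidAlgebra.supported ℝ ℝ {d : Fin 3 →₀ ℕ | d.degree = l} :
      Submodule ℝ (MvPolynomial (Fin 3) ℝ)) = restrictSupport ℝ {d | d.degree = l} from rfl,
    Module.finrank_eq_nat_card_basis (basisRestrictSupport ℝ _), hs, Nat.card_coe_set_eq,
    Set.ncard_coe_finset, Finset.card_finsuppAntidiag_nat_eq_choose, Finset.card_univ,
    Fintype.card_fin, show 3 + l - 1 = 2 + l by omega, ← Nat.choose_symm_add, add_comm 2]

/-- The harmonic polynomials of degree exactly `l`. -/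
def harmHom (l : ℕ) : Submodule ℝ (MvPolynomial (Fin 3) ℝ) :=
  homogeneousSubmodule (Fin 3) ℝ l ⊓ LinearMap.ker (lapL 3)

instance (l : ℕ) : FiniteDimensional ℝ (homogeneousSubmodule (Fin 3) ℝ l) :=
  Submodule.finiteDimensional_of_le (S₂ := restrictTotalDegree (Fin 3) ℝ l) fun _ hq =>
    (mem_restrictTotalDegree _ _ _).2 (IsHomogeneous.totalDegree_le hq)

instance (l : ℕ) : FiniteDimensional ℝ (harmHom l) :=
  Submodule.finiteDimensional_of_le inf_le_left

theorem finrank_harmHom (l : ℕ) : Module.finrank ℝ (harmHom l) = 2 * l + 1 := by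
  rcases lt_or_ge l 2 with hl | hl
  · have e : harmHom l = homogeneousSubmodule (Fin 3) ℝ l :=
      inf_eq_left.2 fun q hq => LinearMap.mem_ker.2 (lapP_eq_zero_of_lt hq hl)
    rw [e, finrank_hom3]
    interval_cases l <;> rfl
  obtain ⟨j, rfl⟩ : ∃ j, l = j + 2 := ⟨l - 2, by omega⟩
  set A := (homogeneousSubmodule (Fin 3) ℝ j).map (LinearMap.mulLeft ℝ (sq 3))
  have hsup : A ⊔ harmHom (j + 2) = homogeneousSubmodule (Fin 3) ℝ (j + 2) := by
    refine le_antisymm (sup_le ?_ inf_le_left) fun p hp => ?_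
    · rintro _ ⟨q, hq, rfl⟩
      rw [LinearMap.mulLeft_apply, mem_homogeneousSubmodule, add_comm j 2]
      exact sq_hom.mul hq
    · obtain ⟨q, h, hq, hh, hl, rfl⟩ := exists_decomp (n := 3) (by norm_num) j p hp
      rw [add_comm h]
      exact Submodule.add_mem_sup ⟨q, hq, rfl⟩ ⟨hh, hl⟩
  have hinf : A ⊓ harmHom (j + 2) = ⊥ := by
    refine (Submodule.eq_bot_iff _).2 ?_
    rintro _ ⟨⟨q, hq, rfl⟩, -, hl⟩
    have h0 : lapP (sq 3 * q) = 0 := hl
    rw [lapP_sq_mul hq] at h0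
    rw [eq_zero_of_sq_lap (by norm_num) j q _ hq (by exact_mod_cast (by omega : 0 < 2 * 3 + 4 * j))
      h0, map_zero]
  have hA : Module.finrank ℝ A = (j + 2).choose 2 := by
    rw [← finrank_hom3]
    exact (Submodule.equivMapOfInjective _
      (mul_right_injective₀ (sq_ne_zero (by norm_num))) _).finrank_eq.symm
  have h := Submodule.finrank_sup_add_finrank_inf_eq A (harmHom (j + 2))
  rw [hsup, hinf, finrank_bot, hA, finrank_hom3] at h
  have e : ∀ m, (m + 1).choose 2 = m + m.choose 2 := fun m => by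
    rw [Nat.choose_succ_succ, Nat.choose_one_right]
  rw [show j + 2 + 2 = j + 2 + 1 + 1 from rfl] at h
  have h1 := e (j + 2 + 1)
  have h2 := e (j + 2)
  omega

theorem finrank_levSpace (l : ℕ) : Module.finrank ℝ (levSpace l) = 2 * l + 1 := by
  have hinj : Function.Injective (toH.comp (harmHom l).subtype) := by
    refine (injective_iff_map_eq_zero _).2 fun q hq => Subtype.ext ?_
    refine eq_zero_of_sphIp (N := l) (mem_harmUpTo.2 ⟨q.2.1.totalDegree_le, q.2.2⟩) ?_
    rw [← inner_toH, show toH q.1 = 0 from hq, inner_zero_left]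
  rw [show levSpace l = LinearMap.range (toH.comp (harmHom l).subtype) from by
    rw [LinearMap.range_comp, Submodule.range_subtype]; rfl, LinearMap.finrank_range_of_inj hinj,
    finrank_harmHom]

/-- The levels `1, ..., l`. -/
def lowSpace : ℕ → Submodule ℝ L2S
  | 0 => ⊥
  | l + 1 => lowSpace l ⊔ levSpace (l + 1)

theorem finiteDimensional_lowSpace : ∀ l, FiniteDimensional ℝ (lowSpace l)
  | 0 => by rw [lowSpace]; infer_instance
  | l + 1 => by
    have := finiteDimensional_lowSpace l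
    rw [lowSpace]; infer_instance

instance (l : ℕ) : FiniteDimensional ℝ (lowSpace l) := finiteDimensional_lowSpace l

theorem lev_lowSpace : ∀ {l m : ℕ}, (m = 0 ∨ l < m) → ∀ x ∈ lowSpace l, lev m x = 0
  | 0, m, _, x, hx => by rw [lowSpace, Submodule.mem_bot] at hx; rw [hx, map_zero]
  | l + 1, m, hm, x, hx => by
    obtain ⟨y, hy, z, hz, rfl⟩ := Submodule.mem_sup.1
      (show x ∈ lowSpace l ⊔ levSpace (l + 1) from hx)
    rw [map_add, lev_lowSpace (by omega) y hy, zero_add]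
    exact (Submodule.starProjection_apply_eq_zero_iff _).2 ((Submodule.mem_orthogonal _ _).2
      fun u hu => inner_levSpace (by omega) hu hz)

theorem levSpace_le_lowSpace : ∀ {l m : ℕ}, 1 ≤ m → m ≤ l → levSpace m ≤ lowSpace l
  | 0, m, h1, h2 => by omega
  | l + 1, m, h1, h2 => by
    rcases eq_or_lt_of_le h2 with rfl | h
    · exact le_sup_right
    · exact (levSpace_le_lowSpace h1 (by omega)).trans le_sup_left

theorem finrank_lowSpace : ∀ l, Module.finrank ℝ (lowSpace l) = (l + 1) ^ 2 - 1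
  | 0 => by rw [lowSpace, finrank_bot]; rfl
  | l + 1 => by
    have h := Submodule.finrank_sup_add_finrank_inf_eq (lowSpace l) (levSpace (l + 1))
    have hinf : lowSpace l ⊓ levSpace (l + 1) = ⊥ := by
      refine (Submodule.eq_bot_iff _).2 fun x hx => ?_
      rw [← lev_lowSpace (Or.inr l.lt_succ_self) x hx.1]
      exact (Submodule.starProjection_eq_self_iff.2 hx.2).symm
    rw [show lowSpace l ⊔ levSpace (l + 1) = lowSpace (l + 1) from rfl, hinf, finrank_bot,
      finrank_lowSpace l, finrank_levSpace] at h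
    have h1 : 1 ≤ (l + 1) ^ 2 := Nat.one_le_pow _ _ (by omega)
    have h2 : (l + 1 + 1) ^ 2 = (l + 1) ^ 2 + (2 * (l + 1) + 1) := by ring
    omega

/-! ### The round spectrum -/

theorem lift_one (x : L2S) : lift 1 x = resolv x := by
  rw [lift, show wvec 1 = oneH from rfl, ← inner_resolv, resolv_oneH, inner_zero_left, mul_zero,
    zero_smul, sub_zero]

theorem form_pencil_one (x : L2S) :
    HasSum (fun m => resCoef m ^ 2 * ‖lev m x‖ ^ 2) ⟪pencil 1 x, x⟫ := by
  have hone : ∀ θ : Sph 3, (0 : ℝ) < (1 : C(Sph 3, ℝ)) θ := fun θ => by simp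
  rw [inner_pencil (tot_pos hone).ne', lift_one, mulOp_one, one_apply_eq_self]
  have h := (innerSL ℝ (resolv x)).hasSum (hasSum_resolv_apply x)
  simp only [innerSL_apply_apply] at h
  refine h.congr_fun fun m => ?_
  rw [real_inner_smul_right, ← real_inner_self_eq_norm_sq, show ⟪resolv x, lev m x⟫ =
    ⟪lev m (resolv x), lev m x⟫ by rw [inner_lev, lev_lev, if_pos rfl], lev_resolv,
    real_inner_smul_left]
  ring

theorem hasSum_norm_lev (x : L2S) : HasSum (fun m => ‖lev m x‖ ^ 2) (‖x‖ ^ 2) := by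
  have h := (innerSL ℝ x).hasSum (hasSum_lev x)
  simp only [innerSL_apply_apply, real_inner_self_eq_norm_sq] at h
  refine h.congr_fun fun m => ?_
  rw [← real_inner_self_eq_norm_sq, inner_lev, lev_lev, if_pos rfl]

theorem resCoef_sq_eq (l : ℕ) : resCoef l ^ 2 = ((l : ℝ) * (l + 1))⁻¹ := by
  rw [resCoef, inv_pow, Real.sq_sqrt (by positivity)]

/-- The eigenvalues of the round pencil. -/
theorem nu_pencil_one {i l : ℕ} (hl : l ^ 2 ≤ i + 1) (hl' : i + 1 < (l + 1) ^ 2) :
    nu (pencil 1) i = ((l : ℝ) * (l + 1))⁻¹ := by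
  have hl1 : 1 ≤ l := by
    rcases Nat.eq_zero_or_pos l with rfl | h
    · norm_num at hl'
    · exact h
  have hanti : ∀ {m n : ℕ}, 1 ≤ m → m ≤ n → ((n : ℝ) * (n + 1))⁻¹ ≤ ((m : ℝ) * (m + 1))⁻¹ :=
    fun {m n} hm hmn => by
      have : (1 : ℝ) ≤ m := by exact_mod_cast hm
      have : (m : ℝ) ≤ n := by exact_mod_cast hmn
      refine inv_anti₀ (by positivity) ?_
      gcongr
  obtain ⟨v, hv⟩ := exists_linearIndependent_of_le_finrank
    (show i + 1 ≤ Module.finrank ℝ (lowSpace l) by rw [finrank_lowSpace]; omega)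
  set W := Submodule.span ℝ (Set.range fun a => (v a : L2S))
  have hW : Module.finrank ℝ W = i + 1 := by
    rw [finrank_span_eq_card (b := fun a => (v a : L2S))
      (hv.map' (lowSpace l).subtype (Submodule.ker_subtype _)), Fintype.card_fin]
  have hlow : ((l : ℝ) * (l + 1))⁻¹ ∈ nuSet (pencil 1) i := by
    refine ⟨W, hW, fun x hx => ?_⟩
    have hxl : x ∈ lowSpace l := Submodule.span_le.2 (by rintro _ ⟨a, rfl⟩; exact (v a).2) hx
    refine hasSum_le (fun m => ?_) ((hasSum_norm_lev x).mul_left _) (form_pencil_one x)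
    rcases (show (m = 0 ∨ l < m) ∨ (1 ≤ m ∧ m ≤ l) by omega) with hm | ⟨h1, h2⟩
    · rw [lev_lowSpace hm x hxl, norm_zero]; simp
    · rw [resCoef_sq_eq]
      exact mul_le_mul_of_nonneg_right (hanti h1 h2) (sq_nonneg _)
  refine le_antisymm (csSup_le ⟨_, hlow⟩ ?_) (le_csSup (bddAbove_nuSet _ i) hlow)
  rintro b ⟨U, hU, hb⟩
  have : FiniteDimensional ℝ U := FiniteDimensional.of_finrank_pos (by omega)
  obtain ⟨x, hxU, hxS, hx1⟩ := exists_unit_orth (W := U) (S := lowSpace (l - 1))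
    (by rw [finrank_lowSpace, hU, show l - 1 + 1 = l by omega]
        have : 1 ≤ l ^ 2 := Nat.one_le_pow _ _ hl1
        omega)
  have h1 := hb x hxU
  have h2 : ⟪pencil 1 x, x⟫ ≤ ((l : ℝ) * (l + 1))⁻¹ * ‖x‖ ^ 2 := by
    refine hasSum_le (fun m => ?_) (form_pencil_one x) ((hasSum_norm_lev x).mul_left _)
    rcases (show m = 0 ∨ (1 ≤ m ∧ m ≤ l - 1) ∨ l ≤ m by omega) with rfl | ⟨hm, hm'⟩ | hm
    · rw [resCoef_zero]
      have : 0 ≤ ((l : ℝ) * (l + 1))⁻¹ := by positivity
      nlinarith [sq_nonneg ‖lev 0 x‖]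
    · rw [show lev m x = 0 from (Submodule.starProjection_apply_eq_zero_iff _).2
        (Submodule.orthogonal_le (levSpace_le_lowSpace hm hm') hxS), norm_zero]
      simp
    · rw [resCoef_sq_eq]
      exact mul_le_mul_of_nonneg_right (hanti hl1 hm) (sq_nonneg _)
  rw [hx1] at h1 h2
  linarith

theorem nu_pencil_one_sqrt (i : ℕ) :
    nu (pencil 1) i = ((Nat.sqrt (i + 1) : ℝ) * (Nat.sqrt (i + 1) + 1))⁻¹ :=
  nu_pencil_one (Nat.sqrt_le' _) (Nat.lt_succ_sqrt' _)

/-- The only open gaps of the round pencil are between levels. -/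
theorem gap_pencil_one {j : ℕ} (hj : 1 ≤ j) :
    Gap (pencil 1) j ↔ ∃ l, j + 1 = l ^ 2 := by
  obtain ⟨i, rfl⟩ : ∃ i, j = i + 1 := ⟨j - 1, by omega⟩
  rw [Gap, Nat.add_sub_cancel]
  set a := Nat.sqrt (i + 1)
  have ha : a ^ 2 ≤ i + 1 := Nat.sqrt_le' (i + 1)
  have ha' : i + 1 < (a + 1) ^ 2 := Nat.lt_succ_sqrt' (i + 1)
  have ha1 : 1 ≤ a := Nat.sqrt_pos.2 i.succ_pos
  by_cases h : i + 1 + 1 = (a + 1) ^ 2
  · refine iff_of_true ⟨hj, ?_⟩ ⟨a + 1, h⟩
    rw [nu_pencil_one (l := a + 1) (by omega) (by rw [h]; exact Nat.pow_lt_pow_left (by omega) two_ne_zero),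
      nu_pencil_one ha ha']
    have : (1 : ℝ) ≤ a := by exact_mod_cast ha1
    refine inv_strictAnti₀ (by positivity) ?_
    push_cast
    nlinarith
  · refine iff_of_false (fun hg => ?_) ?_
    · rw [nu_pencil_one (l := a) (by omega) (by omega), nu_pencil_one ha ha'] at hg
      exact lt_irrefl _ hg.2
    · rintro ⟨l, hl⟩
      rcases lt_or_ge a l with hal | hal
      · have := Nat.pow_le_pow_left (show a + 1 ≤ l from hal) 2
        omega
      · have := Nat.pow_le_pow_left hal 2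
        omega

/-! ### The budget -/

/-- The rest exponent of slot `j`: the positive root of `x ^ 2 + x = 1 / nu (pencil w) (j - 1)`. -/
def restPsi (w : C(Sph 3, ℝ)) (j : ℕ) : ℝ := (√(1 + 4 / nu (pencil w) (j - 1)) - 1) / 2

theorem restPsi_spec {w : C(Sph 3, ℝ)} {j : ℕ} (h : 0 < nu (pencil w) (j - 1)) :
    0 < restPsi w j ∧ restPsi w j ^ 2 + restPsi w j = 1 / nu (pencil w) (j - 1) := by
  have h1 : 0 < 4 / nu (pencil w) (j - 1) := by positivity
  have h2 : 1 < √(1 + 4 / nu (pencil w) (j - 1)) := by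
    rw [Real.lt_sqrt zero_le_one]; linarith
  refine ⟨by rw [restPsi]; linarith, ?_⟩
  have h3 := Real.sq_sqrt (show 0 ≤ 1 + 4 / nu (pencil w) (j - 1) by linarith)
  rw [restPsi]
  linear_combination h3 / 4

/-- An upper bound for the rest exponent of slot `j`. -/
def psiBound (j : ℕ) : ℝ := 5893 / 5000 * ((Nat.sqrt j : ℝ) + 1 / 2) - 1 / 2

/-- Near the round weight, for a scale at least `18 / 25`, the exponents obey `psiBound`. -/
theorem exists_restPsi_le : ∃ δ > (0 : ℝ), ∀ w : C(Sph 3, ℝ), ‖w - 1‖ < δ → ∀ c : ℝ, 18 / 25 ≤ c →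
    (∀ θ, 0 < w θ) ∧ ∀ j, 1 ≤ j → j ≤ 960 →
      0 < restPsi (c • w) j ∧ restPsi (c • w) j ≤ psiBound j := by
  have hone : ∀ θ : Sph 3, (0 : ℝ) < (1 : C(Sph 3, ℝ)) θ := fun θ => by simp
  have hev := (eventually_pos hone).and
    ((continuousAt_pencil (tot_pos hone).ne').eventually
      (Metric.ball_mem_nhds _ (show (0 : ℝ) < 1 / 10000000000 by norm_num)))
  obtain ⟨δ, hδ, hb⟩ := Metric.eventually_nhds_iff.1 hev
  refine ⟨δ, hδ, fun w hw c hc => ?_⟩
  obtain ⟨hpos, hball⟩ := hb (show dist w 1 < δ by rwa [dist_eq_norm])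
  rw [dist_eq_norm] at hball
  refine ⟨hpos, fun j hj hj' => ?_⟩
  set l := Nat.sqrt j
  have hν1 : nu (pencil 1) (j - 1) = ((l : ℝ) * (l + 1))⁻¹ := by
    rw [nu_pencil_one_sqrt, show j - 1 + 1 = j by omega]
  have hl1 : (1 : ℝ) ≤ l := by exact_mod_cast Nat.sqrt_pos.2 (show 0 < j by omega)
  have hl2 : (l : ℝ) ≤ 30 := by
    exact_mod_cast Nat.lt_succ_iff.1 (Nat.sqrt_lt'.2 (show j < 31 ^ 2 by omega))
  set D := (l : ℝ) * (l + 1) with hD
  have hD1 : 0 < D := by positivity
  have hD2 : D ≤ 1000 := by rw [hD]; nlinarith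
  have hνw : 9999 / 10000 * D⁻¹ ≤ nu (pencil w) (j - 1) := by
    have h1 := (abs_le.1 (abs_nu_sub_le (pencil w) (pencil 1) (j - 1))).1
    have h2 : (1000 : ℝ)⁻¹ ≤ D⁻¹ := inv_anti₀ hD1 hD2
    rw [hν1] at h1
    nlinarith [hball, h1, h2]
  have hνc : nu (pencil (c • w)) (j - 1) = c * nu (pencil w) (j - 1) := by
    rw [pencil_smul, nu_smul _ (by linarith)]
  have hνpos : 0 < nu (pencil w) (j - 1) := lt_of_lt_of_le (by positivity) hνw
  have hνcpos : 0 < nu (pencil (c • w)) (j - 1) := by rw [hνc]; exact mul_pos (by linarith) hνpos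
  obtain ⟨hp, he⟩ := restPsi_spec hνcpos
  refine ⟨hp, ?_⟩
  have hbig : 1 / nu (pencil (c • w)) (j - 1) ≤ psiBound j ^ 2 + psiBound j := by
    have hlow : 18 / 25 * (9999 / 10000) * D⁻¹ ≤ nu (pencil (c • w)) (j - 1) := by
      rw [hνc, mul_assoc]
      exact mul_le_mul hc hνw (by positivity) (by linarith)
    refine (one_div_le_one_div_of_le (by positivity) hlow).trans ?_
    rw [one_div, mul_inv, inv_inv, psiBound]
    rw [hD]
    nlinarith
  have hb0 : 0 ≤ psiBound j := by rw [psiBound]; linarith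
  nlinarith [he, hbig]

/-- Mirrored slots have a pair sum of at most `50.86`. -/
theorem psiBound_pair {j : ℕ} (hj : j ≤ 954) : psiBound j + psiBound (954 - j) ≤ 2543 / 50 := by
  have h : Nat.sqrt j + Nat.sqrt (954 - j) ≤ 43 := by
    by_contra hcon
    have h1 := Nat.pow_le_pow_left (show 44 ≤ Nat.sqrt j + Nat.sqrt (954 - j) by omega) 2
    have h2 := Nat.sqrt_le' j
    have h3 := Nat.sqrt_le' (954 - j)
    have h4 : (Nat.sqrt j + Nat.sqrt (954 - j)) ^ 2 ≤
        2 * (Nat.sqrt j ^ 2 + Nat.sqrt (954 - j) ^ 2) := add_sq_le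
    omega
  have h' : (Nat.sqrt j : ℝ) + Nat.sqrt (954 - j) ≤ 43 := by exact_mod_cast h
  simp only [psiBound]
  linarith

theorem psiBound_mono {i j : ℕ} (h : i ≤ j) : psiBound i ≤ psiBound j := by
  have : (Nat.sqrt i : ℝ) ≤ Nat.sqrt j := by exact_mod_cast Nat.sqrt_le_sqrt h
  simp only [psiBound]
  linarith

/-- The budget at the rests. -/
theorem exists_rest_budget : ∃ δ > (0 : ℝ), ∃ η > (0 : ℝ), ∀ w : C(Sph 3, ℝ), ‖w - 1‖ < δ →
    ∀ c : ℝ, 18 / 25 ≤ c → (∀ θ, 0 < w θ) ∧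
      (∀ j ∈ Icc 225 729, restPsi (c • w) j + restPsi (c • w) (954 - j) ≤ 52 - η) ∧
      (∀ j, 1 ≤ j → j ≤ 224 → restPsi (c • w) j ≤ 26 - η) ∧
      (∀ j, 1 ≤ j → j ≤ 730 → 0 < restPsi (c • w) j ∧ restPsi (c • w) j ≤ 32) := by
  obtain ⟨δ, hδ, h⟩ := exists_restPsi_le
  refine ⟨δ, hδ, 1, one_pos, fun w hw c hc => ?_⟩
  obtain ⟨hpos, hb⟩ := h w hw c hc
  refine ⟨hpos, fun j ⟨hj, hj'⟩ => ?_, fun j hj hj' => ?_, fun j hj hj' => ?_⟩
  · have := (hb j (by omega) (by omega)).2
    have := (hb (954 - j) (by omega) (by omega)).2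
    have := psiBound_pair (show j ≤ 954 by omega)
    linarith
  · refine (hb j hj (by omega)).2.trans ((psiBound_mono hj').trans ?_)
    rw [psiBound, show Nat.sqrt 224 = 14 from (Nat.eq_sqrt'.2 ⟨by norm_num, by norm_num⟩).symm]
    norm_num
  · refine ⟨(hb j hj (by omega)).1, (hb j hj (by omega)).2.trans ((psiBound_mono hj').trans ?_)⟩
    rw [psiBound, show Nat.sqrt 730 = 27 from (Nat.eq_sqrt'.2 ⟨by norm_num, by norm_num⟩).symm]
    norm_num

end

end Vale.Agent.P225.Disproof
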