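import Vale.Agent.P225.Disproof.GapAlong
import Vale.Agent.P225.Disproof.FaceSign
import Vale.Agent.P225.Disproof.LoopWord
import Vale.Agent.P225.Disproof.RestBudget
import Vale.Agent.P225.Disproof.BlockTimes
import Mathlib.Analysis.InnerProductSpace.Calculus
import Mathlib.Analysis.Calculus.BumpFunction.InnerProduct

/-!
# P225: one level per gap along the loops of the word

For each gap of the window one smooth function of the shape is a good level wherever that gap is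
open along the loops, and equals the rest exponent plus `θ` at the rest shape.
-/

namespace Vale.Agent.P225.Disproof

open MeasureTheory Set Filter Topology
open scoped RealInnerProductSpace

noncomputable section

namespace GoodLevel

variable {w : C(Sph 3, ℝ)} {j j' : ℕ} {m m' g δ : ℝ}

/-- Good levels of different gaps are separated. -/
theorem lev_lt (h : GoodLevel w j m g δ) (h' : GoodLevel w j' m' g δ) (hw : ∀ θ, 0 < w θ)
    (hjj : j < j') : m + g < m' - g := by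
  obtain ⟨h1, h2, h3, h4, -, -, h7⟩ := h
  obtain ⟨-, k2, -, -, k5, k6, -⟩ := h'
  have hnu : nu (pencil w) (j' - 1) ≤ nu (pencil w) j :=
    (goodOp_pencil hw).nu_antitone (by omega)
  have hmid : (1 - δ) / nu (pencil w) j ≤ (1 + δ) / (nu (pencil w) (j' - 1) - δ) :=
    div_le_div₀ (by linarith) (by linarith) (sub_pos.2 k5) (by linarith)
  by_contra hc
  push Not at hc
  have hx : 0 ≤ m' - g := sub_nonneg.2 k2
  have h8 := phiHigh_mono (δ := δ) le_rfl h3.le hx hc
  have h9 : (m' - g) ^ 2 + (1 - δ) * (m' - g) - δ ≤ (m' - g) ^ 2 + (1 + δ) * (m' - g) + δ := by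
    nlinarith [mul_nonneg h3.le hx]
  linarith

/-- A good level stays good at nearby weights. -/
theorem eventually (h : GoodLevel w j m g δ) (hw : ∀ θ, 0 < w θ) :
    ∀ᶠ v in 𝓝 w, GoodLevel v j m g δ := by
  obtain ⟨h1, h2, h3, h4, h5, h6, h7⟩ := h
  have hc : ∀ i, ContinuousAt (fun v => nu (pencil v) i) w := fun i =>
    ((continuous_nu i).continuousAt (x := pencil w)).comp
      (f := pencil) (continuousAt_pencil (tot_pos hw).ne')
  filter_upwards [continuousAt_const.eventually_lt (hc (j - 1)) h5,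
    ((continuousAt_const.div ((hc (j - 1)).sub continuousAt_const)
      (sub_pos.2 h5).ne').eventually_lt continuousAt_const h6),
    continuousAt_const.eventually_lt (continuousAt_const.div (hc j)
      ((goodOp_pencil hw).nu_pos j).ne') h7] with v a b c
  exact ⟨h1, h2, h3, h4, a, b, c⟩

end GoodLevel

/-- Margins for a level strictly inside a gap. -/
theorem exists_goodLevel {w : C(Sph 3, ℝ)} {j : ℕ} {m : ℝ} (hm : 0 < m)
    (hf : 0 < nu (pencil w) (j - 1))
    (hlo : 1 / nu (pencil w) (j - 1) < m ^ 2 + m) (hhi : m ^ 2 + m < 1 / nu (pencil w) j) :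
    ∃ r > (0 : ℝ), GoodLevel w j m r r := by
  set f := nu (pencil w) (j - 1)
  set h := nu (pencil w) j
  have e1 : ∀ᶠ r : ℝ in 𝓝 0, (1 + r) / (f - r) < (m - r) ^ 2 + (1 - r) * (m - r) - r :=
    ((continuousAt_const.add continuousAt_id).div (continuousAt_const.sub continuousAt_id)
      (by simpa using hf.ne')).eventually_lt (by fun_prop) (by simpa using hlo)
  have e2 : ∀ᶠ r : ℝ in 𝓝 0, (m + r) ^ 2 + (1 + r) * (m + r) + r < (1 - r) / h :=
    ContinuousAt.eventually_lt (by fun_prop) (by fun_prop) (by simpa using hhi)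
  have e3 := ((e1.and e2).and ((eventually_lt_nhds hm).and
    ((eventually_lt_nhds hf).and (eventually_lt_nhds (show (0 : ℝ) < 1 from one_pos))))).filter_mono
    (nhdsWithin_le_nhds (s := Ioi (0 : ℝ)))
  obtain ⟨r, ⟨⟨a, b⟩, c, d, e⟩, hr⟩ :=
    (e3.and (eventually_nhdsWithin_of_forall fun x (hx : x ∈ Ioi (0 : ℝ)) => hx)).exists
  exact ⟨r, hr, hr, le_of_lt c, hr, le_of_lt e, d, a, b⟩

/-- Above the rest exponents there are good levels for finitely many open gaps at once. -/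
theorem exists_rest_levels {w : C(Sph 3, ℝ)} (hw : ∀ θ, 0 < w θ) (S : Finset ℕ)
    (hgap : ∀ j ∈ S, Gap (pencil w) j) {η : ℝ} (hη : 0 < η) :
    ∃ θ, 0 < θ ∧ θ ≤ η ∧ ∀ j ∈ S, ∃ r > (0 : ℝ), GoodLevel w j (restPsi w j + θ) r r := by
  have hpos := (goodOp_pencil hw).nu_pos
  have hev : ∀ j ∈ S, ∀ᶠ θ : ℝ in 𝓝 0,
      (restPsi w j + θ) ^ 2 + (restPsi w j + θ) < 1 / nu (pencil w) j := fun j hj => by
    refine ContinuousAt.eventually_lt (by fun_prop) continuousAt_const ?_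
    simp only [add_zero, (restPsi_spec (hpos (j - 1))).2]
    exact one_div_lt_one_div_of_lt (hpos j) (hgap j hj).2
  have e := (((eventually_all_finset S).2 hev).and (eventually_lt_nhds hη)).filter_mono
    (nhdsWithin_le_nhds (s := Ioi (0 : ℝ)))
  obtain ⟨θ, ⟨h1, h2⟩, h3⟩ :=
    (e.and (eventually_nhdsWithin_of_forall fun x (hx : x ∈ Ioi (0 : ℝ)) => hx)).exists
  refine ⟨θ, h3, h2.le, fun j hj => ?_⟩
  obtain ⟨hp, hps⟩ := restPsi_spec (hpos (j - 1))
  have hθ : (0 : ℝ) < θ := h3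
  exact exists_goodLevel (by linarith) (hpos _) (by rw [← hps]; nlinarith) (h1 j hj)

variable {X : Type*} [NormedAddCommGroup X] [InnerProductSpace ℝ X]
  (W : X →L[ℝ] C(Sph 3, ℝ))

/-- A smooth good level on a compact family with a prescribed value at one point. -/
theorem exists_pinned_level [FiniteDimensional ℝ X] {Q : Set X} (hQ : IsCompact Q) {p0 : X} {j : ℕ}
    (hw : ∀ q ∈ Q, ∀ θ, 0 < W q θ) (hw0 : ∀ θ, 0 < W p0 θ)
    (hgap : ∀ q ∈ Q, Gap (pencil (W q)) j) {m0 r0 : ℝ} (h0 : GoodLevel (W p0) j m0 r0 r0) :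
    ∃ g > (0 : ℝ), ∃ (μ : X → ℝ) (top C : ℝ), ContDiff ℝ (⊤ : ℕ∞) μ ∧ μ p0 = m0 ∧
      ∀ q ∈ Q, GoodLevel (W q) j (μ q) g g ∧ μ q ≤ top ∧ ‖fderiv ℝ μ q‖ ≤ C := by
  obtain ⟨δ1, hδ1, g1, hg1, L1, μ1, top1, C1, hμ1, hμ1Q⟩ :=
    exists_smooth_level hQ W.continuous.continuousOn hw hgap
  set g := min r0 (min δ1 g1)
  have hg : 0 < g := lt_min h0.1 (lt_min hδ1 hg1)
  have h0' : GoodLevel (W p0) j m0 g g :=
    h0.mono hw0 hg (min_le_left _ _) hg (min_le_left _ _)
  obtain ⟨r, hr, hball⟩ := Metric.eventually_nhds_iff.1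
    (W.continuous.continuousAt.eventually (h0'.eventually hw0))
  set f : ContDiffBump p0 := ⟨r / 2, r, half_pos hr, half_lt_self hr⟩
  set μ := fun q => f q * m0 + (1 - f q) * μ1 q
  have hμ : ContDiff ℝ (⊤ : ℕ∞) μ :=
    (f.contDiff.mul contDiff_const).add ((contDiff_const.sub f.contDiff).mul hμ1)
  have hp : μ p0 = m0 := by
    simp [μ, f.one_of_mem_closedBall (Metric.mem_closedBall_self f.rIn_pos.le)]
  obtain ⟨top, htop⟩ := hQ.exists_bound_of_continuousOn hμ.continuous.continuousOn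
  obtain ⟨C, hC⟩ := hQ.exists_bound_of_continuousOn (hμ.continuous_fderiv (by simp)).continuousOn
  refine ⟨g, hg, μ, top, C, hμ, hp, fun q hq =>
    ⟨?_, (le_abs_self _).trans (htop q hq), hC q hq⟩⟩
  have h1 := (hμ1Q q hq).1.mono (hw q hq) hg ((min_le_right _ _).trans (min_le_right _ _)) hg
    ((min_le_right _ _).trans (min_le_left _ _))
  by_cases hd : dist q p0 < r
  · exact GoodLevel.convex (hball hd) h1 ⟨f.nonneg, f.le_one⟩
  · simp only [μ, f.zero_of_le_dist (not_lt.1 hd), zero_mul, sub_zero, one_mul, zero_add]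
    exact h1

/-- The gaps along the loops of the word at the rest shape `p0`. -/
structure LoopsOK (L : LoopFam X wordLen) (p0 : X) : Prop where
  pos_rest : ∀ θ, 0 < W p0 θ
  pos : ∀ k, ∀ u ∈ Icc (0 : ℝ) 1, ∀ x θ, 0 < W (p0 + L.path k u x) θ
  rest : ∀ l ∈ Icc 224 729, Gap (pencil (W p0)) l
  others : ∀ k : Fin wordLen, ∀ u ∈ Icc (0 : ℝ) 1, ∀ x, ∀ l ∈ Icc 224 729, l ≠ wordGap k →
    Gap (pencil (W (p0 + L.path k u x))) l
  face : ∀ (k : Fin wordLen) (u x : ℝ), (u = 0 ∨ u = 1) → Gap (pencil (W (p0 + L.path k u x))) (wordGap k)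
  turn_zero : ∀ k : Fin wordLen, TurnsBy (wordGap k)
    (fun x => topProj (pencil (W (p0 + L.path k 0 x))) (wordGap k)) 0 1 (-1)
  turn_one : ∀ k : Fin wordLen, TurnsBy (wordGap k)
    (fun x => topProj (pencil (W (p0 + L.path k 1 x))) (wordGap k)) 0 1 1

variable (L : LoopFam X wordLen) (p0 : X)

/-- The parameters of loop `k` for which gap `l` stays open. -/
def openParams (k : Fin wordLen) (l : ℕ) : Set ℝ :=
  Icc (0 : ℝ) 1 ∩ {u | wordGap k ≠ l ∨ u = 0 ∨ u = 1}

/-- The shapes at which gap `l` is open along the loops. -/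
def openShapes (l : ℕ) : Set X :=
  insert p0 (⋃ k, (fun z : ℝ × ℝ => p0 + L.path k z.1 z.2) ''
    (openParams k l ×ˢ Icc (1 / 4 : ℝ) (1 / 2)))

theorem isCompact_openShapes (l : ℕ) : IsCompact (openShapes L p0 l) := by
  refine (isCompact_iUnion fun k => ?_).insert p0
  refine IsCompact.image ((isCompact_Icc.inter_right ?_).prod isCompact_Icc)
    (continuous_const.add (L.smooth k).continuous)
  by_cases hk : wordGap k = l
  · simp only [hk, ne_eq, not_true_eq_false, false_or]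
    exact (isClosed_singleton (x := (0 : ℝ))).union (isClosed_singleton (x := (1 : ℝ)))
  · simp [hk]

theorem mem_openShapes (k : Fin wordLen) {l : ℕ} {u : ℝ} (hu : u ∈ Icc (0 : ℝ) 1)
    (hl : wordGap k ≠ l ∨ u = 0 ∨ u = 1) (x : ℝ) : p0 + L.path k u x ∈ openShapes L p0 l := by
  by_cases hx : x ∈ Icc (1 / 4 : ℝ) (1 / 2)
  · exact Or.inr (mem_iUnion.2 ⟨k, (u, x), ⟨⟨hu, hl⟩, hx⟩, rfl⟩)
  · rw [L.supp k u x hx, add_zero]
    exact mem_insert _ _

theorem rest_mem_openShapes (l : ℕ) : p0 ∈ openShapes L p0 l := mem_insert _ _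

variable {W L p0}

theorem LoopsOK.on_openShapes (h : LoopsOK W L p0) {l : ℕ} (hl : l ∈ Icc 224 729) {q : X}
    (hq : q ∈ openShapes L p0 l) : (∀ θ, 0 < W q θ) ∧ Gap (pencil (W q)) l := by
  rcases mem_insert_iff.1 hq with rfl | hq
  · exact ⟨h.pos_rest, h.rest l hl⟩
  obtain ⟨k, ⟨u, x⟩, ⟨⟨hu, hlu⟩, -⟩, rfl⟩ := mem_iUnion.1 hq
  refine ⟨h.pos k u hu x, ?_⟩
  by_cases hk : wordGap k = l
  · subst hk
    exact h.face k u x (hlu.resolve_left (by simp))
  · exact h.others k u hu x l hl (Ne.symm hk)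

variable (W L p0)

/-- The levels of the window, one function of the shape per gap, and their constants. -/
structure Levels where
  lv : ℕ → X → ℝ
  θ : ℝ
  g : ℝ
  top : ℝ
  C : ℝ
  N0 : ℕ
  g_pos : 0 < g
  θ_pos : 0 < θ
  C_nonneg : 0 ≤ C
  g_le_top : g ≤ top
  smooth : ∀ l, ContDiff ℝ (⊤ : ℕ∞) (lv l)
  rest : ∀ l ∈ Icc 224 729, lv l p0 = restPsi (W p0) l + θ
  good : ∀ l ∈ Icc 224 729, ∀ q ∈ openShapes L p0 l,
    GoodLevel (W q) l (lv l q) g g ∧ lv l q ≤ top ∧ ‖fderiv ℝ (lv l) q‖ ≤ C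
  trunc : ∀ l ∈ Icc 224 729, ∀ q ∈ openShapes L p0 l, ∀ N, N0 ≤ N →
    2 * ‖W q‖ / ((N : ℝ) + 1) ≤ g

variable {W L p0}

/-- Levels exist, arbitrarily close above the rest exponents. -/
theorem exists_levels [FiniteDimensional ℝ X] (h : LoopsOK W L p0) {η : ℝ} (hη : 0 < η) :
    ∃ Λ : Levels W L p0, Λ.θ ≤ η := by
  obtain ⟨θ, hθ, hθη, hr⟩ := exists_rest_levels h.pos_rest (Finset.Icc 224 729)
    (fun j hj => h.rest j (Finset.mem_Icc.1 hj)) hη
  choose! r hr0 hr using hr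
  choose! g hg μ top C hμ hμ0 hμQ using fun l (hl : l ∈ Finset.Icc 224 729) =>
    exists_pinned_level W (isCompact_openShapes L p0 l)
      (fun q hq => (h.on_openShapes (Finset.mem_Icc.1 hl) hq).1) h.pos_rest
      (fun q hq => (h.on_openShapes (Finset.mem_Icc.1 hl) hq).2) (hr l hl)
  choose Wb hWb using fun l => (isCompact_openShapes L p0 l).exists_bound_of_continuousOn
    W.continuous.continuousOn
  set S := Finset.Icc 224 729
  obtain ⟨G, hG0, hG⟩ : ∃ G : ℝ, 0 < G ∧ ∀ l ∈ S, G ≤ g l := by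
    have hs : 0 ≤ ∑ l ∈ S, (g l)⁻¹ := Finset.sum_nonneg fun l hl => inv_nonneg.2 (hg l hl).le
    refine ⟨(1 + ∑ l ∈ S, (g l)⁻¹)⁻¹, inv_pos.2 (by linarith), fun l hl =>
      inv_le_of_inv_le₀ (hg l hl) ?_⟩
    linarith [Finset.single_le_sum (f := fun i => (g i)⁻¹)
      (fun i hi => inv_nonneg.2 (hg i hi).le) hl]
  set T := G + ∑ l ∈ S, |top l|
  obtain ⟨N0, hN0⟩ := exists_nat_ge (2 * (∑ l ∈ S, |Wb l|) / G)
  have hmem : ∀ {l}, l ∈ Icc 224 729 → l ∈ S := fun hl => Finset.mem_Icc.2 hl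
  have hs1 : (0 : ℝ) ≤ ∑ l ∈ S, |top l| := Finset.sum_nonneg fun _ _ => abs_nonneg _
  refine ⟨{
    lv := fun l => if l ∈ S then μ l else fun _ => 0
    θ := θ, g := G, top := T, C := ∑ l ∈ S, |C l|, N0 := N0
    g_pos := hG0, θ_pos := hθ, C_nonneg := Finset.sum_nonneg fun _ _ => abs_nonneg _
    g_le_top := le_add_of_nonneg_right hs1
    smooth := fun l => ?_
    rest := fun l hl => ?_
    good := fun l hl q hq => ?_
    trunc := fun l hl q hq N hN => ?_ }, hθη⟩
  · split_ifs with hl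
    · exact hμ l hl
    · exact contDiff_const
  · rw [if_pos (hmem hl)]
    exact hμ0 l (hmem hl)
  · rw [if_pos (hmem hl)]
    obtain ⟨a, b, c⟩ := hμQ l (hmem hl) q hq
    refine ⟨a.mono (h.on_openShapes hl hq).1 hG0 (hG l (hmem hl)) hG0 (hG l (hmem hl)), ?_, ?_⟩
    · linarith [le_abs_self (top l), Finset.single_le_sum (f := fun i => |top i|)
        (fun i _ => abs_nonneg _) (hmem hl)]
    · exact (c.trans (le_abs_self _)).trans
        (Finset.single_le_sum (f := fun i => |C i|) (fun i _ => abs_nonneg _) (hmem hl))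
  · have h1 : ‖W q‖ ≤ ∑ i ∈ S, |Wb i| := ((hWb l q hq).trans (le_abs_self _)).trans
      (Finset.single_le_sum (f := fun i => |Wb i|) (fun i _ => abs_nonneg _) (hmem hl))
    rw [div_le_iff₀ (by positivity)]
    rw [div_le_iff₀ hG0] at hN0
    have : (N0 : ℝ) ≤ N := by exact_mod_cast hN
    nlinarith

namespace Levels

variable (Λ : Levels W L p0)

/-- The rest level of the flag level `l`. -/
def lev (l : ℕ) : ℝ := Λ.lv (l - 1) p0

theorem lev_eq {l : ℕ} (h1 : botDim ≤ l) (h2 : l ≤ slowDim) :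
    Λ.lev l = restPsi (W p0) (l - 1) + Λ.θ := by
  simp only [botDim, slowDim] at h1 h2
  exact Λ.rest (l - 1) ⟨by omega, by omega⟩

theorem mem_win {l : ℕ} (h1 : botDim ≤ l) (h2 : l ≤ slowDim) : l - 1 ∈ Icc 224 729 := by
  simp only [botDim, slowDim] at h1 h2
  exact ⟨by omega, by omega⟩

theorem lev_good {l : ℕ} (h1 : botDim ≤ l) (h2 : l ≤ slowDim) :
    GoodLevel (W p0) (l - 1) (Λ.lev l) Λ.g Λ.g ∧ Λ.lev l ≤ Λ.top :=
  let h := Λ.good (l - 1) (mem_win h1 h2) p0 (rest_mem_openShapes L p0 _)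
  ⟨h.1, h.2.1⟩

theorem lev_step (h : LoopsOK W L p0) {l : ℕ} (h1 : botDim ≤ l) (h2 : l < slowDim) :
    Λ.lev l + 2 * Λ.g ≤ Λ.lev (l + 1) := by
  have := (Λ.lev_good h1 h2.le).1.lev_lt (Λ.lev_good (by omega) h2).1 h.pos_rest
    (by simp only [botDim] at h1; omega)
  linarith

end Levels

/-! ### The shapes along the control -/

/-- The control runs the loops of the word at the rest shape. -/
structure CtrlOf (C : Ctrl X) (L : LoopFam X wordLen) (p0 : X) : Prop where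
  hP : C.sch.P = wordLen
  path_eq : ∀ k u x, C.loops.path k u x = L.path (Fin.cast hP k) u x
  p0_eq : C.p0 = p0

namespace CtrlOf

variable {C : Ctrl X} (hC : CtrlOf C L p0)
include hC

/-- In a slot, the gaps other than that of the loop are open; on a face all are. -/
theorem mem_slot {s : ℕ → ℝ} (hs : ∀ n, s n ∈ Icc (0 : ℝ) 1) {h k l : ℕ} (hk : k < C.sch.P)
    (hl : wordGap k ≠ l ∨ s (h * C.sch.P + k) = 0 ∨ s (h * C.sch.P + k) = 1) {t : ℝ}
    (ht : t ∈ Icc (C.sch.ck h k) (C.sch.ck h (k + 1))) : C.rho s t ∈ openShapes L p0 l := by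
  rw [C.rho_ck s hk ht, hC.p0_eq, hC.path_eq]
  exact mem_openShapes L p0 _ (hs _) (by simpa using hl) _

/-- Away from the middle of its slot, and in the rest, the shape is the rest shape. -/
theorem eq_rest {s : ℕ → ℝ} {h k : ℕ} (hk : k ≤ C.sch.P) {t : ℝ}
    (ht : t ∈ Icc (C.sch.ck h k) (C.sch.ck h (k + 1)))
    (hout : k < C.sch.P → t < C.sch.ck h k + C.sch.tau h / 4 ∨
      C.sch.ck h k + C.sch.tau h / 2 < t) : C.rho s t = p0 := by
  rcases hk.eq_or_lt with rfl | hk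
  · rw [C.rho_rest s h ht, hC.p0_eq]
  · rw [C.rho_ck s hk ht, C.loops.supp, add_zero, hC.p0_eq]
    intro hx
    rw [mem_Icc, le_div_iff₀ (C.sch.tau_pos h), div_le_iff₀ (C.sch.tau_pos h)] at hx
    rcases hout hk with h1 | h1 <;> linarith [hx.1, hx.2]

/-- From the start of the schedule the top gap is open. -/
theorem mem_top {s : ℕ → ℝ} (hs : ∀ n, s n ∈ Icc (0 : ℝ) 1) {t : ℝ} (ht : C.sch.t1 ≤ t) :
    C.rho s t ∈ openShapes L p0 729 := by
  rw [C.rho_eq_shape s (C.ht1.trans ht), Sched.shape, hC.p0_eq]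
  rcases (C.sch.slots C.loops s).total_cases t with ⟨n, -, heq⟩ | heq
  · rw [heq.eq_of_nhds]
    simp only [Sched.slots, hC.path_eq]
    refine mem_openShapes L p0 _ (hs n) (Or.inl ?_) _
    have := (wordGap_mem (Fin.cast hC.hP ⟨n % C.sch.P, Nat.mod_lt n C.sch.hP⟩).2).2
    omega
  · rw [heq.eq_of_nhds]
    simpa using rest_mem_openShapes L p0 729

theorem start_rest (s : ℕ → ℝ) : C.rho s C.sch.t1 = p0 := by
  rw [C.rho_of_le s le_rfl, C.switch_of_ge C.ht1, hC.p0_eq]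
  simp

end CtrlOf

end

end Vale.Agent.P225.Disproof
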