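import Vale.Agent.P225.Disproof.TimeBudget
import Vale.Agent.P225.Disproof.Mix.Product

/-!
# P225: the growth bound from the product over pairs of half blocks

If every pair loses at most the rate `R < 26` modulo the flag, then every dual orbit loses at most
`K * exp (26 (t - t1))`, with `K` independent of the horizon.
-/

namespace Vale.Agent.P225.Disproof

open Set Module
open scoped RealInnerProductSpace

noncomputable section

namespace Sched

variable (C : Sched)

/-- The start of pair `i`. -/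
def pairStart (i : ℕ) : ℝ := C.hstart (2 * i)

/-- The length of pair `i`. -/
def pairLen (i : ℕ) : ℝ := 2 * ((1 + C.kap) * C.P) * C.tau (2 * i)

theorem pairStart_zero : C.pairStart 0 = C.t1 := by simp [pairStart, hstart]

theorem pairStart_succ (i : ℕ) : C.pairStart (i + 1) = C.pairStart i + C.pairLen i := by
  have e : C.tau (2 * i + 1) = C.tau (2 * i) := by
    simp [tau, show (2 * i + 1) / 2 = i by omega]
  rw [pairStart, show 2 * (i + 1) = 2 * i + 1 + 1 by ring, C.hstart_succ, C.hstart_succ, halfLen,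
    halfLen, e, pairStart, pairLen]
  ring

theorem pairLen_nonneg (i : ℕ) : 0 ≤ C.pairLen i :=
  mul_nonneg (mul_nonneg two_pos.le (mul_nonneg (by linarith [C.hkap]) (Nat.cast_nonneg _)))
    (C.tau_pos _).le

theorem pairLen_mono {i j : ℕ} (h : i ≤ j) : C.pairLen i ≤ C.pairLen j :=
  mul_le_mul_of_nonneg_left (C.tau_mono (by omega))
    (mul_nonneg two_pos.le (mul_nonneg (by linarith [C.hkap]) (Nat.cast_nonneg _)))

theorem t1_le_pairStart (i : ℕ) : C.t1 ≤ C.pairStart i := by
  simpa [pairStart, hstart] using C.hstart_mono (Nat.zero_le (2 * i))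

/-- The constants of the product are negligible against the time. -/
theorem exists_growth_const (m : ℕ) {R A : ℝ} (hR : R < 26) (hA : 0 ≤ A) :
    ∃ K : ℝ, 0 < K ∧ ∀ i : ℕ, (2 * ((i : ℝ) + 1) * Real.exp (A * C.pairLen i) + 1) ^ m *
      Real.exp (R * (C.pairStart i - C.t1)) * Real.exp (A * C.pairLen i) ≤
        K * Real.exp (26 * (C.pairStart i - C.t1)) := by
  set c : ℝ := 2 * ((1 + C.kap) * C.P) with hc
  have hc0 : 0 ≤ c :=
    mul_nonneg two_pos.le (mul_nonneg (by linarith [C.hkap]) (Nat.cast_nonneg _))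
  set w : ℝ := ((m : ℝ) + 1) * A * c with hw
  have hw0 : 0 ≤ w := mul_nonneg (mul_nonneg (by positivity) hA) hc0
  set δ : ℝ := (26 - R) / 2 with hδ
  have hδ0 : 0 < δ := by rw [hδ]; linarith
  obtain ⟨K1, hK1⟩ := C.tau_le_small (δ := δ / (w + 1)) (div_pos hδ0 (by linarith))
  obtain ⟨K2, hK2⟩ := C.log_le_small hδ0 (m : ℝ)
  refine ⟨Real.exp ((m : ℝ) * Real.log 3 + w * K1 + K2), Real.exp_pos _, fun i => ?_⟩
  set u := C.pairStart i - C.t1
  have hu : 0 ≤ u := sub_nonneg.2 (C.t1_le_pairStart i)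
  have hi : (0 : ℝ) < (i : ℝ) + 1 := by positivity
  set E := Real.exp (A * C.pairLen i)
  have hE : 1 ≤ E := Real.one_le_exp (mul_nonneg hA (C.pairLen_nonneg i))
  have hb : 2 * ((i : ℝ) + 1) * E + 1 ≤ Real.exp (Real.log 3 + Real.log ((i : ℝ) + 1)) * E := by
    rw [Real.exp_add, Real.exp_log (by norm_num), Real.exp_log hi]
    nlinarith
  have h1 : w * C.tau (2 * i) ≤ δ * u + w * K1 := by
    have := mul_le_mul_of_nonneg_left (hK1 (2 * i)) hw0
    have h2 : w * (δ / (w + 1)) ≤ δ := by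
      rw [← mul_div_assoc, div_le_iff₀ (by linarith)]
      nlinarith
    have h3 := mul_le_mul_of_nonneg_right h2 hu
    simp only [u, pairStart] at this h3 ⊢
    linarith
  have h2 : (m : ℝ) * Real.log ((i : ℝ) + 1) ≤ δ * u + K2 := by
    refine le_trans (mul_le_mul_of_nonneg_left (Real.log_le_log hi ?_) (Nat.cast_nonneg m))
      (hK2 (2 * i))
    push_cast
    linarith [Nat.cast_nonneg (α := ℝ) i]
  refine (mul_le_mul_of_nonneg_right (mul_le_mul_of_nonneg_right
    (pow_le_pow_left₀ (by positivity) hb m) (Real.exp_pos _).le) (Real.exp_pos _).le).trans ?_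
  simp only [E]
  rw [← Real.exp_add (Real.log 3 + _), ← Real.exp_nat_mul, ← Real.exp_add, ← Real.exp_add,
    ← Real.exp_add]
  refine Real.exp_le_exp.2 ?_
  have e : (m : ℝ) * (A * C.pairLen i) + A * C.pairLen i = w * C.tau (2 * i) := by
    simp only [pairLen, hw, hc]; ring
  have e2 : 26 * u = R * u + 2 * (δ * u) := by rw [hδ]; ring
  linarith

end Sched

variable {E : Type*} [NormedAddCommGroup E] [InnerProductSpace ℝ E] [FiniteDimensional ℝ E]
  {a b ε : ℝ}

/-- The growth of every orbit over `n` pairs. -/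
theorem growth_of_pairs {S : DualSys E a b ε} {C : Sched} {lo M n : ℕ} {R A K : ℝ}
    {F : ℕ → Submodule ℝ E} (hR : 0 ≤ R) (hA : |S.top| + ε ≤ A)
    (hK : ∀ i : ℕ, (2 * ((i : ℝ) + 1) * Real.exp (A * C.pairLen i) + 1) ^ (M - lo) *
      Real.exp (R * (C.pairStart i - C.t1)) * Real.exp (A * C.pairLen i) ≤
        K * Real.exp (26 * (C.pairStart i - C.t1)))
    (hM : finrank ℝ E = M) (hlo : lo ≤ M) (hFd : finrank ℝ (F M) = M)
    (ha : a ≤ C.t1) (hb : C.pairStart n ≤ b)
    (hFm : ∀ l, lo < l → l ≤ M → F (l - 1) ≤ F l)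
    (hbase : ∀ k < n, ∀ x ∈ F lo, S.nrm (C.pairStart k) x ≤
      Real.exp (2 * (R * (C.pairStart (k + 1) - C.pairStart k))) * S.nrm (C.pairStart (k + 1)) x)
    (hseg : ∀ k < n, ∀ l, lo < l → l ≤ M → ∀ x ∈ F l,
      S.Seg (C.pairStart k) (C.pairStart (k + 1)) (F (l - 1))
        (Real.exp (2 * (R * (C.pairStart (k + 1) - C.pairStart k)))) x)
    (x : E) {t : ℝ} (ht : t ∈ Icc C.t1 (C.pairStart n)) :
    S.nrm C.t1 x ≤ K ^ 2 * Real.exp (2 * 26 * (t - C.t1)) * S.nrm t x := by
  have hmono : Monotone C.pairStart := fun i j h => C.hstart_mono (by omega)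
  obtain ⟨i, hin, hi⟩ : ∃ i, i ≤ n ∧ t ∈ Icc (C.pairStart i) (C.pairStart i + C.pairLen i) := by
    have hex : ∃ j, t ≤ C.pairStart j := ⟨n, ht.2⟩
    classical
    rcases Nat.eq_zero_or_pos (Nat.find hex) with h0 | h0
    · refine ⟨0, Nat.zero_le _, ?_, ?_⟩
      · rw [C.pairStart_zero]; exact ht.1
      · have := Nat.find_spec hex
        rw [h0] at this
        linarith [C.pairLen_nonneg 0]
    · refine ⟨Nat.find hex - 1, by linarith [Nat.find_min' hex ht.2, Nat.sub_le (Nat.find hex) 1],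
        (not_le.1 (Nat.find_min hex (Nat.sub_lt h0 one_pos))).le, ?_⟩
      rw [← C.pairStart_succ, show Nat.find hex - 1 + 1 = Nat.find hex by omega]
      exact Nat.find_spec hex
  have hI : ∀ j ≤ n, C.pairStart j ∈ Icc a b := fun j hj =>
    ⟨ha.trans (C.t1_le_pairStart j), (hmono hj).trans hb⟩
  have hFtop : F M = ⊤ := Submodule.eq_top_of_finrank_eq (by rw [hFd, hM])
  have h1 := DualSys.product_le (S := S) (lo := lo) (M := M) (n := i) (T := C.pairStart)
    (Dm := C.pairLen i) hR (fun j hj => hI j (hj.trans hin))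
    (fun j hj => ⟨by linarith [C.pairStart_succ j, C.pairLen_nonneg j],
      by linarith [C.pairStart_succ j, C.pairLen_mono hj.le]⟩) hFm
    (fun k hk => hbase k (lt_of_lt_of_le hk hin)) (fun k hk => hseg k (lt_of_lt_of_le hk hin))
    M hlo le_rfl x (by rw [hFtop]; exact Submodule.mem_top) i le_rfl
  rw [C.pairStart_zero, abs_of_nonneg (C.pairLen_nonneg i)] at h1
  have htI : t ∈ Icc a b := ⟨ha.trans ht.1, ht.2.trans hb⟩
  have h2 := DualSys.rate_top (S := S) (hI i hin).1 htI.2 hi.1 x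
  have hε := S.hε
  have hA0 : 0 ≤ A := le_trans (add_nonneg (abs_nonneg _) S.hε) hA
  have hlen : 0 ≤ C.pairLen i := C.pairLen_nonneg i
  have h3 : S.nrm (C.pairStart i) x ≤ Real.exp (2 * (A * C.pairLen i)) * S.nrm t x := by
    refine h2.trans (mul_le_mul_of_nonneg_right (Real.exp_le_exp.2 ?_)
      (DualSys.nrm_nonneg htI x))
    have h4 : (2 * S.top + ε) * (t - C.pairStart i) ≤ 2 * A * (t - C.pairStart i) :=
      mul_le_mul_of_nonneg_right (by linarith [le_abs_self S.top]) (by linarith [hi.1])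
    have h5 : 2 * A * (t - C.pairStart i) ≤ 2 * A * C.pairLen i :=
      mul_le_mul_of_nonneg_left (by linarith [hi.2]) (by linarith)
    linarith
  have h4 : √(S.nrm C.t1 x) ≤ K * Real.exp (26 * (t - C.t1)) * √(S.nrm t x) := by
    have hK0 : 0 ≤ K := by
      refine nonneg_of_mul_nonneg_left (le_trans ?_ (hK i)) (Real.exp_pos _)
      positivity
    refine h1.trans ?_
    refine (mul_le_mul_of_nonneg_left (DualSys.sqrt_rate h3) (by positivity)).trans ?_
    rw [← mul_assoc]
    refine mul_le_mul_of_nonneg_right (le_trans ?_ (mul_le_mul_of_nonneg_left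
      (Real.exp_le_exp.2 (by linarith [hi.1] : 26 * (C.pairStart i - C.t1) ≤ 26 * (t - C.t1))) hK0))
      (Real.sqrt_nonneg _)
    refine le_trans ?_ (hK i)
    refine mul_le_mul_of_nonneg_right (mul_le_mul_of_nonneg_right (pow_le_pow_left₀ (by positivity)
      (add_le_add_left (mul_le_mul_of_nonneg_left (Real.exp_le_exp.2
        (mul_le_mul_of_nonneg_right hA hlen)) (by positivity)) 1) _) (Real.exp_pos _).le)
      (Real.exp_pos _).le
  have h5 := pow_le_pow_left₀ (Real.sqrt_nonneg _) h4 2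
  have h0 : 0 ≤ S.nrm C.t1 x := DualSys.nrm_nonneg ⟨ha, ht.1.trans htI.2⟩ x
  rw [Real.sq_sqrt h0, mul_pow, mul_pow, Real.sq_sqrt (DualSys.nrm_nonneg htI x),
    ← Real.exp_nat_mul] at h5
  refine h5.trans (le_of_eq ?_)
  congr 3
  push_cast
  ring

end

end Vale.Agent.P225.Disproof
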