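import Vale.Agent.P225.Disproof.Control
import Vale.Agent.P225.Disproof.GrowthBudget
import Vale.Agent.P225.Disproof.LoopWord
import Vale.Agent.P225.Disproof.CtrlLevels

/-!
# P225: the control with given constants
-/

namespace Vale.Agent.P225.Disproof

open Set Filter Topology

noncomputable section

variable {X : Type*} [NormedAddCommGroup X] [InnerProductSpace ℝ X]

/-- The schedule with rest ratio `kap` and first slot length `tau0`; the loops start at `2 tau0`. -/
def mkSched {kap tau0 : ℝ} (hkap : 0 ≤ kap) (htau : 0 < tau0) : Sched where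
  P := wordLen
  kap := kap
  tau0 := tau0
  t1 := 2 * tau0
  hP := wordLen_pos
  hkap := hkap
  htau0 := htau

/-- The control of the loop family `L` at the rest shape `p0`. -/
def mkCtrl (L : LoopFam X wordLen) (one p0 : X) {kap tau0 : ℝ} (hkap : 0 ≤ kap) (htau : 0 < tau0) :
    Ctrl X where
  sch := mkSched hkap htau
  one := one
  p0 := p0
  loops := L
  ht1 := le_rfl

variable (L : LoopFam X wordLen) (one p0 : X) {kap tau0 : ℝ} (hkap : 0 ≤ kap) (htau : 0 < tau0)

theorem ctrlOf_mkCtrl : CtrlOf (mkCtrl L one p0 hkap htau) L p0 :=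
  ⟨rfl, fun _ _ _ => rfl, rfl⟩

theorem mkCtrl_bounds :
    (mkCtrl L one p0 hkap htau).sch.t1 ≤ (2 + (1 + kap) * wordLen) * tau0 ∧
      (1 + (mkCtrl L one p0 hkap htau).sch.kap) * (mkCtrl L one p0 hkap htau).sch.P ≤
        2 + (1 + kap) * wordLen := by
  have h0 : (0 : ℝ) ≤ (1 + kap) * wordLen := mul_nonneg (by linarith) (Nat.cast_nonneg _)
  generalize hn : (wordLen : ℝ) = w at h0 ⊢
  refine ⟨?_, ?_⟩
  · show 2 * tau0 ≤ _
    nlinarith
  · show (1 + kap) * (wordLen : ℝ) ≤ _
    rw [hn]
    linarith

/-- The horizons of the pairs leave every time behind. -/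
theorem tendsto_pairStart (C : Sched) : Tendsto C.pairStart atTop atTop := by
  refine tendsto_atTop_mono (fun n => ?_)
    (tendsto_atTop_add_const_left _ C.t1
      (Tendsto.atTop_mul_const C.htau0 tendsto_natCast_atTop_atTop))
  refine le_trans ?_ (C.hstart_ge (2 * n))
  push_cast
  nlinarith [C.htau0, Nat.cast_nonneg (α := ℝ) n]

end

end Vale.Agent.P225.Disproof
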