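import Vale.Agent.P225.Disproof.LoopsExist
import Vale.Agent.P225.Disproof.CtrlLevels

/-!
# P225: the constants of the construction, given the centres

The loops of the word at a rest shape near the round one, with their levels and the budget of the
levels at the rests.
-/

namespace Vale.Agent.P225.Disproof

open Set Filter Topology

noncomputable section

/-- The weight of a shape at the final scale. -/
def restW (D : ℕ) : Gal D →L[ℝ] C(Sph 3, ℝ) := (18 / 25 : ℝ) • Strata.wt D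

theorem restW_apply {D : ℕ} (p : Gal D) : restW D p = (18 / 25 : ℝ) • Strata.wt D p := rfl

/-- The loops of the word are loops for the scaled weight. -/
theorem loopsOK_wordFam {D : ℕ} {p₀ : Gal D} (hp₀ : p₀ ∈ Strata.unitCone D)
    (hgap : ∀ l ∈ Icc 224 729, Strata.gapAt D l p₀)
    (L : ∀ j, j ∈ Icc 225 728 →
      LoopAt (Strata.unitCone D) (Strata.gapAt D) (Strata.projAt D) 224 729 j p₀) :
    LoopsOK (restW D) (wordFam L) p₀ := by
  have hc : (0 : ℝ) < 18 / 25 := by norm_num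
  have hpos : ∀ p ∈ Strata.unitCone D, ∀ θ, 0 < restW D p θ := fun p hp θ => by
    rw [restW_apply, ContinuousMap.smul_apply, smul_eq_mul]
    exact mul_pos hc (Strata.wt_mem_posW hp.1.1 θ)
  have hg : ∀ p l, Strata.gapAt D l p → Gap (pencil (restW D p)) l := fun p l h => by
    rw [restW_apply, pencil_smul]
    exact (gap_smul _ hc l).2 h
  have ht : ∀ (k : Fin wordLen) (u : ℝ), (u = 0 ∨ u = 1) →
      (fun x => topProj (pencil (restW D (p₀ + (wordFam L).path k u x))) (wordGap k)) =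
        fun x => Strata.projAt D (wordGap k) (p₀ + (wordFam L).path k u x) := fun k u hu => by
    funext x
    obtain ⟨h1, -, h3⟩ := wordFam_spec L k (s := u) (by rcases hu with rfl | rfl <;> simp) x
    rw [restW_apply, pencil_smul]
    exact topProj_smul (goodOp_pencil (Strata.wt_mem_posW h1.1.1)) hc (h3 hu)
  exact
    { pos_rest := hpos _ hp₀
      pos := fun k u hu x => hpos _ (wordFam_spec L k hu x).1
      rest := fun l hl => hg _ l (hgap l hl)
      others := fun k u hu x l hl hne => hg _ l ((wordFam_spec L k hu x).2.1 l hl hne)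
      face := fun k u x hu =>
        hg _ _ ((wordFam_spec L k (s := u) (by rcases hu with rfl | rfl <;> simp) x).2.2 hu)
      turn_zero := fun k => by
        rw [ht k 0 (Or.inl rfl)]
        exact (L _ (wordGap_mem k.2)).turns_zero
      turn_one := fun k => by
        rw [ht k 1 (Or.inr rfl)]
        exact (L _ (wordGap_mem k.2)).turns_one }

theorem restPsi_mono {w : C(Sph 3, ℝ)} (hw : ∀ θ, 0 < w θ) {i j : ℕ} (h : i ≤ j) :
    restPsi w i ≤ restPsi w j := by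
  have hT := goodOp_pencil hw
  have h1 : 4 / nu (pencil w) (i - 1) ≤ 4 / nu (pencil w) (j - 1) :=
    div_le_div_of_nonneg_left (by norm_num) (hT.nu_pos _) (hT.nu_antitone (by omega))
  have h2 := Real.sqrt_le_sqrt (show 1 + 4 / nu (pencil w) (i - 1) ≤
    1 + 4 / nu (pencil w) (j - 1) by linarith)
  simp only [restPsi]
  linarith

/-- The budget of the levels at a rest near the round shape. -/
theorem exists_budget : ∃ δr > (0 : ℝ), ∃ η > (0 : ℝ), ∀ (D : ℕ) (L : LoopFam (Gal D) wordLen)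
    (p₀ : Gal D), ‖Strata.wt D p₀ - 1‖ < δr → ∀ Λ : Levels (restW D) L p₀, Λ.θ ≤ η →
      (∀ l ∈ Icc 225 730, 0 ≤ Λ.lev l ∧ Λ.lev l ≤ 33) ∧
      (∀ l ∈ Icc 225 729, Λ.lev l ≤ Λ.lev (l + 1)) ∧
      (∀ l ∈ Icc 226 730, Λ.lev (730 + 225 + 1 - l) + Λ.lev l + η ≤ 52 - η) ∧
      2 * Λ.lev 225 + η ≤ 52 - η := by
  obtain ⟨δr, hδr, η, hη, hbud⟩ := exists_rest_budget
  refine ⟨δr, hδr, min (η / 4) 1, lt_min (by positivity) one_pos, fun D L p₀ hp Λ hθ => ?_⟩
  obtain ⟨hwpos, hpair, hlow, htop⟩ := hbud (Strata.wt D p₀) hp (18 / 25) le_rfl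
  have hη1 : min (η / 4) 1 ≤ η / 4 := min_le_left _ _
  have hθ1 : Λ.θ ≤ 1 := hθ.trans (min_le_right _ _)
  have hθ0 := Λ.θ_pos
  have hlev : ∀ l ∈ Icc 225 730,
      Λ.lev l = restPsi ((18 / 25 : ℝ) • Strata.wt D p₀) (l - 1) + Λ.θ := fun l hl => by
    rw [Λ.lev_eq (by simpa [botDim] using hl.1) (by simpa [slowDim] using hl.2), restW_apply]
  refine ⟨fun l hl => ?_, fun l hl => ?_, fun l hl => ?_, ?_⟩
  · obtain ⟨h1, h2⟩ := hl
    obtain ⟨p1, p2⟩ := htop (l - 1) (by omega) (by omega)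
    rw [hlev l ⟨h1, h2⟩]
    constructor <;> linarith
  · obtain ⟨h1, h2⟩ := hl
    rw [hlev l ⟨h1, by omega⟩, hlev (l + 1) ⟨by omega, by omega⟩]
    refine add_le_add (restPsi_mono (fun θ => ?_) (by omega)) le_rfl
    rw [ContinuousMap.smul_apply, smul_eq_mul]
    exact mul_pos (by norm_num) (hwpos θ)
  · obtain ⟨h1, h2⟩ := hl
    have h := hpair (l - 1) ⟨by omega, by omega⟩
    rw [hlev l ⟨by omega, h2⟩, hlev (730 + 225 + 1 - l) ⟨by omega, by omega⟩,
      show 730 + 225 + 1 - l - 1 = 954 - (l - 1) by omega]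
    linarith
  · have h := hlow 224 (by norm_num) le_rfl
    rw [hlev 225 (by simp)]
    norm_num
    linarith

/-- All the constants of the construction, given the centres. -/
theorem exists_setup {D₀ : ℕ} (hC : Strata.CentreHyp D₀) :
    ∃ D, 2 ≤ D ∧ ∃ (one p₀ : Gal D) (L : LoopFam (Gal D) wordLen),
      (∀ θ, res one.poly θ = 1) ∧ one ∈ Strata.unitCone D ∧ p₀ ∈ Strata.unitCone D ∧
      (∃ c₀, ShapeOK L one p₀ c₀) ∧
      (∃ m > (0 : ℝ),
        (∀ c ∈ Icc (0 : ℝ) 1, ∀ θ, Strata.coneMean (one + c • (p₀ - one)) θ ≤ -m) ∧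
        ∀ k, ∀ s ∈ Icc (0 : ℝ) 1, ∀ x θ, Strata.coneMean (p₀ + L.path k s x) θ ≤ -m) ∧
      LoopsOK (restW D) L p₀ ∧
      ∃ (Λ : Levels (restW D) L p₀) (η : ℝ), 0 < η ∧ Λ.θ ≤ η ∧
        (∀ l ∈ Icc 225 730, 0 ≤ Λ.lev l ∧ Λ.lev l ≤ 33) ∧
        (∀ l ∈ Icc 225 729, Λ.lev l ≤ Λ.lev (l + 1)) ∧
        (∀ l ∈ Icc 226 730, Λ.lev (730 + 225 + 1 - l) + Λ.lev l + η ≤ 52 - η) ∧
        2 * Λ.lev 225 + η ≤ 52 - η := by
  obtain ⟨δr, hδr, η, hη, hbud⟩ := exists_budget
  obtain ⟨D, hD, one, p₀, h1, hδ, hone, hp₀, hgap, L, hshape, hm⟩ := Strata.exists_loops hC hδr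
  have hok := loopsOK_wordFam hp₀ hgap L
  obtain ⟨Λ, hΛ⟩ := exists_levels hok hη
  exact ⟨D, hD, one, p₀, wordFam L, h1, hone, hp₀, hshape, hm, hok, Λ, η, hη, hΛ,
    hbud D _ p₀ hδ Λ hΛ⟩

end

end Vale.Agent.P225.Disproof
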