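import Vale.Agent.P225.Disproof.GalerkinPencil

/-!
# P225: rotational Sobolev norms on the Galerkin spaces

`sob k` sums the norms of up to `k` rotations. The rotations preserve the Galerkin spaces, so their
commutator with a mass operator is the mass operator of the rotated weight, exactly. All constants
below are independent of the truncation.
-/

namespace Vale.Agent.P225.Disproof

open MvPolynomial MeasureTheory Set
open scoped RealInnerProductSpace

noncomputable section

variable {N : ℕ}

/-- The rotated weight, in weak form. -/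
def IsRot (i : Fin 3) (w w' : C(Sph 3, ℝ)) : Prop :=
  ∀ f : MvPolynomial (Fin 3) ℝ,
    ∫ θ, w θ * res (rotP i f) θ ∂(sig 3) = -∫ θ, w' θ * res f θ ∂(sig 3)

/-- Bounds on the weight and on its rotations up to order `k`. -/
def RotBd : ℕ → ℝ → C(Sph 3, ℝ) → Prop
  | 0, c, w => ‖w‖ ≤ c
  | k + 1, c, w => RotBd k c w ∧ ∀ i, ∃ w', IsRot i w w' ∧ RotBd k c w'

theorem RotBd.norm_le : ∀ {k : ℕ} {c : ℝ} {w : C(Sph 3, ℝ)}, RotBd k c w → ‖w‖ ≤ c
  | 0, _, _, h => h
  | _ + 1, _, _, h => h.1.norm_le

theorem RotBd.of_le {c : ℝ} {w : C(Sph 3, ℝ)} {j k : ℕ} (hjk : j ≤ k) (h : RotBd k c w) :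
    RotBd j c w := by
  induction k with
  | zero => rwa [Nat.le_zero.1 hjk]
  | succ k ih =>
    rcases Nat.le_succ_iff.1 hjk with h1 | h1
    · exact ih h1 h.1
    · rwa [h1]

/-- The weight of a smooth function. -/
theorem isRot_of_contDiff {W : Space 3 → ℝ} (hW : ContDiff ℝ 1 W) (i : Fin 3) {w w' : C(Sph 3, ℝ)}
    (hw : ∀ θ, w θ = W (θ : Space 3)) (hw' : ∀ θ, w' θ = rot i W (θ : Space 3)) :
    IsRot i w w' := by
  intro f
  have hprod : ∀ x, rot i (fun y => W y * evalFun f y) x =
      rot i W x * evalFun f x + W x * evalFun (rotP i f) x := fun x => by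
    have h1 : HasFDerivAt W (fderiv ℝ W x) x :=
      (hW.differentiable (by simp) x).hasFDerivAt
    have h2 : HasFDerivAt (evalFun f) (fderiv ℝ (evalFun f) x) x :=
      ((contDiff_evalFun f (m := 1)).differentiable (by simp) x).hasFDerivAt
    rw [← rot_evalFun]
    simp only [rot, pd, (h1.mul h2).fderiv, show (fun y => W y * evalFun f y) = W * evalFun f from rfl]
    simp
    ring
  have h := integral_rot (hW.mul (contDiff_evalFun f (m := 1))) i
  simp only [hprod] at h
  rw [integral_add] at h
  · simp only [hw, hw', res]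
    linarith
  · exact integrable_sig (((show Continuous fun θ : Sph 3 => rot i W (θ : Space 3) from
      (funext hw' : (w' : Sph 3 → ℝ) = _) ▸ w'.continuous)).mul (continuous_res f))
  · exact integrable_sig ((hW.continuous.comp continuous_subtype_val).mul
      (continuous_res (rotP i f)))

theorem rotG_massOp {i : Fin 3} {w w' : C(Sph 3, ℝ)} (h : IsRot i w w') (p : Gal N) :
    rotG i (massOp N w p) = massOp N w (rotG i p) + massOp N w' p :=
  ext_inner_right ℝ fun q => by
    rw [inner_rotG, inner_add_left, inner_massOp, inner_massOp, inner_massOp, poly_rotG, poly_rotG]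
    have h1 := h (p.poly * q.poly)
    simp only [Derivation.leibniz, smul_eq_mul, res_add,
      show ∀ a b θ, res (a * b) θ = res a θ * res b θ from fun a b θ => by simp [res, evalFun],
      mul_add] at h1
    rw [integral_add] at h1
    · simp only [mul_comm (res q.poly _)] at h1
      linarith
    · exact integrable_sig (w.continuous.mul ((continuous_res _).mul (continuous_res _)))
    · exact integrable_sig (w.continuous.mul ((continuous_res _).mul (continuous_res _)))

theorem norm_massOp_le (w : C(Sph 3, ℝ)) (p : Gal N) : ‖massOp N w p‖ ≤ ‖w‖ * ‖p‖ := by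
  have hb : ∀ x : Gal N, |⟪x, massOp N w x⟫| ≤ ‖w‖ * ⟪x, massOp N 1 x⟫ := fun x =>
    weight_bound (massOp N) (fun v hv => massOp_nonneg hv) (fun θ => by
      simpa using w.norm_coe_le_norm θ) x
  simp only [massOp_one, one_apply_eq_self, real_inner_self_eq_norm_sq] at hb
  set x := ‖massOp N w p‖ with hx
  rcases (norm_nonneg (massOp N w p)).eq_or_lt with h0 | h0
  · rw [hx, ← h0]; positivity
  · set q := (‖p‖ / x) • massOp N w p
    have h1 := (abs_le.1 (hb (p + q))).2
    have h2 := (abs_le.1 (hb (p - q))).1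
    have h3 := parallelogram_law_with_norm ℝ p q
    have hq : ‖q‖ = ‖p‖ := by
      rw [norm_smul, ← hx, Real.norm_of_nonneg (by positivity), div_mul_cancel₀ _ h0.ne']
    have hpq : ⟪p, massOp N w q⟫ = ‖p‖ * x := by
      rw [← massOp_symm, real_inner_smul_right, real_inner_self_eq_norm_sq, ← hx, pow_two,
        ← mul_assoc, div_mul_cancel₀ _ h0.ne']
    have hqp : ⟪q, massOp N w p⟫ = ‖p‖ * x := by
      rw [← massOp_symm, real_inner_comm, hpq]
    simp only [map_add, map_sub, inner_add_left, inner_add_right, inner_sub_left, inner_sub_right,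
      hpq, hqp] at h1 h2
    rcases (norm_nonneg p).eq_or_lt with h4 | h4
    · have : p = 0 := norm_eq_zero.1 h4.symm
      rw [hx, this, map_zero, norm_zero, mul_zero]
    · refine le_of_mul_le_mul_left ?_ h4
      rw [hq] at h3
      have h5 : ‖p + q‖ ^ 2 + ‖p - q‖ ^ 2 = 4 * ‖p‖ ^ 2 := by linarith
      linear_combination h1 / 4 + h2 / 4 + (‖w‖ / 4) * h5

/-- Sum of the norms of up to `k` rotations. -/
def sob : ℕ → Gal N → ℝ
  | 0, p => ‖p‖
  | k + 1, p => sob k p + ∑ i, sob k (rotG i p)

theorem sob_nonneg : ∀ (k : ℕ) (p : Gal N), 0 ≤ sob k p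
  | 0, p => norm_nonneg p
  | k + 1, p => add_nonneg (sob_nonneg k p) (Finset.sum_nonneg fun _ _ => sob_nonneg k _)

theorem sob_succ (k : ℕ) (p : Gal N) : sob (k + 1) p = sob k p + ∑ i, sob k (rotG i p) := rfl

theorem sob_le_succ (k : ℕ) (p : Gal N) : sob k p ≤ sob (k + 1) p :=
  le_add_of_nonneg_right (Finset.sum_nonneg fun _ _ => sob_nonneg k _)

theorem sob_mono {j k : ℕ} (h : j ≤ k) (p : Gal N) : sob j p ≤ sob k p :=
  monotone_nat_of_le_succ (f := fun n => sob n p) (fun n => sob_le_succ n p) h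

theorem norm_le_sob (k : ℕ) (p : Gal N) : ‖p‖ ≤ sob k p := sob_mono (Nat.zero_le k) p

theorem sob_rotG_le (k : ℕ) (i : Fin 3) (p : Gal N) : sob k (rotG i p) ≤ sob (k + 1) p :=
  le_add_of_nonneg_of_le (sob_nonneg k p)
    (Finset.single_le_sum (f := fun i => sob k (rotG i p)) (fun j _ => sob_nonneg k _)
      (Finset.mem_univ i))

theorem sob_add_le : ∀ (k : ℕ) (p q : Gal N), sob k (p + q) ≤ sob k p + sob k q
  | 0, p, q => norm_add_le p q
  | k + 1, p, q => by
    simp only [sob_succ, map_add]
    have h := Finset.sum_le_sum fun i (_ : i ∈ (Finset.univ : Finset (Fin 3))) =>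
      sob_add_le k (rotG i p) (rotG i q)
    rw [Finset.sum_add_distrib] at h
    linarith [sob_add_le k p q]

theorem sob_smul : ∀ (k : ℕ) (r : ℝ) (p : Gal N), sob k (r • p) = |r| * sob k p
  | 0, r, p => norm_smul r p
  | k + 1, r, p => by simp only [sob_succ, map_smul, sob_smul k, mul_add, Finset.mul_sum]

theorem sob_neg (k : ℕ) (p : Gal N) : sob k (-p) = sob k p := by
  rw [← neg_one_smul ℝ p, sob_smul, abs_neg, abs_one, one_mul]

theorem sob_sub_le (k : ℕ) (p q : Gal N) : sob k (p - q) ≤ sob k p + sob k q := by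
  rw [sub_eq_add_neg]
  exact (sob_add_le k p (-q)).trans (by rw [sob_neg])

theorem sob_massOp_le {c : ℝ} : ∀ {k : ℕ} {w : C(Sph 3, ℝ)}, RotBd k c w → ∀ p : Gal N,
    sob k (massOp N w p) ≤ 4 ^ k * c * sob k p
  | 0, w, hw, p => by
    simpa [sob] using (norm_massOp_le w p).trans
      (mul_le_mul_of_nonneg_right hw.norm_le (norm_nonneg p))
  | k + 1, w, hw, p => by
    have hc : 0 ≤ c := (norm_nonneg w).trans hw.norm_le
    simp only [sob_succ]
    have h : ∀ i, sob k (rotG i (massOp N w p)) ≤
        4 ^ k * c * sob k (rotG i p) + 4 ^ k * c * sob k p := fun i => by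
      obtain ⟨w', h1, h2⟩ := hw.2 i
      rw [rotG_massOp h1]
      exact (sob_add_le k _ _).trans (add_le_add (sob_massOp_le hw.1 _) (sob_massOp_le h2 p))
    have hs := Finset.sum_le_sum fun i (_ : i ∈ (Finset.univ : Finset (Fin 3))) => h i
    rw [Finset.sum_add_distrib, Finset.sum_const, Finset.card_univ, Fintype.card_fin,
      ← Finset.mul_sum, nsmul_eq_mul] at hs
    have h2 : 0 ≤ 4 ^ k * c * ∑ i, sob k (rotG i p) :=
      mul_nonneg (by positivity) (Finset.sum_nonneg fun i _ => sob_nonneg k _)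
    refine (add_le_add (sob_massOp_le hw.1 p) hs).trans ?_
    rw [pow_succ]
    push_cast
    linarith

/-- The inverse of a mass operator is bounded in every rotational norm. -/
theorem exists_sob_le_massOp (k : ℕ) {c m : ℝ} (hm : 0 < m) :
    ∃ K : ℝ, 0 ≤ K ∧ ∀ (N : ℕ) (w : C(Sph 3, ℝ)), RotBd k c w → (∀ θ, m ≤ w θ) → ∀ p : Gal N,
      sob k p ≤ K * sob k (massOp N w p) := by
  induction k with
  | zero =>
    refine ⟨1 / m, by positivity, fun N w _ hw p => ?_⟩
    rw [div_mul_eq_mul_div, one_mul, le_div_iff₀ hm]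
    rcases (norm_nonneg p).eq_or_lt with h0 | h0
    · simp only [sob, ← h0, zero_mul]; exact norm_nonneg _
    · refine le_of_mul_le_mul_left ?_ h0
      calc ‖p‖ * (sob 0 p * m) = m * ‖p‖ ^ 2 := by simp only [sob]; ring
        _ ≤ ⟪p, massOp N w p⟫ := massOp_coercive hw p
        _ ≤ ‖p‖ * sob 0 (massOp N w p) := real_inner_le_norm _ _
  | succ k ih =>
    obtain ⟨K, hK, h⟩ := ih
    refine ⟨K * (1 + 3 * 4 ^ k * |c| * K), by positivity, fun N w hw hwm p => ?_⟩
    have h0 := h N w hw.1 hwm p
    have hi : ∀ i, sob k (rotG i p) ≤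
        K * sob k (rotG i (massOp N w p)) + K * (4 ^ k * |c| * sob k p) := fun i => by
      obtain ⟨w', h1, h2⟩ := hw.2 i
      refine (h N w hw.1 hwm _).trans ?_
      rw [← mul_add]
      refine mul_le_mul_of_nonneg_left ?_ hK
      rw [show massOp N w (rotG i p) = rotG i (massOp N w p) - massOp N w' p by
        rw [rotG_massOp h1]; abel]
      refine (sob_sub_le k _ _).trans (add_le_add le_rfl ((sob_massOp_le h2 p).trans ?_))
      exact mul_le_mul_of_nonneg_right
        (mul_le_mul_of_nonneg_left (le_abs_self c) (by positivity)) (sob_nonneg k p)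
    have hs := Finset.sum_le_sum fun i (_ : i ∈ (Finset.univ : Finset (Fin 3))) => hi i
    rw [Finset.sum_add_distrib, Finset.sum_const, Finset.card_univ, Fintype.card_fin,
      ← Finset.mul_sum, nsmul_eq_mul] at hs
    have hA := sob_nonneg k (massOp N w p)
    have hB : 0 ≤ ∑ i, sob k (rotG i (massOp N w p)) :=
      Finset.sum_nonneg fun i _ => sob_nonneg k _
    have hc : 0 ≤ 3 * 4 ^ k * |c| * K := by positivity
    simp only [sob_succ]
    refine (add_le_add h0 hs).trans ?_
    push_cast
    have h3 : 3 * (K * (4 ^ k * |c| * sob k p)) ≤ 3 * (K * (4 ^ k * |c| * (K * sob k (massOp N w p)))) := by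
      gcongr
    linarith [mul_nonneg (mul_nonneg hK hc) hB]

theorem stiffOp_apply (w : C(Sph 3, ℝ)) (p : Gal N) :
    stiffOp N w p = -∑ i, rotG i (massOp N w (rotG i p)) := by
  simp only [stiffOp, neg_apply, sum_apply, ContinuousLinearMap.comp_apply,
    ContinuousLinearMap.compL_apply, ContinuousLinearMap.flip_apply]

theorem sob_stiffOp_le {c : ℝ} {k : ℕ} {w : C(Sph 3, ℝ)} (hw : RotBd (k + 1) c w) (p : Gal N) :
    sob k (stiffOp N w p) ≤ 3 * (4 ^ (k + 1) * c) * sob (k + 2) p := by
  have hc : 0 ≤ c := (norm_nonneg w).trans hw.norm_le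
  have h : ∀ i, sob k (rotG i (massOp N w (rotG i p))) ≤ 4 ^ (k + 1) * c * sob (k + 2) p :=
    fun i => (sob_rotG_le k i _).trans ((sob_massOp_le hw _).trans
      (mul_le_mul_of_nonneg_left (sob_rotG_le (k + 1) i p) (by positivity)))
  simp only [stiffOp_apply, Fin.sum_univ_three, sob_neg]
  linarith [sob_add_le k (rotG 0 (massOp N w (rotG 0 p)) + rotG 1 (massOp N w (rotG 1 p)))
    (rotG 2 (massOp N w (rotG 2 p))), sob_add_le k (rotG 0 (massOp N w (rotG 0 p)))
    (rotG 1 (massOp N w (rotG 1 p))), h 0, h 1, h 2]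

theorem rotG_part (i : Fin 3) (l : ℕ) (p : Gal N) : rotG i (part l p) = part l (rotG i p) :=
  Gal.ext (by
    simp only [poly_rotG, part, Gal.poly_mk]
    conv_rhs => rw [← sum_components (mem_harmUpTo.1 p.mem).1, map_sum, map_sum]
    rcases le_or_gt l N with hl | hl
    · rw [Finset.sum_eq_single l]
      · rw [homogeneousComponent_of_mem (rotP_hom i (homogeneousComponent_isHomogeneous l _))]
        simp
      · intro m _ hm
        rw [homogeneousComponent_of_mem (rotP_hom i (homogeneousComponent_isHomogeneous m _)),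
          if_neg (Ne.symm hm)]
      · exact fun h => absurd (Finset.mem_range_succ_iff.2 hl) h
    · rw [homogeneousComponent_eq_zero l _ (lt_of_le_of_lt (mem_harmUpTo.1 p.mem).1 hl), map_zero]
      refine (Finset.sum_eq_zero fun m hm => ?_).symm
      rw [homogeneousComponent_of_mem (rotP_hom i (homogeneousComponent_isHomogeneous m _)),
        if_neg (by have := Finset.mem_range_succ_iff.1 hm; omega)])

theorem norm_part_le (l : ℕ) (p : Gal N) : ‖part l p‖ ≤ ‖p‖ := by
  have h := inner_part (l := l) p p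
  rw [real_inner_self_eq_norm_sq] at h
  rcases (norm_nonneg (part l p)).eq_or_lt with h0 | h0
  · rw [← h0]; exact norm_nonneg p
  · refine le_of_mul_le_mul_left ?_ h0
    rw [← pow_two, ← h]
    exact real_inner_le_norm _ _

/-- The parts decay as fast as the rotational norms allow. -/
theorem pow_mul_part_le (l : ℕ) : ∀ (k : ℕ) (p : Gal N), (l : ℝ) ^ k * ‖part l p‖ ≤ sob k p
  | 0, p => by simpa [sob] using norm_part_le l p
  | k + 1, p => by
    have h1 : ∑ i, ‖rotG i (part l p)‖ ^ 2 = (l : ℝ) * (l + 1) * ‖part l p‖ ^ 2 := by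
      simp only [← real_inner_self_eq_norm_sq]
      have e : ∑ i, rotG i (rotG i (part l p)) = -((l : ℝ) * (l + 1)) • part l p := Gal.ext (by
        simp only [map_sum, poly_rotG, map_smul, part, Gal.poly_mk]
        rw [casimir (homogeneousComponent_isHomogeneous l _)
          (lapP_homogeneousComponent l _ (mem_harmUpTo.1 p.mem).2), smul_eq_C_mul, map_neg])
      calc ∑ i, ⟪rotG i (part l p), rotG i (part l p)⟫
          = -⟪∑ i, rotG i (rotG i (part l p)), part l p⟫ := by
            rw [sum_inner, ← Finset.sum_neg_distrib]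
            exact Finset.sum_congr rfl fun i _ => by
              rw [inner_rotG i (rotG i (part l p)) (part l p), neg_neg]
        _ = _ := by rw [e, real_inner_smul_left]; ring
    have h2 : (l : ℝ) * ‖part l p‖ ≤ ∑ i, ‖rotG i (part l p)‖ := by
      refine (sq_le_sq₀ (by positivity) (Finset.sum_nonneg fun i _ => norm_nonneg _)).1 ?_
      have h3 : ∑ i, ‖rotG i (part l p)‖ ^ 2 ≤ (∑ i, ‖rotG i (part l p)‖) ^ 2 :=
        Finset.sum_sq_le_sq_sum_of_nonneg fun i _ => norm_nonneg _
      have h4 : 0 ≤ (l : ℝ) * ‖part l p‖ ^ 2 := by positivity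
      rw [mul_pow]
      linarith
    calc (l : ℝ) ^ (k + 1) * ‖part l p‖ = (l : ℝ) ^ k * ((l : ℝ) * ‖part l p‖) := by ring
      _ ≤ (l : ℝ) ^ k * ∑ i, ‖rotG i (part l p)‖ := mul_le_mul_of_nonneg_left h2 (by positivity)
      _ ≤ ∑ i, sob k (rotG i p) := by
          rw [Finset.mul_sum]
          exact Finset.sum_le_sum fun i _ => by
            rw [rotG_part]; exact pow_mul_part_le l k (rotG i p)
      _ ≤ sob (k + 1) p := le_add_of_nonneg_left (sob_nonneg k p)

end

end Vale.Agent.P225.Disproof
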