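import Vale.Agent.P225.Disproof.LimitBounds
import Vale.Agent.P225.Disproof.GalerkinSob

/-!
# P225: convergence of Galerkin solutions

All rotational norms of all time derivatives of a sequence of solutions with growth `exp (d t)` are
bounded by the same growth. A subsequence is Cauchy in the projections at rational times, hence
uniformly on windows in mean square, hence, by interpolation, in every norm.
-/

namespace Vale.Agent.P225.Disproof

open MvPolynomial MeasureTheory Set Filter Topology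
open scoped RealInnerProductSpace

noncomputable section

/-- Iterated rotations. -/
def rotL {N : ℕ} : List (Fin 3) → Gal N →L[ℝ] Gal N
  | [] => ContinuousLinearMap.id ℝ (Gal N)
  | i :: a => (rotG i).comp (rotL a)

theorem sob_rotL {N : ℕ} : ∀ (a : List (Fin 3)) (n : ℕ) (p : Gal N),
    sob n (rotL a p) ≤ sob (n + a.length) p
  | [], _, _ => le_rfl
  | i :: a, n, p => (sob_rotG_le n i (rotL a p)).trans ((sob_rotL a (n + 1) p).trans
      (sob_mono (by simp only [List.length_cons]; omega) p))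

theorem low_mem {N : ℕ} (M : ℕ) (p : Gal N) :
    ∑ l ∈ Finset.range (M + 1), homogeneousComponent l p.poly ∈ harmUpTo M := by
  refine Submodule.sum_mem _ fun l hl => mem_harmUpTo.2 ⟨?_, lapP_homogeneousComponent l _
    (mem_harmUpTo.1 p.mem).2⟩
  exact (homogeneousComponent_isHomogeneous l _).totalDegree_le.trans
    (Finset.mem_range_succ_iff.1 hl)

/-- The degrees up to `M`, in `Gal M`; the inclusion when `N ≤ M`. -/
def emb {N : ℕ} (M : ℕ) : Gal N →L[ℝ] Gal M :=
  LinearMap.toContinuousLinearMap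
    { toFun := fun p => Gal.mk _ (low_mem M p)
      map_add' := fun p q => Gal.ext (by simp [Gal.poly_mk, map_add, Finset.sum_add_distrib])
      map_smul' := fun r p => Gal.ext (by simp [Gal.poly_mk, map_smul, Finset.smul_sum]) }

theorem poly_emb {N : ℕ} (M : ℕ) (p : Gal N) :
    (emb M p).poly = ∑ l ∈ Finset.range (M + 1), homogeneousComponent l p.poly := rfl

theorem poly_emb_of_le {N M : ℕ} (h : N ≤ M) (p : Gal N) : (emb M p).poly = p.poly := by
  rw [poly_emb, sum_components ((mem_harmUpTo.1 p.mem).1.trans h)]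

theorem norm_eq_of_poly {N M : ℕ} {p : Gal N} {q : Gal M} (h : p.poly = q.poly) : ‖p‖ = ‖q‖ := by
  rw [← sq_eq_sq₀ (norm_nonneg p) (norm_nonneg q), ← real_inner_self_eq_norm_sq,
    ← real_inner_self_eq_norm_sq, inner_gal, inner_gal, h]

theorem sob_eq_of_poly : ∀ (n : ℕ) {N M : ℕ} {p : Gal N} {q : Gal M}, p.poly = q.poly →
    sob n p = sob n q
  | 0, _, _, _, _, h => norm_eq_of_poly h
  | n + 1, _, _, p, q, h => by
    simp only [sob_succ, sob_eq_of_poly n h]
    congr 1
    exact Finset.sum_congr rfl fun i _ => sob_eq_of_poly n (by rw [poly_rotG, poly_rotG, h])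

theorem poly_rotL_congr : ∀ (a : List (Fin 3)) {N M : ℕ} {p : Gal N} {q : Gal M}, p.poly = q.poly →
    (rotL a p).poly = (rotL a q).poly
  | [], _, _, _, _, h => h
  | i :: a, _, _, p, q, h => by
    show (rotG i (rotL a p)).poly = (rotG i (rotL a q)).poly
    rw [poly_rotG, poly_rotG, poly_rotL_congr a h]

theorem component_emb {N : ℕ} {M l : ℕ} (h : l ≤ M) (p : Gal N) :
    homogeneousComponent l (emb M p).poly = homogeneousComponent l p.poly := by
  rw [poly_emb, map_sum, Finset.sum_eq_single l]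
  · rw [homogeneousComponent_of_mem (homogeneousComponent_isHomogeneous l p.poly), if_pos rfl]
  · intro m _ hm
    rw [homogeneousComponent_of_mem (homogeneousComponent_isHomogeneous m p.poly), if_neg (Ne.symm hm)]
  · exact fun h' => absurd (Finset.mem_range_succ_iff.2 h) h'

theorem norm_emb_le {N : ℕ} (M : ℕ) (p : Gal N) : ‖emb M p‖ ≤ (M + 1 : ℝ) * ‖p‖ := by
  conv_lhs => rw [← sum_part (emb M p)]
  refine (norm_sum_le _ _).trans ?_
  refine (Finset.sum_le_sum fun l hl => show ‖part l (emb M p)‖ ≤ ‖p‖ from ?_).trans (by simp)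
  have h := component_emb (Finset.mem_range_succ_iff.1 hl) p
  exact (norm_eq_of_poly (p := part l (emb M p)) (q := part l p) h).trans_le (norm_part_le l p)

/-- Interpolation: a small mean square and bounds at all orders give smallness at all orders. -/
theorem exists_small_sob : ∀ (n : ℕ) (B : ℕ → ℝ) {ε : ℝ}, 0 < ε →
    ∃ δ, 0 < δ ∧ ∀ (N : ℕ) (p : Gal N), ‖p‖ ≤ δ → (∀ m, sob m p ≤ B m) → sob n p ≤ ε
  | 0, B, ε, hε => ⟨ε, hε, fun N p h _ => h⟩
  | n + 1, B, ε, hε => by
    obtain ⟨δ₁, hδ₁, h₁⟩ := exists_small_sob n B (half_pos hε)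
    obtain ⟨δ₂, hδ₂, h₂⟩ := exists_small_sob n (fun m => B (m + 1)) (by positivity : (0:ℝ) < ε / 6)
    refine ⟨min δ₁ (δ₂ ^ 2 / (|B 2| + 1)), lt_min hδ₁ (by positivity), fun N p hp hB => ?_⟩
    rw [sob_succ]
    have a1 := h₁ N p (hp.trans (min_le_left _ _)) hB
    have a2 : ∀ i, sob n (rotG i p) ≤ ε / 6 := fun i => by
      refine h₂ N _ ?_ fun m => (sob_rotG_le m i p).trans (hB (m + 1))
      have h1 : ‖rotG i p‖ ^ 2 ≤ ‖p‖ * sob 2 p := by
        rw [← real_inner_self_eq_norm_sq, inner_rotG]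
        refine (neg_le_abs _).trans ((abs_real_inner_le_norm _ _).trans ?_)
        exact mul_le_mul_of_nonneg_left ((sob_rotG_le 0 i _).trans (sob_rotG_le 1 i p))
          (norm_nonneg _)
      refine (sq_le_sq₀ (norm_nonneg _) hδ₂.le).1 (h1.trans ?_)
      have h2 : ‖p‖ * (|B 2| + 1) ≤ δ₂ ^ 2 :=
        (le_div_iff₀ (by positivity)).1 (hp.trans (min_le_right _ _))
      refine le_trans (mul_le_mul_of_nonneg_left ?_ (norm_nonneg p)) h2
      linarith [hB 2, le_abs_self (B 2)]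
    have a3 := Finset.sum_le_sum fun i (_ : i ∈ (Finset.univ : Finset (Fin 3))) => a2 i
    simp only [Finset.sum_const, Finset.card_univ, Fintype.card_fin, nsmul_eq_mul] at a3
    push_cast at a3
    linarith

/-- A sequence of solutions with weights, horizons and growth. -/
structure SeqFam (L : ℕ → ℕ) (T : ℕ → ℝ) (w ν : ℕ → ℝ → Space 3 → ℝ) (c C d : ℝ)
    (u : ∀ k, ℝ → Gal (L k)) : Prop where
  wgtw : Wgt w
  wgtν : Wgt ν
  cpos : 0 < c
  loww : ∀ k t, ∀ θ : Sph 3, c ≤ w k t θ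
  lowν : ∀ k t, ∀ θ : Sph 3, c ≤ ν k t θ
  Cpos : 0 < C
  dnonneg : 0 ≤ d
  horizon : Tendsto T atTop atTop
  sol : ∀ k, IsGalSol (L k) (w k) (ν k) (Iio (T k)) (u k)
  bdd : ∀ k, ∀ t < T k, ‖u k t‖ ≤ C * Real.exp (d * max t 0)

namespace SeqFam

variable {L : ℕ → ℕ} {T : ℕ → ℝ} {w ν : ℕ → ℝ → Space 3 → ℝ} {c C d : ℝ}
  {u : ∀ k, ℝ → Gal (L k)}

theorem comp (H : SeqFam L T w ν c C d u) {φ : ℕ → ℕ} (hφ : Tendsto φ atTop atTop) :
    SeqFam (fun k => L (φ k)) (fun k => T (φ k)) (fun k => w (φ k)) (fun k => ν (φ k)) c C d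
      (fun k => u (φ k)) :=
  ⟨H.wgtw.comp φ, H.wgtν.comp φ, H.cpos, fun k => H.loww (φ k), fun k => H.lowν (φ k), H.Cpos,
    H.dnonneg, H.horizon.comp hφ, fun k => H.sol (φ k), fun k => H.bdd (φ k)⟩

theorem galFam (H : SeqFam L T w ν c C d u) (k : ℕ) :
    GalFam (fun _ : Unit => L k) (fun _ => w k) (fun _ => ν k) c (Iio (T k)) (fun _ => u k) :=
  ⟨H.wgtw.comp fun _ => k, H.wgtν.comp fun _ => k, H.cpos, fun _ => H.loww k, fun _ => H.lowν k,
    isOpen_Iio, fun _ => H.sol k⟩

theorem hasDerivAt (H : SeqFam L T w ν c C d u) (k j : ℕ) {t : ℝ} (ht : t < T k) :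
    HasDerivAt (iteratedDeriv j (u k)) (iteratedDeriv (j + 1) (u k) t) t :=
  (H.galFam k).hasDerivAt_iteratedDeriv () j ht

/-- All rotational norms of all time derivatives obey the growth bound. -/
theorem exists_bound (H : SeqFam L T w ν c C d u) (n j : ℕ) :
    ∃ B, 0 ≤ B ∧ ∀ k t, t + 1 ≤ T k →
      sob n (iteratedDeriv j (u k) t) ≤ B * Real.exp (d * max t 0) := by
  set a : {p : ℕ × ℝ // p.2 + 1 ≤ T p.1} → ℝ :=
    fun p => (C * Real.exp (d * max (p.1.2 + 1) 0))⁻¹
  have ha : ∀ p, 0 < a p := fun p => inv_pos.2 (mul_pos H.Cpos (Real.exp_pos _))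
  set v : ∀ p : {p : ℕ × ℝ // p.2 + 1 ≤ T p.1}, ℝ → Gal (L p.1.1) :=
    fun p s => a p • u p.1.1 (s + p.1.2) with hv
  have hlt : ∀ (p : {p : ℕ × ℝ // p.2 + 1 ≤ T p.1}), ∀ s ∈ Ioo (-1 : ℝ) 1, s + p.1.2 < T p.1.1 :=
    fun p s hs => by have := p.2; have := hs.2; linarith
  have hv1 : ∀ p, ∀ s ∈ Ioo (-1 : ℝ) 1,
      HasDerivAt (v p) (a p • deriv (u p.1.1) (s + p.1.2)) s := fun p s hs =>
    ((H.sol p.1.1 _ (hlt p s hs)).1.comp_add_const s p.1.2).const_smul (a p)
  have hG : GalFam (fun p : {p : ℕ × ℝ // p.2 + 1 ≤ T p.1} => L p.1.1)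
      (fun p t => w p.1.1 (t + p.1.2)) (fun p t => ν p.1.1 (t + p.1.2)) c (Ioo (-1) 1) v :=
    ⟨(H.wgtw.comp fun p : {p : ℕ × ℝ // p.2 + 1 ≤ T p.1} => p.1.1).shift fun p => p.1.2,
     (H.wgtν.comp fun p : {p : ℕ × ℝ // p.2 + 1 ≤ T p.1} => p.1.1).shift fun p => p.1.2,
     H.cpos, fun p t => H.loww _ _, fun p t => H.lowν _ _, isOpen_Ioo, fun p s hs => by
      refine ⟨(hv1 p s hs).differentiableAt.hasDerivAt, ?_⟩
      have h2 := ((H.sol p.1.1 _ (hlt p s hs)).2.comp_add_const s p.1.2).const_smul (a p)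
      rw [(hv1 p s hs).deriv]
      refine (h2.congr_of_eventuallyEq ?_).congr_deriv ?_
      · filter_upwards [isOpen_Ioo.mem_nhds hs] with r hr
        rw [(hv1 p r hr).deriv]
        exact map_smul _ _ _
      · simp only [v, map_smul, smul_sub]⟩
  have hbd : ∀ p, ∀ s ∈ Ioo (-1 : ℝ) 1, ‖v p s‖ ≤ 1 := fun p s hs => by
    rw [hv, norm_smul, Real.norm_of_nonneg (ha p).le]
    refine (mul_le_mul_of_nonneg_left (H.bdd p.1.1 _ (hlt p s hs)) (ha p).le).trans ?_
    simp only [a]
    rw [inv_mul_le_one₀ (mul_pos H.Cpos (Real.exp_pos _))]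
    have hd := H.dnonneg
    have hC := H.Cpos.le
    refine mul_le_mul_of_nonneg_left (Real.exp_le_exp.2 (mul_le_mul_of_nonneg_left ?_ hd)) hC
    exact max_le_max (by linarith [hs.2]) le_rfl
  have hit : ∀ (j : ℕ) p, ∀ s ∈ Ioo (-1 : ℝ) 1,
      iteratedDeriv j (v p) s = a p • iteratedDeriv j (u p.1.1) (s + p.1.2) := by
    intro j
    induction j with
    | zero => exact fun p s _ => by simp [v]
    | succ j ih =>
      intro p s hs
      have h1 := (((H.hasDerivAt p.1.1 j (hlt p s hs)).comp_add_const s p.1.2).const_smul (a p))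
      rw [iteratedDeriv_succ]
      refine HasDerivAt.deriv (h1.congr_of_eventuallyEq ?_)
      filter_upwards [isOpen_Ioo.mem_nhds hs] with r hr
      exact ih p r hr
  obtain ⟨B, hB0, hB⟩ := hG.exists_sob_bound hbd n j (1 / 2) (by norm_num) (by norm_num)
  refine ⟨B * C * Real.exp d, by have := H.Cpos; positivity, fun k t ht => ?_⟩
  have h := hB ⟨(k, t), ht⟩ 0 (by norm_num)
  rw [hit j _ 0 (by norm_num), sob_smul, abs_of_pos (ha _), zero_add] at h
  simp only [a] at h
  rw [inv_mul_le_iff₀ (mul_pos H.Cpos (Real.exp_pos _))] at h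
  refine h.trans ?_
  have hd := H.dnonneg
  have hexp : Real.exp (d * max (t + 1) 0) ≤ Real.exp d * Real.exp (d * max t 0) := by
    rw [← Real.exp_add]
    refine Real.exp_le_exp.2 ?_
    calc d * max (t + 1) 0 ≤ d * (max t 0 + 1) := by
          gcongr
          exact max_le (by linarith [le_max_left t 0]) (by linarith [le_max_right t 0])
      _ = d + d * max t 0 := by ring
  calc C * Real.exp (d * max (t + 1) 0) * B
      ≤ C * (Real.exp d * Real.exp (d * max t 0)) * B := by have := H.Cpos.le; gcongr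
    _ = B * C * Real.exp d * Real.exp (d * max t 0) := by ring

theorem exists_bound_window (H : SeqFam L T w ν c C d u) (n j : ℕ) (a b : ℝ) :
    ∃ B, 0 ≤ B ∧ ∀ k, b + 1 ≤ T k → ∀ t ∈ Icc a b, sob n (iteratedDeriv j (u k) t) ≤ B := by
  obtain ⟨B, hB0, hB⟩ := H.exists_bound n j
  refine ⟨B * Real.exp (d * max b 0), by positivity, fun k hk t ht => ?_⟩
  refine (hB k t (by linarith [ht.2])).trans ?_
  have := H.dnonneg
  have := ht.2
  gcongr

theorem eventually_horizon (H : SeqFam L T w ν c C d u) (b : ℝ) :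
    ∃ K, ∀ k ≥ K, b ≤ T k :=
  eventually_atTop.1 (H.horizon.eventually_ge_atTop b)

/-- The difference of two solutions in a common space. -/
def diff (u : ∀ k, ℝ → Gal (L k)) (j k m : ℕ) (t : ℝ) : Gal (max (L k) (L m)) :=
  emb _ (iteratedDeriv j (u k) t) - emb _ (iteratedDeriv j (u m) t)

theorem sob_diff_le (n j k m : ℕ) (t : ℝ) :
    sob n (diff u j k m t) ≤ sob n (iteratedDeriv j (u k) t) + sob n (iteratedDeriv j (u m) t) :=
  (sob_sub_le n _ _).trans (le_of_eq (by
    rw [sob_eq_of_poly n (poly_emb_of_le (le_max_left (L k) (L m)) _),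
      sob_eq_of_poly n (poly_emb_of_le (le_max_right (L k) (L m)) _)]))

/-- Cauchy at rational times in every projection gives uniformly Cauchy in mean square. -/
theorem cauchy_zero (H : SeqFam L T w ν c C d u)
    (hq : ∀ (l : ℕ) (q : ℚ), CauchySeq fun k => emb l (u k q)) (a b : ℝ) {ε : ℝ} (hε : 0 < ε) :
    ∃ K, ∀ k ≥ K, ∀ m ≥ K, ∀ t ∈ Icc a b, ‖diff u 0 k m t‖ ≤ ε := by
  obtain ⟨B2, hB20, hB2⟩ := H.exists_bound_window 2 0 a b
  obtain ⟨B1, hB10, hB1⟩ := H.exists_bound_window 0 1 (a - 1) (b + 1)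
  obtain ⟨l0, hl0⟩ := exists_nat_gt (4 * B2 / ε + 1)
  have hl0' : 0 < l0 := Nat.cast_pos.1 (lt_of_le_of_lt (by positivity) hl0)
  set η := ε / (2 * (l0 + 1)) with hη
  have hη0 : 0 < η := by positivity
  obtain ⟨δ, hδ0, hδ⟩ := exists_rat_btwn (show (0:ℝ) < min 1 (η / (4 * (l0 + 1) * (B1 + 1))) by
    positivity)
  set S := (Finset.Icc ⌊a / (δ : ℝ)⌋ ⌊b / (δ : ℝ)⌋).image fun i : ℤ => (i : ℚ) * δ
  have hcs : ∀ q ∈ S, ∀ᶠ N in atTop, ∀ k ≥ N, ∀ m ≥ N,
      dist (emb l0 (u k (q : ℚ))) (emb l0 (u m (q : ℚ))) < η / 2 := fun q _ => by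
    obtain ⟨N, hN⟩ := Metric.cauchySeq_iff.1 (hq l0 q) (η / 2) (half_pos hη0)
    exact eventually_atTop.2 ⟨N, fun N' hN' k hk m hm => hN k (hN'.trans hk) m (hN'.trans hm)⟩
  obtain ⟨K1, hK1⟩ := eventually_atTop.1 ((eventually_all_finset S).2 hcs)
  obtain ⟨K2, hK2⟩ := H.eventually_horizon (b + 1 + 1)
  refine ⟨max K1 K2, fun k hk m hm t ht => ?_⟩
  have hTk := hK2 k ((le_max_right _ _).trans hk)
  have hTm := hK2 m ((le_max_right _ _).trans hm)
  -- the low degrees
  set i := ⌊t / (δ : ℝ)⌋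
  set q : ℚ := (i : ℚ) * δ
  have hqS : q ∈ S := Finset.mem_image.2 ⟨i, Finset.mem_Icc.2
    ⟨Int.floor_le_floor (by gcongr; exact ht.1), Int.floor_le_floor (by gcongr; exact ht.2)⟩, rfl⟩
  have hqr : (q : ℝ) = (i : ℝ) * δ := by simp [q]
  have hq1 : (q : ℝ) ≤ t := by rw [hqr]; exact (le_div_iff₀ hδ0).1 (Int.floor_le _)
  have hq2 : t < q + δ := by
    have := (div_lt_iff₀ hδ0).1 (Int.lt_floor_add_one (t / (δ : ℝ)))
    rw [hqr]
    linarith
  have hδ1 := hδ.le.trans (min_le_left _ _)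
  have hlip : ∀ k, b + 1 + 1 ≤ T k → ‖u k t - u k q‖ ≤ B1 * δ := fun k hk => by
    have h := Convex.norm_image_sub_le_of_norm_hasDerivWithin_le (f := u k)
      (f' := iteratedDeriv 1 (u k)) (s := Icc (a - 1) (b + 1)) (C := B1)
      (fun s hs => by
        have := H.hasDerivAt k 0 (t := s) (by linarith [hs.2])
        rw [iteratedDeriv_zero] at this
        exact this.hasDerivWithinAt)
      (fun s hs => hB1 k hk s hs) (convex_Icc _ _)
      (x := (q : ℝ)) (y := t) ⟨by linarith [ht.1], by linarith [ht.2]⟩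
      ⟨by linarith [ht.1], by linarith [ht.2]⟩
    refine h.trans (mul_le_mul_of_nonneg_left ?_ hB10)
    rw [Real.norm_eq_abs, abs_of_nonneg (by linarith)]
    linarith
  have hlow : ‖emb l0 (u k t) - emb l0 (u m t)‖ ≤ η := by
    have h1 := hK1 _ (le_refl K1) q hqS k ((le_max_left _ _).trans hk) m ((le_max_left _ _).trans hm)
    rw [dist_eq_norm] at h1
    have e : emb l0 (u k t) - emb l0 (u m t) = emb l0 (u k t - u k q) -
        emb l0 (u m t - u m q) + (emb l0 (u k q) - emb l0 (u m q)) := by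
      simp only [map_sub]; abel
    have h2 : (l0 + 1 : ℝ) * (B1 * δ) ≤ η / 4 := by
      have h3 := (le_div_iff₀ (by positivity)).1 (hδ.le.trans (min_le_right _ _))
      have : 0 ≤ (l0 + 1 : ℝ) * δ := by positivity
      nlinarith
    rw [e]
    refine (norm_add_le _ _).trans ((add_le_add ((norm_sub_le _ _).trans (add_le_add
      ((norm_emb_le _ _).trans ((mul_le_mul_of_nonneg_left (hlip k hTk) (by positivity)).trans h2))
      ((norm_emb_le _ _).trans ((mul_le_mul_of_nonneg_left (hlip m hTm) (by positivity)).trans h2))))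
      h1.le).trans ?_)
    linarith
  -- all degrees
  set D := diff u 0 k m t with hD
  have hS2 : sob 2 D ≤ 2 * B2 := by
    refine (sob_diff_le 2 0 k m t).trans ?_
    linarith [hB2 k (by linarith) t ht, hB2 m (by linarith) t ht]
  have hpart : ∀ l, l ≤ l0 → ‖part l D‖ ≤ η := fun l hl => by
    refine le_trans (le_of_eq ?_) ((norm_part_le l (emb l0 (u k t) - emb l0 (u m t))).trans hlow)
    refine norm_eq_of_poly ?_
    simp only [part, Gal.poly_mk, hD, diff, map_sub, component_emb hl, iteratedDeriv_zero,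
      poly_emb_of_le (le_max_left (L k) (L m)), poly_emb_of_le (le_max_right (L k) (L m))]
  rw [← sum_part D]
  refine (norm_sum_le _ _).trans ?_
  rw [← Finset.sum_filter_add_sum_filter_not _ (fun l => l ≤ l0)]
  have s1 : ∑ l ∈ (Finset.range (max (L k) (L m) + 1)).filter (fun l => l ≤ l0), ‖part l D‖ ≤ (l0 + 1) * η := by
    refine (Finset.sum_le_sum fun l hl => hpart l (Finset.mem_filter.1 hl).2).trans ?_
    rw [Finset.sum_const, nsmul_eq_mul]
    refine mul_le_mul_of_nonneg_right ?_ hη0.le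
    have := Finset.card_le_card (show (Finset.range (max (L k) (L m) + 1)).filter (fun l => l ≤ l0) ⊆
      Finset.range (l0 + 1) from fun l hl => Finset.mem_range_succ_iff.2 (Finset.mem_filter.1 hl).2)
    rw [Finset.card_range] at this
    exact_mod_cast this
  have s2 : ∑ l ∈ (Finset.range (max (L k) (L m) + 1)).filter (fun l => ¬l ≤ l0), ‖part l D‖ ≤
      (2 * B2) * (l0 : ℝ)⁻¹ := by
    have hsub : (Finset.range (max (L k) (L m) + 1)).filter (fun l => ¬l ≤ l0) ⊆ Finset.Ioc l0 (max l0 (max (L k) (L m))) :=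
      fun l hl => by
        obtain ⟨h1, h2⟩ := Finset.mem_filter.1 hl
        exact Finset.mem_Ioc.2 ⟨by omega, (Finset.mem_range_succ_iff.1 h1).trans (le_max_right _ _)⟩
    calc _ ≤ ∑ l ∈ (Finset.range (max (L k) (L m) + 1)).filter (fun l => ¬l ≤ l0), 2 * B2 * ((l : ℝ) ^ 2)⁻¹ := by
          refine Finset.sum_le_sum fun l hl => ?_
          have hl1 : 0 < l := by have := (Finset.mem_filter.1 hl).2; omega
          have hl2 : (0 : ℝ) < (l : ℝ) ^ 2 := by positivity
          rw [← div_eq_mul_inv, le_div_iff₀ hl2, mul_comm]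
          exact (pow_mul_part_le l 2 D).trans hS2
      _ ≤ ∑ l ∈ Finset.Ioc l0 (max l0 (max (L k) (L m))), 2 * B2 * ((l : ℝ) ^ 2)⁻¹ :=
          Finset.sum_le_sum_of_subset_of_nonneg hsub fun l _ _ => by positivity
      _ ≤ _ := by
          rw [← Finset.mul_sum]
          refine mul_le_mul_of_nonneg_left ?_ (by positivity)
          refine (sum_Ioc_inv_sq_le_sub hl0'.ne' (le_max_left _ _)).trans ?_
          simp
  refine (add_le_add s1 s2).trans ?_
  have e1 : ((l0 : ℝ) + 1) * η = ε / 2 := by rw [hη]; field_simp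
  have e2 : 2 * B2 * (l0 : ℝ)⁻¹ ≤ ε / 2 := by
    rw [← div_eq_mul_inv, div_le_iff₀ (by positivity)]
    have h5 := (lt_div_iff₀ hε).not.1 (show ¬((l0 : ℝ) < 4 * B2 / ε) by linarith)
    linarith
  linarith

/-- Uniformly Cauchy in every time derivative and every rotational norm. -/
theorem cauchy (H : SeqFam L T w ν c C d u)
    (hq : ∀ (l : ℕ) (q : ℚ), CauchySeq fun k => emb l (u k q)) (n j : ℕ) (a b : ℝ) {ε : ℝ}
    (hε : 0 < ε) : ∃ K, ∀ k ≥ K, ∀ m ≥ K, ∀ t ∈ Icc a b, sob n (diff u j k m t) ≤ ε := by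
  suffices h0 : ∀ (j : ℕ) (a b : ℝ) {ε : ℝ}, 0 < ε →
      ∃ K, ∀ k ≥ K, ∀ m ≥ K, ∀ t ∈ Icc a b, ‖diff u j k m t‖ ≤ ε by
    choose B hB0 hB using fun n => H.exists_bound_window n j a b
    obtain ⟨δ, hδ, hsmall⟩ := exists_small_sob n (fun n => 2 * B n) hε
    obtain ⟨K1, hK1⟩ := h0 j a b hδ
    obtain ⟨K2, hK2⟩ := H.eventually_horizon (b + 1)
    refine ⟨max K1 K2, fun k hk m hm t ht => hsmall _ _
      (hK1 k ((le_max_left _ _).trans hk) m ((le_max_left _ _).trans hm) t ht) fun n' => ?_⟩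
    refine (sob_diff_le n' j k m t).trans ?_
    linarith [hB n' k (hK2 k ((le_max_right _ _).trans hk)) t ht,
      hB n' m (hK2 m ((le_max_right _ _).trans hm)) t ht]
  clear n j a b hε ε
  intro j
  induction j with
  | zero => exact fun a b ε hε => H.cauchy_zero hq a b hε
  | succ j ih =>
    intro a b ε hε
    obtain ⟨B, hB0, hB⟩ := H.exists_bound_window 0 (j + 2) a (b + 1)
    set h := min 1 (ε / (2 * (2 * B + 1))) with hh
    have hh0 : 0 < h := lt_min one_pos (by positivity)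
    obtain ⟨K1, hK1⟩ := ih a (b + 1) (show 0 < ε * h / 4 by positivity)
    obtain ⟨K2, hK2⟩ := H.eventually_horizon (b + 1 + 1)
    refine ⟨max K1 K2, fun k hk m hm t ht => ?_⟩
    have hTk := hK2 k ((le_max_right _ _).trans hk)
    have hTm := hK2 m ((le_max_right _ _).trans hm)
    have hh1 : h ≤ 1 := min_le_left _ _
    have hmem : ∀ s ∈ Icc t (t + h), s ∈ Icc a (b + 1) := fun s hs =>
      ⟨by linarith [ht.1, hs.1], by linarith [ht.2, hs.2]⟩
    have hd : ∀ (j' : ℕ), ∀ s ∈ Icc t (t + h),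
        HasDerivAt (diff u j' k m) (diff u (j' + 1) k m s) s := fun j' s hs => by
      have hs' := (hmem s hs).2
      exact ((emb (max (L k) (L m))).hasFDerivAt.comp_hasDerivAt s
        (H.hasDerivAt k j' (t := s) (by linarith))).sub
        ((emb (max (L k) (L m))).hasFDerivAt.comp_hasDerivAt s
          (H.hasDerivAt m j' (t := s) (by linarith)))
    set f := diff u (j + 1) k m
    have h2 : ∀ s ∈ Icc t (t + h), ‖f s - f t‖ ≤ 2 * B * h := fun s hs => by
      have := Convex.norm_image_sub_le_of_norm_hasDerivWithin_le (f := f)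
        (fun r hr => (hd (j + 1) r hr).hasDerivWithinAt) (C := 2 * B)
        (fun r hr => (sob_diff_le 0 (j + 2) k m r).trans (by
          linarith [hB k hTk r (hmem r hr), hB m hTm r (hmem r hr)]))
        (convex_Icc _ _) (left_mem_Icc.2 (by linarith)) hs
      refine this.trans (mul_le_mul_of_nonneg_left ?_ (by positivity))
      rw [Real.norm_eq_abs, abs_of_nonneg (by linarith [hs.1])]
      linarith [hs.2]
    have h3 := Convex.norm_image_sub_le_of_norm_hasDerivWithin_le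
      (f := fun s => diff u j k m s - s • f t)
      (fun r hr => ((hd j r hr).sub ((hasDerivAt_id r).smul_const (f t))).hasDerivWithinAt)
      (fun r hr => by simpa using h2 r hr) (convex_Icc t (t + h))
      (left_mem_Icc.2 (by linarith)) (right_mem_Icc.2 (by linarith))
    rw [add_sub_cancel_left, Real.norm_of_nonneg hh0.le] at h3
    have e : h • f t = diff u j k m (t + h) - diff u j k m t -
        (diff u j k m (t + h) - (t + h) • f t - (diff u j k m t - t • f t)) := by
      rw [add_smul]; abel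
    have h4 : h * ‖f t‖ ≤ ε * h / 4 + ε * h / 4 + 2 * B * h * h := by
      rw [← Real.norm_of_nonneg hh0.le, ← norm_smul, e, Real.norm_of_nonneg hh0.le]
      refine (norm_sub_le _ _).trans (add_le_add ((norm_sub_le _ _).trans (add_le_add ?_ ?_)) h3)
      · exact hK1 k ((le_max_left _ _).trans hk) m ((le_max_left _ _).trans hm) _
          (hmem _ (right_mem_Icc.2 (by linarith)))
      · exact hK1 k ((le_max_left _ _).trans hk) m ((le_max_left _ _).trans hm) _
          (hmem _ (left_mem_Icc.2 (by linarith)))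
    have h5 : h * (2 * B) ≤ ε / 2 := by
      have h6 := (le_div_iff₀ (by positivity)).1 (show h ≤ ε / (2 * (2 * B + 1)) from min_le_right _ _)
      linarith
    refine le_of_mul_le_mul_left ?_ hh0
    have := mul_le_mul_of_nonneg_left h5 hh0.le
    linarith

end SeqFam

/-- A subsequence with Cauchy projections at all rational times. -/
theorem exists_subseq {L : ℕ → ℕ} {T : ℕ → ℝ} {C d : ℝ} (hC : 0 ≤ C) {M : ℕ}
    (hT : Tendsto T atTop atTop) (u : ∀ k, Fin M → ℝ → Gal (L k))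
    (hb : ∀ k m, ∀ t < T k, ‖u k m t‖ ≤ C * Real.exp (d * max t 0)) :
    ∃ φ : ℕ → ℕ, StrictMono φ ∧
      ∀ (m : Fin M) (l : ℕ) (q : ℚ), CauchySeq fun k => emb l (u (φ k) m q) := by
  classical
  set x : ℕ → ∀ i : Fin M × ℕ × ℚ, Gal i.2.1 := fun k i =>
    if (i.2.2 : ℝ) < T k then emb i.2.1 (u k i.1 i.2.2) else 0
  set S : Set (∀ i : Fin M × ℕ × ℚ, Gal i.2.1) := Set.pi univ fun i =>
    Metric.closedBall 0 ((i.2.1 + 1 : ℝ) * (C * Real.exp (d * max (i.2.2 : ℝ) 0)))
  have hS : IsCompact S := isCompact_univ_pi fun i => isCompact_closedBall _ _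
  have hx : ∀ k, x k ∈ S := fun k i _ => by
    rw [mem_closedBall_zero_iff]
    simp only [x]
    split_ifs with h
    · exact (norm_emb_le _ _).trans (mul_le_mul_of_nonneg_left (hb k i.1 _ h) (by positivity))
    · rw [norm_zero]; positivity
  obtain ⟨y, -, φ, hφ, hlim⟩ := hS.tendsto_subseq hx
  refine ⟨φ, hφ, fun m l q => ?_⟩
  have h1 : Tendsto (fun k => x (φ k) (m, l, q)) atTop (𝓝 (y (m, l, q))) :=
    (tendsto_pi_nhds.1 hlim) (m, l, q)
  refine (h1.congr' ?_).cauchySeq
  filter_upwards [(hT.comp hφ.tendsto_atTop).eventually_gt_atTop (q : ℝ)] with k hk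
  simp only [x, Function.comp_apply] at hk ⊢
  rw [if_pos hk]

end

end Vale.Agent.P225.Disproof
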