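import Vale.Agent.P225.Disproof.LimitLift
import Vale.Agent.P225.Disproof.LimitConv

/-!
# P225: the functions of a convergent sequence of Galerkin solutions

Along a Cauchy sequence the lifts of all derivatives converge on compact sets away from the origin,
and the harmonic polynomials of the initial data converge with all derivatives inside the unit
ball. For `t ≤ 0` the lift is the harmonic polynomial, so the limit is smooth everywhere.
-/

namespace Vale.Agent.P225.Disproof

open MvPolynomial MeasureTheory Set Filter Topology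
open scoped RealInnerProductSpace ContDiff

noncomputable section

theorem polC_self {x : Space 3} (hx : x ≠ 0) (i : Fin 3) : polC 0 x x = 1 ∧ polC i.succ x x = 0 := by
  refine ⟨?_, ?_⟩
  · simp [polC, inv_mul_cancel₀ (pow_ne_zero 2 (norm_ne_zero_iff.2 hx))]
  · simp [polC]
    exact Or.inr (by ring)

/-- The Euler derivative of the lift of a curve. -/
theorem eul_curveLift {N : ℕ} {c : ℝ → Gal N} {c' : Gal N} {x : Space 3} (hx : x ≠ 0)
    (hc : HasDerivAt c c' (Real.log ‖x‖)) :
    Met3.eul (curveLift c) x = evalFun c'.poly (‖x‖⁻¹ • x) := by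
  rw [Met3.eul, (hasFDerivAt_curveLift hx hc).fderiv]
  simp only [add_apply, sum_apply, smul_apply, smul_eq_mul, (polC_self hx 0).1,
    fun i => (polC_self hx i).2, mul_zero, Finset.sum_const_zero, mul_one, add_zero]

/-- The rotations of the lift of a curve. -/
theorem rot_curveLift {N : ℕ} {c : ℝ → Gal N} {c' : Gal N} {x : Space 3} (hx : x ≠ 0)
    (hc : HasDerivAt c c' (Real.log ‖x‖)) (i : Fin 3) :
    rot i (curveLift c) x = curveLift (fun t => rotG i (c t)) x := by
  set v := x (i + 1) • EuclideanSpace.single (i + 2) (1 : ℝ) -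
    x (i + 2) • EuclideanSpace.single (i + 1) (1 : ℝ) with hv
  have hip : Met3.ip x v = 0 := Met3.rotVec_ip i x
  have hs := sum_cross_rot (evalFun (c (Real.log ‖x‖)).poly) hx v
  simp only [rot_evalFun, ← poly_rotG] at hs
  rw [hip, zero_div, zero_smul, sub_zero] at hs
  have h0 : polC 0 x v = 0 := by rw [polC_zero, hip, zero_div]
  rw [rot_eq_fderiv, (hasFDerivAt_curveLift hx hc).fderiv, ← hv]
  simp only [add_apply, sum_apply, smul_apply, smul_eq_mul, h0, mul_zero, zero_add]
  rw [Finset.sum_congr rfl fun j _ => mul_comm _ _, hs]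
  show _ = evalFun (rotG i (c (Real.log ‖x‖))).poly (‖x‖⁻¹ • x)
  rw [poly_rotG, ← rot_evalFun, rot_eq_fderiv]
  simp [v, smul_sub, smul_smul]

/-- The degree acts on each part as a scalar. -/
theorem part_degOp {N : ℕ} (l : ℕ) (p : Gal N) : part l (degOp N p) = (l : ℝ) • part l p := by
  refine Gal.ext ?_
  have e : (degOp N p).poly =
      ∑ m ∈ Finset.range (N + 1), (m : ℝ) • homogeneousComponent m p.poly := by
    show (∑ m ∈ Finset.range (N + 1), (m : ℝ) • part m p).poly = _
    simp only [map_sum, map_smul, part, Gal.poly_mk]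
  simp only [part, Gal.poly_mk, map_smul, e, map_sum]
  rcases le_or_gt l N with hl | hl
  · rw [Finset.sum_eq_single l]
    · rw [homogeneousComponent_of_mem (homogeneousComponent_isHomogeneous l p.poly), if_pos rfl]
    · intro m _ hm
      rw [homogeneousComponent_of_mem (homogeneousComponent_isHomogeneous m p.poly),
        if_neg (Ne.symm hm), smul_zero]
    · exact fun h => absurd (Finset.mem_range_succ_iff.2 hl) h
  · rw [homogeneousComponent_eq_zero l _ (lt_of_le_of_lt (mem_harmUpTo.1 p.mem).1 hl), smul_zero]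
    refine Finset.sum_eq_zero fun m hm => ?_
    rw [homogeneousComponent_of_mem (homogeneousComponent_isHomogeneous m p.poly),
      if_neg (by have := Finset.mem_range_succ_iff.1 hm; omega), smul_zero]

/-- Round solutions are harmonic polynomials on the unit ball. -/
theorem curveLift_eq_poly {N : ℕ} {u : ℝ → Gal N}
    (hu : ∀ t ≤ 0, HasDerivAt u (degOp N (u t)) t) {x : Space 3} (hx : x ≠ 0) (hx1 : ‖x‖ ≤ 1) :
    curveLift u x = evalFun (u 0).poly x := by
  set t := Real.log ‖x‖
  have ht : t ≤ 0 := Real.log_nonpos (norm_nonneg _) hx1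
  have key : ∀ l : ℕ, part l (u t) = ‖x‖ ^ l • part l (u 0) := fun l => by
    set P : Gal N →L[ℝ] Gal N := LinearMap.toContinuousLinearMap
      { toFun := part l
        map_add' := fun p q => Gal.ext (by simp [part, Gal.poly_mk, map_add])
        map_smul' := fun r p => Gal.ext (by simp [part, Gal.poly_mk, map_smul]) } with hP
    have hPa : ∀ p, P p = part l p := fun p => rfl
    have hd : ∀ s ≤ (0 : ℝ), HasDerivAt (fun s => Real.exp (-(l : ℝ) * s) • P (u s)) 0 s := fun s hs => by
      have h1 : HasDerivAt (fun s => Real.exp (-(l : ℝ) * s)) (Real.exp (-(l : ℝ) * s) * -(l : ℝ)) s := by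
        simpa using ((hasDerivAt_id s).const_mul (-(l : ℝ))).exp
      have h2 : HasDerivAt (fun s => P (u s)) (P (degOp N (u s))) s :=
        P.hasFDerivAt.comp_hasDerivAt s (hu s hs)
      refine (h1.smul h2).congr_deriv ?_
      rw [hPa, hPa, part_degOp, smul_smul, ← add_smul, mul_neg, add_neg_cancel, zero_smul]
    have hc := constant_of_has_deriv_right_zero (a := t) (b := 0)
      (fun s hs => (hd s hs.2).continuousAt.continuousWithinAt)
      (fun s hs => (hd s hs.2.le).hasDerivWithinAt) 0 (right_mem_Icc.2 ht)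
    simp only [mul_zero, Real.exp_zero, one_smul, hPa] at hc
    rw [hc, smul_smul]
    have : ‖x‖ ^ l = Real.exp ((l : ℝ) * t) := by
      rw [Real.exp_nat_mul, Real.exp_log (norm_pos_iff.2 hx)]
    rw [this, ← Real.exp_add, neg_mul, add_neg_cancel, Real.exp_zero, one_smul]
  have hev : ∀ (q : MvPolynomial (Fin 3) ℝ) (s : Finset ℕ) (y : Space 3), q = ∑ l ∈ s, homogeneousComponent l q →
      evalFun q y = ∑ l ∈ s, evalFun (homogeneousComponent l q) y := fun q s y h => by
    conv_lhs => rw [h]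
    simp [evalFun, map_sum]
  show evalFun (u t).poly (‖x‖⁻¹ • x) = _
  rw [hev _ _ _ (sum_components (mem_harmUpTo.1 (u t).mem).1).symm,
    hev _ _ x (sum_components (mem_harmUpTo.1 (u 0).mem).1).symm]
  refine Finset.sum_congr rfl fun l _ => ?_
  rw [show homogeneousComponent l (u t).poly = (part l (u t)).poly from rfl, key, map_smul]
  rw [show evalFun (‖x‖ ^ l • (part l (u 0)).poly) (‖x‖⁻¹ • x) =
    ‖x‖ ^ l * evalFun (part l (u 0)).poly (‖x‖⁻¹ • x) by simp [evalFun, MvPolynomial.smul_eval],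
    show (part l (u 0)).poly = homogeneousComponent l (u 0).poly from rfl,
    ← evalFun_smul_point (homogeneousComponent_isHomogeneous l _), smul_smul,
    mul_inv_cancel₀ (norm_ne_zero_iff.2 hx), one_smul]

/-- A time order and a word of rotations. -/
abbrev DIdx : Type := ℕ × List (Fin 3)

/-- One more derivative. -/
def nextD (a : DIdx) (j : Fin 4) : DIdx := Fin.cases (a.1 + 1, a.2) (fun i => (a.1, i :: a.2)) j

variable {L : ℕ → ℕ} {T : ℕ → ℝ} {w ν : ℕ → ℝ → Space 3 → ℝ} {c C d : ℝ}
  {u : ∀ k, ℝ → Gal (L k)}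

/-- The lift of a derivative. -/
def memberFn (u : ∀ k, ℝ → Gal (L k)) (k : ℕ) (a : DIdx) : Space 3 → ℝ :=
  curveLift fun t => rotL a.2 (iteratedDeriv a.1 (u k) t)

/-- Its limit. -/
def limFn (u : ∀ k, ℝ → Gal (L k)) (a : DIdx) (x : Space 3) : ℝ :=
  limUnder atTop fun k => memberFn u k a x

/-- The limit near the origin. -/
def limBall (u : ∀ k, ℝ → Gal (L k)) (a : List (Fin 3)) (x : Space 3) : ℝ :=
  limUnder atTop fun k => evalFun (pdl a (u k 0).poly) x

/-- The limit function on the whole space. -/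
def limU (u : ∀ k, ℝ → Gal (L k)) (x : Space 3) : ℝ :=
  if ‖x‖ < 1 then limBall u [] x else limFn u (0, []) x

namespace SeqFam

theorem hasFDerivAt_member (H : SeqFam L T w ν c C d u) (a : DIdx) (k : ℕ) {x : Space 3}
    (hx : x ≠ 0) (hk : Real.log ‖x‖ < T k) :
    HasFDerivAt (memberFn u k a) (∑ j, memberFn u k (nextD a j) x • polC j x) x := by
  refine (hasFDerivAt_curveLift hx
    ((rotL a.2).hasFDerivAt.comp_hasDerivAt _ (H.hasDerivAt k a.1 hk))).congr_fderiv ?_
  simp only [Fin.sum_univ_succ (n := 3), nextD, Fin.cases_zero, Fin.cases_succ]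
  rfl

theorem uniformly_member (H : SeqFam L T w ν c C d u)
    (hq : ∀ (l : ℕ) (q : ℚ), CauchySeq fun k => emb l (u k q)) (a : DIdx) {K : Set (Space 3)}
    (hK : IsCompact K) (hK0 : K ⊆ {0}ᶜ) :
    TendstoUniformlyOn (fun k => memberFn u k a) (limFn u a) atTop K := by
  obtain ⟨B, hB⟩ := hK.exists_bound_of_continuousOn (f := fun x => Real.log ‖x‖)
    (fun x hx => ((Real.continuousAt_log (norm_ne_zero_iff.2 (hK0 hx))).comp
      continuous_norm.continuousAt).continuousWithinAt)
  obtain ⟨C0, hC0, hC⟩ := exists_res_sob_bound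
  have hUC : UniformCauchySeqOn (fun k => memberFn u k a) atTop K := by
    rw [Metric.uniformCauchySeqOn_iff]
    intro ε hε
    obtain ⟨N, hN⟩ := H.cauchy hq (4 + a.2.length) a.1 (-B) B
      (show 0 < ε / (C0 + 1) by positivity)
    refine ⟨N, fun k hk m hm x hx => ?_⟩
    have ht : Real.log ‖x‖ ∈ Icc (-B) B := abs_le.1 (hB x hx)
    set θ : Sph 3 := ⟨‖x‖⁻¹ • x, by simp [Met3.norm_inv_smul (hK0 hx)]⟩
    set p := diff u a.1 k m (Real.log ‖x‖)
    have e : memberFn u k a x - memberFn u m a x = res (rotL a.2 p).poly θ := by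
      simp only [p, diff, map_sub, res, evalFun]
      rw [poly_rotL_congr a.2 (poly_emb_of_le (le_max_left (L k) (L m)) _),
        poly_rotL_congr a.2 (poly_emb_of_le (le_max_right (L k) (L m)) _)]
      rfl
    rw [Real.dist_eq, e]
    calc |res (rotL a.2 p).poly θ| ≤ C0 * sob (4 + a.2.length) p :=
          (hC _ _ θ).trans (mul_le_mul_of_nonneg_left (sob_rotL a.2 4 p) hC0)
      _ ≤ C0 * (ε / (C0 + 1)) := mul_le_mul_of_nonneg_left (hN k hk m hm _ ht) hC0
      _ < ε := by
        rw [mul_div_assoc', div_lt_iff₀ (by positivity)]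
        linarith
  refine hUC.tendstoUniformlyOn_of_tendsto fun x hx => ?_
  exact (CauchySeq.tendsto_limUnder (hUC.cauchy_map hx))

theorem tendsto_member (H : SeqFam L T w ν c C d u)
    (hq : ∀ (l : ℕ) (q : ℚ), CauchySeq fun k => emb l (u k q)) (a : DIdx) {x : Space 3} (hx : x ≠ 0) :
    Tendsto (fun k => memberFn u k a x) atTop (𝓝 (limFn u a x)) :=
  (H.uniformly_member hq a (isCompact_singleton (x := x)) (by simpa using hx.symm)).tendsto_at rfl

theorem smooth_member (H : SeqFam L T w ν c C d u)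
    (hq : ∀ (l : ℕ) (q : ℚ), CauchySeq fun k => emb l (u k q)) :
    (∀ a, ContDiffOn ℝ ∞ (limFn u a) {0}ᶜ) ∧
      ∀ a, ∀ x ∈ ({0}ᶜ : Set (Space 3)),
        HasFDerivAt (limFn u a) (∑ j, limFn u (nextD a j) x • polC j x) x := by
  refine smooth_limit isOpen_compl_singleton nextD polC contDiffOn_polC (memberFn u) (limFn u)
    (fun a K hK hK0 => ?_) (fun a K hK hK0 => H.uniformly_member hq a hK hK0)
  obtain ⟨B, hB⟩ := hK.exists_bound_of_continuousOn (f := fun x => Real.log ‖x‖)
    (fun x hx => ((Real.continuousAt_log (norm_ne_zero_iff.2 (hK0 hx))).comp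
      continuous_norm.continuousAt).continuousWithinAt)
  filter_upwards [H.horizon.eventually_gt_atTop B] with k hk x hx
  exact H.hasFDerivAt_member a k (hK0 hx) (lt_of_le_of_lt (abs_le.1 (hB x hx)).2 hk)

theorem eul_lim (H : SeqFam L T w ν c C d u)
    (hq : ∀ (l : ℕ) (q : ℚ), CauchySeq fun k => emb l (u k q)) (a : DIdx) {x : Space 3} (hx : x ≠ 0) :
    Met3.eul (limFn u a) x = limFn u (a.1 + 1, a.2) x := by
  rw [Met3.eul, ((H.smooth_member hq).2 a x hx).fderiv]
  simp only [Fin.sum_univ_succ (n := 3), add_apply, sum_apply, smul_apply, smul_eq_mul,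
    (polC_self hx 0).1, fun i => (polC_self hx i).2, nextD, Fin.cases_zero, mul_zero,
    Finset.sum_const_zero, mul_one, add_zero]

theorem rot_lim (H : SeqFam L T w ν c C d u)
    (hq : ∀ (l : ℕ) (q : ℚ), CauchySeq fun k => emb l (u k q)) (a : DIdx) {x : Space 3} (hx : x ≠ 0)
    (i : Fin 3) : rot i (limFn u a) x = limFn u (a.1, i :: a.2) x := by
  set v := x (i + 1) • EuclideanSpace.single (i + 2) (1 : ℝ) -
    x (i + 2) • EuclideanSpace.single (i + 1) (1 : ℝ) with hv
  rw [rot_eq_fderiv, ((H.smooth_member hq).2 a x hx).fderiv, ← hv]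
  simp only [sum_apply, smul_apply, smul_eq_mul]
  refine tendsto_nhds_unique ?_ (H.tendsto_member hq (a.1, i :: a.2) hx)
  refine Tendsto.congr' ?_ (tendsto_finsetSum _ fun j _ =>
    (H.tendsto_member hq (nextD a j) hx).mul_const (polC j x v))
  filter_upwards [H.horizon.eventually_gt_atTop (Real.log ‖x‖)] with k hk
  have h1 := rot_curveLift hx
    ((rotL a.2).hasFDerivAt.comp_hasDerivAt _ (H.hasDerivAt k a.1 hk)) i
  rw [rot_eq_fderiv, ← hv, show curveLift (⇑(rotL a.2) ∘ iteratedDeriv a.1 (u k)) = memberFn u k a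
    from rfl, (H.hasFDerivAt_member a k hx hk).fderiv] at h1
  simp only [sum_apply, smul_apply, smul_eq_mul] at h1
  exact h1

theorem smooth_ball (H : SeqFam L T w ν c C d u)
    (hq : ∀ (l : ℕ) (q : ℚ), CauchySeq fun k => emb l (u k q)) :
    ContDiffOn ℝ ∞ (limBall u []) (Metric.ball 0 1) ∧
      ∀ x ∈ Metric.ball (0 : Space 3) 1,
        Tendsto (fun k => evalFun (u k 0).poly x) atTop (𝓝 (limBall u [] x)) := by
  have hU : ∀ (a : List (Fin 3)) (K : Set (Space 3)), IsCompact K → K ⊆ Metric.ball 0 1 →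
      TendstoUniformlyOn (fun k x => evalFun (pdl a (u k 0).poly) x) (limBall u a) atTop K := by
    intro a K hK hK0
    rcases K.eq_empty_or_nonempty with rfl | hne
    · exact tendstoUniformlyOn_empty
    obtain ⟨z, hz, hmax⟩ := hK.exists_isMaxOn hne continuous_norm.continuousOn
    obtain ⟨ρ, hρ1, hρ2⟩ := exists_between (show max ‖z‖ 0 < 1 from
      max_lt (mem_ball_zero_iff.1 (hK0 hz)) one_pos)
    obtain ⟨C0, hC0, hC⟩ := exists_pdl_bound a ((le_max_right _ _).trans_lt hρ1) hρ2
    have hUC : UniformCauchySeqOn (fun k x => evalFun (pdl a (u k 0).poly) x) atTop K := by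
      rw [Metric.uniformCauchySeqOn_iff]
      intro ε hε
      obtain ⟨N, hN⟩ := H.cauchy hq 0 0 0 0 (show 0 < ε / (C0 + 1) by positivity)
      refine ⟨N, fun k hk m hm x hx => ?_⟩
      set p := diff u 0 k m 0
      have e : evalFun (pdl a (u k 0).poly) x - evalFun (pdl a (u m 0).poly) x =
          evalFun (pdl a p.poly) x := by
        simp only [p, diff, map_sub, iteratedDeriv_zero,
          poly_emb_of_le (le_max_left (L k) (L m)), poly_emb_of_le (le_max_right (L k) (L m))]
        rw [eq_comm, eq_sub_iff_add_eq]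
        simp only [evalFun, ← map_add, ← pdl_add, sub_add_cancel]
      rw [Real.dist_eq, e]
      calc |evalFun (pdl a p.poly) x| ≤ C0 * ‖p‖ :=
            hC _ p x ((hmax hx).trans ((le_max_left _ _).trans hρ1.le))
        _ ≤ C0 * (ε / (C0 + 1)) :=
            mul_le_mul_of_nonneg_left (hN k hk m hm 0 (left_mem_Icc.2 le_rfl)) hC0
        _ < ε := by
          rw [mul_div_assoc', div_lt_iff₀ (by positivity)]
          linarith
    exact hUC.tendstoUniformlyOn_of_tendsto fun x hx => (CauchySeq.tendsto_limUnder (hUC.cauchy_map hx))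
  refine ⟨(smooth_limit Metric.isOpen_ball (fun a i => i :: a)
    (fun i _ => (EuclideanSpace.proj i : Space 3 →L[ℝ] ℝ)) (fun i => contDiffOn_const)
    (fun k a x => evalFun (pdl a (u k 0).poly) x) (limBall u)
    (fun a K _ _ => Eventually.of_forall fun k x _ => hasFDerivAt_evalFun _ x) hU).1 [],
    fun x hx => (hU [] {x} isCompact_singleton (by simpa using hx)).tendsto_at rfl⟩

theorem limU_eq (H : SeqFam L T w ν c C d u)
    (hq : ∀ (l : ℕ) (q : ℚ), CauchySeq fun k => emb l (u k q))
    (hearly : ∀ k, ∀ t ≤ 0, HasDerivAt (u k) (degOp (L k) (u k t)) t) {x : Space 3} (hx : x ≠ 0) :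
    limU u x = limFn u (0, []) x := by
  rw [limU]
  split_ifs with h1
  · refine tendsto_nhds_unique ((H.smooth_ball hq).2 x (mem_ball_zero_iff.2 h1))
      ((H.tendsto_member hq (0, []) hx).congr fun k => ?_)
    simpa [memberFn, rotL] using curveLift_eq_poly (hearly k) hx h1.le
  · rfl

theorem contDiff_limU (H : SeqFam L T w ν c C d u)
    (hq : ∀ (l : ℕ) (q : ℚ), CauchySeq fun k => emb l (u k q))
    (hearly : ∀ k, ∀ t ≤ 0, HasDerivAt (u k) (degOp (L k) (u k t)) t) : ContDiff ℝ ∞ (limU u) := by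
  refine contDiff_iff_contDiffAt.2 fun x => ?_
  by_cases hx : ‖x‖ < 1
  · refine ((H.smooth_ball hq).1.contDiffAt
      (Metric.isOpen_ball.mem_nhds (mem_ball_zero_iff.2 hx))).congr_of_eventuallyEq ?_
    filter_upwards [Metric.isOpen_ball.mem_nhds (mem_ball_zero_iff.2 hx)] with y hy
    rw [limU, if_pos (mem_ball_zero_iff.1 hy)]
  · have hx0 : x ≠ 0 := fun h => hx (by simp [h])
    refine (((H.smooth_member hq).1 (0, [])).contDiffAt
      (isOpen_compl_singleton.mem_nhds hx0)).congr_of_eventuallyEq ?_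
    filter_upwards [isOpen_compl_singleton.mem_nhds hx0] with y hy
    exact H.limU_eq hq hearly hy

theorem growth_limU (H : SeqFam L T w ν c C d u)
    (hq : ∀ (l : ℕ) (q : ℚ), CauchySeq fun k => emb l (u k q))
    (hearly : ∀ k, ∀ t ≤ 0, HasDerivAt (u k) (degOp (L k) (u k t)) t) :
    ∃ A, ∀ x, |limU u x| ≤ A * (1 + ‖x‖) ^ d := by
  obtain ⟨B, hB0, hB⟩ := H.exists_bound 4 0
  obtain ⟨C0, hC0, hC⟩ := exists_res_sob_bound
  refine ⟨C0 * B + |limU u 0|, fun x => ?_⟩
  have h1 : (1 : ℝ) ≤ (1 + ‖x‖) ^ d :=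
    Real.one_le_rpow (by linarith [norm_nonneg x]) H.dnonneg
  by_cases hx : x = 0
  · subst hx
    rw [norm_zero, add_zero, Real.one_rpow, mul_one]
    linarith [mul_nonneg hC0 hB0]
  · rw [H.limU_eq hq hearly hx]
    refine le_trans ?_ (mul_le_mul_of_nonneg_right (le_add_of_nonneg_right (abs_nonneg _))
      (zero_le_one.trans h1))
    refine le_of_tendsto (H.tendsto_member hq (0, []) hx).abs ?_
    filter_upwards [H.horizon.eventually_ge_atTop (Real.log ‖x‖ + 1)] with k hk
    have e : memberFn u k (0, []) x =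
        res (u k (Real.log ‖x‖)).poly ⟨‖x‖⁻¹ • x, by simp [Met3.norm_inv_smul hx]⟩ := by
      simp [memberFn, curveLift, rotL, res]
    have hB' := hB k (Real.log ‖x‖) hk
    rw [iteratedDeriv_zero] at hB'
    rw [e, mul_assoc]
    refine (hC _ _ _).trans (mul_le_mul_of_nonneg_left (hB'.trans (mul_le_mul_of_nonneg_left ?_ hB0)) hC0)
    rcases le_total (Real.log ‖x‖) 0 with hl | hl
    · rw [max_eq_right hl, mul_zero, Real.exp_zero]
      exact h1
    · rw [max_eq_left hl, mul_comm, ← Real.rpow_def_of_pos (norm_pos_iff.2 hx)]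
      exact Real.rpow_le_rpow (norm_nonneg x) (by linarith) H.dnonneg

end SeqFam

end

end Vale.Agent.P225.Disproof
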