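import Vale.Agent.P225.Defs
import Mathlib.LinearAlgebra.Matrix.NonsingularInverse
import Mathlib.LinearAlgebra.Matrix.PosDef
import Mathlib.LinearAlgebra.FiniteDimensional.Defs
import Mathlib.Analysis.Calculus.ContDiff.Operations

/-!
# P225: the statement of the disproof, in coordinates on `Space n`

A metric is a smooth field of symmetric matrices, uniformly comparable to the Euclidean one.
Ricci curvature and the Laplace-Beltrami operator are the usual coordinate expressions.
-/

namespace Vale.Agent.P225.Disproof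

open scoped Matrix

noncomputable section

variable {n : ℕ}

/-- A metric field in coordinates. -/
abbrev Met (n : ℕ) : Type := Space n → Matrix (Fin n) (Fin n) ℝ

/-- The quadratic form of the metric at a point. -/
def gsq (g : Met n) (x v : Space n) : ℝ := ∑ i, ∑ j, g x i j * v i * v j

/-- Smooth, symmetric and uniformly equivalent to the Euclidean metric (hence complete, with
Riemannian distance from the origin comparable to the norm). -/
def IsBoundedMetric (g : Met n) : Prop :=
  (∀ i j, ContDiff ℝ (⊤ : ℕ∞) fun x => g x i j) ∧ (∀ x, (g x).IsSymm) ∧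
    ∃ c > (0 : ℝ), ∀ x v, c * ‖v‖ ^ 2 ≤ gsq g x v ∧ gsq g x v ≤ c⁻¹ * ‖v‖ ^ 2

/-- The Christoffel symbol with upper index `k`. -/
def christ (g : Met n) (k i j : Fin n) (x : Space n) : ℝ :=
  (1 / 2) * ∑ l, (g x)⁻¹ k l *
    (pd i (fun y => g y j l) x + pd j (fun y => g y i l) x - pd l (fun y => g y i j) x)

/-- The Ricci tensor in coordinates. -/
def ricci (g : Met n) (i j : Fin n) (x : Space n) : ℝ :=
  (∑ k, pd k (christ g k i j) x) - (∑ k, pd j (christ g k i k) x) +
    ∑ k, ∑ l, (christ g k k l x * christ g l i j x - christ g k j l x * christ g l i k x)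

/-- Nonnegative Ricci curvature. -/
def RicciNonneg (g : Met n) : Prop :=
  ∀ x v : Space n, 0 ≤ ∑ i, ∑ j, ricci g i j x * v i * v j

/-- The Laplace-Beltrami operator in coordinates. -/
def lapBel (g : Met n) (u : Space n → ℝ) (x : Space n) : ℝ :=
  (√(g x).det)⁻¹ * ∑ i, pd i (fun y => √(g y).det * ∑ j, (g y)⁻¹ i j * pd j u y) x

/-- A smooth harmonic function of growth order at most `d`. -/
def IsPolyHarm (g : Met n) (d : ℝ) (u : Space n → ℝ) : Prop :=
  ContDiff ℝ (⊤ : ℕ∞) u ∧ (∀ x, lapBel g u x = 0) ∧ ∃ C : ℝ, ∀ x, |u x| ≤ C * (1 + ‖x‖) ^ d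

/-- The negation of Yau's comparison: some bounded metric with nonnegative Ricci curvature has
more independent harmonic functions of order at most `k` than Euclidean space. -/
def YauFails (n k : ℕ) : Prop :=
  ∃ g : Met n, IsBoundedMetric g ∧ RicciNonneg g ∧
    ∃ u : Fin ((n + k - 1).choose k + (n + k - 2).choose (k - 1) + 1) → Space n → ℝ,
      LinearIndependent ℝ u ∧ ∀ m, IsPolyHarm g (k : ℝ) (u m)

end

end Vale.Agent.P225.Disproof
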