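import Vale.Agent.P225.Assembly
import Vale.Agent.P225.Disproof.Statement
import Vale.Agent.P225.Disproof.LimitCurves

/-!
# P225: harmonic functions of polynomial growth from Galerkin solutions

From sequences of Galerkin solutions with growth `exp (d t)`, weights converging pointwise and a
Gram bound at one time, independent smooth harmonic functions of growth order `d`.
-/

namespace Vale.Agent.P225.Disproof

open MvPolynomial MeasureTheory Set Filter Topology
open scoped RealInnerProductSpace ContDiff Matrix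

noncomputable section

theorem continuous_lapBel {g : Met 3} (hg : ∀ i j, ContDiff ℝ ∞ fun x => g x i j)
    (hdet : ∀ x, 0 < (g x).det) {U : Space 3 → ℝ} (hU : ContDiff ℝ ∞ U) :
    Continuous (lapBel g U) := by
  have hd : ContDiff ℝ ∞ fun y => (g y).det := by
    simp only [Matrix.det_fin_three]
    exact (((((((hg 0 0).mul (hg 1 1)).mul (hg 2 2)).sub (((hg 0 0).mul (hg 1 2)).mul (hg 2 1))).sub
      (((hg 0 1).mul (hg 1 0)).mul (hg 2 2))).add (((hg 0 1).mul (hg 1 2)).mul (hg 2 0))).add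
      (((hg 0 2).mul (hg 1 0)).mul (hg 2 1))).sub (((hg 0 2).mul (hg 1 1)).mul (hg 2 0))
  have hs : ContDiff ℝ ∞ fun y => √(g y).det := hd.sqrt fun y => (hdet y).ne'
  have hinv : ∀ i j, ContDiff ℝ ∞ fun y => (g y)⁻¹ i j := fun i j => by
    simp only [Matrix.inv_def, Matrix.smul_apply, smul_eq_mul, Ring.inverse_eq_inv']
    refine (hd.inv fun y => (hdet y).ne').mul ?_
    fin_cases i <;> fin_cases j <;> simp [Matrix.adjugate_fin_three] <;> fun_prop
  have hpd : ∀ j, ContDiff ℝ ∞ (pd j U) := fun j =>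
    (hU.fderiv_right (m := ∞) le_rfl).clm_apply contDiff_const
  have h1 : ∀ i, Continuous (pd i fun y => √(g y).det * ∑ j, (g y)⁻¹ i j * pd j U y) := fun i =>
    continuous_pd ((hs.mul (ContDiff.sum fun j _ => (hinv i j).mul (hpd j))).of_le (by simp)) i
  exact (hs.continuous.inv₀ fun y => (Real.sqrt_pos.2 (hdet y)).ne').mul
    (continuous_finsetSum _ fun i _ => h1 i)

/-- A function on the sphere orthogonal to all harmonic homogeneous polynomials vanishes. -/
theorem eq_zero_of_harmonic_moments {Φ : Space 3 → ℝ} (hΦ : ContinuousOn Φ {0}ᶜ) {r : ℝ} (hr : 0 < r)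
    (h : ∀ l q, IsHomogeneous q l → lapP q = 0 →
      ∫ θ : Sph 3, Φ (r • (θ : Space 3)) * res q θ ∂(sig 3) = 0) (θ : Sph 3) :
    Φ (r • (θ : Space 3)) = 0 := by
  have hne : ∀ φ : Sph 3, r • (φ : Space 3) ≠ 0 := fun φ h0 => by
    have := congrArg norm h0
    rw [norm_smul, norm_eq_of_mem_sphere, mul_one, norm_zero, norm_eq_zero] at this
    linarith
  have hc : Continuous fun φ : Sph 3 => Φ (r • (φ : Space 3)) :=
    hΦ.comp_continuous (continuous_subtype_val.const_smul r) fun φ => hne φ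
  obtain ⟨B, hB⟩ := isCompact_univ.exists_bound_of_continuousOn hc.continuousOn
  set u : Space 3 → ℝ := fun y => ‖y‖ * Φ (r • (‖y‖⁻¹ • y))
  have hsph : ∀ φ : Sph 3, u ((1 : ℝ) • (φ : Space 3)) = Φ (r • (φ : Space 3)) := fun φ => by
    simp [u]
  have hu : Continuous u := by
    refine continuous_iff_continuousAt.2 fun y => ?_
    by_cases hy : y = 0
    · subst hy
      rw [ContinuousAt, show u 0 = 0 by simp [u]]
      refine squeeze_zero_norm (a := fun y => |B| * ‖y‖) (fun y => ?_)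
        (by simpa using (continuous_norm.tendsto (0 : Space 3)).const_mul |B|)
      by_cases hy : y = 0
      · simp [u, hy]
      · have := hB ⟨‖y‖⁻¹ • y, by simp [Met3.norm_inv_smul hy]⟩ trivial
        simp only [u, Real.norm_eq_abs, abs_mul, abs_norm]
        rw [mul_comm |B|]
        exact mul_le_mul_of_nonneg_left (this.trans (le_abs_self B)) (norm_nonneg y)
    · have hn : ContinuousAt (fun y : Space 3 => r • (‖y‖⁻¹ • y)) y :=
        ((continuous_norm.continuousAt.inv₀ (norm_ne_zero_iff.2 hy)).smul continuousAt_id).const_smul r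
      exact continuous_norm.continuousAt.mul ((hΦ.continuousAt (isOpen_compl_singleton.mem_nhds
        (smul_ne_zero hr.ne' (smul_ne_zero (inv_ne_zero (norm_ne_zero_iff.2 hy)) hy)))).comp
          (f := fun y : Space 3 => r • (‖y‖⁻¹ • y)) hn)
  have hi : ∀ p : MvPolynomial (Fin 3) ℝ,
      Integrable (fun φ : Sph 3 => Φ (r • (φ : Space 3)) * res p φ) (sig 3) := fun p =>
    integrable_sig (hc.mul (continuous_res p))
  set Λ : MvPolynomial (Fin 3) ℝ →ₗ[ℝ] ℝ :=
    { toFun := fun p => ∫ φ : Sph 3, Φ (r • (φ : Space 3)) * res p φ ∂(sig 3)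
      map_add' := fun p q => by
        simp only [res_add, mul_add]
        exact integral_add (hi p) (hi q)
      map_smul' := fun a p => by
        simp only [res_smul, RingHom.id_apply, smul_eq_mul, ← integral_const_mul]
        exact integral_congr_ae (Eventually.of_forall fun φ => by ring) }
  have hΛ := functional_zero (n := 3) (by norm_num) Λ (fun q => by
    refine integral_congr_ae (Eventually.of_forall fun φ => ?_)
    have := evalFun_sq_sph φ
    simp only [res, evalFun, map_mul] at this ⊢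
    rw [this, one_mul]) h
  have h0 := eq_zero_of_moments hu (r := 1) (fun p => by
    simp only [mom, hsph]
    exact hΛ p) θ
  rwa [hsph] at h0

/-- A bounded pointwise convergent sequence of continuous functions on the sphere. -/
theorem tendsto_integral_sph {f : ℕ → Sph 3 → ℝ} {g : Sph 3 → ℝ} {B : ℝ}
    (hf : ∀ᶠ k in atTop, Continuous (f k) ∧ ∀ θ, |f k θ| ≤ B)
    (hg : ∀ θ, Tendsto (fun k => f k θ) atTop (𝓝 (g θ))) :
    Tendsto (fun k => ∫ θ, f k θ ∂(sig 3)) atTop (𝓝 (∫ θ, g θ ∂(sig 3))) :=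
  tendsto_integral_filter_of_dominated_convergence (fun _ => B)
    (hf.mono fun _ h => h.1.aestronglyMeasurable)
    (hf.mono fun _ h => Eventually.of_forall fun θ => by rw [Real.norm_eq_abs]; exact h.2 θ)
    (integrable_const B) (Eventually.of_forall hg)

variable {L : ℕ → ℕ} {T : ℕ → ℝ} {w ν : ℕ → ℝ → Space 3 → ℝ} {winf νinf : ℝ → Space 3 → ℝ}
  {c C d : ℝ} {u : ∀ k, ℝ → Gal (L k)}

/-- The operator of the equation, on the limit function. -/
def limPhi (winf νinf : ℝ → Space 3 → ℝ) (u : ∀ k, ℝ → Gal (L k)) (x : Space 3) : ℝ :=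
  Met3.lift (dtW winf) x * limFn u (1, []) x + Met3.lift winf x * limFn u (2, []) x +
    Met3.lift winf x * limFn u (1, []) x +
    ∑ i, (Met3.lift (drW i νinf) x * limFn u (0, [i]) x +
      Met3.lift νinf x * limFn u (0, [i, i]) x)

namespace SeqFam

theorem continuous_member_sph (k : ℕ) (a : DIdx) (t : ℝ) :
    Continuous fun θ : Sph 3 => res (rotL a.2 (iteratedDeriv a.1 (u k) t)).poly θ :=
  continuous_res _

theorem member_polar (k : ℕ) (a : DIdx) (t : ℝ) (θ : Sph 3) :
    memberFn u k a (Real.exp t • (θ : Space 3)) =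
      res (rotL a.2 (iteratedDeriv a.1 (u k) t)).poly θ := by
  simp [memberFn, curveLift, res, norm_smul, Real.exp_ne_zero, smul_smul]

theorem member_bound (H : SeqFam L T w ν c C d u) (a : DIdx) (t : ℝ) :
    ∃ B, 0 ≤ B ∧ ∀ᶠ k in atTop, ∀ θ : Sph 3, |memberFn u k a (Real.exp t • (θ : Space 3))| ≤ B := by
  obtain ⟨C0, hC0, hC⟩ := exists_res_sob_bound
  obtain ⟨B, hB0, hB⟩ := H.exists_bound_window (4 + a.2.length) a.1 t t
  refine ⟨C0 * B, mul_nonneg hC0 hB0, ?_⟩
  filter_upwards [H.horizon.eventually_ge_atTop (t + 1)] with k hk θ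
  rw [member_polar]
  exact (hC _ _ θ).trans (mul_le_mul_of_nonneg_left
    ((sob_rotL a.2 4 _).trans (hB k hk t ⟨le_rfl, le_rfl⟩)) hC0)

theorem phi_zero (H : SeqFam L T w ν c C d u)
    (hq : ∀ (l : ℕ) (q : ℚ), CauchySeq fun k => emb l (u k q)) (hL : Tendsto L atTop atTop)
    (hw : SmW winf) (hν : SmW νinf)
    (hlw : ∀ t, ∀ θ : Sph 3, Tendsto (fun k => w k t θ) atTop (𝓝 (winf t θ)))
    (hlwt : ∀ t, ∀ θ : Sph 3, Tendsto (fun k => dtW (w k) t θ) atTop (𝓝 (dtW winf t θ)))
    (hlν : ∀ t, ∀ θ : Sph 3, Tendsto (fun k => ν k t θ) atTop (𝓝 (νinf t θ)))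
    (hlνr : ∀ i t, ∀ θ : Sph 3, Tendsto (fun k => drW i (ν k) t θ) atTop (𝓝 (drW i νinf t θ)))
    {x : Space 3} (hx : x ≠ 0) : limPhi winf νinf u x = 0 := by
  have hlift : ∀ P : ℝ → Space 3 → ℝ, SmW P → ContinuousOn (Met3.lift P) {0}ᶜ := fun P hP y hy =>
    (Met3.contDiffAt_lift (m := ∞) hP hy).continuousAt.continuousWithinAt
  have hcl : ∀ a, ContinuousOn (limFn u a) {0}ᶜ := fun a => ((H.smooth_member hq).1 a).continuousOn
  have hcont : ContinuousOn (limPhi winf νinf u) {0}ᶜ := by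
    refine ((((hlift _ hw.dt).mul (hcl _)).add ((hlift _ hw).mul (hcl _))).add
      ((hlift _ hw).mul (hcl _))).add (continuousOn_finsetSum _ fun i _ => ?_)
    exact ((hlift _ (hν.dr i)).mul (hcl _)).add ((hlift _ hν).mul (hcl _))
  set t := Real.log ‖x‖
  obtain ⟨θ, hxθ⟩ : ∃ θ : Sph 3, x = Real.exp t • (θ : Space 3) := by
    refine ⟨⟨‖x‖⁻¹ • x, by simp [Met3.norm_inv_smul hx]⟩, ?_⟩
    rw [Real.exp_log (norm_pos_iff.2 hx), smul_smul, mul_inv_cancel₀ (norm_ne_zero_iff.2 hx), one_smul]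
  rw [hxθ]
  refine eq_zero_of_harmonic_moments hcont (Real.exp_pos t) (fun l q hq1 hq2 => ?_) θ
  set f : ℕ → Sph 3 → ℝ := fun k θ =>
    (dtW (w k) t θ * res (rotL ([] : List (Fin 3)) (iteratedDeriv 1 (u k) t)).poly θ +
      w k t θ * res (rotL ([] : List (Fin 3)) (iteratedDeriv 2 (u k) t)).poly θ +
      w k t θ * res (rotL ([] : List (Fin 3)) (iteratedDeriv 1 (u k) t)).poly θ +
      ∑ i, (drW i (ν k) t θ * res (rotL [i] (iteratedDeriv 0 (u k) t)).poly θ +
        ν k t θ * res (rotL [i, i] (iteratedDeriv 0 (u k) t)).poly θ)) * res q θ with hf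
  have hne : ∀ φ : Sph 3, Real.exp t • (φ : Space 3) ≠ 0 := fun φ h0 => by
    have := congrArg norm h0
    simp [norm_smul] at this
  have hlim : Tendsto (fun k => ∫ φ, f k φ ∂(sig 3)) atTop
      (𝓝 (∫ φ : Sph 3, limPhi winf νinf u (Real.exp t • (φ : Space 3)) * res q φ ∂(sig 3))) := by
    obtain ⟨W1, hW10, hW1⟩ := H.wgtw.dt.bound
    obtain ⟨W0, hW00, hW0⟩ := H.wgtw.bound
    obtain ⟨V0, hV00, hV0⟩ := H.wgtν.bound
    choose V1 hV10 hV1 using fun i => (H.wgtν.dr i).bound
    choose B hB0 hB using fun a => H.member_bound a t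
    obtain ⟨Q, hQ⟩ := isCompact_univ.exists_bound_of_continuousOn (continuous_res q).continuousOn
    refine tendsto_integral_sph (B := (W1 * B (1, []) + W0 * B (2, []) + W0 * B (1, []) +
      ∑ i, (V1 i * B (0, [i]) + V0 * B (0, [i, i]))) * Q) ?_ (fun φ => ?_)
    · filter_upwards [hB (1, []), hB (2, []), eventually_all.2 fun i => hB (0, [i]),
        eventually_all.2 fun i => hB (0, [i, i])] with k h1 h2 h3 h4
      refine ⟨?_, fun φ => ?_⟩
      · refine Continuous.mul ?_ (continuous_res q)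
        have hc : ∀ P : ℝ → Space 3 → ℝ, SmW P → Continuous fun φ : Sph 3 => P t φ := fun P hP =>
          (hP.continuous t).comp continuous_subtype_val
        refine ((((hc _ (H.wgtw.1 k).dt).mul (continuous_res _)).add ((hc _ (H.wgtw.1 k)).mul
          (continuous_res _))).add ((hc _ (H.wgtw.1 k)).mul (continuous_res _))).add
          (continuous_finsetSum _ fun i _ => ?_)
        exact ((hc _ ((H.wgtν.1 k).dr i)).mul (continuous_res _)).add
          ((hc _ (H.wgtν.1 k)).mul (continuous_res _))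
      · have m1 := h1 φ
        have m2 := h2 φ
        have m3 := fun i => h3 i φ
        have m4 := fun i => h4 i φ
        simp only [member_polar] at m1 m2 m3 m4
        have hb0 : 0 ≤ W1 * B (1, []) + W0 * B (2, []) + W0 * B (1, []) +
            ∑ i, (V1 i * B (0, [i]) + V0 * B (0, [i, i])) :=
          add_nonneg (add_nonneg (add_nonneg (mul_nonneg hW10 (hB0 _)) (mul_nonneg hW00 (hB0 _)))
            (mul_nonneg hW00 (hB0 _))) (Finset.sum_nonneg fun i _ =>
              add_nonneg (mul_nonneg (hV10 i) (hB0 _)) (mul_nonneg hV00 (hB0 _)))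
        simp only [f]
        rw [abs_mul]
        refine mul_le_mul ?_ (hQ φ trivial) (abs_nonneg _) hb0
        have hm : ∀ {a b A B : ℝ}, |a| ≤ A → |b| ≤ B → |a * b| ≤ A * B := fun ha hb => by
          rw [abs_mul]
          exact mul_le_mul ha hb (abs_nonneg _) ((abs_nonneg _).trans ha)
        refine (abs_add_le _ _).trans (add_le_add ((abs_add_le _ _).trans (add_le_add
          ((abs_add_le _ _).trans (add_le_add (hm (hW1 k t φ) m1) (hm (hW0 k t φ) m2)))
          (hm (hW0 k t φ) m1))) ((Finset.abs_sum_le_sum_abs _ _).trans (Finset.sum_le_sum fun i _ => ?_)))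
        exact (abs_add_le _ _).trans (add_le_add (hm (hV1 i k t φ) (m3 i)) (hm (hV0 k t φ) (m4 i)))
    · have hm : ∀ a : DIdx, Tendsto (fun k => res (rotL a.2 (iteratedDeriv a.1 (u k) t)).poly φ)
          atTop (𝓝 (limFn u a (Real.exp t • (φ : Space 3)))) := fun a => by
        simpa only [member_polar] using H.tendsto_member hq a (hne φ)
      have hl : ∀ P : ℝ → Space 3 → ℝ, Met3.lift P (Real.exp t • (φ : Space 3)) = P t φ := fun P => by
        simp [Met3.lift, norm_smul, Real.exp_ne_zero, smul_smul]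
      simp only [f, limPhi, hl]
      exact (((((hlwt t φ).mul (hm (1, []))).add ((hlw t φ).mul (hm (2, [])))).add
        ((hlw t φ).mul (hm (1, [])))).add (tendsto_finsetSum _ fun i _ =>
          ((hlνr i t φ).mul (hm (0, [i]))).add ((hlν t φ).mul (hm (0, [i, i]))))).mul_const _
  refine tendsto_nhds_unique hlim (tendsto_const_nhds.congr' ?_)
  filter_upwards [hL.eventually_ge_atTop l, H.horizon.eventually_gt_atTop t] with k hk hk'
  set p : Gal (L k) := Gal.mk q (mem_harmUpTo.2 ⟨hq1.totalDegree_le.trans hk, hq2⟩)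
  set G := fun v : ℝ → Space 3 → ℝ => massOp (L k) (sphC (v t))
  set U := fun j => iteratedDeriv j (u k) t
  have hI : ∀ (v : ℝ → Space 3 → ℝ), SmW v → ∀ X : Gal (L k),
      ∫ φ : Sph 3, v t φ * res X.poly φ * res q φ ∂(sig 3) = ⟪G v X, p⟫ := fun v hv X => by
    simp only [G]
    rw [inner_massOp]
    refine integral_congr_ae (Eventually.of_forall fun φ => ?_)
    simp only [p, Gal.poly_mk, sphC_apply (hv.continuous t)]
    ring
  have e1 : deriv (u k) = iteratedDeriv 1 (u k) := iteratedDeriv_one.symm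
  have heq : G (dtW (w k)) (U 1) + G (w k) (U 2) + G (w k) (U 1) +
      ∑ i, (G (drW i (ν k)) (rotG i (U 0)) + G (ν k) (rotG i (rotG i (U 0)))) = 0 := by
    have h1 := (hasDerivAt_op (massOp (L k)) (H.wgtw.comp fun _ : Unit => k) () t).clm_apply
      (H.hasDerivAt k 1 (t := t) hk')
    have h2 := (H.sol k t hk').2
    rw [e1] at h2
    have h3 := h1.unique h2
    have h4 : G (dtW (w k)) (U 1) + G (w k) (U 2) =
        stiffOp (L k) (sphC (ν k t)) (U 0) - G (w k) (U 1) := by
      simpa [G, U] using h3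
    have h5 : stiffOp (L k) (sphC (ν k t)) (U 0) =
        -∑ i, (G (drW i (ν k)) (rotG i (U 0)) + G (ν k) (rotG i (rotG i (U 0)))) := by
      rw [stiffOp_apply]
      congr 1
      refine Finset.sum_congr rfl fun i _ => ?_
      rw [rotG_massOp (isRot_sphC (((H.wgtν.1 k).contDiff_slice t).of_le (by simp)) i), add_comm]
      rfl
    rw [h4, h5]
    abel
  symm
  calc ∫ φ, f k φ ∂(sig 3)
      = ⟪G (dtW (w k)) (U 1), p⟫ + ⟪G (w k) (U 2), p⟫ + ⟪G (w k) (U 1), p⟫ +
        ∑ i, (⟪G (drW i (ν k)) (rotG i (U 0)), p⟫ + ⟪G (ν k) (rotG i (rotG i (U 0))), p⟫) := by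
        have ic : ∀ v : ℝ → Space 3 → ℝ, SmW v → ∀ X : Gal (L k),
            Integrable (fun φ : Sph 3 => v t φ * res X.poly φ * res q φ) (sig 3) := fun v hv X =>
          integrable_sig ((((hv.continuous t).comp continuous_subtype_val).mul
            (continuous_res _)).mul (continuous_res q))
        have a1 := ic _ (H.wgtw.1 k).dt (U 1)
        have a2 := ic _ (H.wgtw.1 k) (U 2)
        have a3 := ic _ (H.wgtw.1 k) (U 1)
        have a4 := fun i => ic _ ((H.wgtν.1 k).dr i) (rotG i (U 0))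
        have a5 := fun i => ic _ (H.wgtν.1 k) (rotG i (rotG i (U 0)))
        rw [← hI _ (H.wgtw.1 k).dt, ← hI _ (H.wgtw.1 k), ← hI _ (H.wgtw.1 k),
          Finset.sum_congr rfl fun i _ => show _ = (∫ φ : Sph 3, (drW i (ν k) t φ *
              res (rotG i (U 0)).poly φ * res q φ + ν k t φ * res (rotG i (rotG i (U 0))).poly φ *
                res q φ) ∂(sig 3)) by
            rw [integral_add (a4 i) (a5 i), hI _ ((H.wgtν.1 k).dr i), hI _ (H.wgtν.1 k)],
          ← integral_finsetSum (μ := sig 3) Finset.univ (fun i _ => (a4 i).fun_add (a5 i)),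
          ← integral_add a1 a2, ← integral_add (a1.fun_add a2) a3,
          ← integral_add ((a1.fun_add a2).fun_add a3)
            (integrable_finsetSum _ fun i _ => (a4 i).fun_add (a5 i))]
        refine integral_congr_ae (Eventually.of_forall fun φ => ?_)
        simp only [f, U, rotL, ContinuousLinearMap.comp_apply, ContinuousLinearMap.id_apply]
        simp only [add_mul, Finset.sum_mul]
    _ = ⟪G (dtW (w k)) (U 1) + G (w k) (U 2) + G (w k) (U 1) +
        ∑ i, (G (drW i (ν k)) (rotG i (U 0)) + G (ν k) (rotG i (rotG i (U 0)))), p⟫ := by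
        simp only [inner_add_left, sum_inner]
    _ = 0 := by rw [heq, inner_zero_left]

theorem lapBel_limU (H : SeqFam L T w ν c C d u)
    (hq : ∀ (l : ℕ) (q : ℚ), CauchySeq fun k => emb l (u k q)) (hL : Tendsto L atTop atTop)
    (hearly : ∀ k, ∀ t ≤ 0, HasDerivAt (u k) (degOp (L k) (u k t)) t)
    (hw : SmW winf) (hν : SmW νinf)
    (hlw : ∀ t, ∀ θ : Sph 3, Tendsto (fun k => w k t θ) atTop (𝓝 (winf t θ)))
    (hlwt : ∀ t, ∀ θ : Sph 3, Tendsto (fun k => dtW (w k) t θ) atTop (𝓝 (dtW winf t θ)))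
    (hlν : ∀ t, ∀ θ : Sph 3, Tendsto (fun k => ν k t θ) atTop (𝓝 (νinf t θ)))
    (hlνr : ∀ i t, ∀ θ : Sph 3, Tendsto (fun k => drW i (ν k) t θ) atTop (𝓝 (drW i νinf t θ)))
    {g : Met 3} (hg : ∀ i j, ContDiff ℝ ∞ fun x => g x i j) (hdet : ∀ x, 0 < (g x).det)
    (hlap : ∀ U : Space 3 → ℝ, ContDiff ℝ ∞ U → ∀ x ≠ (0 : Space 3), ∃ coef, lapBel g U x = coef *
      (Met3.eul (fun y => Met3.lift winf y * Met3.eul U y) x + Met3.lift winf x * Met3.eul U x +
        ∑ i, rot i (fun y => Met3.lift νinf y * rot i U y) x)) :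
    ∀ x, lapBel g (limU u) x = 0 := by
  have hU := H.contDiff_limU hq hearly
  suffices h : ∀ x ≠ (0 : Space 3), lapBel g (limU u) x = 0 by
    have h2 : lapBel g (limU u) = fun _ => 0 :=
      Continuous.ext_on (dense_compl_singleton (0 : Space 3)) (continuous_lapBel hg hdet hU)
        continuous_const fun x hx => h x hx
    exact congrFun h2
  intro x hx
  obtain ⟨coef, hcoef⟩ := hlap _ hU x hx
  rw [hcoef]
  refine mul_eq_zero_of_right _ ?_
  refine Eq.trans ?_ (H.phi_zero hq hL hw hν hlw hlwt hlν hlνr hx)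
  have hev : ∀ y ≠ (0 : Space 3), limU u =ᶠ[𝓝 y] limFn u (0, []) := fun y hy =>
    (isOpen_compl_singleton.eventually_mem hy).mono fun z hz => H.limU_eq hq hearly hz
  have hE : ∀ y ≠ (0 : Space 3), Met3.eul (limU u) y = limFn u (1, []) y := fun y hy => by
    rw [Met3.eul_congr (hev y hy), H.eul_lim hq (0, []) hy]
  have hR : ∀ i, ∀ y ≠ (0 : Space 3), rot i (limU u) y = limFn u (0, [i]) y := fun i y hy => by
    rw [Met3.rot_congr (hev y hy), H.rot_lim hq (0, []) hy]
  have hd : ∀ a, DifferentiableAt ℝ (limFn u a) x := fun a =>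
    ((H.smooth_member hq).2 a x hx).differentiableAt
  have hP : ∀ P : ℝ → Space 3 → ℝ, SmW P → ContDiff ℝ 1 (Function.uncurry P) := fun P hP =>
    ContDiff.of_le hP (by simp)
  have hdl : ∀ P : ℝ → Space 3 → ℝ, SmW P → DifferentiableAt ℝ (Met3.lift P) x := fun P h =>
    (Met3.contDiffAt_lift (hP P h) hx).differentiableAt one_ne_zero
  have e1 : Met3.eul (fun y => Met3.lift winf y * Met3.eul (limU u) y) x =
      Met3.lift (dtW winf) x * limFn u (1, []) x + Met3.lift winf x * limFn u (2, []) x := by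
    rw [Met3.eul_congr (g := fun y => Met3.lift winf y * limFn u (1, []) y)
      ((isOpen_compl_singleton.eventually_mem hx).mono fun y hy => by simp only [hE y hy])]
    rw [Met3.eul, fderiv_fun_mul (hdl _ hw) (hd _)]
    simp only [add_apply, smul_apply, smul_eq_mul]
    rw [show fderiv ℝ (Met3.lift winf) x x = Met3.lift (dtW winf) x from
        Met3.eul_lift (hP _ hw) hx,
      show fderiv ℝ (limFn u (1, [])) x x = limFn u (2, []) x from H.eul_lim hq (1, []) hx]
    ring
  have e2 : ∀ i, rot i (fun y => Met3.lift νinf y * rot i (limU u) y) x =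
      Met3.lift (drW i νinf) x * limFn u (0, [i]) x + Met3.lift νinf x * limFn u (0, [i, i]) x := fun i => by
    rw [Met3.rot_congr (g := fun y => Met3.lift νinf y * limFn u (0, [i]) y)
      ((isOpen_compl_singleton.eventually_mem hx).mono fun y hy => by simp only [hR i y hy])]
    rw [rot_eq_fderiv, fderiv_fun_mul (hdl _ hν) (hd _)]
    simp only [add_apply, smul_apply, smul_eq_mul]
    rw [← rot_eq_fderiv, ← rot_eq_fderiv,
      show rot i (Met3.lift νinf) x = Met3.lift (drW i νinf) x from Met3.rot_lift (hP _ hν) hx i,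
      H.rot_lim hq (0, [i]) hx i]
    ring
  rw [e1, hE x hx, Finset.sum_congr rfl fun i _ => e2 i]
  simp only [limPhi]

end SeqFam

/-- Harmonic functions of growth order `d` from Galerkin solutions. -/
theorem exists_polyHarm {M : ℕ} {L : ℕ → ℕ} {T : ℕ → ℝ} {w ν : ℕ → ℝ → Space 3 → ℝ}
    {winf νinf : ℝ → Space 3 → ℝ} {c C d κ t1 : ℝ} (hL : Tendsto L atTop atTop)
    (hT : Tendsto T atTop atTop) (hw : SmW winf) (hν : SmW νinf)
    (hlw : ∀ t, ∀ θ : Sph 3, Tendsto (fun k => w k t θ) atTop (𝓝 (winf t θ)))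
    (hlwt : ∀ t, ∀ θ : Sph 3, Tendsto (fun k => dtW (w k) t θ) atTop (𝓝 (dtW winf t θ)))
    (hlν : ∀ t, ∀ θ : Sph 3, Tendsto (fun k => ν k t θ) atTop (𝓝 (νinf t θ)))
    (hlνr : ∀ i t, ∀ θ : Sph 3, Tendsto (fun k => drW i (ν k) t θ) atTop (𝓝 (drW i νinf t θ)))
    (u : ∀ k, Fin M → ℝ → Gal (L k))
    (H : ∀ m, SeqFam L T w ν c C d fun k => u k m)
    (hearly : ∀ k m, ∀ t ≤ 0, HasDerivAt (u k m) (degOp (L k) (u k m t)) t)
    (hκ : 0 < κ)
    (hgram : ∀ᶠ k in atTop, ∀ z : Fin M → ℝ, κ * ∑ m, z m ^ 2 ≤ ‖∑ m, z m • u k m t1‖ ^ 2)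
    {g : Met 3} (hg : ∀ i j, ContDiff ℝ ∞ fun x => g x i j) (hdet : ∀ x, 0 < (g x).det)
    (hlap : ∀ U : Space 3 → ℝ, ContDiff ℝ ∞ U → ∀ x ≠ (0 : Space 3), ∃ coef, lapBel g U x = coef *
      (Met3.eul (fun y => Met3.lift winf y * Met3.eul U y) x + Met3.lift winf x * Met3.eul U x +
        ∑ i, rot i (fun y => Met3.lift νinf y * rot i U y) x)) :
    ∃ U : Fin M → Space 3 → ℝ, LinearIndependent ℝ U ∧ ∀ m, IsPolyHarm g d (U m) := by
  rcases Nat.eq_zero_or_pos M with rfl | hM
  · exact ⟨fun m => m.elim0, linearIndependent_empty_type, fun m => m.elim0⟩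
  have : Nonempty (Fin M) := ⟨⟨0, hM⟩⟩
  have hCp := (H ⟨0, hM⟩).Cpos
  obtain ⟨φ, hφ, hq⟩ := exists_subseq hCp.le hT u fun k m t ht => (H m).bdd k t ht
  have hφ' := hφ.tendsto_atTop
  set v : Fin M → ∀ k, ℝ → Gal (L (φ k)) := fun m k => u (φ k) m
  have H' : ∀ m, SeqFam (fun k => L (φ k)) (fun k => T (φ k)) (fun k => w (φ k)) (fun k => ν (φ k))
      c C d (v m) := fun m => (H m).comp hφ'
  have he : ∀ m k, ∀ t ≤ 0, HasDerivAt (v m k) (degOp (L (φ k)) (v m k t)) t :=
    fun m k => hearly (φ k) m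
  refine ⟨fun m => limU (v m), ?_, fun m => ⟨(H' m).contDiff_limU (hq m) (he m), ?_, ?_⟩⟩
  rotate_left
  · exact (H' m).lapBel_limU (hq m) (hL.comp hφ') (he m) hw hν
      (fun t θ => (hlw t θ).comp hφ') (fun t θ => (hlwt t θ).comp hφ')
      (fun t θ => (hlν t θ).comp hφ') (fun i t θ => (hlνr i t θ).comp hφ') hg hdet hlap
  · exact (H' m).growth_limU (hq m) (he m)
  rw [Fintype.linearIndependent_iff]
  intro z hz
  set S : ℕ → Sph 3 → ℝ := fun k θ => res (∑ m, z m • v m k t1).poly θ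
  have hS : ∀ k θ, S k θ = ∑ m, z m * memberFn (v m) k (0, []) (Real.exp t1 • (θ : Space 3)) :=
    fun k θ => by
      simp [S, SeqFam.member_polar, rotL, res, evalFun, map_sum, MvPolynomial.smul_eval]
  have hne : ∀ θ : Sph 3, Real.exp t1 • (θ : Space 3) ≠ 0 := fun θ h0 => by
    have := congrArg norm h0
    simp [norm_smul] at this
  have hlim : ∀ θ, Tendsto (fun k => S k θ) atTop (𝓝 0) := fun θ => by
    have h0 := congrFun hz (Real.exp t1 • (θ : Space 3))
    simp only [Finset.sum_apply, Pi.smul_apply, smul_eq_mul, Pi.zero_apply] at h0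
    simp only [hS]
    refine h0 ▸ tendsto_finsetSum _ fun m _ => Tendsto.const_mul _ ?_
    rw [(H' m).limU_eq (hq m) (he m) (hne θ)]
    exact (H' m).tendsto_member (hq m) (0, []) (hne θ)
  choose B hB0 hB using fun m => (H' m).member_bound (0, []) t1
  have h2 : Tendsto (fun k => ∫ θ, S k θ ^ 2 ∂(sig 3)) atTop (𝓝 0) := by
    have := tendsto_integral_sph (f := fun k θ => S k θ ^ 2) (g := fun _ => 0)
      (B := (∑ m, |z m| * B m) ^ 2) ?_ (fun θ => by simpa using (hlim θ).pow 2)
    · simpa using this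
    filter_upwards [eventually_all.2 hB] with k hk
    refine ⟨(continuous_res _).pow 2, fun θ => ?_⟩
    rw [abs_pow]
    refine pow_le_pow_left₀ (abs_nonneg _) ?_ 2
    rw [hS]
    refine (Finset.abs_sum_le_sum_abs _ _).trans (Finset.sum_le_sum fun m _ => ?_)
    rw [abs_mul]
    exact mul_le_mul_of_nonneg_left (hk m θ) (abs_nonneg _)
  have h3 : κ * ∑ m, z m ^ 2 ≤ 0 := by
    refine ge_of_tendsto h2 ?_
    filter_upwards [hφ'.eventually hgram] with k hk
    refine (hk z).trans (le_of_eq ?_)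
    rw [← real_inner_self_eq_norm_sq, inner_gal, sphIp]
    exact integral_congr_ae (Eventually.of_forall fun θ => by simp only [S, v]; ring)
  intro i
  have h4 : ∑ m, z m ^ 2 ≤ 0 := nonpos_of_mul_nonpos_right h3 hκ
  have h5 := (Finset.sum_eq_zero_iff_of_nonneg fun m _ => sq_nonneg (z m)).1
    (le_antisymm h4 (Finset.sum_nonneg fun m _ => sq_nonneg (z m))) i (Finset.mem_univ i)
  exact pow_eq_zero_iff two_ne_zero |>.1 h5

end

end Vale.Agent.P225.Disproof
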