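import Vale.Agent.P225.Disproof.GalerkinSob

/-!
# P225: weight families

A weight family is a family of smooth functions on `ℝ × Space 3` all of whose iterated time and
rotation derivatives are bounded on `ℝ × S²`, uniformly in the index. The restriction to the sphere
is then differentiable in time in `C(S², ℝ)`.
-/

namespace Vale.Agent.P225.Disproof

open MeasureTheory Set Filter Topology
open scoped ContDiff

noncomputable section

/-- Restriction to the sphere. -/
def sphC (f : Space 3 → ℝ) : C(Sph 3, ℝ) :=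
  open Classical in
  if h : Continuous fun θ : Sph 3 => f θ then ⟨fun θ => f θ, h⟩ else 0

theorem sphC_apply {f : Space 3 → ℝ} (hf : Continuous f) (θ : Sph 3) : sphC f θ = f θ := by
  rw [sphC, dif_pos (show Continuous fun θ : Sph 3 => f θ from hf.comp continuous_subtype_val)]
  rfl

theorem norm_sphC_le {f : Space 3 → ℝ} (hf : Continuous f) {C : ℝ} (hC : 0 ≤ C)
    (h : ∀ θ : Sph 3, |f θ| ≤ C) : ‖sphC f‖ ≤ C :=
  (ContinuousMap.norm_le _ hC).2 fun θ => by rw [sphC_apply hf, Real.norm_eq_abs]; exact h θ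

/-- The time derivative of a weight. -/
def dtW (w : ℝ → Space 3 → ℝ) (t : ℝ) (x : Space 3) : ℝ := deriv (fun s => w s x) t

/-- A rotation derivative of a weight. -/
def drW (j : Fin 3) (w : ℝ → Space 3 → ℝ) (t : ℝ) : Space 3 → ℝ := rot j (w t)

/-- Jointly smooth. -/
def SmW (w : ℝ → Space 3 → ℝ) : Prop := ContDiff ℝ ∞ fun p : ℝ × Space 3 => w p.1 p.2

theorem SmW.contDiff_slice {w : ℝ → Space 3 → ℝ} (h : SmW w) (t : ℝ) : ContDiff ℝ ∞ (w t) :=
  h.comp (contDiff_const.prodMk contDiff_id)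

theorem SmW.contDiff_time {w : ℝ → Space 3 → ℝ} (h : SmW w) (x : Space 3) :
    ContDiff ℝ ∞ fun t => w t x :=
  h.comp (contDiff_id.prodMk contDiff_const)

theorem SmW.continuous {w : ℝ → Space 3 → ℝ} (h : SmW w) (t : ℝ) : Continuous (w t) :=
  (h.contDiff_slice t).continuous

theorem SmW.hasDerivAt {w : ℝ → Space 3 → ℝ} (h : SmW w) (t : ℝ) (x : Space 3) :
    HasDerivAt (fun s => w s x) (dtW w t x) t :=
  (((h.contDiff_time x).differentiable (by simp)) t).hasDerivAt

theorem SmW.dt {w : ℝ → Space 3 → ℝ} (h : SmW w) : SmW (dtW w) := by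
  have e : (fun p : ℝ × Space 3 => dtW w p.1 p.2) =
      fun p => fderiv ℝ (fun q : ℝ × Space 3 => w q.1 q.2) p (1, 0) := by
    funext p
    have h1 := ((h.differentiable (by simp)) p).hasFDerivAt.comp_hasDerivAt p.1
      ((hasDerivAt_id p.1).prodMk (hasDerivAt_const p.1 p.2))
    exact h1.deriv
  rw [SmW, e]
  exact (h.fderiv_right (m := ∞) le_rfl).clm_apply contDiff_const

theorem SmW.dr {w : ℝ → Space 3 → ℝ} (h : SmW w) (j : Fin 3) : SmW (drW j w) := by
  have e : (fun p : ℝ × Space 3 => drW j w p.1 p.2) =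
      fun p => fderiv ℝ (fun q : ℝ × Space 3 => w q.1 q.2) p
        (0, p.2 (j + 1) • EuclideanSpace.single (j + 2) (1 : ℝ) -
          p.2 (j + 2) • EuclideanSpace.single (j + 1) (1 : ℝ)) := by
    funext p
    have h1 : HasFDerivAt (fun x => w p.1 x) _ p.2 :=
      HasFDerivAt.comp (g := fun q : ℝ × Space 3 => w q.1 q.2) (f := fun x => (p.1, x)) p.2
        ((h.differentiable (by simp)) p).hasFDerivAt
        ((hasFDerivAt_const p.1 p.2).prodMk (hasFDerivAt_id p.2))
    rw [drW, rot_eq_fderiv, show fderiv ℝ (w p.1) p.2 = _ from h1.fderiv]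
    simp
  rw [SmW, e]
  refine (h.fderiv_right (m := ∞) le_rfl).clm_apply ?_
  refine contDiff_const.prodMk ?_
  exact ((((EuclideanSpace.proj (j + 1) : Space 3 →L[ℝ] ℝ).contDiff).comp contDiff_snd).smul
    contDiff_const).sub ((((EuclideanSpace.proj (j + 2) : Space 3 →L[ℝ] ℝ).contDiff).comp
      contDiff_snd).smul contDiff_const)

variable {ι : Type*}

/-- Bounded derivatives up to order `n`. -/
def WBdd : ℕ → (ι → ℝ → Space 3 → ℝ) → Prop
  | 0, w => ∃ C, ∀ i t, ∀ θ : Sph 3, |w i t θ| ≤ C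
  | n + 1, w => WBdd n w ∧ WBdd n (fun i => dtW (w i)) ∧ ∀ j, WBdd n (fun i => drW j (w i))

/-- A weight family. -/
def Wgt (w : ι → ℝ → Space 3 → ℝ) : Prop := (∀ i, SmW (w i)) ∧ ∀ n, WBdd n w

theorem Wgt.dt {w : ι → ℝ → Space 3 → ℝ} (h : Wgt w) : Wgt fun i => dtW (w i) :=
  ⟨fun i => (h.1 i).dt, fun n => (h.2 (n + 1)).2.1⟩

theorem Wgt.dr {w : ι → ℝ → Space 3 → ℝ} (h : Wgt w) (j : Fin 3) : Wgt fun i => drW j (w i) :=
  ⟨fun i => (h.1 i).dr j, fun n => (h.2 (n + 1)).2.2 j⟩

theorem Wgt.bound {w : ι → ℝ → Space 3 → ℝ} (h : Wgt w) :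
    ∃ C, 0 ≤ C ∧ ∀ i t, ∀ θ : Sph 3, |w i t θ| ≤ C := by
  obtain ⟨C, hC⟩ := h.2 0
  exact ⟨max C 0, le_max_right _ _, fun i t θ => (hC i t θ).trans (le_max_left _ _)⟩

theorem Wgt.norm_le {w : ι → ℝ → Space 3 → ℝ} (h : Wgt w) :
    ∃ C, 0 ≤ C ∧ ∀ i t, ‖sphC (w i t)‖ ≤ C := by
  obtain ⟨C, hC0, hC⟩ := h.bound
  exact ⟨C, hC0, fun i t => norm_sphC_le ((h.1 i).continuous t) hC0 (hC i t)⟩

theorem RotBd.of_ge {c c' : ℝ} (hc : c ≤ c') : ∀ {k : ℕ} {w : C(Sph 3, ℝ)},
    RotBd k c w → RotBd k c' w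
  | 0, _, h => le_trans h hc
  | _ + 1, _, h => ⟨h.1.of_ge hc, fun i => let ⟨w', h1, h2⟩ := h.2 i; ⟨w', h1, h2.of_ge hc⟩⟩

theorem isRot_sphC {f : Space 3 → ℝ} (hf : ContDiff ℝ 1 f) (j : Fin 3) :
    IsRot j (sphC f) (sphC (rot j f)) :=
  isRot_of_contDiff hf j (sphC_apply hf.continuous) (sphC_apply (continuous_rot hf j))

theorem Wgt.rotBd : ∀ (k : ℕ) {w : ι → ℝ → Space 3 → ℝ}, Wgt w →
    ∃ C, 0 ≤ C ∧ ∀ i t, RotBd k C (sphC (w i t))
  | 0, _, h => h.norm_le
  | k + 1, w, h => by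
    obtain ⟨C, hC0, hC⟩ := Wgt.rotBd k h
    choose D hD0 hD using fun j => Wgt.rotBd k (h.dr j)
    have hs : ∀ j, D j ≤ ∑ j, D j := fun j =>
      Finset.single_le_sum (f := D) (fun j _ => hD0 j) (Finset.mem_univ j)
    have hs0 : 0 ≤ ∑ j, D j := Finset.sum_nonneg fun j _ => hD0 j
    refine ⟨C + ∑ j, D j, add_nonneg hC0 hs0, fun i t => ⟨(hC i t).of_ge (by linarith), fun j => ?_⟩⟩
    refine ⟨sphC (drW j (w i) t), isRot_sphC (((h.1 i).contDiff_slice t).of_le (by simp)) j,
      (hD j i t).of_ge (by linarith [hs j])⟩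

/-- Reindexing keeps a weight family. -/
theorem Wgt.comp {w : ι → ℝ → Space 3 → ℝ} (h : Wgt w) {κ : Type*} (f : κ → ι) :
    Wgt fun a => w (f a) := by
  refine ⟨fun a => h.1 (f a), fun n => ?_⟩
  have key : ∀ (n : ℕ) (v : ι → ℝ → Space 3 → ℝ), WBdd n v → WBdd n fun a => v (f a) := by
    intro n
    induction n with
    | zero => exact fun v ⟨C, hC⟩ => ⟨C, fun a => hC (f a)⟩
    | succ n ih => exact fun v hv => ⟨ih v hv.1, ih _ hv.2.1, fun j => ih _ (hv.2.2 j)⟩
  exact key n w (h.2 n)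

theorem dtW_shift (w : ℝ → Space 3 → ℝ) (c : ℝ) :
    dtW (fun t => w (t + c)) = fun t => dtW w (t + c) := by
  funext t x
  exact deriv_comp_add_const (fun s => w s x) c t

/-- Time translations keep a weight family. -/
theorem Wgt.shift {w : ι → ℝ → Space 3 → ℝ} (h : Wgt w) (c : ι → ℝ) :
    Wgt fun i t => w i (t + c i) := by
  refine ⟨fun i => (h.1 i).comp ((contDiff_fst.add contDiff_const).prodMk contDiff_snd),
    fun n => ?_⟩
  have key : ∀ (n : ℕ) (v : ι → ℝ → Space 3 → ℝ), WBdd n v →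
      WBdd n fun i t => v i (t + c i) := by
    intro n
    induction n with
    | zero => exact fun v ⟨C, hC⟩ => ⟨C, fun i t => hC i _⟩
    | succ n ih =>
      refine fun v hv => ⟨ih v hv.1, ?_, fun j => ih _ (hv.2.2 j)⟩
      simp only [dtW_shift]
      exact ih _ hv.2.1
  exact key n w (h.2 n)

/-- The restriction is differentiable in time, in the sup norm. -/
theorem Wgt.hasDerivAt_sphC {w : ι → ℝ → Space 3 → ℝ} (h : Wgt w) (i : ι) (t : ℝ) :
    HasDerivAt (fun s => sphC (w i s)) (sphC (dtW (w i) t)) t := by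
  obtain ⟨B, hB0, hB⟩ := h.dt.dt.bound
  have hw := h.1 i
  have key : ∀ (θ : Sph 3) (s : ℝ),
      |w i s θ - w i t θ - (s - t) * dtW (w i) t θ| ≤ B * (s - t) ^ 2 := fun θ s => by
    have h1 : ∀ r ∈ uIcc t s, ‖dtW (w i) r θ - dtW (w i) t θ‖ ≤ B * |s - t| := fun r hr => by
      have := Convex.norm_image_sub_le_of_norm_hasDerivWithin_le (f := fun r => dtW (w i) r θ)
        (fun r _ => ((hw.dt).hasDerivAt r θ).hasDerivWithinAt)
        (fun r _ => by rw [Real.norm_eq_abs]; exact hB i r θ) (convex_uIcc t s) left_mem_uIcc hr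
      refine this.trans (mul_le_mul_of_nonneg_left ?_ hB0)
      rw [Real.norm_eq_abs]
      exact abs_sub_left_of_mem_uIcc hr
    have h2 := Convex.norm_image_sub_le_of_norm_hasDerivWithin_le
      (f := fun r => w i r θ - r * dtW (w i) t θ)
      (fun r _ => ((hw.hasDerivAt r θ).sub
        ((hasDerivAt_id r).mul_const (dtW (w i) t θ))).hasDerivWithinAt)
      (fun r hr => by simpa using h1 r hr) (convex_uIcc t s) left_mem_uIcc right_mem_uIcc
    rw [Real.norm_eq_abs, Real.norm_eq_abs, mul_assoc, ← pow_two, sq_abs] at h2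
    rw [show w i s θ - w i t θ - (s - t) * dtW (w i) t θ =
      w i s θ - s * dtW (w i) t θ - (w i t θ - t * dtW (w i) t θ) by ring]
    exact h2
  rw [hasDerivAt_iff_isLittleO]
  refine (Asymptotics.IsBigO.of_bound B (Eventually.of_forall fun s => ?_)).trans_isLittleO
    (Asymptotics.isLittleO_pow_sub_sub t one_lt_two)
  refine (ContinuousMap.norm_le _ (by positivity)).2 fun θ => ?_
  simp only [ContinuousMap.sub_apply, ContinuousMap.smul_apply, smul_eq_mul,
    sphC_apply (hw.continuous _), sphC_apply (hw.dt.continuous _), Real.norm_eq_abs]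
  rw [sq_abs, abs_of_nonneg (sq_nonneg (s - t))]
  exact key θ s

theorem Wgt.continuous_sphC {w : ι → ℝ → Space 3 → ℝ} (h : Wgt w) (i : ι) :
    Continuous fun t => sphC (w i t) :=
  continuous_iff_continuousAt.2 fun t => (h.hasDerivAt_sphC i t).continuousAt

theorem Wgt.contDiff_sphC {w : ι → ℝ → Space 3 → ℝ} (h : Wgt w) (i : ι) :
    ContDiff ℝ ∞ fun t => sphC (w i t) := by
  refine contDiff_infty.2 fun n => ?_
  induction n generalizing w with
  | zero => exact contDiff_zero.2 (h.continuous_sphC i)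
  | succ n ih =>
    rw [show ((n + 1 : ℕ) : WithTop ℕ∞) = (n : WithTop ℕ∞) + 1 by norm_cast, contDiff_succ_iff_deriv]
    refine ⟨fun t => (h.hasDerivAt_sphC i t).differentiableAt, by simp, ?_⟩
    rw [show deriv (fun t => sphC (w i t)) = fun t => sphC (dtW (w i) t) from
      funext fun t => (h.hasDerivAt_sphC i t).deriv]
    exact ih h.dt

theorem WBdd.add : ∀ {n : ℕ} {v w : ι → ℝ → Space 3 → ℝ}, (∀ i, SmW (v i)) → (∀ i, SmW (w i)) →
    WBdd n v → WBdd n w → WBdd n fun i t x => v i t x + w i t x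
  | 0, _, _, _, _, ⟨C, hC⟩, ⟨D, hD⟩ =>
    ⟨C + D, fun i t θ => (abs_add_le _ _).trans (add_le_add (hC i t θ) (hD i t θ))⟩
  | n + 1, v, w, sv, sw, hv, hw => by
    refine ⟨WBdd.add sv sw hv.1 hw.1, ?_, fun j => ?_⟩
    · rw [show (fun i => dtW fun t x => v i t x + w i t x) =
          fun i t x => dtW (v i) t x + dtW (w i) t x from funext fun i => funext fun t =>
        funext fun x => (((sv i).hasDerivAt t x).add ((sw i).hasDerivAt t x)).deriv]
      exact WBdd.add (fun i => (sv i).dt) (fun i => (sw i).dt) hv.2.1 hw.2.1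
    · rw [show (fun i => drW j fun t x => v i t x + w i t x) =
          fun i t x => drW j (v i) t x + drW j (w i) t x from funext fun i => funext fun t =>
        funext fun x => by
          have h1 := ((sv i).contDiff_slice t).differentiable (by simp) x
          have h2 := ((sw i).contDiff_slice t).differentiable (by simp) x
          simp only [drW, rot_eq_fderiv, fderiv_fun_add h1 h2, add_apply]]
      exact WBdd.add (fun i => (sv i).dr j) (fun i => (sw i).dr j) (hv.2.2 j) (hw.2.2 j)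

theorem Wgt.add {v w : ι → ℝ → Space 3 → ℝ} (hv : Wgt v) (hw : Wgt w) :
    Wgt fun i t x => v i t x + w i t x :=
  ⟨fun i => ContDiff.add (hv.1 i) (hw.1 i), fun n => WBdd.add hv.1 hw.1 (hv.2 n) (hw.2 n)⟩

theorem WBdd.mul : ∀ {n : ℕ} {v w : ι → ℝ → Space 3 → ℝ}, (∀ i, SmW (v i)) → (∀ i, SmW (w i)) →
    WBdd n v → WBdd n w → WBdd n fun i t x => v i t x * w i t x
  | 0, _, _, _, _, ⟨C, hC⟩, ⟨D, hD⟩ =>
    ⟨C * D, fun i t θ => by
      rw [abs_mul]
      exact mul_le_mul (hC i t θ) (hD i t θ) (abs_nonneg _) ((abs_nonneg _).trans (hC i t θ))⟩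
  | n + 1, v, w, sv, sw, hv, hw => by
    refine ⟨WBdd.mul sv sw hv.1 hw.1, ?_, fun j => ?_⟩
    · rw [show (fun i => dtW fun t x => v i t x * w i t x) =
          fun i t x => dtW (v i) t x * w i t x + v i t x * dtW (w i) t x from
        funext fun i => funext fun t => funext fun x =>
          (((sv i).hasDerivAt t x).mul ((sw i).hasDerivAt t x)).deriv]
      exact WBdd.add (fun i => ContDiff.mul (sv i).dt (sw i)) (fun i => ContDiff.mul (sv i) (sw i).dt)
        (WBdd.mul (fun i => (sv i).dt) sw hv.2.1 hw.1) (WBdd.mul sv (fun i => (sw i).dt) hv.1 hw.2.1)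
    · rw [show (fun i => drW j fun t x => v i t x * w i t x) =
          fun i t x => drW j (v i) t x * w i t x + v i t x * drW j (w i) t x from
        funext fun i => funext fun t => funext fun x => by
          exact rot_mul (((sv i).contDiff_slice t).differentiable (by simp))
            (((sw i).contDiff_slice t).differentiable (by simp)) j x]
      exact WBdd.add (fun i => ContDiff.mul ((sv i).dr j) (sw i))
        (fun i => ContDiff.mul (sv i) ((sw i).dr j))
        (WBdd.mul (fun i => (sv i).dr j) sw (hv.2.2 j) hw.1)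
        (WBdd.mul sv (fun i => (sw i).dr j) hv.1 (hw.2.2 j))

theorem Wgt.mul {v w : ι → ℝ → Space 3 → ℝ} (hv : Wgt v) (hw : Wgt w) :
    Wgt fun i t x => v i t x * w i t x :=
  ⟨fun i => ContDiff.mul (hv.1 i) (hw.1 i), fun n => WBdd.mul hv.1 hw.1 (hv.2 n) (hw.2 n)⟩

theorem wgt_const (f : Space 3 → ℝ) (c : ℝ) (hf : f = fun _ => c) :
    Wgt fun (_ : ι) (_ : ℝ) => f := by
  subst hf
  refine ⟨fun _ => contDiff_const, fun n => ?_⟩
  induction n generalizing c with
  | zero => exact ⟨|c|, fun _ _ _ => le_rfl⟩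
  | succ n ih =>
    have h1 : dtW (fun (_ : ℝ) (_ : Space 3) => c) = fun _ _ => (0 : ℝ) := by
      funext t x; simp [dtW]
    have h2 : ∀ j, drW j (fun (_ : ℝ) (_ : Space 3) => c) = fun _ _ => (0 : ℝ) := fun j => by
      funext t x; simp [drW, rot_eq_fderiv]
    exact ⟨ih c, by simp only [h1]; exact ih 0, fun j => by simp only [h2]; exact ih 0⟩

/-- The inverse of a weight family bounded below, positive everywhere. -/
theorem Wgt.inv {w : ι → ℝ → Space 3 → ℝ} (h : Wgt w) {c : ℝ} (hc : 0 < c)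
    (hlow : ∀ i t, ∀ θ : Sph 3, c ≤ w i t θ) (hne : ∀ i t x, w i t x ≠ 0) :
    Wgt fun i t x => (w i t x)⁻¹ := by
  have hs : ∀ i, SmW fun t x => (w i t x)⁻¹ := fun i => ContDiff.inv (h.1 i) fun p => hne i p.1 p.2
  refine ⟨hs, fun n => ?_⟩
  induction n with
  | zero =>
    refine ⟨c⁻¹, fun i t θ => ?_⟩
    rw [abs_inv, abs_of_pos (hc.trans_le (hlow i t θ))]
    exact inv_anti₀ hc (hlow i t θ)
  | succ n ih =>
    have hsq := WBdd.mul hs hs ih ih
    have hneg : Wgt fun (_ : ι) (_ : ℝ) (_ : Space 3) => (-1 : ℝ) := wgt_const _ (-1) rfl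
    have hsq' := WBdd.mul (v := fun (_ : ι) (_ : ℝ) (_ : Space 3) => (-1 : ℝ))
      (w := fun i t x => (w i t x)⁻¹ * (w i t x)⁻¹) (fun i => hneg.1 i)
      (fun i => ContDiff.mul (hs i) (hs i)) (hneg.2 n) hsq
    refine ⟨ih, ?_, fun j => ?_⟩
    · rw [show (fun i => dtW fun t x => (w i t x)⁻¹) =
          fun i t x => dtW (w i) t x * (-1 * ((w i t x)⁻¹ * (w i t x)⁻¹)) from
        funext fun i => funext fun t => funext fun x => by
          rw [show dtW (fun t x => (w i t x)⁻¹) t x = _ from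
            (((h.1 i).hasDerivAt t x).fun_inv (hne i t x)).deriv]
          field_simp]
      exact WBdd.mul (fun i => (h.1 i).dt)
        (fun i => ContDiff.mul (hneg.1 i) (ContDiff.mul (hs i) (hs i))) ((h.2 (n + 1)).2.1) hsq'
    · rw [show (fun i => drW j fun t x => (w i t x)⁻¹) =
          fun i t x => drW j (w i) t x * (-1 * ((w i t x)⁻¹ * (w i t x)⁻¹)) from
        funext fun i => funext fun t => funext fun x => by
          have h1 := (((h.1 i).contDiff_slice t).differentiable (by simp) x).hasFDerivAt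
          have h2 := (hasDerivAt_inv (hne i t x)).comp_hasFDerivAt x h1
          simp only [drW, rot_eq_fderiv, show fderiv ℝ (fun x => (w i t x)⁻¹) x = _ from h2.fderiv,
            smul_apply, smul_eq_mul]
          field_simp]
      exact WBdd.mul (fun i => (h.1 i).dr j)
        (fun i => ContDiff.mul (hneg.1 i) (ContDiff.mul (hs i) (hs i))) ((h.2 (n + 1)).2.2 j) hsq'

end

end Vale.Agent.P225.Disproof
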