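import Vale.Agent.P225.Disproof.WeightsLimit
import Vale.Agent.P225.Disproof.LimitWeights

/-!
# P225: the weights of the controls form weight families

`Wgt` for the mass and stiffness weights over all parameters in `[0, 1] ^ ℕ`, their agreement with
the curves `massC`, `nuC` in `C(S², ℝ)`, and their lower bounds.
-/

namespace Vale.Agent.P225.Disproof

open Set Filter Topology MvPolynomial
open scoped RealInnerProductSpace

noncomputable section

variable {ι : Type*} {D : ℕ}

/-- Composition with a smooth function keeps a weight family: the values on the sphere are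
bounded. -/
theorem Wgt.compFun {w : ι → ℝ → Space 3 → ℝ} (h : Wgt w) {g : ℝ → ℝ}
    (hg : ContDiff ℝ (⊤ : ℕ∞) g) : Wgt fun i t x => g (w i t x) := by
  refine ⟨fun i => hg.comp (h.1 i), fun n => ?_⟩
  induction n generalizing g with
  | zero =>
    obtain ⟨C, -, hC⟩ := h.bound
    obtain ⟨B, hB⟩ := (isCompact_Icc (a := -C) (b := C)).exists_bound_of_continuousOn
      hg.continuous.continuousOn
    exact ⟨B, fun i t θ => by simpa [Real.norm_eq_abs] using hB _ (abs_le.1 (hC i t θ))⟩
  | succ n ih =>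
    have hd : ContDiff ℝ (⊤ : ℕ∞) (deriv g) := (contDiff_infty_iff_deriv.1 hg).2
    have hsm : ∀ i, SmW fun t x => deriv g (w i t x) := fun i => hd.comp (h.1 i)
    have hgd : ∀ y, HasDerivAt g (deriv g y) y := fun y =>
      (hg.differentiable (by simp) y).hasDerivAt
    refine ⟨ih hg, ?_, fun j => ?_⟩
    · rw [show (fun i => dtW fun t x => g (w i t x)) =
          fun i t x => deriv g (w i t x) * dtW (w i) t x from
        funext fun i => funext fun t => funext fun x =>
          ((hgd _).comp t ((h.1 i).hasDerivAt t x)).deriv]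
      exact WBdd.mul hsm (fun i => (h.1 i).dt) (ih hd) ((h.2 (n + 1)).2.1)
    · rw [show (fun i => drW j fun t x => g (w i t x)) =
          fun i t x => deriv g (w i t x) * drW j (w i) t x from
        funext fun i => funext fun t => funext fun x => by
          have h1 := (((h.1 i).contDiff_slice t).differentiable (by simp) x).hasFDerivAt
          have h2 := (hgd (w i t x)).comp_hasFDerivAt x h1
          simp only [drW, rot_eq_fderiv, show fderiv ℝ (fun x => g (w i t x)) x = _ from h2.fderiv,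
            smul_apply, smul_eq_mul]]
      exact WBdd.mul hsm (fun i => (h.1 i).dr j) (ih hd) ((h.2 (n + 1)).2.2 j)

/-- Coefficient curves with bounded derivatives give weight families. -/
theorem wgt_gfn {q : ι → ℝ → Gal D} (hq : BddFam q) : Wgt fun i => gfn (q i) := by
  refine ⟨fun i => contDiff_gfn (hq.1 i), fun n => ?_⟩
  induction n generalizing q with
  | zero =>
    obtain ⟨B, hB⟩ := hq.2 0
    refine ⟨‖sphFn D‖ * B, fun i t θ => ?_⟩
    have h := hB i t
    rw [iteratedDeriv_zero] at h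
    exact (abs_res_le (q i t) θ).trans
      (mul_le_mul_of_nonneg_left h (ContinuousLinearMap.opNorm_nonneg _))
  | succ n ih =>
    refine ⟨ih hq, ?_, fun j => ?_⟩
    · rw [show (fun i => dtW (gfn (q i))) = fun i => gfn (deriv (q i)) from
        funext fun i => funext fun t => funext fun x =>
          deriv_gfn ((hq.1 i).differentiable (by simp)) t x]
      exact ih hq.deriv'
    · rw [show (fun i => drW j (gfn (q i))) = fun i => gfn (fun t => rotG j (q i t)) from
        funext fun i => funext fun t => rot_gfn (q i) j t]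
      exact ih (hq.clm (rotG j))

/-- Functions of time with bounded derivatives give weight families. -/
theorem wgt_time {f : ι → ℝ → ℝ} (hf : BddFam f) : Wgt fun i t (_ : Space 3) => f i t := by
  refine ⟨fun i => (hf.1 i).comp contDiff_fst, fun n => ?_⟩
  induction n generalizing f with
  | zero =>
    obtain ⟨B, hB⟩ := hf.2 0
    exact ⟨B, fun i t θ => by simpa [Real.norm_eq_abs] using hB i t⟩
  | succ n ih =>
    refine ⟨ih hf, ih hf.deriv', fun j => ?_⟩
    rw [show (fun i => drW j fun t (_ : Space 3) => f i t) =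
        fun (_ : ι) (t : ℝ) (_ : Space 3) => (fun _ : ℝ => (0 : ℝ)) t from
      funext fun i => funext fun t => funext fun x => by simp [drW, rot_eq_fderiv]]
    exact ih (BddFam.single contDiff_const fun m =>
      ⟨0, fun t => by rcases Nat.eq_zero_or_pos m with h | h <;> simp [h, iteratedDeriv_const]⟩)

namespace Ctrl

variable (C : Ctrl (Gal D)) {a : ℝ → ℝ}

/-- The weights of the controls are weight families over all parameters. -/
theorem wgt_weights (ha : ContDiff ℝ (⊤ : ℕ∞) a)
    (hB : ∀ m, ∃ B, ∀ t, |iteratedDeriv m a t| ≤ B) :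
    Wgt (fun s : Par => massF a (C.rho s.1)) ∧ Wgt (fun s : Par => nuF a (C.rho s.1)) := by
  obtain ⟨hρ, ha2, hom⟩ := bddFam_coeff C ha hB
  have hν : Wgt fun s : Par => nuF a (C.rho s.1) :=
    (wgt_const (ι := Par) (fun _ => (1 : ℝ)) 1 rfl).add (wgt_gfn hom)
  exact ⟨((wgt_time ha2).mul (wgt_gfn hρ)).mul (hν.compFun contDiff_safeInv), hν⟩

/-- The restriction to the sphere of the weight functions gives the curves `massC`, `nuC`. -/
theorem sphC_weights (ha : ContDiff ℝ (⊤ : ℕ∞) a) (s : ℕ → ℝ)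
    (hν : ∀ t, ∀ θ : Sph 3, 1 / 2 ≤ nuF a (C.rho s) t (θ : Space 3)) (t : ℝ) :
    sphC (massF a (C.rho s) t) = massC a (C.rho s) t ∧
      sphC (nuF a (C.rho s) t) = nuC a (C.rho s) t ∧
      sphC (dtW (massF a (C.rho s)) t) = massCD a (C.rho s) t := by
  have hm : SmW (massF a (C.rho s)) := contDiff_massF ha (C.contDiff_rho s)
  have hn : SmW (nuF a (C.rho s)) := contDiff_nuF ha (C.contDiff_rho s)
  refine ⟨?_, ?_, ?_⟩ <;> ext θ
  · rw [sphC_apply (hm.continuous t), (massC_apply (hν t) θ).1]
  · rw [sphC_apply (hn.continuous t), nuC_apply]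
  · rw [sphC_apply (hm.dt.continuous t), (massC_apply (hν t) θ).2]
    exact deriv_massF ha (C.contDiff_rho s) hν t θ

variable {C} {c0 A : ℝ}

/-- The weights are `1` on the sphere for `t ≤ 0`. -/
theorem weights_round (hC : ShapeOK C.loops C.one C.p0 c0) (hP : ProfileRate C.sch A a)
    (s : ℕ → ℝ) {t : ℝ} (ht : t ≤ 0) (θ : Sph 3) :
    massF a (C.rho s) t (θ : Space 3) = 1 ∧ nuF a (C.rho s) t (θ : Space 3) = 1 := by
  obtain ⟨h1, h2⟩ := early hC a s (lt_of_le_of_lt ht C.sch.htau0) θ
  have hn : nuF a (C.rho s) t (θ : Space 3) = 1 := by rw [nuF, h2, add_zero]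
  refine ⟨?_, hn⟩
  rw [massF, hn, h1, hP.start t ht, safeInv_eq (by norm_num)]
  norm_num

/-- The lower bound of the weights. -/
theorem weights_low (hC : ShapeOK C.loops C.one C.p0 c0) {amin : ℝ} (hamin : 0 < amin)
    (ham : ∀ t, amin ≤ a t) {s : ℕ → ℝ} (hs : ∀ n, s n ∈ Icc (0 : ℝ) 1) {t : ℝ} {θ : Sph 3}
    (hν : 1 / 2 ≤ nuF a (C.rho s) t (θ : Space 3) ∧ nuF a (C.rho s) t (θ : Space 3) ≤ 3 / 2) :
    min (amin ^ 2 * c0 * (2 / 3)) (1 / 2) ≤ massF a (C.rho s) t (θ : Space 3) ∧
      min (amin ^ 2 * c0 * (2 / 3)) (1 / 2) ≤ nuF a (C.rho s) t (θ : Space 3) := by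
  refine ⟨(min_le_left _ _).trans ?_, (min_le_right _ _).trans hν.1⟩
  have hρ : c0 ≤ gfn (C.rho s) t (θ : Space 3) := rho_pos hC hs t θ
  rw [massF, safeInv_eq hν.1]
  refine mul_le_mul (mul_le_mul (pow_le_pow_left₀ hamin.le (ham t) 2) hρ hC.c0_pos.le
    (sq_nonneg _)) ?_ (by norm_num) (mul_nonneg (sq_nonneg _) (hC.c0_pos.le.trans hρ))
  rw [← one_div, le_div_iff₀ (by linarith [hν.1])]
  linarith [hν.2]

end Ctrl

/-- The round shape is the polynomial `1`. -/
theorem ShapeOK.one_poly {P : ℕ} {L : LoopFam (Gal D) P} {one p0 : Gal D} {c0 : ℝ}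
    (h : ShapeOK L one p0 c0) (x : Space 3) : evalFun one.poly x = 1 := by
  have h1 : one.poly - 1 ∈ harmUpTo D := by
    refine Submodule.sub_mem _ one.mem (mem_harmUpTo.2 ⟨?_, ?_⟩)
    · simp
    · simp [lapP]
  have h0 : sphIp (one.poly - 1) (one.poly - 1) = 0 := by
    have hz : ∀ θ, res (one.poly - 1) θ = 0 := fun θ => by
      have := h.one_eq θ
      simp only [res, evalFun, map_sub, map_one] at this ⊢
      linarith
    simp [sphIp, hz]
  rw [sub_eq_zero.1 (eq_zero_of_sphIp h1 h0)]
  simp [evalFun]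

/-- Before `tau0` the weights are round at every point. -/
theorem Ctrl.early_everywhere {C : Ctrl (Gal D)} {c0 : ℝ}
    (hC : ShapeOK C.loops C.one C.p0 c0) (a : ℝ → ℝ) (s : ℕ → ℝ) {t : ℝ} (ht : t < C.sch.tau0)
    (x : Space 3) : gfn (C.rho s) t x = 1 ∧ omF a (C.rho s) t x = 0 := by
  refine ⟨?_, ?_⟩
  · rw [gfn, C.rho_early s ht.le]
    exact hC.one_poly x
  · simp [omF, gfn, omC_eq_zero (Ctrl.rho_deriv_early s ht), evalFun]

end

end Vale.Agent.P225.Disproof
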