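import Vale.Agent.P225.Disproof.MetricNonneg
import Vale.Agent.P225.Disproof.LoopsExist
import Vale.Agent.P225.Disproof.WeightsWgt

/-!
# P225 L: the margin of the cone, and the metric of a control

On a compact family of positive shapes with `coneMean < 0` (shapes of the cone with unit mean),
the curvature of `b p g_S`, `b ≤ 18 / 25 + eps`, exceeds `1 + δ`. With the profile of `exists_profile` the metric
`polarMet a ρ ω` of the control is then bounded and has nonnegative Ricci curvature.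
-/

namespace Vale.Agent.P225.Disproof.Met3

open Set Filter Topology MvPolynomial MeasureTheory Strata
open scoped RealInnerProductSpace

noncomputable section

variable {D : ℕ}

/-- `1 - Δ log p / 2`, the curvature of `p g_S` times `p`. -/
def curv (p : Gal D) (θ : Sph 3) : ℝ :=
  1 - (1 / 2) * (lapRes p θ / res p.poly θ
    - (∑ i, res (rotP i p.poly) θ * res (rotP i p.poly) θ) / res p.poly θ ^ 2)

/-- The cone inequality with margin `δ`, up to the scale `18 / 25 + eps`. -/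
def ConeOK (δ eps : ℝ) (p : Gal D) : Prop :=
  ∀ θ b, b ≤ 18 / 25 + eps → (1 + δ) * (b * res p.poly θ) ≤ curv p θ

/-- The margin along the segment from round to rest and along the loops. -/
structure ConeBd {P : ℕ} (L : LoopFam (Gal D) P) (one p0 : Gal D) (δ eps : ℝ) : Prop where
  δ_pos : 0 < δ
  eps_pos : 0 < eps
  seg : ∀ c ∈ Icc (0 : ℝ) 1, ConeOK δ eps (one + c • (p0 - one))
  loop : ∀ k, ∀ u ∈ Icc (0 : ℝ) 1, ∀ x, ConeOK δ eps (p0 + L.path k u x)

/-- A compact family of positive shapes with `coneMean < 0` has a uniform margin. -/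
theorem exists_margin {S : Set (Gal D)} (hS : IsCompact S) (hpos : ∀ p ∈ S, ∀ θ, 0 < res p.poly θ)
    (hneg : ∀ p ∈ S, ∀ θ, coneMean p θ < 0) :
    ∃ m : ℝ, 0 < m ∧ m ≤ 1 ∧ ∀ p ∈ S, ConeOK m m p := by
  have h1 : Continuous fun z : Gal D × Sph 3 => res z.1.poly z.2 :=
    continuous_res_gal LinearMap.id
  have h2 : Continuous fun z : Gal D × Sph 3 => lapRes z.1 z.2 :=
    continuous_finsetSum _ fun j _ =>
      continuous_res_gal ((rotP j).toLinearMap.comp (rotP j).toLinearMap)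
  have hT := hS.prod (isCompact_univ (X := Sph 3))
  obtain ⟨m0, hm0, hm0le⟩ := exists_pos_lower hT
    (F := fun z => res z.1.poly z.2 - 18 / 25 * res z.1.poly z.2 ^ 2 - lapRes z.1 z.2 / 2)
    ((h1.sub (continuous_const.mul (h1.pow 2))).sub (h2.div_const 2)).continuousOn fun z hz => by
      have h := hneg _ hz.1 z.2
      rw [coneMean] at h
      linarith
  obtain ⟨R, hR⟩ := hT.exists_bound_of_continuousOn h1.continuousOn
  refine ⟨min 1 (m0 / (3 * (R ^ 2 + 1))), lt_min one_pos (by positivity), min_le_left _ _,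
    fun p hp θ b hb => ?_⟩
  set m := min 1 (m0 / (3 * (R ^ 2 + 1)))
  have hm : 0 ≤ m := le_min zero_le_one (by positivity)
  have hm1 : m ≤ 1 := min_le_left _ _
  have hm2 : m * (3 * (R ^ 2 + 1)) ≤ m0 := by
    rw [← le_div_iff₀ (by positivity)]; exact min_le_right _ _
  have hr : 0 < res p.poly θ := hpos p hp θ
  have hrR : res p.poly θ ^ 2 ≤ R ^ 2 + 1 := by
    have := hR (p, θ) ⟨hp, mem_univ θ⟩
    rw [Real.norm_eq_abs] at this
    nlinarith [sq_abs (res p.poly θ), pow_le_pow_left₀ (abs_nonneg _) this 2]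
  have hk := hm0le (p, θ) ⟨hp, mem_univ θ⟩
  have hsq : 0 ≤ ∑ i, res (rotP i p.poly) θ * res (rotP i p.poly) θ :=
    Finset.sum_nonneg fun i _ => mul_self_nonneg _
  have e : curv p θ = ((res p.poly θ - lapRes p θ / 2) * res p.poly θ
      + (∑ i, res (rotP i p.poly) θ * res (rotP i p.poly) θ) / 2) / res p.poly θ ^ 2 := by
    rw [curv]
    field_simp
    ring
  rw [e, le_div_iff₀ (by positivity)]
  have hb' : (1 + m) * (b * res p.poly θ ^ 2) ≤ 18 / 25 * res p.poly θ ^ 2 + m0 := by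
    refine (mul_le_mul_of_nonneg_left (mul_le_mul_of_nonneg_right hb (sq_nonneg _))
      (by linarith)).trans ?_
    have : (1 + m) * (18 / 25 + m) ≤ 18 / 25 + 3 * m := by nlinarith
    nlinarith [mul_le_mul_of_nonneg_right this (sq_nonneg (res p.poly θ)),
      mul_le_mul_of_nonneg_left hrR (mul_nonneg zero_le_three hm)]
  nlinarith [mul_le_mul_of_nonneg_right (show (1 + m) * (b * res p.poly θ ^ 2)
    ≤ res p.poly θ - lapRes p θ / 2 by linarith) hr.le]

/-- The margin of the segment and the loops of a family (`Strata.exists_loops`). -/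
theorem exists_coneBd {P : ℕ} {L : LoopFam (Gal D) P} {one p0 : Gal D} {c0 : ℝ}
    (hC : ShapeOK L one p0 c0)
    (hseg : ∀ c ∈ Icc (0 : ℝ) 1, ∀ θ, coneMean (one + c • (p0 - one)) θ < 0)
    (hloop : ∀ k, ∀ u ∈ Icc (0 : ℝ) 1, ∀ x θ, coneMean (p0 + L.path k u x) θ < 0) :
    ∃ δ eps, ConeBd L one p0 δ eps := by
  set S : Set (Gal D) := (fun c : ℝ => one + c • (p0 - one)) '' Icc 0 1 ∪
    ⋃ k, (fun z : ℝ × ℝ => p0 + L.path k z.1 z.2) '' (Icc 0 1 ×ˢ Icc (1 / 4) (1 / 2))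
  have hS : IsCompact S :=
    (isCompact_Icc.image (continuous_const.add (continuous_id.smul continuous_const))).union
      (isCompact_iUnion fun k => (isCompact_Icc.prod isCompact_Icc).image
        (continuous_const.add (L.smooth k).continuous))
  have hsub : (∀ p ∈ S, ∀ θ, 0 < res p.poly θ) ∧ ∀ p ∈ S, ∀ θ, coneMean p θ < 0 := by
    constructor <;> rintro p (⟨c, hc, rfl⟩ | hp) θ
    · exact hC.c0_pos.trans_le (hC.seg c hc θ)
    · obtain ⟨k, z, hz, rfl⟩ := mem_iUnion.1 hp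
      exact hC.c0_pos.trans_le (hC.loop k z.1 hz.1 z.2 θ)
    · exact hseg c hc θ
    · obtain ⟨k, z, hz, rfl⟩ := mem_iUnion.1 hp
      exact hloop k z.1 hz.1 z.2 θ
  obtain ⟨m, hm0, -, hmS⟩ := exists_margin hS hsub.1 hsub.2
  refine ⟨m, m, hm0, hm0, fun c hc => hmS _ (Or.inl ⟨c, hc, rfl⟩), fun k u hu x => ?_⟩
  by_cases hx : x ∈ Icc (1 / 4 : ℝ) (1 / 2)
  · exact hmS _ (Or.inr (mem_iUnion.2 ⟨k, (u, x), ⟨hu, hx⟩, rfl⟩))
  · rw [L.supp k u x hx, add_zero]
    exact hmS _ (Or.inl ⟨1, ⟨zero_le_one, le_rfl⟩, by simp⟩)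

/-- The constant of the budget. -/
def budgetK (M : ℝ) : ℝ := 9 * (M * (1 + M)) ^ 2 + (1 + |M|) ^ 2

/-- In every period `1 / τ ^ 2` is below the budget. -/
theorem inv_sq_le_budget {C : Ctrl (Gal D)} {M t τ : ℝ} (hM1 : C.sch.t1 ≤ M * C.sch.tau0)
    (hM2 : (1 + C.sch.kap) * C.sch.P ≤ M) (ht : C.sch.tau0 ≤ t)
    (hcase : t ≤ C.sch.t1 ∧ τ = C.sch.tau0 ∨
      ∃ h, t ∈ Icc (C.sch.hstart h) (C.sch.hstart (h + 1)) ∧ τ = C.sch.tau h) :
    1 / τ ^ 2 ≤ budgetK M * qrate C.sch.tau0 t := by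
  have htau := C.sch.htau0
  have ht0 : 0 ≤ t := htau.le.trans ht
  have hq0 := budget_nonneg htau ht0
  rcases hcase with ⟨hle, he⟩ | ⟨h, hh, he⟩
  · rw [he]
    refine (le_budget htau ht0 (Y := 1 + |M|) ?_).trans
      (mul_le_mul_of_nonneg_right (le_add_of_nonneg_left (by positivity)) hq0)
    have : t / C.sch.tau0 ≤ M := by rw [div_le_iff₀ htau]; linarith
    linarith [le_abs_self M]
  · rw [he]
    refine (C.sch.inv_tau_sq_le_budget h ⟨?_, hh.2⟩ C.ht1_nonneg hM1 hM2).trans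
      (mul_le_mul_of_nonneg_right (le_add_of_nonneg_right (by positivity)) hq0)
    exact le_trans (le_trans (le_add_of_nonneg_right (by positivity)) (C.sch.hstart_ge h)) hh.1

/-- The smallness along a control: `η = b / τ`, second order below a multiple of the budget that
does not involve the profile. -/
theorem ctrl_small {C : Ctrl (Gal D)} {B M : ℝ} (hB : PathBd C.loops C.one C.p0 B)
    (hM1 : C.sch.t1 ≤ M * C.sch.tau0) (hM2 : (1 + C.sch.kap) * C.sch.P ≤ M)
    {a : ℝ → ℝ} {t E : ℝ} (ha0 : 0 ≤ a t) (ha1 : a t ≤ 1)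
    (hda : |deriv a t| ≤ E * qrate C.sch.tau0 t) (hE : E ≤ C.sch.tau0) (ht : C.sch.tau0 ≤ t)
    {s : ℕ → ℝ} (hs : ∀ n, s n ∈ Icc (0 : ℝ) 1) {b Kb : ℝ}
    (hb : boundK D * |pathK B| ≤ b) (hKb : b ^ 2 * budgetK M + b * budgetK M + b ≤ Kb) :
    ∃ η, η ≤ b / C.sch.tau0 ∧ η ^ 2 ≤ Kb * qrate C.sch.tau0 t ∧
      |deriv a t| * η ≤ Kb * qrate C.sch.tau0 t ∧ ∀ θ : Sph 3,
      (|gfn (deriv (C.rho s)) t (θ : Space 3)| ≤ η ∧
        (∀ i, |rot i (gfn (deriv (C.rho s)) t) (θ : Space 3)| ≤ η) ∧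
        |omF a (C.rho s) t (θ : Space 3)| ≤ η ∧
        (∀ i, |rot i (omF a (C.rho s) t) (θ : Space 3)| ≤ η) ∧
        ∀ i j, |rot i (rot j (omF a (C.rho s) t)) (θ : Space 3)| ≤ η) ∧
      |gfn (deriv (deriv (C.rho s))) t (θ : Space 3)| ≤ Kb * qrate C.sch.tau0 t ∧
        |gfn (omD a (C.rho s)) t (θ : Space 3)| ≤ Kb * qrate C.sch.tau0 t := by
  obtain ⟨τ, hτle, r1, r2, hcase⟩ := Ctrl.rho_rates_deriv hB hs t
  have htau := C.sch.htau0
  have hτ : 0 < τ := htau.trans_le hτle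
  have hqQ := inv_sq_le_budget hM1 hM2 ht hcase
  have hQ : 0 ≤ budgetK M := by rw [budgetK]; positivity
  set q := qrate C.sch.tau0 t
  have hq : 0 ≤ q := budget_nonneg htau (htau.le.trans ht)
  have hbK : 0 ≤ boundK D := by
    rw [boundK]
    have := one_le_rotK D
    have := ContinuousLinearMap.opNorm_nonneg (sphFn D)
    have := ContinuousLinearMap.opNorm_nonneg (Linv D)
    positivity
  have hb0 : 0 ≤ b := (mul_nonneg hbK (abs_nonneg _)).trans hb
  have hEq : E * q * (1 / τ) ≤ q := by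
    rw [mul_one_div, div_le_iff₀ hτ, mul_comm q]
    exact mul_le_mul_of_nonneg_right (hE.trans hτle) hq
  have hKq := mul_le_mul_of_nonneg_right hKb hq
  have p1 := mul_le_mul_of_nonneg_left hqQ hb0
  have p2 := mul_le_mul_of_nonneg_left hEq hb0
  have p3 : 0 ≤ b ^ 2 * budgetK M * q := mul_nonneg (mul_nonneg (sq_nonneg b) hQ) hq
  have p4 : 0 ≤ b * budgetK M * q := mul_nonneg (mul_nonneg hb0 hQ) hq
  have p5 : 0 ≤ b * q := mul_nonneg hb0 hq
  refine ⟨b / τ, div_le_div_of_nonneg_left hb0 htau hτle, ?_, ?_, fun θ => ?_⟩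
  · rw [div_pow, div_eq_mul_one_div]
    have p6 := mul_le_mul_of_nonneg_left hqQ (sq_nonneg b)
    linarith
  · refine (mul_le_mul_of_nonneg_right hda (div_nonneg hb0 hτ.le)).trans ?_
    rw [show E * q * (b / τ) = b * (E * q * (1 / τ)) by ring]
    linarith
  · have hpk := le_abs_self (pathK B)
    obtain ⟨⟨v1, v2, v3, v4, v5⟩, v6, v7⟩ := weight_bounds ha0 ha1 hda
      (r1.trans (div_le_div_of_nonneg_right hpk hτ.le))
      (r2.trans (div_le_div_of_nonneg_right hpk (sq_nonneg τ))) θ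
    have e1 : boundK D * (|pathK B| / τ) ≤ b / τ := by
      rw [← mul_div_assoc]; exact div_le_div_of_nonneg_right hb hτ.le
    have e2 : boundK D * (|pathK B| / τ ^ 2 + E * q * (|pathK B| / τ)) ≤ Kb * q := by
      have hEq0 : 0 ≤ E * q := (abs_nonneg _).trans hda
      rw [show boundK D * (|pathK B| / τ ^ 2 + E * q * (|pathK B| / τ))
        = boundK D * |pathK B| * (1 / τ ^ 2 + E * q * (1 / τ)) by ring]
      refine (mul_le_mul_of_nonneg_right hb (by positivity)).trans ?_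
      rw [mul_add]
      linarith
    exact ⟨⟨v1.trans e1, fun i => (v2 i).trans e1, v3.trans e1, fun i => (v4 i).trans e1,
      fun i j => (v5 i j).trans e1⟩, v6.trans e2, v7.trans e2⟩

/-- The metric of a control: bounded, nonnegative Ricci curvature, and its Laplacian. `K` does
not depend on the constants `A, E` of the profile. -/
theorem exists_ctrl_metric (D : ℕ) (B c0 δ M : ℝ) (hc0 : 0 < c0) (hδ : 0 < δ) :
    ∃ K : ℝ, 0 ≤ K ∧ ∀ eps A E : ℝ, ∃ τm : ℝ, ∀ C : Ctrl (Gal D),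
      PathBd C.loops C.one C.p0 B → ShapeOK C.loops C.one C.p0 c0 →
      ConeBd C.loops C.one C.p0 δ eps → τm ≤ C.sch.tau0 → C.sch.t1 ≤ M * C.sch.tau0 →
      (1 + C.sch.kap) * C.sch.P ≤ M → ∀ a : ℝ → ℝ, IsProfile K eps A E C.sch.tau0 a →
      ∀ s : ℕ → ℝ, (∀ n, s n ∈ Icc (0 : ℝ) 1) →
        IsBoundedMetric (polarMet a (gfn (C.rho s)) (omF a (C.rho s))) ∧
        RicciNonneg (polarMet a (gfn (C.rho s)) (omF a (C.rho s))) ∧
        ∀ U : Space 3 → ℝ, ContDiff ℝ 2 U → ∀ x, x ≠ 0 →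
          lapBel (polarMet a (gfn (C.rho s)) (omF a (C.rho s))) U x =
            (‖x‖ ^ 2 * (lift (lapse (omF a (C.rho s))) x
              * lift (confP a (gfn (C.rho s))) x))⁻¹ *
            (eul (fun y => lift (massF a (C.rho s)) y * eul U y) x
              + lift (massF a (C.rho s)) x * eul U x
              + ∑ i, rot i (fun y => lift (nuF a (C.rho s)) y * rot i U y) x) := by
  set R : ℝ := |‖sphFn D‖ * rotK D ^ 3 * (3 * B)|
  obtain ⟨η0, Kp, hη0, hη0', hKp, hric⟩ := ricciNonneg_polar hc0 (abs_nonneg _ : 0 ≤ R) hδ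
  set b := abs (boundK D * |pathK B|)
  have hb : 0 ≤ b := abs_nonneg _
  have hQ : 0 ≤ budgetK M := by rw [budgetK]; positivity
  set Kb := b ^ 2 * budgetK M + b * budgetK M + b + 1 with hKbd
  have hKb : 1 ≤ Kb := le_add_of_nonneg_left (by positivity)
  refine ⟨Kp * Kb, mul_nonneg hKp (by linarith), fun eps A E => ⟨1 + |E| + (b + Kb) / η0, ?_⟩⟩
  intro C hB hC hcone hτ hM1 hM2 a ha s hs
  have htau := C.sch.htau0
  have hf : 0 ≤ (b + Kb) / η0 := div_nonneg (by linarith) hη0.le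
  have hτ1 : 1 ≤ C.sch.tau0 := by linarith [abs_nonneg E]
  have hτE : |E| ≤ C.sch.tau0 := by linarith
  have hτη : b + Kb ≤ C.sch.tau0 * η0 := by
    rw [← div_le_iff₀ hη0]; linarith [abs_nonneg E]
  have hbd : √(18 / 25 : ℝ) ≥ 1 / 2 := by
    rw [ge_iff_le, Real.le_sqrt (by norm_num) (by norm_num)]; norm_num
  have hpdiff : Differentiable ℝ (C.rho s) := (C.contDiff_rho s).differentiable (by simp)
  have hpdiff' : Differentiable ℝ (deriv (C.rho s)) :=
    (contDiff_infty_iff_deriv.1 (C.contDiff_rho s)).2.differentiable (by simp)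
  have hd1 : derT (gfn (C.rho s)) = gfn (deriv (C.rho s)) := by
    funext t θ; exact deriv_gfn hpdiff t θ
  have hd2 : derT (derT (gfn (C.rho s))) = gfn (deriv (deriv (C.rho s))) := by
    rw [hd1]; funext t θ; exact deriv_gfn hpdiff' t θ
  have hd3 : derT (omF a (C.rho s)) = gfn (omD a (C.rho s)) := by
    funext t θ
    exact (hasDerivAt_gfn (hasDerivAt_omC ha.smooth (C.contDiff_rho s) t) θ).deriv
  have hdata : IsPolarData c0 R δ η0 Kp C.sch.tau0 a (gfn (C.rho s)) (omF a (C.rho s)) := {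
    smooth_a := ha.smooth
    smooth_rho := contDiff_gfn (C.contDiff_rho s)
    smooth_om := contDiff_gfn (contDiff_omC ha.smooth (C.contDiff_rho s))
    T0_pos := htau
    a_one := ha.one_of_nonpos
    a_lower := fun t => hbd.le.trans (ha.lower t)
    a_le := ha.le_one
    a_deriv := ha.deriv_nonpos
    phi_nonneg := fun t => (Real.sqrt_nonneg _).trans (ha.phi_nonneg t)
    phi_anti := ha.phi_anti
    round := fun t ht θ => by
      exact Ctrl.early_everywhere hC a s ht θ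
    eqn := fun t _ θ _ => by rw [hd1, Ctrl.casimir_om hC hs t θ]
    small := fun t ht => ?_ }
  · refine ⟨hdata.isBoundedMetric hc0 hη0', hric _ _ _ _ hdata, fun U hU x hx => ?_⟩
    have hM : lift (massF a (C.rho s))
        = lift fun t θ => a t ^ 2 * gfn (C.rho s) t θ / (1 + omF a (C.rho s) t θ) := by
      funext y
      have h2 : 1 / 2 ≤ 1 + omF a (C.rho s) (Real.log ‖y‖) (‖y‖⁻¹ • y) :=
        (hdata.range_lift hc0 hη0' y).2.1
      rw [lift, lift, massF, nuF, safeInv_eq h2, div_eq_mul_inv]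
    rw [hM, hdata.lapBel_eq hc0 hη0' hU hx]
    rfl
  have ht0 : 0 ≤ t := htau.le.trans ht
  set q := qrate C.sch.tau0 t
  have hq0 : 0 ≤ q := budget_nonneg htau ht0
  have ha0 : 0 < a t := by linarith [ha.lower t]
  have hda : |deriv a t| ≤ |E| * q := (ha.deriv_late t ht).trans (le_trans
    (mul_le_mul_of_nonneg_right (mul_le_mul_of_nonneg_right (le_abs_self E) hq0) ha0.le)
    (mul_le_of_le_one_right (by positivity) (ha.le_one t)))
  obtain ⟨η, hηle, hηq, haη, hsm⟩ := ctrl_small hB hM1 hM2 ha0.le (ha.le_one t) hda hτE ht hs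
    (le_abs_self _) (le_of_le_of_eq (le_add_of_nonneg_right zero_le_one) hKbd.symm)
  have hqτ : q ≤ 1 / C.sch.tau0 := by
    refine (budget_le htau ht0).trans ?_
    rw [← one_div, one_div_le_one_div (by positivity) htau]
    exact le_self_pow₀ hτ1 two_ne_zero
  refine ⟨η, Kb * q, ?_, ?_, hηq, haη, ?_, fun θ hθ => ?_⟩
  · refine hηle.trans ?_
    rw [div_le_iff₀ htau]
    linarith
  · refine (mul_le_mul_of_nonneg_left hqτ (by linarith)).trans ?_
    rw [mul_one_div, div_le_iff₀ htau]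
    linarith
  · rw [← mul_assoc]; exact ha.phi_speed t (by linarith)
  obtain ⟨⟨v1, v2, v3, v4, v5⟩, v6, v7⟩ := hsm ⟨θ, mem_sphere_zero_iff_norm.2 hθ⟩
  obtain ⟨u1, u2, -, -⟩ := Ctrl.rho_bounds hB hs t ⟨θ, mem_sphere_zero_iff_norm.2 hθ⟩
  have hR' : ‖sphFn D‖ * rotK D ^ 3 * (3 * B) ≤ R := le_abs_self _
  have hc := Ctrl.rho_pos hC hs t ⟨θ, mem_sphere_zero_iff_norm.2 hθ⟩
  refine ⟨⟨hc, (le_abs_self _).trans (u1.trans hR'), ?_⟩, fun i => (u2 i).trans hR', ?_, ?_,
    v3, v4, v5, ?_, ?_⟩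
  · have hmem : ConeOK δ eps (C.rho s t) := by
      rcases C.rho_mem s hs t with ⟨c, hc', h⟩ | ⟨k, u, hu, x, h⟩ <;> rw [h]
      exacts [hcone.seg c hc', hcone.loop k u hu x]
    refine (hmem ⟨θ, mem_sphere_zero_iff_norm.2 hθ⟩ _ (ha.sq_late t ht)).trans (le_of_eq ?_)
    simp only [curv, lapRes, rot_gfn, gfn, res, poly_rotG]
  · rw [hd1]; exact v1
  · rw [hd1]; exact v2
  · rw [hd2]; exact v6
  · rw [hd3]; exact v7

end

end Vale.Agent.P225.Disproof.Met3
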