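import Vale.Agent.P225.Disproof.LimitFamily
import Vale.Agent.P225.Disproof.LimitMain
import Vale.Agent.P225.Disproof.MetricCtrl

/-!
# P225: the disproof from a limit family
-/

namespace Vale.Agent.P225.Disproof

open MeasureTheory Set Filter Topology
open scoped RealInnerProductSpace ContDiff

noncomputable section

/-- A bounded metric has positive determinant. -/
theorem IsBoundedMetric.det_pos {g : Met 3} (h : IsBoundedMetric g) (x : Space 3) :
    0 < (g x).det := by
  obtain ⟨-, hs, c, hc, hb⟩ := h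
  refine Matrix.PosDef.det_pos (Matrix.PosDef.of_dotProduct_mulVec_pos ?_ fun v hv => ?_)
  · exact Matrix.IsHermitian.ext fun i j => by simpa using (hs x).apply i j
  · set w : Space 3 := WithLp.toLp 2 v
    have hw : 0 < c * ‖w‖ ^ 2 :=
      mul_pos hc (pow_pos (norm_pos_iff.2 fun h0 => hv ((WithLp.toLp_eq_zero 2).1 h0)) 2)
    refine lt_of_lt_of_le hw ((hb x w).1.trans (le_of_eq ?_))
    simp only [gsq, dotProduct, Matrix.mulVec, Pi.star_apply, star_trivial, Finset.mul_sum, w]
    refine Finset.sum_congr rfl fun i _ => Finset.sum_congr rfl fun j _ => ?_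
    ring

/-- A limit family over a suitable metric disproves the comparison. -/
theorem yauFails_of_limitFamily {winf νinf : ℝ → Space 3 → ℝ}
    (F : LimitFamily 730 26 winf νinf) {g : Met 3} (hg : IsBoundedMetric g) (hr : RicciNonneg g)
    (hlap : ∀ U : Space 3 → ℝ, ContDiff ℝ ∞ U → ∀ x ≠ (0 : Space 3), ∃ coef, lapBel g U x = coef *
      (Met3.eul (fun y => Met3.lift winf y * Met3.eul U y) x + Met3.lift winf x * Met3.eul U x +
        ∑ i, rot i (fun y => Met3.lift νinf y * rot i U y) x)) :
    YauFails 3 26 := by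
  obtain ⟨U, hU, hUh⟩ := exists_polyHarm (winf := winf) (νinf := νinf) F.L_tendsto F.T_tendsto
    F.smw F.smν F.limw F.limdw F.limν (fun i t θ => F.limdν t i θ) F.u
    (fun m => ⟨F.wgtw, F.wgtν, F.cpos, F.loww, F.lowν, F.Cpos, by norm_num, F.T_tendsto,
      fun k => F.sol k m, fun k => F.bdd k m⟩)
    F.early F.κpos (Eventually.of_forall F.gram) hg.1 hg.det_pos hlap
  have e : (3 + 26 - 1).choose 26 + (3 + 26 - 2).choose (26 - 1) + 1 = 730 := by
    rw [show 3 + 26 - 1 = 28 by norm_num, show 3 + 26 - 2 = 27 by norm_num,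
      show 26 - 1 = 25 by norm_num, ← Nat.choose_symm (show 26 ≤ 28 by norm_num),
      ← Nat.choose_symm (show 25 ≤ 27 by norm_num), Nat.choose_two_right, Nat.choose_two_right]
  refine ⟨g, hg, hr, fun m => U (Fin.cast e m), hU.comp _ (Fin.cast_injective e), fun m => ?_⟩
  exact_mod_cast hUh (Fin.cast e m)

end

end Vale.Agent.P225.Disproof
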