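import Vale.Agent.P225.Disproof.Horizon
import Vale.Agent.P225.Disproof.CtrlHalves
import Vale.Agent.P225.Disproof.CtrlTrace
import Vale.Agent.P225.Disproof.MkCtrl
import Vale.Agent.P225.Disproof.Setup
import Vale.Agent.P225.Disproof.YauCore
import Vale.Agent.P225.Disproof.Centre

/-!
# P225: the disproof

The constants, in this order: loops and levels, the time constants of the gaps, the rest ratio, the
profile, the slot length. Each horizon then gives parameters and slow solutions, with constants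
independent of horizon and truncation.
-/

namespace Vale.Agent.P225.Disproof

open Set Filter Topology Met3
open scoped RealInnerProductSpace ContDiff

noncomputable section

attribute [local irreducible] wordLen

/-- The margin of the cone survives a smaller scale window. -/
theorem Met3.ConeBd.mono {D P : ℕ} {L : LoopFam (Gal D) P} {one p0 : Gal D} {δ eps eps' : ℝ}
    (h : ConeBd L one p0 δ eps) (he : 0 < eps') (hle : eps' ≤ eps) :
    ConeBd L one p0 δ eps' :=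
  ⟨h.δ_pos, he, fun c hc θ b hb => h.seg c hc θ b (by linarith),
    fun k u hu x θ b hb => h.loop k u hu x θ b (by linarith)⟩

/-- Yau's comparison fails in dimension `3` at order `26`. -/
theorem yauFails_three : YauFails 3 26 := by
  obtain ⟨D₀, hD₀⟩ := Strata.exists_centreHyp
  obtain ⟨D, -, one, p₀, L, -, -, -, ⟨c₀, hsh⟩, ⟨m, hm, hseg, hloop⟩, hok, Λ, η, hη, -, hlev, hmono,
    hpair, hbot⟩ := exists_setup hD₀
  obtain ⟨B, hB⟩ := exists_pathBd L one p₀
  obtain ⟨δc, epsc, hcone⟩ := exists_coneBd hsh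
    (fun c hc θ => lt_of_le_of_lt (hseg c hc θ) (neg_lt_zero.2 hm))
    (fun k u hu x θ => lt_of_le_of_lt (hloop k u hu x θ) (neg_lt_zero.2 hm))
  have hg := Λ.g_pos
  obtain ⟨K⟩ := exists_timeConsts hg Λ.g_le_top
  have hT : 0 ≤ K.T := zero_le_one.trans K.one_le_T
  have htop0 : 0 ≤ Λ.top := hg.le.trans Λ.g_le_top
  set Bh := max Λ.top 33 with hBh
  have hcB : K.c ≤ Bh :=
    le_trans (by linarith [K.c_le, Λ.g_le_top, K.c_pos]) (le_max_left Λ.top 33)
  obtain ⟨kap0, -, hkap⟩ := exists_kap (B := Bh) htop0 K.c_pos hcB hT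
    (show 0 < η / 4 by linarith)
  set kap := max kap0 1
  have hkap1 : 1 ≤ kap := le_max_right _ _
  have hkap0 : 0 ≤ kap := zero_le_one.trans hkap1
  obtain ⟨Kp, hKp, hmetric⟩ :=
    exists_ctrl_metric D B c₀ δc (2 + (1 + kap) * wordLen) hsh.c0_pos hcone.δ_pos
  set eps := min epsc (Λ.g / 20)
  have heps : 0 < eps := lt_min hcone.eps_pos (by linarith)
  obtain ⟨τa, A, E, -, -, -, hprof⟩ := exists_profile Kp eps hKp heps
  obtain ⟨τm, hmet⟩ := hmetric eps A E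
  obtain ⟨Kw, -, hKw⟩ := exists_traceFam D B A E c₀
  obtain ⟨τt, -, htr⟩ := hKw Λ.g hg
  set δ' := min (min (Λ.g ^ 2 / 4) (Λ.g / 8)) (min (min K.c (1 / 2)) η)
  have hδ' : 0 < δ' :=
    lt_min (lt_min (by positivity) (by positivity)) (lt_min (lt_min K.c_pos (by norm_num)) hη)
  obtain ⟨τr, hrate⟩ := exists_rate (X := Gal D) B Kw Λ.top Λ.C hδ'
  obtain ⟨τ0, h1, ha', hm', ht', hr', hL'⟩ : ∃ τ : ℝ,
      1 ≤ τ ∧ τa ≤ τ ∧ τm ≤ τ ∧ τt ≤ τ ∧ τr ≤ τ ∧ 4 * K.L < τ := by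
    refine ⟨1 + |τa| + |τm| + |τt| + |τr| + |4 * K.L|, ?_, ?_, ?_, ?_, ?_, ?_⟩ <;>
      linarith [abs_nonneg τa, abs_nonneg τm, abs_nonneg τt, abs_nonneg τr, abs_nonneg (4 * K.L),
        le_abs_self τa, le_abs_self τm, le_abs_self τt, le_abs_self τr, le_abs_self (4 * K.L)]
  have htau : 0 < τ0 := lt_of_lt_of_le one_pos h1
  obtain ⟨a, ha⟩ := hprof τ0 ha'
  set C := mkCtrl L one p₀ hkap0 htau with hCdef
  have hpr : Ctrl.ProfileRate C.sch (max A E) a :=
    Ctrl.profileRate_of_isProfile (S := C.sch) ha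
  have hctrl : CtrlOf C L p₀ := ctrlOf_mkCtrl L one p₀ hkap0 htau
  have hBC : PathBd C.loops C.one C.p0 B := hB
  have hshC : ShapeOK C.loops C.one C.p0 c₀ := hsh
  have hamin : (0 : ℝ) < √(18 / 25) := Real.sqrt_pos.2 (by norm_num)
  have hB0 := hB.nonneg
  -- the rates
  have hrates : ∀ s : paramCube, ∀ t,
      Kw / C.sch.tau0 * (2 * Λ.top + 2) + Λ.C * ‖deriv (C.rho s) t‖ ≤ Λ.g ^ 2 / 4 ∧
        Kw / C.sch.tau0 ≤ Λ.g / 8 ∧ Kw / C.sch.tau0 ≤ K.c ∧ Kw / C.sch.tau0 ≤ 1 / 2 ∧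
        Kw / C.sch.tau0 ≤ η := fun s t => by
    obtain ⟨e1, e2⟩ := hrate C hBC hr' s s.2 t
    exact ⟨e1.trans ((min_le_left _ _).trans (min_le_left _ _)),
      e2.trans ((min_le_left _ _).trans (min_le_right _ _)),
      e2.trans ((min_le_right _ _).trans ((min_le_left _ _).trans (min_le_left _ _))),
      e2.trans ((min_le_right _ _).trans ((min_le_left _ _).trans (min_le_right _ _))),
      e2.trans ((min_le_right _ _).trans (min_le_right _ _))⟩
  set s₀ : paramCube := ⟨fun _ => 0, fun _ => ⟨le_rfl, zero_le_one⟩⟩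
  obtain ⟨-, hε8, hεc, hε1, hεη⟩ := hrates s₀ 0
  -- the metric and the weights
  have hη26 : η ≤ 26 := by linarith [(hlev 225 ⟨le_rfl, by norm_num⟩).1]
  obtain ⟨hM1, hM2⟩ := mkCtrl_bounds L one p₀ hkap0 htau
  have hconeC : ConeBd C.loops C.one C.p0 δc eps := hcone.mono heps (min_le_left _ _)
  have hgeom := fun s : paramCube =>
    hmet C hBC hshC hconeC hm' hM1 hM2 a ha s s.2
  have hνall : ∀ s : ℕ → ℝ, (∀ n, s n ∈ Icc (0 : ℝ) 1) → ∀ t (θ : Sph 3),
      1 / 2 ≤ nuF a (C.rho s) t (θ : Space 3) ∧ nuF a (C.rho s) t (θ : Space 3) ≤ 3 / 2 := by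
    obtain ⟨F, -, -, -, -, h5, -⟩ := htr C hBC hshC ht' Kp eps a ha (min_le_right _ _) 0
      (C.sch.t1 + 1) (by linarith)
    exact fun s hs t θ => h5 ⟨s, hs⟩ t θ
  -- the constants of the bound
  set R : ℝ := 26 - η / 4 with hR
  obtain ⟨Kg, -, hKg⟩ := C.sch.exists_growth_const (slowDim - botDim)
    (R := R) (A := Λ.top + 1) (by linarith) (by linarith)
  set lo := min (√(18 / 25) ^ 2 * c₀ * (2 / 3)) (1 / 2) with hlo
  set hi := 6 * ‖sphFn D‖ * B + 1 with hhi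
  have hlo0 : 0 < lo := lt_min (by have := hsh.c0_pos; positivity) (by norm_num)
  have hhi0 : 0 < hi := add_pos_of_nonneg_of_pos
    (mul_nonneg (mul_nonneg (by norm_num) (ContinuousLinearMap.opNorm_nonneg _)) hB0) one_pos
  have hE : Module.finrank ℝ (EuclideanSpace ℝ (Fin 730)) = slowDim := finrank_euclideanSpace_fin
  -- one horizon
  have hsol : ∀ k : ℕ, ∃ s : paramCube, ∃ N, k ≤ N ∧ ∃ H : ℝ, (k : ℝ) < H ∧
      ∃ u : Fin 730 → ℝ → Gal N,
        (∀ m, IsGalSol N (massF a (C.rho s)) (nuF a (C.rho s)) (Iio H) (u m)) ∧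
        (∀ m, ∀ t ≤ 0, deriv (u m) t = degOp N (u m t)) ∧
        (∀ m, ∀ t ≤ H, ‖u m t‖ ≤
          ctrlConst Λ.g Λ.top (Kg ^ 2) C.sch.t1 lo * Real.exp (26 * max t 0)) ∧
        ∀ z : Fin 730 → ℝ, hi⁻¹ * ∑ i, z i ^ 2 ≤ ‖∑ i, z i • u i C.sch.t1‖ ^ 2 := by
    intro k
    set N := max k Λ.N0
    set H := C.sch.pairStart (k + 1)
    have ht1pos : 0 < C.sch.t1 := lt_of_lt_of_le (by linarith [C.sch.htau0]) C.ht1
    have hH : C.sch.t1 + ((k : ℝ) + 1) ≤ H := by
      refine le_trans ?_ (C.sch.hstart_ge (2 * (k + 1)))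
      have hk : (0 : ℝ) ≤ k := Nat.cast_nonneg k
      have hτ : 1 ≤ C.sch.tau0 := h1
      push_cast
      nlinarith
    have hk0 : (0 : ℝ) ≤ k := Nat.cast_nonneg k
    obtain ⟨F, -, -, -, h4, -, h6⟩ :=
      htr C hBC hshC ht' Kp eps a ha (min_le_right _ _) N H (by linarith)
    have hsm : CtrlSmall Λ C N (Kw / C.sch.tau0) :=
      ⟨hok, hctrl, le_max_right _ _, hε8, fun s t => (hrates s t).1⟩
    obtain ⟨Z⟩ := exists_slowFam hsm F hE
    have hLt : 4 * K.L < C.sch.tau0 := hL'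
    have hk1 : 1 ≤ C.sch.kap := hkap1
    obtain ⟨s, hs, hbd⟩ := exists_horizon C.sch (n := k + 1) (S := Z.seqSys) (lev := Λ.lev)
      (lo := botDim) (M := slowDim) (c := K.c) (T := K.T) (B := Bh) (top := Λ.top) (R := R)
      (η := η / 4) (K := Kg) Z.dim (by rw [← botDim_add_winDim]; exact Nat.le_add_right _ _)
      le_rfl le_rfl (fun h hh s s' heq => Z.seqSys_agree hh heq)
      (fun s _ => Z.seqSys_init hsm s)
      (fun h hh s hs V d1 d2 d3 => Z.seqSys_half (K := K) hsm hLt hk1 hh hs d1 d2 d3)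
      (fun h hh s _ => Z.seqSys_rest (K := K) hsm hLt hk1 hh s)
      K.c_pos hT hcB (le_max_left _ _) htop0 (fun s _ => Z.seqSys_top s) hεc hε1
      (by linarith) h1
      (fun l l1 l2 => ⟨(hlev l ⟨l1, l2⟩).1, (hlev l ⟨l1, l2⟩).2.trans (le_max_right _ _)⟩)
      (fun l l1 l2 => hmono l ⟨l1, Nat.lt_succ_iff.1 l2⟩)
      (fun l l1 l2 => by
        have := hpair l ⟨l1, l2⟩
        simp only [botDim, slowDim]
        linarith)
      (by simp only [botDim]; linarith)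
      (fun d hd => hkap kap d (le_max_left _ _) hd) hKg
    refine ⟨⟨s, hs⟩, N, le_max_left _ _, H, by linarith, ?_⟩
    refine exists_ctrlSolutions hsm Z ⟨s, hs⟩ (sq_nonneg Kg) (fun x t ht => ?_)
      (funext fun t => (h4 ⟨s, hs⟩ t).1) (funext fun t => (h4 ⟨s, hs⟩ t).2.1)
      (fun t ht => by rw [← (h4 ⟨s, hs⟩ t).1]; exact (h6 ⟨s, hs⟩ t ht).1)
      (fun t ht => by rw [← (h4 ⟨s, hs⟩ t).2.1]; exact (h6 ⟨s, hs⟩ t ht).2)
      hlo0 hhi0 (fun t _ θ => ?_)
    · have h := hbd x t ht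
      simp only [SlowFam.seqSys, clampSeq_val hs] at h
      exact h
    · have e := C.sphC_weights hpr.smooth s (fun r φ => (hνall s hs r φ).1) t
      rw [e.1]
      refine ⟨?_, massC_le hBC (fun r => ⟨(hpr.pos r).le, hpr.le_one r⟩) hs
        (fun φ => (hνall s hs t φ).1) θ⟩
      rw [(massC_apply (fun φ => (hνall s hs t φ).1) θ).1]
      exact (Ctrl.weights_low hshC hamin ha.lower hs (hνall s hs t θ)).1
  obtain ⟨s, ⟨F⟩⟩ := exists_limitFamily hshC hpr hamin ha.lower ha.bdd_deriv hνall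
    (ctrlConst_pos _ _ _ _ _) (inv_pos.2 hhi0) hsol
  obtain ⟨hbm, hric, hlap⟩ := hgeom s
  exact yauFails_of_limitFamily F hbm hric fun U hU x hx =>
    ⟨_, hlap U (hU.of_le (WithTop.coe_le_coe.2 le_top)) x hx⟩

end

end Vale.Agent.P225.Disproof
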