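import Vale.Agent.P225.Disproof.GrowthBudget
import Vale.Agent.P225.Disproof.Mix.Bound

/-!
# P225: the rest is long enough

With rests much longer than the loops a pair of half blocks forgets its high part and loses less
than `R < 26` per unit time in every slot.
-/

namespace Vale.Agent.P225.Disproof

open Set

noncomputable section

/-- The constant of the forget condition. -/
def forgetLog (c B : ℝ) : ℝ := Real.log ((40 * B ^ 2 / c ^ 2) ^ 2 * (32 * B ^ 2 / c ^ 2))

theorem forgetLog_nonneg {c B : ℝ} (hc : 0 < c) (hcB : c ≤ B) : 0 ≤ forgetLog c B := by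
  have h1 : 1 ≤ B ^ 2 / c ^ 2 := (one_le_div (pow_pos hc 2)).2 (pow_le_pow_left₀ hc.le hcB 2)
  refine Real.log_nonneg (one_le_mul_of_one_le_of_one_le (one_le_pow₀ ?_) ?_)
  · rw [mul_div_assoc]; linarith
  · rw [mul_div_assoc]; linarith

/-- The time after which the second rest has forgotten the high part. -/
def forgetTime (top c T B d : ℝ) : ℝ := ((2 * top + 1) * (d + 2 * T) + forgetLog c B) / (2 * c)

theorem forgetTime_nonneg {top c T B d : ℝ} (htop : 0 ≤ top) (hc : 0 < c) (hcB : c ≤ B)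
    (hT : 0 ≤ T) (hd : 0 ≤ d) : 0 ≤ forgetTime top c T B d :=
  div_nonneg (add_nonneg (mul_nonneg (by linarith) (by linarith)) (forgetLog_nonneg hc hcB))
    (by linarith)

/-- The forget condition of a block. -/
theorem forget_le {top top' c T B d ε : ℝ} (hc : 0 < c) (hcB : c ≤ B) (hT : 0 ≤ T) (hd : 0 ≤ d)
    (htop : top' ≤ top) (htop0 : 0 ≤ top) (hεc : ε ≤ c) (hε1 : ε ≤ 1 / 2) :
    (40 * B ^ 2 / c ^ 2) ^ 2 * Real.exp ((2 * top' + 2 * ε) * (d + 2 * T) -
      (4 * c - 2 * ε) * forgetTime top c T B d) ≤ c ^ 2 / (32 * B ^ 2) := by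
  have hB : 0 < B := hc.trans_le hcB
  have hY := forgetTime_nonneg htop0 hc hcB hT hd (B := B)
  have h1 : (2 * top' + 2 * ε) * (d + 2 * T) ≤ (2 * top + 1) * (d + 2 * T) :=
    mul_le_mul_of_nonneg_right (by linarith) (by linarith)
  have h2 : 2 * c * forgetTime top c T B d ≤ (4 * c - 2 * ε) * forgetTime top c T B d :=
    mul_le_mul_of_nonneg_right (by linarith) hY
  have h3 : 2 * c * forgetTime top c T B d = (2 * top + 1) * (d + 2 * T) + forgetLog c B := by
    rw [forgetTime, mul_div_cancel₀ _ (by linarith)]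
  refine (mul_le_mul_of_nonneg_left (Real.exp_le_exp.2
    (show _ ≤ -forgetLog c B by linarith)) (by positivity)).trans (le_of_eq ?_)
  rw [Real.exp_neg, forgetLog, Real.exp_log (by positivity)]
  field_simp

/-- One rest ratio serves the forget time and the budget of every slot. -/
theorem exists_kap {top c T B η : ℝ} (htop : 0 ≤ top) (hc : 0 < c) (hcB : c ≤ B) (hT : 0 ≤ T)
    (hη : 0 < η) : ∃ kap0 : ℝ, 0 ≤ kap0 ∧ ∀ kap d : ℝ, kap0 ≤ kap → 1 ≤ d →
      forgetTime top c T B d + 2 * T ≤ kap * d ∧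
      Real.log (40 * B ^ 2 / c ^ 2) + 2 * ((top + 1) * (2 * d + 3 * T + forgetTime top c T B d)) ≤
        η * (2 * (1 + kap) * d) := by
  set a := forgetTime top c T B 1 with ha
  have ha0 : 0 ≤ a := forgetTime_nonneg htop hc hcB hT zero_le_one
  set L := |Real.log (40 * B ^ 2 / c ^ 2)| + 2 * ((top + 1) * (2 + 3 * T + a))
  refine ⟨max (a + 2 * T) (L / (2 * η)), le_max_of_le_left (by linarith), fun kap d hk hd => ?_⟩
  have hY : forgetTime top c T B d ≤ a * d := by
    rw [ha, forgetTime, forgetTime, div_mul_eq_mul_div]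
    refine div_le_div_of_nonneg_right ?_ (by linarith)
    have h1 : 2 * T ≤ 2 * T * d := le_mul_of_one_le_right (by linarith) hd
    have h2 : forgetLog c B ≤ forgetLog c B * d :=
      le_mul_of_one_le_right (forgetLog_nonneg hc hcB) hd
    nlinarith [mul_le_mul_of_nonneg_left h1 (by linarith : 0 ≤ 2 * top + 1)]
  have hTd : 2 * T ≤ 2 * T * d := le_mul_of_one_le_right (by linarith) hd
  have hk1 := mul_le_mul_of_nonneg_right ((le_max_left _ _).trans hk) (by linarith : 0 ≤ d)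
  have hk2 : L ≤ 2 * η * kap := by
    have := (le_max_right _ _).trans hk
    rw [div_le_iff₀ (by linarith)] at this
    linarith
  refine ⟨by linarith, ?_⟩
  have h3 : Real.log (40 * B ^ 2 / c ^ 2) ≤ |Real.log (40 * B ^ 2 / c ^ 2)| * d :=
    (le_abs_self _).trans (le_mul_of_one_le_right (abs_nonneg _) hd)
  have h4 : 2 * ((top + 1) * (2 * d + 3 * T + forgetTime top c T B d)) ≤
      2 * ((top + 1) * (2 + 3 * T + a)) * d := by
    have h5 : 2 * d + 3 * T + forgetTime top c T B d ≤ (2 + 3 * T + a) * d := by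
      linarith [hTd, hY]
    have := mul_le_mul_of_nonneg_left h5 (by linarith : 0 ≤ top + 1)
    linarith
  have h6 := mul_le_mul_of_nonneg_right hk2 (by linarith : 0 ≤ d)
  have h7 : 0 ≤ η * d := mul_nonneg hη.le (by linarith)
  linarith

/-- The budget of one slot over a pair. -/
theorem blockExp_le {lev : ℕ → ℝ} {lo M l : ℕ} {top top' ε T d Y kap t0 te tm te' t2 R η : ℝ}
    (hT : 0 ≤ T) (hd : 0 ≤ d) (hY : 0 ≤ Y) (hkap : 0 ≤ kap) (hε : 0 ≤ ε) (hε1 : ε ≤ 1)
    (hte : te = t0 + d) (htm : tm = te + kap * d) (hte' : te' = tm + d) (ht2 : t2 = te' + kap * d)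
    (htop : top' ≤ top) (hl : 0 ≤ lev l) (hbb : 0 ≤ lev (M + lo + 1 - l))
    (hpair : lev (M + lo + 1 - l) + lev l + ε + η ≤ 2 * R) :
    blockExp lev lo M top' ε T t0 te tm (te' + T + Y) t2 l ≤
      2 * (R * (t2 - t0)) - η * (2 * (1 + kap) * d) + 2 * ((top + 1) * (2 * d + 3 * T + Y)) := by
  rw [blockExp, ht2, hte', htm, hte]
  ring_nf
  have g1 := mul_le_mul_of_nonneg_right
    (show 2 * top' + ε ≤ 2 * (top + 1) by linarith) (show 0 ≤ 2 * d + 3 * T + Y by linarith)
  have g2 : (2 * lev (M + lo + 1 - l) + ε) * (kap * d - 2 * T) ≤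
      (2 * lev (M + lo + 1 - l) + ε) * ((1 + kap) * d) :=
    mul_le_mul_of_nonneg_left (by linarith [mul_nonneg hkap hd]) (by linarith)
  have g3 : (2 * lev l + ε) * (kap * d - T - Y) ≤ (2 * lev l + ε) * ((1 + kap) * d) :=
    mul_le_mul_of_nonneg_left (by linarith [mul_nonneg hkap hd]) (by linarith)
  have g4 := mul_le_mul_of_nonneg_right hpair
    (show 0 ≤ 2 * (1 + kap) * d by positivity)
  ring_nf at g1 g2 g3 g4
  linarith

/-- The budget of the bottom plane over a pair. -/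
theorem baseExp_le {lev0 top top' ε T d Y kap t0 te tm te' t2 R η : ℝ}
    (hT : 0 ≤ T) (hd : 0 ≤ d) (hY : 0 ≤ Y) (hkap : 0 ≤ kap) (hε : 0 ≤ ε) (hε1 : ε ≤ 1)
    (hte : te = t0 + d) (htm : tm = te + kap * d) (hte' : te' = tm + d) (ht2 : t2 = te' + kap * d)
    (htop : top' ≤ top) (htop0 : 0 ≤ top) (hl : 0 ≤ lev0) (hlo : 2 * lev0 + ε + η ≤ 2 * R) :
    (2 * top' + ε) * (te + T - t0) + (2 * lev0 + ε) * (tm - (te + T)) +
      (2 * top' + ε) * (te' + T + Y - tm) + (2 * lev0 + ε) * (t2 - (te' + T + Y)) ≤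
      2 * (R * (t2 - t0)) - η * (2 * (1 + kap) * d) + 2 * ((top + 1) * (2 * d + 3 * T + Y)) := by
  rw [ht2, hte', htm, hte]
  have g1 := mul_le_mul_of_nonneg_right
    (show 2 * top' + ε ≤ 2 * (top + 1) by linarith) (show 0 ≤ 2 * d + 2 * T + Y by linarith)
  have g2 := mul_le_mul_of_nonneg_left (show (kap * d - T) + (kap * d - T - Y) ≤ 2 * (1 + kap) * d
    by linarith [mul_nonneg hkap hd]) (show 0 ≤ 2 * lev0 + ε by linarith)
  have g3 := mul_le_mul_of_nonneg_right hlo (show 0 ≤ 2 * (1 + kap) * d by positivity)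
  have g5 : 0 ≤ (top + 1) * T := mul_nonneg (by linarith) hT
  ring_nf at g1 g2 g3 g5 ⊢
  linarith

end

end Vale.Agent.P225.Disproof
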