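import Vale.Agent.P225.Disproof.EigenSector

/-!
# P225: couplings of the labels by `(x + i y) ^ n`
-/

namespace Vale.Agent.P225.Disproof

open MvPolynomial MeasureTheory Set Filter

noncomputable section

/-- The real and the imaginary part of `(x + i y) ^ n`. -/
def cxPow : ℕ → MvPolynomial (Fin 3) ℝ × MvPolynomial (Fin 3) ℝ
  | 0 => (1, 0)
  | n + 1 => ((cxPow n).1 * X 0 - (cxPow n).2 * X 1, (cxPow n).1 * X 1 + (cxPow n).2 * X 0)

/-- The cosine coupling. -/
def hCos (n : ℕ) : MvPolynomial (Fin 3) ℝ := (cxPow n).1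

/-- The sine coupling. -/
def hSin (n : ℕ) : MvPolynomial (Fin 3) ℝ := (cxPow n).2

theorem rotP2_cxPow (n : ℕ) :
    rotP 2 (hCos n) = -C (n : ℝ) * hSin n ∧ rotP 2 (hSin n) = C (n : ℝ) * hCos n := by
  induction n with
  | zero => simp [hCos, hSin, cxPow]
  | succ n ih =>
    obtain ⟨h1, h2⟩ := ih
    simp only [hCos, hSin] at h1 h2
    have x0 : rotP 2 (X 0) = -X 1 := by simp [rotP_X]
    have x1 : rotP 2 (X 1) = X 0 := by simp [rotP_X]
    constructor
    · simp [hCos, hSin, cxPow, Derivation.leibniz, h1, h2, x0, x1, map_sub]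
      ring
    · simp [hCos, hSin, cxPow, Derivation.leibniz, h1, h2, x0, x1, map_add]
      ring

theorem cxPow_hom (n : ℕ) : (hCos n).IsHomogeneous n ∧ (hSin n).IsHomogeneous n := by
  induction n with
  | zero => exact ⟨isHomogeneous_one _ _, isHomogeneous_zero _ _ _⟩
  | succ n ih =>
    exact ⟨(ih.1.mul (isHomogeneous_X ℝ 0)).sub (ih.2.mul (isHomogeneous_X ℝ 1)),
      (ih.1.mul (isHomogeneous_X ℝ 1)).add (ih.2.mul (isHomogeneous_X ℝ 0))⟩

/-- The couplings are eigenvectors of the squared rotation. -/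
theorem rotP2_rotP2_cxPow (n : ℕ) :
    rotP 2 (rotP 2 (hCos n)) = C (-(n : ℝ) ^ 2) * hCos n ∧
    rotP 2 (rotP 2 (hSin n)) = C (-(n : ℝ) ^ 2) * hSin n := by
  obtain ⟨h1, h2⟩ := rotP2_cxPow n
  constructor
  · rw [h1, neg_mul, ← smul_eq_C_mul, map_neg, Derivation.map_smul, h2]
    simp only [smul_eq_C_mul, map_neg, map_pow]; ring
  · rw [h2, ← smul_eq_C_mul, Derivation.map_smul, h1]
    simp only [smul_eq_C_mul, map_neg, map_pow]; ring

theorem IsCos.sec_sin {p : MvPolynomial (Fin 3) ℝ} {m : ℕ} {v : Space 3 → ℝ} (h : IsCos p m v) :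
    IsSec m (sinOf m v) := by
  show rot 2 (rot 2 (sinOf m v)) = _
  rw [sinOf, Anal.rot_smul (Anal.rot_mem h.anal 2),
    Anal.rot_smul (Anal.rot_mem (Anal.rot_mem h.anal 2) 2), h.sec, Anal.rot_smul h.anal]
  module

theorem evalFun_cxPow (n : ℕ) (φ s : ℝ) :
    evalFun (hCos n) (rotZ φ (mer s)) = Real.sin s ^ n * Real.cos (n * φ) ∧
    evalFun (hSin n) (rotZ φ (mer s)) = Real.sin s ^ n * Real.sin (n * φ) := by
  obtain ⟨r0, r1, -⟩ := rotZ_coord φ (mer s)
  obtain ⟨m0, m1, -⟩ := mer_coord s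
  rw [m0, m1] at r0 r1
  induction n with
  | zero => simp [hCos, hSin, cxPow, evalFun]
  | succ n ih =>
    obtain ⟨h1, h2⟩ := ih
    simp only [hCos, hSin, evalFun] at h1 h2
    have hn : ((n + 1 : ℕ) : ℝ) * φ = (n : ℝ) * φ + φ := by push_cast; ring
    simp only [hCos, hSin, cxPow, evalFun, map_add, map_sub, map_mul, eval_X, h1, h2, r0, r1, hn,
      Real.cos_add, Real.sin_add]
    constructor <;> ring

theorem rot_evalFun2 (n : ℕ) :
    rot 2 (evalFun (hCos n)) = (fun x => -(n : ℝ) * evalFun (hSin n) x) ∧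
    rot 2 (evalFun (hSin n)) = fun x => (n : ℝ) * evalFun (hCos n) x := by
  obtain ⟨h1, h2⟩ := rotP2_cxPow n
  constructor <;> funext x
  · rw [rot_evalFun, h1]; simp [evalFun]
  · rw [rot_evalFun, h2]; simp [evalFun]

/-- The integral of a coupling. -/
def hIp (h : MvPolynomial (Fin 3) ℝ) (F G : Space 3 → ℝ) : ℝ :=
  ∫ θ : Sph 3, res h θ * F θ * G θ ∂(sig 3)

theorem hIp_rot2 (h : MvPolynomial (Fin 3) ℝ) {F G : Space 3 → ℝ} (hF : F ∈ Anal) (hG : G ∈ Anal) :
    hIp (rotP 2 h) F G + hIp h (rot 2 F) G + hIp h F (rot 2 G) = 0 := by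
  have hh : ContDiff ℝ 1 (evalFun h) := contDiff_evalFun h
  have hd := hh.differentiable one_ne_zero
  have hFc := Anal.contDiff1 hF
  have hGc := Anal.contDiff1 hG
  have h1 := integral_rot ((hh.mul hFc).mul hGc) 2
  have e : ∀ θ : Sph 3, rot 2 (fun x => evalFun h x * F x * G x) θ =
      res (rotP 2 h) θ * F θ * G θ + res h θ * rot 2 F θ * G θ + res h θ * F θ * rot 2 G θ := fun θ => by
    rw [rot_mul (hd.fun_mul (hFc.differentiable one_ne_zero)) (hGc.differentiable one_ne_zero),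
      rot_mul hd (hFc.differentiable one_ne_zero), rot_evalFun]
    simp only [res]
    ring
  rw [show (∫ θ : Sph 3, rot 2 (fun x => evalFun h x * F x * G x) θ ∂(sig 3)) =
    ∫ θ : Sph 3, res (rotP 2 h) θ * F θ * G θ + res h θ * rot 2 F θ * G θ +
      res h θ * F θ * rot 2 G θ ∂(sig 3) from by simp only [e]] at h1
  have cF := Anal.continuous hF
  have cG := Anal.continuous hG
  have cF' := Anal.continuous (Anal.rot_mem hF 2)
  have cG' := Anal.continuous (Anal.rot_mem hG 2)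
  rw [integral_add ((integrable_pIp _ cF cG).fun_add (integrable_pIp _ cF' cG))
      (integrable_pIp _ cF cG'),
    integral_add (integrable_pIp _ cF cG) (integrable_pIp _ cF' cG)] at h1
  exact h1

theorem hIp_smul_left (h : MvPolynomial (Fin 3) ℝ) (c : ℝ) (F G : Space 3 → ℝ) :
    hIp h (c • F) G = c * hIp h F G := pIp_smul_left h c F G

theorem hIp_smul_right (h : MvPolynomial (Fin 3) ℝ) (c : ℝ) (F G : Space 3 → ℝ) :
    hIp h F (c • G) = c * hIp h F G := pIp_smul_right h c F G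

theorem hIp_C_mul (h : MvPolynomial (Fin 3) ℝ) (c : ℝ) (F G : Space 3 → ℝ) :
    hIp (C c * h) F G = c * hIp h F G := by
  simp only [hIp, ← integral_const_mul]
  congr 1; funext θ; simp [res, evalFun]; ring

/-- Two labels are coupled only at their sum and difference. -/
theorem coupling_zero {h : MvPolynomial (Fin 3) ℝ} {n a b : ℕ}
    (hh : rotP 2 (rotP 2 h) = C (-(n : ℝ) ^ 2) * h) {F G : Space 3 → ℝ} (hF : F ∈ Anal)
    (hG : G ∈ Anal) (hFs : IsSec a F) (hGs : IsSec b G) (hn : n ≠ a + b) (ha : n + a ≠ b)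
    (hb : n + b ≠ a) : hIp h F G = 0 := by
  have aF := Anal.rot_mem hF 2
  have aG := Anal.rot_mem hG 2
  have e0 := hIp_rot2 (rotP 2 h) hF hG
  have e1 := hIp_rot2 h aF hG
  have e2 := hIp_rot2 h hF aG
  rw [hh, hIp_C_mul] at e0
  rw [hFs, hIp_smul_left] at e1
  rw [hGs, hIp_smul_right] at e2
  set I := hIp h F G
  set K := hIp h (rot 2 F) (rot 2 G)
  have q0 := hIp_rot2 (rotP 2 h) aF aG
  rw [hh, hIp_C_mul, hFs, hIp_smul_left, hGs, hIp_smul_right] at q0
  have q1 := hIp_rot2 h (F := rot 2 (rot 2 F)) (G := rot 2 G) (Anal.rot_mem aF 2) aG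
  have q2 := hIp_rot2 h (F := rot 2 F) (G := rot 2 (rot 2 G)) aF (Anal.rot_mem aG 2)
  rw [hFs, hIp_smul_left, Anal.rot_smul hF, hIp_smul_left, hIp_smul_left, hGs, hIp_smul_right] at q1
  rw [hGs, hIp_smul_right, Anal.rot_smul hG, hIp_smul_right, hIp_smul_right, hFs, hIp_smul_left] at q2
  have r1 : ((a : ℝ) ^ 2 + (b : ℝ) ^ 2 - (n : ℝ) ^ 2) * I = 2 * K := by linarith
  have r2 : ((a : ℝ) ^ 2 + (b : ℝ) ^ 2 - (n : ℝ) ^ 2) * K = 2 * (a : ℝ) ^ 2 * (b : ℝ) ^ 2 * I := by
    linear_combination q0 - q1 - q2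
  have r3 : ((n : ℝ) - (a + b)) * ((n : ℝ) + (a + b)) * (((n : ℝ) + a - b) * ((n : ℝ) + b - a)) * I = 0 := by
    linear_combination ((a : ℝ) ^ 2 + (b : ℝ) ^ 2 - (n : ℝ) ^ 2) * r1 + 2 * r2
  refine (mul_eq_zero.1 r3).resolve_left (mul_ne_zero (mul_ne_zero ?_ ?_) (mul_ne_zero ?_ ?_))
  · rw [sub_ne_zero]; exact_mod_cast hn
  · intro h0
    have : n + (a + b) = 0 := by exact_mod_cast h0
    omega
  · rw [sub_ne_zero]; exact_mod_cast ha
  · rw [sub_ne_zero]; exact_mod_cast hb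

/-- The block of one label under its own coupling. -/
theorem block_self {p : MvPolynomial (Fin 3) ℝ} {m : ℕ} (hm : m ≠ 0) {v : Space 3 → ℝ}
    (h : IsCos p m v) : 0 < hIp (hCos (2 * m)) v v ∧
      hIp (hCos (2 * m)) (sinOf m v) (sinOf m v) = -hIp (hCos (2 * m)) v v ∧
      hIp (hCos (2 * m)) v (sinOf m v) = 0 := by
  have hmR : (m : ℝ) ≠ 0 := Nat.cast_ne_zero.2 hm
  set w := sinOf m v with hw
  have aw : w ∈ Anal := Anal.smul_mem _ (Anal.rot_mem h.anal 2)
  have hv' : rot 2 v = (-(m : ℝ)) • w := by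
    rw [hw, sinOf, smul_smul, neg_mul_neg, mul_inv_cancel₀ hmR, one_smul]
  have hw' : rot 2 w = (m : ℝ) • v := h.rot_w
  obtain ⟨hc, hs⟩ := rotP2_cxPow (2 * m)
  have e1 := hIp_rot2 (hSin (2 * m)) h.anal h.anal
  have e2 := hIp_rot2 (hSin (2 * m)) aw aw
  have e3 := hIp_rot2 (hSin (2 * m)) h.anal aw
  rw [hs, hIp_C_mul, hv', hIp_smul_left, hIp_smul_right] at e1
  rw [hs, hIp_C_mul, hw', hIp_smul_left, hIp_smul_right] at e2
  rw [hs, hIp_C_mul, hv', hw', hIp_smul_left, hIp_smul_right] at e3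
  push_cast at e1 e2 e3
  set Sc := fun F G : Space 3 → ℝ => hIp (hSin (2 * m)) F G
  have comm : ∀ (q : MvPolynomial (Fin 3) ℝ) (F G : Space 3 → ℝ), hIp q F G = hIp q G F :=
    fun q F G => pIp_comm q F G
  rw [comm (hSin (2 * m)) w v] at e1
  rw [comm (hSin (2 * m)) w v] at e2
  have hA : hIp (hCos (2 * m)) v v = hIp (hSin (2 * m)) v w := by
    have : (2 * (m : ℝ)) * (hIp (hCos (2 * m)) v v - hIp (hSin (2 * m)) v w) = 0 := by linarith
    linarith [(mul_eq_zero.1 this).resolve_left (mul_ne_zero two_ne_zero hmR)]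
  have hC' : hIp (hCos (2 * m)) w w = -hIp (hSin (2 * m)) v w := by
    have : (2 * (m : ℝ)) * (hIp (hCos (2 * m)) w w + hIp (hSin (2 * m)) v w) = 0 := by linarith
    linarith [(mul_eq_zero.1 this).resolve_left (mul_ne_zero two_ne_zero hmR)]
  have hB : 2 * hIp (hCos (2 * m)) v w + hIp (hSin (2 * m)) v v - hIp (hSin (2 * m)) w w = 0 := by
    have : (m : ℝ) * (2 * hIp (hCos (2 * m)) v w + hIp (hSin (2 * m)) v v -
        hIp (hSin (2 * m)) w w) = 0 := by linarith
    exact (mul_eq_zero.1 this).resolve_left hmR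
  -- the pointwise identities
  set A := fun x : Space 3 => evalFun (hCos (2 * m)) x * (v x * v x - w x * w x) +
    2 * evalFun (hSin (2 * m)) x * (v x * w x)
  set Bf := fun x : Space 3 => 2 * evalFun (hCos (2 * m)) x * (v x * w x) -
    evalFun (hSin (2 * m)) x * (v x * v x - w x * w x)
  have hpt : ∀ φ s : ℝ, A (rotZ φ (mer s)) = Real.sin s ^ (2 * m) * (v (mer s)) ^ 2 ∧
      Bf (rotZ φ (mer s)) = 0 := by
    intro φ s
    obtain ⟨c1, c2⟩ := evalFun_cxPow (2 * m) φ s
    have hsec : rot 2 (rot 2 v) = (-(m : ℝ) ^ 2) • v := h.sec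
    obtain ⟨v1, v2⟩ := sector_value h.anal hsec (mer s) φ
    have e : v (rotZ φ (mer s)) = Real.cos (m * φ) * v (mer s) := by
      rw [v1 hmR, rotZ_zero, h.even]; ring
    have e' : w (rotZ φ (mer s)) = Real.sin (m * φ) * v (mer s) := by
      have := v2 hmR
      rw [rotZ_zero, h.even, hv', Pi.smul_apply, smul_eq_mul] at this
      have h0 : (m : ℝ) * (w (rotZ φ (mer s)) - Real.sin (m * φ) * v (mer s)) = 0 := by linarith
      linarith [(mul_eq_zero.1 h0).resolve_left hmR]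
    have hn : ((2 * m : ℕ) : ℝ) * φ = 2 * ((m : ℝ) * φ) := by push_cast; ring
    simp only [A, Bf, c1, c2, e, e', hn, Real.cos_two_mul, Real.sin_two_mul]
    constructor
    · linear_combination Real.sin s ^ (2 * m) * v (mer s) ^ 2 *
        ((4 * Real.cos (m * φ) ^ 2 - (2 * Real.cos (m * φ) ^ 2 - 1))) * Real.sin_sq_add_cos_sq (m * φ)
    · linear_combination (2 * Real.sin (m * φ) * Real.cos (m * φ) * Real.sin s ^ (2 * m) *
        v (mer s) ^ 2) * Real.sin_sq_add_cos_sq (m * φ)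
  have cv := Anal.continuous h.anal
  have cw := Anal.continuous aw
  have ch : ∀ q : MvPolynomial (Fin 3) ℝ, Continuous (evalFun q) := fun q =>
    (contDiff_evalFun q (m := 0)).continuous
  have hAc : Continuous A := by have := ch (hCos (2 * m)); have := ch (hSin (2 * m)); fun_prop
  have intA : ∫ θ : Sph 3, A θ ∂(sig 3) = 4 * hIp (hCos (2 * m)) v v := by
    have i1 := integrable_pIp (hCos (2 * m)) cv cv
    have i2 := integrable_pIp (hCos (2 * m)) cw cw
    have i3 := (integrable_pIp (hSin (2 * m)) cv cw).const_mul 2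
    rw [show (fun θ : Sph 3 => A θ) = fun θ : Sph 3 =>
      res (hCos (2 * m)) θ * v θ * v θ - res (hCos (2 * m)) θ * w θ * w θ +
        2 * (res (hSin (2 * m)) θ * v θ * w θ) from funext fun θ => by simp only [A, res]; ring]
    rw [integral_add (i1.sub' i2) i3, integral_sub i1 i2, integral_const_mul]
    show hIp (hCos (2 * m)) v v - hIp (hCos (2 * m)) w w + 2 * hIp (hSin (2 * m)) v w = _
    linarith
  have intB : ∫ θ : Sph 3, Bf θ ∂(sig 3) = 4 * hIp (hCos (2 * m)) v w := by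
    have i1 := (integrable_pIp (hCos (2 * m)) cv cw).const_mul 2
    have i2 := integrable_pIp (hSin (2 * m)) cv cv
    have i3 := integrable_pIp (hSin (2 * m)) cw cw
    rw [show (fun θ : Sph 3 => Bf θ) = fun θ : Sph 3 => 2 * (res (hCos (2 * m)) θ * v θ * w θ) -
      (res (hSin (2 * m)) θ * v θ * v θ - res (hSin (2 * m)) θ * w θ * w θ) from
      funext fun θ => by simp only [Bf, res]; ring]
    rw [integral_sub i1 (i2.sub' i3), integral_sub i2 i3, integral_const_mul]
    show 2 * hIp (hCos (2 * m)) v w - (hIp (hSin (2 * m)) v v - hIp (hSin (2 * m)) w w) = _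
    linarith
  have hBz : ∫ θ : Sph 3, Bf θ ∂(sig 3) = 0 := integral_eq_zero_of_ae (Eventually.of_forall fun θ => by
    obtain ⟨φ, s, hθ⟩ := exists_rotZ_mer θ
    simp only [hθ, Pi.zero_apply]
    exact (hpt φ s).2)
  obtain ⟨s, hs0, hsv⟩ : ∃ s, Real.sin s ≠ 0 ∧ v (mer s) ≠ 0 := by
    by_contra hcon
    simp only [not_exists, not_and, not_not] at hcon
    have hz : ∀ r, v (mer r) = 0 := by
      intro r
      refine Anal.circ_zero h.anal onPair_mer (t₀ := Real.pi / 2) ?_ r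
      filter_upwards [Real.continuous_sin.continuousAt.eventually_ne
        (show Real.sin (Real.pi / 2) ≠ 0 by simp)] with t ht
      exact hcon t ht
    have h0 := sector_ext h.anal h.sec (fun h0 => absurd h0 hmR) hz h.even
    have h1 := h.unit
    simp [pIp, h0] at h1
  have hpos : 0 < ∫ θ : Sph 3, A θ ∂(sig 3) := by
    refine integral_pos_of_integrable_nonneg_nonzero (x := merPt s) (hAc.comp continuous_subtype_val)
      (integrable_sig (hAc.comp continuous_subtype_val)) (fun θ => ?_) ?_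
    · obtain ⟨φ, r, hθ⟩ := exists_rotZ_mer θ
      show 0 ≤ A θ
      rw [hθ, (hpt φ r).1, pow_mul]
      positivity
    · show A (mer s) ≠ 0
      rw [← rotZ_zero (mer s), (hpt 0 s).1]
      exact mul_ne_zero (pow_ne_zero _ hs0) (pow_ne_zero _ hsv)
  rw [intA] at hpos
  rw [hBz] at intB
  exact ⟨by linarith, by linarith, by linarith⟩

end

end Vale.Agent.P225.Disproof
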