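import Vale.Agent.P225.Disproof.CentrePert
import Vale.Agent.P225.Disproof.EigenBlock

/-!
# P225, module F: separating a cluster of labelled pairs

An abstract cluster consists of pairs `c m, s m` (one state for `m = 0`) and operators linear in a
polynomial, such that `Re, Im (x + i y) ^ (2 M)` act on the pair of the largest label `M` as a
rotated reflection and couple nothing else. Some combination then separates any number of states,
and the separation rotates with the half angle of the coupling.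
-/

namespace Vale.Agent.P225.Disproof

open MvPolynomial Set
open scoped RealInnerProductSpace

noncomputable section

variable {H : Type*} [NormedAddCommGroup H] [InnerProductSpace ℝ H]

/-- The span of the states of the labels in `S`. -/
def blockSpan (c s : ℕ → H) (S : Finset ℕ) : Submodule ℝ H :=
  Submodule.span ℝ (c '' S ∪ s '' S)

/-- The rotating coupling of the label `M`. -/
def rotCpl (M : ℕ) (φ : ℝ) : MvPolynomial (Fin 3) ℝ :=
  Real.cos φ • hCos (2 * M) + Real.sin φ • hSin (2 * M)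

/-- The rotating state of the label `M`. -/
def turnVec (c s : ℕ → H) (M : ℕ) (φ : ℝ) : H :=
  Real.cos (φ / 2) • c M + Real.sin (φ / 2) • s M

/-- A labelled cluster. -/
structure AxiBlocks (B : MvPolynomial (Fin 3) ℝ →ₗ[ℝ] (H →L[ℝ] H)) (S : Finset ℕ)
    (c s : ℕ → H) : Prop where
  symm : ∀ q x y, ⟪B q x, y⟫ = ⟪x, B q y⟫
  orth : ∀ a ∈ S, ∀ b ∈ S, ⟪c a, s b⟫ = 0 ∧ (a ≠ b → ⟪c a, c b⟫ = 0 ∧ ⟪s a, s b⟫ = 0)
  size : ∀ a ∈ S, c a ≠ 0 ∧ (a ≠ 0 → ‖s a‖ = ‖c a‖) ∧ (a = 0 → s a = 0)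
  self : ∀ M ∈ S, M ≠ 0 → ∃ u > (0 : ℝ),
    (⟪B (hCos (2 * M)) (c M), c M⟫ = u ∧ ⟪B (hCos (2 * M)) (s M), s M⟫ = -u ∧
      ⟪B (hCos (2 * M)) (c M), s M⟫ = 0) ∧
    (⟪B (hSin (2 * M)) (c M), c M⟫ = 0 ∧ ⟪B (hSin (2 * M)) (s M), s M⟫ = 0 ∧
      ⟪B (hSin (2 * M)) (c M), s M⟫ = u)
  off : ∀ M ∈ S, M ≠ 0 → ∀ a ∈ S, a ≤ M → ∀ b ∈ S, b < M →
    ∀ q ∈ ({hCos (2 * M), hSin (2 * M)} : Set (MvPolynomial (Fin 3) ℝ)),
      ∀ x ∈ ({c a, s a} : Set H), ∀ y ∈ ({c b, s b} : Set H), ⟪B q x, y⟫ = 0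

variable {B : MvPolynomial (Fin 3) ℝ →ₗ[ℝ] (H →L[ℝ] H)} {S : Finset ℕ} {c s : ℕ → H}

theorem AxiBlocks.mono (h : AxiBlocks B S c s) {S' : Finset ℕ} (hS : S' ⊆ S) :
    AxiBlocks B S' c s where
  symm := h.symm
  orth a ha b hb := h.orth a (hS ha) b (hS hb)
  size a ha := h.size a (hS ha)
  self M hM := h.self M (hS hM)
  off M hM h0 a ha hle b hb := h.off M (hS hM) h0 a (hS ha) hle b (hS hb)

instance (c s : ℕ → H) (S : Finset ℕ) : FiniteDimensional ℝ (blockSpan c s S) :=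
  FiniteDimensional.span_of_finite ℝ ((S.finite_toSet.image c).union (S.finite_toSet.image s))

theorem orth_of_gens {G G' : Set H} (h : ∀ x ∈ G, ∀ y ∈ G', ⟪x, y⟫ = 0) {x y : H}
    (hx : x ∈ Submodule.span ℝ G) (hy : y ∈ Submodule.span ℝ G') : ⟪x, y⟫ = 0 := by
  induction hx using Submodule.span_induction with
  | mem x hx =>
    induction hy using Submodule.span_induction with
    | mem y hy => exact h x hx y hy
    | zero => exact inner_zero_right _
    | add a b _ _ ha hb => rw [inner_add_right, ha, hb, add_zero]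
    | smul r a _ ha => rw [real_inner_smul_right, ha, mul_zero]
  | zero => exact inner_zero_left _
  | add a b _ _ ha hb => rw [inner_add_left, ha, hb, add_zero]
  | smul r a _ ha => rw [real_inner_smul_left, ha, mul_zero]

/-- The largest label is orthogonal to the others. -/
theorem AxiBlocks.orth_erase (h : AxiBlocks B S c s) {M : ℕ} (hM : M ∈ S) {z : H}
    (hz : z ∈ blockSpan c s (S.erase M)) : ⟪c M, z⟫ = 0 ∧ ⟪s M, z⟫ = 0 := by
  constructor <;>
  refine orth_of_gens (G := {_}) ?_ (Submodule.subset_span rfl) hz <;>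
  · rintro x rfl y (⟨b, hb, rfl⟩ | ⟨b, hb, rfl⟩) <;>
    · simp only [Finset.mem_coe, Finset.mem_erase] at hb
      obtain ⟨h1, h2⟩ := h.orth M hM b hb.2
      obtain ⟨h3, h4⟩ := h2 (Ne.symm hb.1)
      obtain ⟨h5, -⟩ := h.orth b hb.2 M hM
      first
        | assumption
        | (rw [real_inner_comm]; assumption)

/-- The rotating coupling touches only the largest label. -/
theorem AxiBlocks.cpl_erase (h : AxiBlocks B S c s) {M : ℕ} (hM : M ∈ S)
    (hmax : ∀ a ∈ S, a ≤ M) (h0 : M ≠ 0) (φ : ℝ) {x z : H} (hx : x ∈ blockSpan c s S)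
    (hz : z ∈ blockSpan c s (S.erase M)) :
    ⟪B (rotCpl M φ) x, z⟫ = 0 := by
  have key : ∀ q ∈ ({hCos (2 * M), hSin (2 * M)} : Set (MvPolynomial (Fin 3) ℝ)),
      ∀ x ∈ (c '' S ∪ s '' S), ∀ y ∈ (c '' (S.erase M : Finset ℕ) ∪ s '' (S.erase M : Finset ℕ)),
        ⟪B q x, y⟫ = 0 := by
    intro q hq x hx y hy
    obtain ⟨a, ha, hxa⟩ : ∃ a ∈ S, x ∈ ({c a, s a} : Set H) := by
      rcases hx with ⟨a, ha, rfl⟩ | ⟨a, ha, rfl⟩
      · exact ⟨a, ha, Or.inl rfl⟩
      · exact ⟨a, ha, Or.inr rfl⟩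
    obtain ⟨b, hb, hyb⟩ : ∃ b ∈ S.erase M, y ∈ ({c b, s b} : Set H) := by
      rcases hy with ⟨b, hb, rfl⟩ | ⟨b, hb, rfl⟩
      · exact ⟨b, hb, Or.inl rfl⟩
      · exact ⟨b, hb, Or.inr rfl⟩
    obtain ⟨hbM, hbS⟩ := Finset.mem_erase.1 hb
    exact h.off M hM h0 a ha (hmax a ha) b hbS ((hmax b hbS).lt_of_ne hbM) q hq x hxa y hyb
  induction hx using Submodule.span_induction with
  | mem x hx =>
    refine orth_of_gens (G := {B (rotCpl M φ) x}) ?_ (Submodule.subset_span rfl) hz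
    rintro v rfl y hy
    simp only [rotCpl, map_add, map_smul, add_apply, smul_apply, inner_add_left,
      real_inner_smul_left, key _ (Or.inl rfl) x hx y hy, key _ (Or.inr rfl) x hx y hy, mul_zero,
      add_zero]
  | zero => simp
  | add a b _ _ ha hb => rw [map_add, inner_add_left, ha, hb, add_zero]
  | smul r a _ ha => rw [map_smul, real_inner_smul_left, ha, mul_zero]

/-- The coupling on the rotated pair. -/
theorem AxiBlocks.cpl_self (h : AxiBlocks B S c s) {M : ℕ} (hM : M ∈ S) (h0 : M ≠ 0) :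
    ∃ u > (0 : ℝ), ∀ φ, ⟪B (rotCpl M φ) (turnVec c s M φ), turnVec c s M φ⟫ = u ∧
      ⟪B (rotCpl M φ) (turnVec c s M (φ + Real.pi)), turnVec c s M (φ + Real.pi)⟫ = -u := by
  obtain ⟨u, hu, ⟨a1, a2, a3⟩, ⟨b1, b2, b3⟩⟩ := h.self M hM h0
  refine ⟨u, hu, fun φ => ?_⟩
  have a4 : ⟪B (hCos (2 * M)) (s M), c M⟫ = 0 := by rw [h.symm, real_inner_comm, a3]
  have b4 : ⟪B (hSin (2 * M)) (s M), c M⟫ = u := by rw [h.symm, real_inner_comm, b3]
  have hq : ∀ x y : ℝ, ⟪B (rotCpl M φ) (x • c M + y • s M), x • c M + y • s M⟫ =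
      u * (Real.cos φ * (x ^ 2 - y ^ 2) + Real.sin φ * (2 * x * y)) := fun x y => by
    simp only [rotCpl, map_add, map_smul, add_apply, smul_apply, inner_add_left, inner_add_right,
      real_inner_smul_left, real_inner_smul_right, a1, a2, a3, a4, b1, b2, b3, b4]
    ring
  have hc : Real.cos φ = Real.cos (φ / 2) ^ 2 - Real.sin (φ / 2) ^ 2 := by
    rw [← Real.cos_two_mul', show 2 * (φ / 2) = φ by ring]
  have hs : Real.sin φ = 2 * Real.sin (φ / 2) * Real.cos (φ / 2) := by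
    rw [← Real.sin_two_mul, show 2 * (φ / 2) = φ by ring]
  have h1 := Real.sin_sq_add_cos_sq (φ / 2)
  constructor
  · rw [turnVec, hq, hc, hs]
    linear_combination u * (Real.sin (φ / 2) ^ 2 + Real.cos (φ / 2) ^ 2 + 1) * h1
  · rw [turnVec, hq, show (φ + Real.pi) / 2 = φ / 2 + Real.pi / 2 by ring, Real.cos_add_pi_div_two,
      Real.sin_add_pi_div_two, hc, hs]
    linear_combination (-u) * (Real.sin (φ / 2) ^ 2 + Real.cos (φ / 2) ^ 2 + 1) * h1

theorem AxiBlocks.norm_turn (h : AxiBlocks B S c s) {M : ℕ} (hM : M ∈ S) (h0 : M ≠ 0) (φ : ℝ) :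
    ‖turnVec c s M φ‖ ^ 2 = ‖c M‖ ^ 2 := by
  rw [turnVec, norm_add_sq_real, norm_smul, norm_smul, real_inner_smul_left, real_inner_smul_right,
    (h.orth M hM M hM).1, (h.size M hM).2.1 h0]
  simp only [mul_zero, add_zero, mul_pow, Real.norm_eq_abs, sq_abs]
  rw [← add_mul, Real.cos_sq_add_sin_sq, one_mul]

theorem AxiBlocks.inner_turn (h : AxiBlocks B S c s) {M : ℕ} (hM : M ∈ S) (h0 : M ≠ 0) (φ : ℝ) :
    ⟪turnVec c s M φ, turnVec c s M (φ + Real.pi)⟫ = 0 := by
  simp only [turnVec, show (φ + Real.pi) / 2 = φ / 2 + Real.pi / 2 by ring,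
    Real.cos_add_pi_div_two, Real.sin_add_pi_div_two, inner_add_left, inner_add_right,
    real_inner_smul_left, real_inner_smul_right, (h.orth M hM M hM).1,
    real_inner_comm (c M) (s M), real_inner_self_eq_norm_sq, (h.size M hM).2.1 h0]
  ring

theorem turnVec_mem (c s : ℕ → H) {S : Finset ℕ} {M : ℕ} (hM : M ∈ S) (φ : ℝ) :
    turnVec c s M φ ∈ blockSpan c s S :=
  Submodule.add_mem _ (Submodule.smul_mem _ _ (Submodule.subset_span (Or.inl ⟨M, hM, rfl⟩)))
    (Submodule.smul_mem _ _ (Submodule.subset_span (Or.inr ⟨M, hM, rfl⟩)))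

/-- The states split into the rotated pair and the other labels. -/
theorem exists_decomp_turn (c s : ℕ → H) {S : Finset ℕ} {M : ℕ} (φ : ℝ) {x : H}
    (hx : x ∈ blockSpan c s S) : ∃ (a b : ℝ), ∃ z ∈ blockSpan c s (S.erase M),
      x = a • turnVec c s M φ + b • turnVec c s M (φ + Real.pi) + z := by
  set C := Real.cos (φ / 2)
  set N := Real.sin (φ / 2)
  have hcs : C * C + N * N = 1 := by
    have := Real.cos_sq_add_sin_sq (φ / 2); rw [pow_two, pow_two] at this; exact this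
  have hq : turnVec c s M (φ + Real.pi) = -N • c M + C • s M := by
    rw [turnVec, show (φ + Real.pi) / 2 = φ / 2 + Real.pi / 2 by ring, Real.cos_add_pi_div_two,
      Real.sin_add_pi_div_two]
  induction hx using Submodule.span_induction with
  | mem x hx =>
    rcases hx with ⟨a, ha, rfl⟩ | ⟨a, ha, rfl⟩ <;> by_cases haM : a = M
    · subst haM
      refine ⟨C, -N, 0, zero_mem _, ?_⟩
      rw [hq, turnVec]
      match_scalars <;> (first | linear_combination hcs | linear_combination -hcs | ring)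
    · exact ⟨0, 0, c a, Submodule.subset_span (Or.inl ⟨a, Finset.mem_erase.2 ⟨haM, ha⟩, rfl⟩),
        by simp⟩
    · subst haM
      refine ⟨N, C, 0, zero_mem _, ?_⟩
      rw [hq, turnVec]
      match_scalars <;> (first | linear_combination hcs | linear_combination -hcs | ring)
    · exact ⟨0, 0, s a, Submodule.subset_span (Or.inr ⟨a, Finset.mem_erase.2 ⟨haM, ha⟩, rfl⟩),
        by simp⟩
  | zero => exact ⟨0, 0, 0, zero_mem _, by simp⟩
  | add u v _ _ hu hv =>
    obtain ⟨a, b, z, hz, rfl⟩ := hu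
    obtain ⟨a', b', z', hz', rfl⟩ := hv
    exact ⟨a + a', b + b', z + z', add_mem hz hz', by module⟩
  | smul r u _ hu =>
    obtain ⟨a, b, z, hz, rfl⟩ := hu
    exact ⟨r * a, r * b, r • z, Submodule.smul_mem _ _ hz, by module⟩

/-- Bounds of the coupling form of the rotated pair. -/
theorem form_pair {T : H →L[ℝ] H} {δ u κ C : ℝ} {v : H} {R : H →L[ℝ] H} (hκ : ‖v‖ ^ 2 = κ)
    (hκ0 : 0 < κ) (hu : ⟪T v, v⟫ = u) (hR : ‖R‖ ≤ C) (hδ : 0 ≤ δ) (a : ℝ) :
    (u / κ - δ * C) * ‖a • v‖ ^ 2 ≤ ⟪(T + δ • R) (a • v), a • v⟫ := by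
  rw [add_apply, inner_add_left, map_smul, real_inner_smul_left, real_inner_smul_right, hu,
    smul_apply, real_inner_smul_left]
  have e : ‖a • v‖ ^ 2 = a * a * κ := by
    rw [norm_smul, mul_pow, hκ, Real.norm_eq_abs, sq_abs]; ring
  have h1 : |⟪R (a • v), a • v⟫| ≤ C * ‖a • v‖ ^ 2 := by
    refine (abs_real_inner_le_norm _ _).trans ?_
    rw [pow_two, ← mul_assoc]
    exact mul_le_mul_of_nonneg_right ((R.le_opNorm _).trans
      (mul_le_mul_of_nonneg_right hR (norm_nonneg _))) (norm_nonneg _)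
  have h2 := mul_le_mul_of_nonneg_left (abs_le.1 h1).1 hδ
  rw [e] at h2 ⊢
  have : u / κ * (a * a * κ) = a * (a * u) := by field_simp
  nlinarith

/-- One step: the pair of the largest label on top of a separation of the other labels. -/
theorem AxiBlocks.step (h : AxiBlocks B S c s) {M : ℕ} (hM : M ∈ S) (hmax : ∀ a ∈ S, a ≤ M)
    (h0 : M ≠ 0) {q : MvPolynomial (Fin 3) ℝ} {S1 : Submodule ℝ H} [FiniteDimensional ℝ S1]
    {β0 β1 : ℝ} (hS1 : S1 ≤ blockSpan c s (S.erase M)) (hβ : β0 < β1)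
    (hlo : ∀ x ∈ S1, β1 * ‖x‖ ^ 2 ≤ ⟪B q x, x⟫)
    (hhi : ∀ x ∈ blockSpan c s (S.erase M) ⊓ S1ᗮ, ⟪B q x, x⟫ ≤ β0 * ‖x‖ ^ 2) :
    ∃ δ > (0 : ℝ), ∃ γ0 γ1 : ℝ, γ0 < γ1 ∧ ∀ φ,
      (∀ x ∈ Submodule.span ℝ {turnVec c s M φ} ⊔ S1,
        γ1 * ‖x‖ ^ 2 ≤ ⟪B (rotCpl M φ + δ • q) x, x⟫) ∧
      ∀ x ∈ blockSpan c s S ⊓ (Submodule.span ℝ {turnVec c s M φ} ⊔ S1)ᗮ,
        ⟪B (rotCpl M φ + δ • q) x, x⟫ ≤ γ0 * ‖x‖ ^ 2 := by
  obtain ⟨u, hu, hself⟩ := h.cpl_self hM h0
  set κ := ‖c M‖ ^ 2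
  have hκ : 0 < κ := pow_pos (norm_pos_iff.2 (h.size M hM).1) 2
  set C := ‖B q‖
  have hC : 0 ≤ C := norm_nonneg _
  set D := β1 - β0 with hD
  have hD0 : 0 < D := sub_pos.2 hβ
  set g := u / κ
  have hg : 0 < g := by positivity
  set δ := min (g / (2 * (C + |β0| + D))) (g * D / (8 * (C + 1) ^ 2))
  have hd : 0 < C + |β0| + D := by positivity
  have hδ : 0 < δ := lt_min (by positivity) (by positivity)
  have hsmall : δ * (C + |β0| + D) ≤ g / 2 := by
    have := (le_div_iff₀ (by positivity)).1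
      (min_le_left (g / (2 * (C + |β0| + D))) (g * D / (8 * (C + 1) ^ 2)))
    linarith
  have hsq : δ * C ^ 2 ≤ g * D / 8 := by
    have h1 := (le_div_iff₀ (by positivity)).1
      (min_le_right (g / (2 * (C + |β0| + D))) (g * D / (8 * (C + 1) ^ 2)))
    nlinarith
  have hb : |δ * β0| ≤ δ * |β0| := by rw [abs_mul, abs_of_pos hδ]
  have hcoef : ∀ p : ℝ, g / 2 ≤ p → (δ * C) ^ 2 ≤ p * (δ * (D / 4)) := fun p hp => by
    nlinarith [mul_le_mul_of_nonneg_left hsq hδ.le,
      mul_le_mul_of_nonneg_right hp (show 0 ≤ δ * (D / 4) by positivity)]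
  refine ⟨δ, hδ, δ * (β0 + D / 4), δ * (β0 + 3 * D / 4), by nlinarith, fun φ => ?_⟩
  obtain ⟨hp1, hp2⟩ := hself φ
  set p := turnVec c s M φ with hp
  set p' := turnVec c s M (φ + Real.pi) with hp'
  set T := B (rotCpl M φ + δ • q) with hT
  have hTeq : T = B (rotCpl M φ) + δ • B q := by rw [hT, map_add, map_smul]
  have hform : ∀ x y : H, |⟪B q x, y⟫| ≤ C * (‖x‖ * ‖y‖) := fun x y => by
    refine (abs_real_inner_le_norm _ _).trans ?_
    rw [← mul_assoc]
    exact mul_le_mul_of_nonneg_right ((B q).le_opNorm x) (norm_nonneg y)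
  have hcross : ∀ (a : ℝ) (ψ : ℝ) (z : H), z ∈ blockSpan c s (S.erase M) →
      |⟪T (a • turnVec c s M ψ), z⟫ + ⟪T z, a • turnVec c s M ψ⟫| ≤
        2 * (δ * C) * (‖a • turnVec c s M ψ‖ * ‖z‖) := fun a ψ z hz => by
    set v := a • turnVec c s M ψ
    have hv : v ∈ blockSpan c s S := Submodule.smul_mem _ _ (turnVec_mem c s hM ψ)
    have e1 := h.cpl_erase hM hmax h0 φ hv hz
    have e2 : ⟪B (rotCpl M φ) z, v⟫ = 0 := by rw [h.symm, real_inner_comm, e1]
    rw [hTeq, add_apply, add_apply, inner_add_left, inner_add_left, e1, e2, zero_add, zero_add,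
      smul_apply, smul_apply, real_inner_smul_left, real_inner_smul_left, ← mul_add, abs_mul,
      abs_of_pos hδ]
    refine (mul_le_mul_of_nonneg_left ((abs_add_le _ _).trans
      (add_le_add (hform v z) (hform z v))) hδ.le).trans (le_of_eq (by ring))
  have hz0 : ∀ z ∈ blockSpan c s (S.erase M), ⟪T z, z⟫ = δ * ⟪B q z, z⟫ := fun z hz => by
    have hle : blockSpan c s (S.erase M) ≤ blockSpan c s S := Submodule.span_mono
      (union_subset_union (image_mono (Finset.coe_subset.2 (Finset.erase_subset M S)))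
        (image_mono (Finset.coe_subset.2 (Finset.erase_subset M S))))
    rw [hTeq, add_apply, inner_add_left, h.cpl_erase hM hmax h0 φ (hle hz) hz, zero_add,
      smul_apply, real_inner_smul_left]
  have horth : ∀ (a ψ : ℝ) (z : H), z ∈ blockSpan c s (S.erase M) →
      ⟪a • turnVec c s M ψ, z⟫ = 0 := fun a ψ z hz => by
    obtain ⟨e1, e2⟩ := h.orth_erase hM hz
    simp [turnVec, inner_add_left, real_inner_smul_left, e1, e2]
  refine ⟨fun x hx => ?_, fun x hx => ?_⟩
  · obtain ⟨v, hv, z, hz, rfl⟩ := Submodule.mem_sup.1 hx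
    obtain ⟨a, rfl⟩ := Submodule.mem_span_singleton.1 hv
    refine block_ge (horth a φ z (hS1 hz)) (p := g - δ * C - δ * (β0 + 3 * D / 4))
      (q := δ * (D / 4)) (c := δ * C) ?_ (by positivity) ?_ ?_ (hcross a φ z (hS1 hz)) (hcoef _ ?_)
    · linarith [(abs_le.1 hb).2, mul_pos hδ hD0]
    · have := form_pair (h.norm_turn hM h0 φ) hκ hp1 (le_refl C) hδ.le a (R := B q)
      rw [hTeq, ← hp] at *
      linarith
    · rw [hz0 z (hS1 hz)]
      nlinarith [mul_le_mul_of_nonneg_left (hlo z hz) hδ.le]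
    · linarith [(abs_le.1 hb).2, mul_pos hδ hD0]
  · obtain ⟨a, b, z, hz, hxe⟩ := exists_decomp_turn c s (M := M) φ hx.1
    have hpp : ⟪p, p'⟫ = 0 := h.inner_turn hM h0 φ
    have hn : ‖p‖ ^ 2 = κ := h.norm_turn hM h0 φ
    have ha : a = 0 := by
      have h1 : ⟪p, x⟫ = 0 := hx.2 p (Submodule.mem_sup_left (Submodule.mem_span_singleton_self _))
      have h2 : ⟪p, z⟫ = 0 := by simpa using horth 1 φ z hz
      rw [hxe, inner_add_right, inner_add_right, real_inner_smul_right, real_inner_smul_right,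
        real_inner_self_eq_norm_sq, hn, hpp, h2] at h1
      have : a * κ = 0 := by linarith
      exact (mul_eq_zero.1 this).resolve_right hκ.ne'
    rw [ha, zero_smul, zero_add] at hxe
    subst hxe
    have hzS : z ∈ S1ᗮ := fun y hy => by
      have h1 := hx.2 y (Submodule.mem_sup_right hy)
      rw [inner_add_right, real_inner_comm (b • p') y, horth b (φ + Real.pi) y (hS1 hy),
        zero_add] at h1
      exact h1
    have hneg : -(δ * (β0 + D / 4)) * ‖b • p' + z‖ ^ 2 ≤ ⟪(-T) (b • p' + z), b • p' + z⟫ := by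
      refine block_ge (horth b (φ + Real.pi) z hz) (p := g - δ * C + δ * (β0 + D / 4))
        (q := δ * (D / 4)) (c := δ * C) ?_ (by positivity) ?_ ?_ ?_ (hcoef _ ?_)
      · linarith [(abs_le.1 hb).1, mul_pos hδ hD0]
      · have := form_pair (T := -B (rotCpl M φ)) (R := -B q) (h.norm_turn hM h0 (φ + Real.pi)) hκ
          (show ⟪(-B (rotCpl M φ)) p', p'⟫ = u by rw [neg_apply, inner_neg_left, hp2, neg_neg])
          (le_of_eq (norm_neg _)) hδ.le b
        rw [show -T = -B (rotCpl M φ) + δ • -B q by rw [hTeq, smul_neg]; abel]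
        linarith
      · rw [neg_apply, inner_neg_left, hz0 z hz]
        nlinarith [mul_le_mul_of_nonneg_left (hhi z ⟨hz, hzS⟩) hδ.le]
      · rw [neg_apply, neg_apply, inner_neg_left, inner_neg_left, ← neg_add, abs_neg]
        exact hcross b (φ + Real.pi) z hz
      · linarith [(abs_le.1 hb).1, mul_pos hδ hD0]
    rw [neg_apply, inner_neg_left] at hneg
    linarith

theorem AxiBlocks.finrank_turn (h : AxiBlocks B S c s) {M : ℕ} (hM : M ∈ S) (h0 : M ≠ 0) (φ : ℝ)
    {S1 : Submodule ℝ H} [FiniteDimensional ℝ S1] (hS1 : S1 ≤ blockSpan c s (S.erase M)) :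
    Module.finrank ℝ (Submodule.span ℝ {turnVec c s M φ} ⊔ S1 : Submodule ℝ H) =
      1 + Module.finrank ℝ S1 := by
  have hne : turnVec c s M φ ≠ 0 := fun e => by
    have := h.norm_turn hM h0 φ
    rw [e, norm_zero] at this
    exact (h.size M hM).1 (norm_eq_zero.1 (pow_eq_zero_iff two_ne_zero |>.1 (by linarith)))
  have hd : Submodule.span ℝ {turnVec c s M φ} ⊓ S1 = ⊥ := by
    refine (Submodule.eq_bot_iff _).2 fun x hx => ?_
    obtain ⟨a, rfl⟩ := Submodule.mem_span_singleton.1 hx.1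
    obtain ⟨e1, e2⟩ := h.orth_erase hM (hS1 hx.2)
    refine inner_self_eq_zero (𝕜 := ℝ).1 ?_
    nth_rw 1 [turnVec]
    rw [real_inner_smul_left, inner_add_left, real_inner_smul_left, real_inner_smul_left, e1, e2]
    ring
  have := Submodule.finrank_sup_add_finrank_inf_eq (Submodule.span ℝ {turnVec c s M φ}) S1
  rw [hd, finrank_bot, add_zero, finrank_span_singleton hne] at this
  exact this

/-- Removing the largest label removes at most two states. -/
theorem finrank_blockSpan_le (c s : ℕ → H) (S : Finset ℕ) (M : ℕ) :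
    Module.finrank ℝ (blockSpan c s S) ≤ Module.finrank ℝ (blockSpan c s (S.erase M)) +
      Module.finrank ℝ (Submodule.span ℝ ({c M, s M} : Set H)) := by
  have : FiniteDimensional ℝ (Submodule.span ℝ ({c M, s M} : Set H)) :=
    FiniteDimensional.span_of_finite ℝ (Set.toFinite _)
  refine (Submodule.finrank_mono ?_).trans (Submodule.finrank_add_le_finrank_add_finrank _ _)
  rw [blockSpan, Submodule.span_le]
  rintro _ (⟨a, ha, rfl⟩ | ⟨a, ha, rfl⟩) <;> by_cases haM : a = M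
  · exact Submodule.mem_sup_right (Submodule.subset_span (Or.inl (by rw [haM])))
  · exact Submodule.mem_sup_left (Submodule.subset_span
      (Or.inl ⟨a, Finset.mem_erase.2 ⟨haM, ha⟩, rfl⟩))
  · exact Submodule.mem_sup_right (Submodule.subset_span (Or.inr (by rw [haM]; rfl)))
  · exact Submodule.mem_sup_left (Submodule.subset_span
      (Or.inr ⟨a, Finset.mem_erase.2 ⟨haM, ha⟩, rfl⟩))

/-- A cluster with a gap inside has a positive largest label. -/
theorem AxiBlocks.exists_max_label (h : AxiBlocks B S c s) {r : ℕ} (h1 : 1 ≤ r)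
    (h2 : r < Module.finrank ℝ (blockSpan c s S)) :
    ∃ M ∈ S, (∀ a ∈ S, a ≤ M) ∧ M ≠ 0 ∧
      r - 1 ≤ Module.finrank ℝ (blockSpan c s (S.erase M)) := by
  have hne : S.Nonempty := by
    by_contra hS
    rw [Finset.not_nonempty_iff_eq_empty] at hS
    subst hS
    rw [blockSpan, Finset.coe_empty, image_empty, image_empty, union_empty, Submodule.span_empty,
      finrank_bot] at h2
    omega
  set M := S.max' hne
  have hM : M ∈ S := S.max'_mem hne
  have hle := finrank_blockSpan_le c s S M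
  refine ⟨M, hM, fun a ha => S.le_max' a ha, fun hM0 => ?_, ?_⟩
  · have hS : S.erase M = ∅ := Finset.eq_empty_of_forall_notMem fun a ha => by
      obtain ⟨ha1, ha2⟩ := Finset.mem_erase.1 ha
      have := S.le_max' a ha2
      omega
    have h3 : Module.finrank ℝ (Submodule.span ℝ ({c M, s M} : Set H)) ≤ 1 := by
      rw [(h.size M hM).2.2 hM0, Set.pair_comm, Submodule.span_insert_zero]
      exact (finrank_span_singleton (h.size M hM).1).le
    have h4 : Module.finrank ℝ (blockSpan c s (S.erase M)) = 0 := by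
      rw [hS, blockSpan, Finset.coe_empty, image_empty, image_empty, union_empty,
        Submodule.span_empty, finrank_bot]
    omega
  · have h3 : Module.finrank ℝ (Submodule.span ℝ ({c M, s M} : Set H)) ≤ 2 := by
      classical
      rw [show ({c M, s M} : Set H) = (({c M, s M} : Finset H) : Set H) by simp]
      exact (finrank_span_finset_le_card _).trans Finset.card_le_two
    omega

/-- Any number of states can be separated. -/
theorem AxiBlocks.exists_split (h : AxiBlocks B S c s) (r : ℕ)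
    (hr : r ≤ Module.finrank ℝ (blockSpan c s S)) :
    ∃ (q : MvPolynomial (Fin 3) ℝ) (S0 : Submodule ℝ H), S0 ≤ blockSpan c s S ∧
      Module.finrank ℝ S0 = r ∧ ∃ β0 β1 : ℝ, β0 < β1 ∧
        (∀ x ∈ S0, β1 * ‖x‖ ^ 2 ≤ ⟪B q x, x⟫) ∧
        ∀ x ∈ blockSpan c s S ⊓ S0ᗮ, ⟪B q x, x⟫ ≤ β0 * ‖x‖ ^ 2 := by
  induction hn : S.card using Nat.strong_induction_on generalizing S r with
  | _ n ih =>
    rcases Nat.eq_zero_or_pos r with rfl | h1
    · refine ⟨0, ⊥, bot_le, finrank_bot ℝ H, 0, 1, one_pos, fun x hx => ?_, fun x _ => by simp⟩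
      simp [(Submodule.mem_bot ℝ).1 hx]
    rcases hr.eq_or_lt with he | hlt
    · refine ⟨0, blockSpan c s S, le_rfl, he.symm, -1, 0, by norm_num, fun x _ => by simp,
        fun x hx => ?_⟩
      rw [show x = 0 from inner_self_eq_zero.1 (hx.2 x hx.1)]
      simp
    obtain ⟨M, hM, hmax, h0, hr'⟩ := h.exists_max_label h1 hlt
    subst hn
    obtain ⟨q, S1, hS1, hS1r, β0, β1, hβ, hlo, hhi⟩ := ih _ (Finset.card_erase_lt_of_mem hM)
      (h.mono (Finset.erase_subset M S)) (r - 1) hr' rfl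
    have : FiniteDimensional ℝ S1 := Submodule.finiteDimensional_of_le hS1
    obtain ⟨δ, -, γ0, γ1, hγ, hstep⟩ := h.step hM hmax h0 hS1 hβ hlo hhi
    refine ⟨rotCpl M 0 + δ • q, Submodule.span ℝ {turnVec c s M 0} ⊔ S1, sup_le ?_ ?_, ?_,
      γ0, γ1, hγ, (hstep 0).1, (hstep 0).2⟩
    · rw [Submodule.span_le, Set.singleton_subset_iff]
      exact turnVec_mem c s hM 0
    · exact hS1.trans (Submodule.span_mono
        (union_subset_union (image_mono (Finset.coe_subset.2 (Finset.erase_subset M S)))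
          (image_mono (Finset.coe_subset.2 (Finset.erase_subset M S)))))
    · rw [h.finrank_turn hM h0 0 hS1, hS1r]
      omega

/-- A gap inside the cluster opens along a circle, the rotating state on its upper side. -/
theorem AxiBlocks.exists_turn (h : AxiBlocks B S c s) {r : ℕ} (h1 : 1 ≤ r)
    (h2 : r < Module.finrank ℝ (blockSpan c s S)) :
    ∃ M ∈ S, M ≠ 0 ∧ ∃ (q : MvPolynomial (Fin 3) ℝ) (S1 : Submodule ℝ H),
      S1 ≤ blockSpan c s (S.erase M) ∧ Module.finrank ℝ S1 + 1 = r ∧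
      ∃ δ > (0 : ℝ), ∃ γ0 γ1 : ℝ, γ0 < γ1 ∧ ∀ φ,
        (∀ x ∈ Submodule.span ℝ {turnVec c s M φ} ⊔ S1,
          γ1 * ‖x‖ ^ 2 ≤ ⟪B (rotCpl M φ + δ • q) x, x⟫) ∧
        ∀ x ∈ blockSpan c s S ⊓ (Submodule.span ℝ {turnVec c s M φ} ⊔ S1)ᗮ,
          ⟪B (rotCpl M φ + δ • q) x, x⟫ ≤ γ0 * ‖x‖ ^ 2 := by
  obtain ⟨M, hM, hmax, h0, hr'⟩ := h.exists_max_label h1 h2
  obtain ⟨q, S1, hS1, hS1r, β0, β1, hβ, hlo, hhi⟩ :=
    (h.mono (Finset.erase_subset M S)).exists_split (r - 1) hr'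
  have : FiniteDimensional ℝ S1 := Submodule.finiteDimensional_of_le hS1
  exact ⟨M, hM, h0, q, S1, hS1, by omega, h.step hM hmax h0 hS1 hβ hlo hhi⟩

end

end Vale.Agent.P225.Disproof
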