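import Vale.Agent.P225.Disproof.CentreSector
import Vale.Agent.P225.Disproof.CertCone

/-!
# P225, module F: the pencil of `certP e` commutes with the sectors

The sector subspaces `Sec t`, their levels, invariance of the pencil, and the energy identity for
finite sector combinations.
-/

namespace Vale.Agent.P225.Disproof

open MvPolynomial MeasureTheory Set
open scoped RealInnerProductSpace

noncomputable section

theorem lev_secE (L t n : ℕ) : lev L (secE t n) = if L = secM t + n then secE t n else 0 := by
  split_ifs with h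
  · subst h
    exact Submodule.starProjection_eq_self_iff.2 (secE_mem t n)
  · exact (Submodule.starProjection_apply_eq_zero_iff _).2
      ((Submodule.mem_orthogonal _ _).2 fun u hu => inner_levSpace h hu (secE_mem t n))

theorem resolv_secE (t n : ℕ) : resolv (secE t n) = resCoef (secM t + n) • secE t n := by
  refine (hasSum_resolv_apply (secE t n)).unique ?_
  have h := hasSum_single (f := fun l => resCoef l • lev l (secE t n)) (secM t + n) fun l hl => by
    rw [lev_secE, if_neg hl, smul_zero]
  simpa [lev_secE] using h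

/-- The span of the other sectors. -/
def secOth (t : ℕ) : Submodule ℝ L2S := Submodule.span ℝ {v | ∃ s n, s ≠ t ∧ secE s n = v}

/-- A sector. -/
def Sec (t : ℕ) : Submodule ℝ L2S := (secOth t)ᗮ

theorem mem_Sec {t : ℕ} {x : L2S} : x ∈ Sec t ↔ ∀ s n, s ≠ t → ⟪secE s n, x⟫ = 0 := by
  rw [Sec, Submodule.mem_orthogonal]
  refine ⟨fun h s n hs => h _ (Submodule.subset_span ⟨s, n, hs, rfl⟩), fun h v hv => ?_⟩
  induction hv using Submodule.span_induction with
  | mem v hv => obtain ⟨s, n, hs, rfl⟩ := hv; exact h s n hs
  | zero => exact inner_zero_left _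
  | add a b _ _ ha hb => rw [inner_add_left, ha, hb, add_zero]
  | smul c a _ ha => rw [real_inner_smul_left, ha, mul_zero]

instance (t : ℕ) : CompleteSpace (Sec t) :=
  (Submodule.isClosed_orthogonal _).completeSpace_coe

/-- The projection on a sector. -/
def secProj (t : ℕ) : L2S →L[ℝ] L2S := (Sec t).starProjection

theorem secE_mem_Sec (t n : ℕ) : secE t n ∈ Sec t :=
  mem_Sec.2 fun _ _ hs => inner_secE fun e => hs (congrArg Prod.fst e)

theorem secSpan_le (t : ℕ) : secSpan t ≤ Sec t := by
  rw [secSpan, Submodule.span_le]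
  rintro _ ⟨n, rfl⟩
  exact secE_mem_Sec t n

theorem secE_orth_Sec {s t : ℕ} (h : s ≠ t) (n : ℕ) : secE s n ∈ (Sec t)ᗮ :=
  fun x hx => by rw [real_inner_comm]; exact mem_Sec.1 hx s n h

/-- A vector without sector components is zero. -/
theorem eq_zero_of_secProj {x : L2S} (h : ∀ t, secProj t x = 0) : x = 0 :=
  eq_zero_of_orth_secE fun t n =>
    (Submodule.starProjection_apply_eq_zero_iff _).1 (h t) _ (secE_mem_Sec t n)

theorem inner_Sec {s t : ℕ} (hst : s ≠ t) {x y : L2S} (hx : x ∈ Sec s) (hy : y ∈ Sec t) :
    ⟪x, y⟫ = 0 := by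
  have h1 : secProj t x = 0 := eq_zero_of_orth_secE fun u n => by
    rw [secProj, ← Submodule.inner_starProjection_left_eq_right]
    rcases eq_or_ne u t with rfl | hu
    · rw [Submodule.starProjection_eq_self_iff.2 (secE_mem_Sec u n)]
      exact mem_Sec.1 hx u n hst.symm
    · rw [(Submodule.starProjection_apply_eq_zero_iff _).2 (secE_orth_Sec hu n), inner_zero_left]
  have := (Submodule.starProjection_apply_eq_zero_iff _).1 h1 y hy
  rwa [real_inner_comm]

theorem lev_mem_secSpan {t : ℕ} {x : L2S} (hx : x ∈ Sec t) (L : ℕ) :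
    ∃ c : ℝ, lev L x = if secM t ≤ L then c • secE t (L - secM t) else 0 := by
  set v := if secM t ≤ L then secE t (L - secM t) else 0 with hv
  have hmem : lev L x ∈ Submodule.span ℝ {v} := by
    have h := lev_mem L x
    set S := Submodule.span ℝ {v}
    have hSL : S ≤ levSpace L := by
      rw [Submodule.span_le, Set.singleton_subset_iff, hv]
      split_ifs with h
      · have e := secE_mem t (L - secM t)
        rwa [Nat.add_sub_cancel' h] at e
      · exact zero_mem _
    set y := lev L x - S.starProjection (lev L x) with hy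
    have hy0 : y = 0 := eq_zero_of_orth_secE fun s n => by
      by_cases hL : secM s + n = L
      · by_cases hs : s = t
        · subst hs
          refine Submodule.sub_starProjection_mem_orthogonal _ _ (Submodule.subset_span ?_)
          rw [hv, if_pos (by omega), Set.mem_singleton_iff]
          congr 1
          omega
        · have h1 : ⟪secE s n, lev L x⟫ = 0 := by
            rw [← inner_lev, lev_secE, if_pos hL.symm]
            exact mem_Sec.1 hx s n hs
          have h2 : ⟪secE s n, S.starProjection (lev L x)⟫ = 0 := by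
            obtain ⟨c, hc⟩ := Submodule.mem_span_singleton.1 (S.starProjection_apply_mem (lev L x))
            rw [← hc, real_inner_smul_right, hv]
            split_ifs
            · rw [inner_secE fun e => hs (congrArg Prod.fst e), mul_zero]
            · rw [inner_zero_right, mul_zero]
          rw [hy, inner_sub_right, h1, h2, sub_zero]
      · exact inner_levSpace hL (secE_mem s n)
          (Submodule.sub_mem _ h (hSL (S.starProjection_apply_mem _)))
    rw [sub_eq_zero] at hy0
    rw [hy0]
    exact S.starProjection_apply_mem _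
  obtain ⟨c, hc⟩ := Submodule.mem_span_singleton.1 hmem
  refine ⟨c, ?_⟩
  rw [← hc, hv]
  split_ifs <;> simp

/-- Finite combinations are dense in a sector. -/
theorem tendsto_sum_lev (x : L2S) :
    Filter.Tendsto (fun N => ∑ L ∈ Finset.range N, lev L x) Filter.atTop (nhds x) :=
  (hasSum_lev x).tendsto_sum_nat

theorem sum_lev_mem_secSpan {t : ℕ} {x : L2S} (hx : x ∈ Sec t) (N : ℕ) :
    ∑ L ∈ Finset.range N, lev L x ∈ secSpan t := by
  refine Submodule.sum_mem _ fun L _ => ?_
  obtain ⟨c, hc⟩ := lev_mem_secSpan hx L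
  rw [hc]
  split_ifs
  exacts [Submodule.smul_mem _ _ (secE_mem_secSpan _ _), Submodule.zero_mem _]

/-- The weight of the crossing shape. -/
def certWgt (e : ℝ) : C(Sph 3, ℝ) := sphAlg 3 (certP e)

theorem certWgt_apply (e : ℝ) (θ : Sph 3) : certWgt e θ = res (certP e) θ :=
  sphAlg_apply _ _

theorem certWgt_pos {e : ℝ} (he : e ∈ Icc 0 certE) (θ : Sph 3) : 0 < certWgt e θ := by
  rw [certWgt_apply]
  linarith [res_certP_pos he.1 he.2 θ]

theorem resolv_secSpan {t : ℕ} {x : L2S} (hx : x ∈ secSpan t) : resolv x ∈ secSpan t := by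
  induction hx using Submodule.span_induction with
  | mem v hv =>
    obtain ⟨n, rfl⟩ := hv
    rw [resolv_secE]
    exact Submodule.smul_mem _ _ (secE_mem_secSpan t n)
  | zero => rw [map_zero]; exact Submodule.zero_mem _
  | add a b _ _ ha hb => rw [map_add]; exact Submodule.add_mem _ ha hb
  | smul c a _ ha => rw [map_smul]; exact Submodule.smul_mem _ c ha

theorem mulOp_secSpan (e : ℝ) {t : ℕ} {x : L2S} (hx : x ∈ secSpan t) :
    mulOp (certWgt e) x ∈ secSpan t := by
  have h : certWgt e = (1 - e / 3) • 1 + e • (sphAlg 3 (X 2) * sphAlg 3 (X 2)) := by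
    ext θ
    simp [certWgt, certP, sphAlg_apply, evalFun]
  have h2 : mulOp (sphAlg 3 (X 2) * sphAlg 3 (X 2)) x =
      mulOp (sphAlg 3 (X 2)) (mulOp (sphAlg 3 (X 2)) x) := ext_inner_right ℝ fun y => by
    rw [mulOp_symm (sphAlg 3 (X 2)) (mulOp (sphAlg 3 (X 2)) x) y, inner_mulOp]
    rw [real_inner_comm, L2.inner_def]
    refine integral_congr_ae ?_
    filter_upwards [coeFn_mulOp (sphAlg 3 (X 2)) x, coeFn_mulOp (sphAlg 3 (X 2)) y] with θ h1 h2
    simp [h1, h2]
    ring
  rw [h, map_add, map_smul, map_smul, mulOp_one, add_apply, smul_apply, smul_apply,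
    one_apply_eq_self, h2]
  exact Submodule.add_mem _ (Submodule.smul_mem _ _ hx)
    (Submodule.smul_mem _ _ (mulOp_X_mem t (mulOp_X_mem t hx)))

/-- The lift of a finite sector combination. -/
theorem lift_secSpan (e : ℝ) {t : ℕ} {x : L2S} (hx : x ∈ secSpan t) :
    lift (certWgt e) x ∈ secSpan t := by
  rw [lift]
  refine Submodule.sub_mem _ (resolv_secSpan hx) ?_
  rcases eq_or_ne t 0 with rfl | ht
  · exact Submodule.smul_mem _ _ (secE_zero_zero ▸ secE_mem_secSpan 0 0)
  · have h : ⟪wvec (certWgt e), resolv x⟫ = 0 := by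
      rw [← mulOp_oneH, mulOp_symm]
      exact inner_Sec (Ne.symm ht) (secE_zero_zero ▸ secE_mem_Sec 0 0)
        (secSpan_le t (mulOp_secSpan e (resolv_secSpan hx)))
    simp [h]

theorem pencil_secSpan (e : ℝ) {t : ℕ} {x : L2S} (hx : x ∈ secSpan t) :
    pencil (certWgt e) x ∈ secSpan t := by
  rw [pencil_apply]
  exact resolv_secSpan (mulOp_secSpan e (lift_secSpan e hx))

/-- The pencil keeps each sector. -/
theorem pencil_mem_Sec {e : ℝ} (he : e ∈ Icc 0 certE) {t : ℕ} {x : L2S} (hx : x ∈ Sec t) :
    pencil (certWgt e) x ∈ Sec t := by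
  refine mem_Sec.2 fun s n hs => ?_
  rw [← pencil_symm (tot_pos (certWgt_pos he)).ne']
  exact inner_Sec hs (secSpan_le s (pencil_secSpan e (secE_mem_secSpan s n))) hx

/-- The pencil commutes with the sector projection. -/
theorem pencil_secProj {e : ℝ} (he : e ∈ Icc 0 certE) (t : ℕ) (x : L2S) :
    pencil (certWgt e) (secProj t x) = secProj t (pencil (certWgt e) x) := by
  have hmem : pencil (certWgt e) (secProj t x) ∈ Sec t :=
    pencil_mem_Sec he ((Sec t).starProjection_apply_mem x)
  have horth : pencil (certWgt e) (x - secProj t x) ∈ (Sec t)ᗮ := fun y hy => by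
    rw [← pencil_symm (tot_pos (certWgt_pos he)).ne']
    exact Submodule.sub_starProjection_mem_orthogonal x _ (pencil_mem_Sec he hy)
  refine (Submodule.eq_starProjection_of_mem_of_inner_eq_zero hmem fun y hy => ?_).symm
  rw [← map_sub, real_inner_comm]
  exact horth y hy

/-- The energy of a finite sector combination after `resolv`. -/
theorem exists_energy (t : ℕ) {y : L2S} (hy : y ∈ secSpan t) (h0 : lev 0 y = 0) :
    ∃ u : MvPolynomial (Fin 3) ℝ, toH u = resolv y ∧
      rotP 2 (rotP 2 u) = -((secM t : ℝ) ^ 2) • u ∧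
      ∑ j, sphIp (rotP j u) (rotP j u) = ‖y‖ ^ 2 := by
  obtain ⟨b, rfl⟩ := Finsupp.mem_span_range_iff_exists_finsupp.1 hy
  set L : ℕ → ℕ := fun n => secM t + n with hL
  refine ⟨b.sum fun n c => (resCoef (L n) * c) • secB t n, ?_, ?_, ?_⟩
  · rw [Finsupp.sum, Finsupp.sum, map_sum, map_sum]
    refine Finset.sum_congr rfl fun n _ => ?_
    rw [map_smul, map_smul, resolv_secE, smul_smul, mul_comm]
    rfl
  · simp only [Finsupp.sum, map_sum, Derivation.map_smul, rotP_rotP_secB, Finset.smul_sum,
      smul_smul]
    exact Finset.sum_congr rfl fun n _ => by rw [mul_comm]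
  · have hdiag : ∀ (s : Finset ℕ) (f g : ℕ → ℝ),
        ⟪∑ n ∈ s, f n • secE t n, ∑ n ∈ s, g n • secE t n⟫ =
          ∑ n ∈ s, f n * g n * ‖secE t n‖ ^ 2 := fun s f g => by
      rw [sum_inner]
      refine Finset.sum_congr rfl fun n hn => ?_
      rw [inner_sum, Finset.sum_eq_single n]
      · rw [real_inner_smul_left, real_inner_smul_right, real_inner_self_eq_norm_sq]; ring
      · intro k _ hk
        rw [real_inner_smul_left, real_inner_smul_right,
          inner_secE fun e => hk (congrArg Prod.snd e).symm, mul_zero, mul_zero]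
      · exact fun h => absurd hn h
    set u := b.sum fun n c => (resCoef (L n) * c) • secB t n
    have hsum : toH (∑ j, rotP j (rotP j u)) =
        ∑ n ∈ b.support, (-((L n : ℝ) * (L n + 1)) * (resCoef (L n) * b n)) • secE t n := by
      simp only [u, Finsupp.sum, map_sum, Derivation.map_smul]
      rw [Finset.sum_comm]
      refine Finset.sum_congr rfl fun n _ => ?_
      rw [← map_sum, ← Finset.smul_sum, casimir (secB_hom t n) (lapP_secB t n), ← map_neg,
        ← smul_eq_C_mul, map_smul, map_smul, smul_smul, mul_comm]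
      rfl
    have hu : toH u = ∑ n ∈ b.support, (resCoef (L n) * b n) • secE t n := by
      simp only [u, Finsupp.sum, map_sum, map_smul]
      rfl
    calc ∑ j, sphIp (rotP j u) (rotP j u) = -⟪toH (∑ j, rotP j (rotP j u)), toH u⟫ := by
          rw [map_sum, sum_inner, ← Finset.sum_neg_distrib]
          exact Finset.sum_congr rfl fun j _ => by
            rw [inner_toH, sphIp_rotP j (rotP j u), neg_neg]
      _ = ∑ n ∈ b.support, b n * b n * ‖secE t n‖ ^ 2 := by
          rw [hsum, hu, hdiag, ← Finset.sum_neg_distrib]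
          refine Finset.sum_congr rfl fun n hn => ?_
          have hn0 : L n ≠ 0 := fun h => by
            have e : lev 0 (b.sum fun n c => c • secE t n) = b n • secE t n := by
              rw [Finsupp.sum, map_sum, Finset.sum_eq_single n]
              · rw [map_smul, lev_secE, if_pos h.symm]
              · intro k _ hk
                rw [map_smul, lev_secE, if_neg (by simp only [hL] at h; omega), smul_zero]
              · exact fun h' => absurd hn h'
            rw [e, smul_eq_zero] at h0
            exact h0.elim (Finsupp.mem_support_iff.1 hn) (secE_ne_zero t n)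
          have := resCoef_sq hn0
          linear_combination (b n * b n * ‖secE t n‖ ^ 2) * this
      _ = ‖b.sum fun n c => c • secE t n‖ ^ 2 := by
          rw [← real_inner_self_eq_norm_sq, Finsupp.sum, hdiag]

end

end Vale.Agent.P225.Disproof
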