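import Vale.Agent.P225.Disproof.EigenSeries

/-!
# P225: eigenfunctions of the weighted sphere

`efun lam p` is the space of analytic `F` with `Σ rot² F + lam p F = 0` on the sphere. A bounded
sequence of levels with the banded weak equation gives such a function. Nonzero analytic functions
are nonzero on a dense set, so their products are nonzero.
-/

namespace Vale.Agent.P225.Disproof

open MvPolynomial MeasureTheory Set Filter
open scoped Topology

noncomputable section

/-- The inequality of Cauchy and Schwarz on the sphere. -/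
theorem sq_integral_mul_le {u v : Sph 3 → ℝ} (hu : Continuous u) (hv : Continuous v) :
    (∫ θ, u θ * v θ ∂(sig 3)) ^ 2 ≤ (∫ θ, u θ * u θ ∂(sig 3)) * ∫ θ, v θ * v θ ∂(sig 3) := by
  set a := ∫ θ, u θ * u θ ∂(sig 3)
  set b := ∫ θ, u θ * v θ ∂(sig 3)
  set c := ∫ θ, v θ * v θ ∂(sig 3)
  have h : ∀ x : ℝ, 0 ≤ a * (x * x) + 2 * b * x + c := fun x => by
    have i1 : Integrable (fun θ => x * x * (u θ * u θ)) (sig 3) :=
      (integrable_sig (hu.mul hu)).const_mul (x * x)
    have i2 : Integrable (fun θ => 2 * x * (u θ * v θ)) (sig 3) :=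
      (integrable_sig (hu.mul hv)).const_mul (2 * x)
    have i3 : Integrable (fun θ => v θ * v θ) (sig 3) := integrable_sig (hv.mul hv)
    have e : ∫ θ, (x * u θ + v θ) * (x * u θ + v θ) ∂(sig 3) = a * (x * x) + 2 * b * x + c := by
      rw [show (fun θ => (x * u θ + v θ) * (x * u θ + v θ)) =
        fun θ => x * x * (u θ * u θ) + 2 * x * (u θ * v θ) + v θ * v θ from funext fun θ => by ring]
      rw [integral_add (i1.fun_add i2) i3, integral_add i1 i2, integral_const_mul, integral_const_mul]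
      ring
    rw [← e]
    exact integral_nonneg fun θ => mul_self_nonneg _
  have h2 := discrim_le_zero h
  simp only [discrim] at h2
  nlinarith

theorem abs_sphIp_le (q r : MvPolynomial (Fin 3) ℝ) :
    |sphIp q r| ≤ Real.sqrt (sphIp q q) * Real.sqrt (sphIp r r) := by
  rw [← Real.sqrt_mul (sphIp_self_nonneg q), ← Real.sqrt_sq_eq_abs]
  exact Real.sqrt_le_sqrt (sq_integral_mul_le (continuous_res q) (continuous_res r))

theorem exists_res_le (p : MvPolynomial (Fin 3) ℝ) :
    ∃ P : ℝ, 0 ≤ P ∧ ∀ θ : Sph 3, |res p θ| ≤ P := by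
  obtain ⟨P, hP⟩ := isCompact_univ.exists_bound_of_continuousOn (continuous_res p).continuousOn
  exact ⟨max P 0, le_max_right _ _, fun θ => (hP θ trivial).trans (le_max_left _ _)⟩

theorem sqrt_sphIp_mul_le {p q : MvPolynomial (Fin 3) ℝ} {P : ℝ} (hP : 0 ≤ P)
    (h : ∀ θ : Sph 3, |res p θ| ≤ P) :
    Real.sqrt (sphIp (p * q) (p * q)) ≤ P * Real.sqrt (sphIp q q) := by
  rw [← Real.sqrt_sq hP, ← Real.sqrt_mul (sq_nonneg P)]
  refine Real.sqrt_le_sqrt ?_
  rw [sphIp, sphIp, ← integral_const_mul]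
  refine integral_mono (integrable_sig ((continuous_res _).mul (continuous_res _)))
    ((integrable_sig ((continuous_res q).mul (continuous_res q))).const_mul _) fun θ => ?_
  have e : res (p * q) θ = res p θ * res q θ := by simp [res, evalFun]
  simp only [e]
  calc res p θ * res q θ * (res p θ * res q θ) = |res p θ| ^ 2 * (res q θ * res q θ) := by
        rw [sq_abs]; ring
    _ ≤ _ := mul_le_mul_of_nonneg_right (pow_le_pow_left₀ (abs_nonneg _) (h θ) 2) (mul_self_nonneg _)

/-- The banded equation forces super-exponential decay. -/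
theorem super_of_eqn {lam A : ℝ} (hlam : 0 ≤ lam) {p : MvPolynomial (Fin 3) ℝ} {D : ℕ}
    (hD : p.totalDegree ≤ D) {h : ℕ → MvPolynomial (Fin 3) ℝ} (hhom : ∀ l, (h l).IsHomogeneous l)
    (hharm : ∀ l, lapP (h l) = 0) (hA : ∀ l, sphIp (h l) (h l) ≤ A)
    (heq : ∀ l, ∀ q : MvPolynomial (Fin 3) ℝ, q.IsHomogeneous l → lapP q = 0 →
      (l : ℝ) * (l + 1) * sphIp (h l) q =
        lam * ∑ j ∈ Finset.range (l + D + 1), sphIp (h j) (p * q)) : Super h := by
  obtain ⟨P, hP0, hP⟩ := exists_res_le p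
  set a := fun l => Real.sqrt (sphIp (h l) (h l))
  have ha0 : ∀ l, 0 ≤ a l := fun l => Real.sqrt_nonneg _
  have haA : ∀ l, a l ≤ Real.sqrt A := fun l => Real.sqrt_le_sqrt (hA l)
  have hsq : ∀ l, sphIp (h l) (h l) = a l ^ 2 := fun l => (Real.sq_sqrt (sphIp_self_nonneg _)).symm
  set K := lam * P * (2 * D + 1)
  have hK : 0 ≤ K := by positivity
  have hstep : ∀ l B, 0 ≤ B → (∀ j, l - D ≤ j → a j ≤ B) → (l : ℝ) * (l + 1) * a l ≤ K * B := by
    intro l B hB hj
    rcases (ha0 l).eq_or_lt with h0 | h0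
    · rw [← h0, mul_zero]; positivity
    have he := heq l (h l) (hhom l) (hharm l)
    rw [hsq l] at he
    have hterm : ∀ j ∈ Finset.range (l + D + 1), sphIp (h j) (p * h l) ≤
        if l - D ≤ j then B * (P * a l) else 0 := by
      intro j _
      split_ifs with hlj
      · refine (le_abs_self _).trans ((abs_sphIp_le _ _).trans ?_)
        exact mul_le_mul (hj j hlj) (sqrt_sphIp_mul_le hP0 hP) (Real.sqrt_nonneg _) hB
      · refine le_of_eq ?_
        have e : sphIp (h j) (p * h l) = sphIp (h l) (p * h j) := by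
          simp only [sphIp, res, evalFun, map_mul]
          congr 1; funext θ; ring
        rw [e]
        refine sphIp_low (hhom l) (hharm l) ?_
        have := totalDegree_mul p (h j)
        have := (hhom j).totalDegree_le
        omega
    have hcard : ((Finset.range (l + D + 1)).filter fun j => l - D ≤ j).card ≤ 2 * D + 1 := by
      refine (Finset.card_le_card (t := Finset.Icc (l - D) (l + D)) fun j hj' => ?_).trans
        (by simp; omega)
      simp only [Finset.mem_filter, Finset.mem_range] at hj'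
      simp only [Finset.mem_Icc]
      omega
    have hs := Finset.sum_le_sum hterm
    rw [← Finset.sum_filter, Finset.sum_const, nsmul_eq_mul] at hs
    have hc : (((Finset.range (l + D + 1)).filter fun j => l - D ≤ j).card : ℝ) ≤ 2 * D + 1 := by
      exact_mod_cast hcard
    have h1 := mul_le_mul_of_nonneg_left
      (hs.trans (mul_le_mul_of_nonneg_right hc (by positivity))) hlam
    rw [← he] at h1
    refine le_of_mul_le_mul_right ?_ h0
    calc (l : ℝ) * (l + 1) * a l * a l = (l : ℝ) * (l + 1) * a l ^ 2 := by ring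
      _ ≤ _ := h1
      _ = K * B * a l := by simp only [K]; ring
  have hiter : ∀ k l, k * (D + 1) ≤ l → a l ≤ Real.sqrt A * K ^ k / (k.factorial : ℝ) ^ 2 := by
    intro k
    induction k with
    | zero => intro l _; simpa using haA l
    | succ k ih =>
      intro l hl
      rw [Nat.succ_mul] at hl
      have h1 := hstep l _ (by positivity) fun j hj => ih j (by omega)
      have hl1 : ((k : ℝ) + 1) ≤ l := by
        have : k + 1 ≤ l := by nlinarith
        exact_mod_cast this
      have h2 : ((k : ℝ) + 1) ^ 2 * a l ≤ (l : ℝ) * (l + 1) * a l :=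
        mul_le_mul_of_nonneg_right (by nlinarith) (ha0 l)
      rw [le_div_iff₀ (by positivity), Nat.factorial_succ]
      push_cast
      have h3 := h2.trans h1
      rw [← mul_div_assoc, le_div_iff₀ (by positivity)] at h3
      calc a l * ((((k : ℝ) + 1)) * k.factorial) ^ 2 = ((k : ℝ) + 1) ^ 2 * a l * (k.factorial : ℝ) ^ 2 := by
            ring
        _ ≤ _ := h3
        _ = _ := by ring
  refine ⟨hhom, hharm, fun R hR => ⟨R ^ D * Real.sqrt A ^ 2 * Real.exp (K ^ 2 * R ^ (D + 1)),
    fun l => ?_⟩⟩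
  set k := l / (D + 1)
  have h1 := hiter k l (Nat.div_mul_le_self l (D + 1))
  have hlk : l ≤ D + (D + 1) * k := by
    have e := Nat.div_add_mod l (D + 1)
    have hm : l % (D + 1) < D + 1 := Nat.mod_lt l (Nat.succ_pos D)
    show l ≤ D + (D + 1) * (l / (D + 1))
    generalize (D + 1) * (l / (D + 1)) = X at e ⊢
    omega
  rw [hsq l]
  calc a l ^ 2 * R ^ l ≤ (Real.sqrt A * K ^ k / (k.factorial : ℝ) ^ 2) ^ 2 * R ^ (D + (D + 1) * k) :=
        mul_le_mul (pow_le_pow_left₀ (ha0 l) h1 2) (pow_le_pow_right₀ hR hlk) (by positivity)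
          (by positivity)
    _ = R ^ D * Real.sqrt A ^ 2 * ((K ^ 2 * R ^ (D + 1)) ^ k / (k.factorial : ℝ) ^ 4) := by
        rw [pow_add, pow_mul, mul_pow (K ^ 2), ← pow_mul K 2 k, div_pow, mul_pow, ← pow_mul,
          ← pow_mul, mul_comm k 2]
        ring
    _ ≤ _ := by
        refine mul_le_mul_of_nonneg_left ?_ (by positivity)
        refine le_trans ?_ (Real.pow_div_factorial_le_exp (x := K ^ 2 * R ^ (D + 1)) (by positivity) k)
        refine div_le_div_of_nonneg_left (by positivity) (by positivity) ?_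
        exact le_self_pow₀ (by exact_mod_cast Nat.succ_le_of_lt k.factorial_pos) (by norm_num)

variable {g : ℕ → MvPolynomial (Fin 3) ℝ}

/-- Integrals of a series against a polynomial. -/
theorem hasSum_integral_Fn (hg : Super g) (q : MvPolynomial (Fin 3) ℝ) :
    HasSum (fun l => sphIp (g l) q) (∫ θ : Sph 3, Fn g θ * res q θ ∂(sig 3)) := by
  obtain ⟨C, hC0, hC⟩ := hg.bound le_rfl
  obtain ⟨Q, hQ0, hQ⟩ := exists_res_le q
  refine hasSum_integral_of_dominated_convergence (fun l _ => C * (1 / 2 : ℝ) ^ l * Q)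
    (fun l => (integrable_sig ((continuous_res (g l)).mul (continuous_res q))).aestronglyMeasurable)
    (fun l => Eventually.of_forall fun θ => ?_)
    (Eventually.of_forall fun θ => (summable_geometric_two.mul_left C).mul_right Q)
    (integrable_const _) (Eventually.of_forall fun θ => (hg.hasSum (θ : Space 3)).mul_right _)
  rw [Real.norm_eq_abs, abs_mul]
  exact mul_le_mul (hC l θ (norm_eq_of_mem_sphere θ).le) (hQ θ) (abs_nonneg _) (by positivity)

/-- The levels are the moments. -/
theorem integral_Fn_level (hg : Super g) {l : ℕ} {q : MvPolynomial (Fin 3) ℝ}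
    (hq : q.IsHomogeneous l) (hql : lapP q = 0) :
    ∫ θ : Sph 3, Fn g θ * res q θ ∂(sig 3) = sphIp (g l) q :=
  (hasSum_integral_Fn hg q).unique (hasSum_single l fun j hj =>
    sphIp_eq_zero hj (hg.hom j) (hg.harm j) hq hql)

/-- An analytic function is determined by its values on the sphere. -/
theorem Anal.ext_sphere {F : Space 3 → ℝ} (hF : F ∈ Anal) (h : ∀ θ : Sph 3, F θ = 0) : F = 0 := by
  obtain ⟨g, hg, rfl⟩ := hF
  have hz : ∀ l, g l = 0 := fun l => by
    have h1 : sphIp (g l) (g l) = 0 := by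
      rw [← integral_Fn_level hg (hg.hom l) (hg.harm l)]
      simp [h]
    exact eq_zero_of_sphIp (N := l) (mem_harmUpTo.2 ⟨(hg.hom l).totalDegree_le, hg.harm l⟩) h1
  funext x
  simp [Fn, hz, evalFun]

/-- A function that is nonzero on a dense subset of the sphere. -/
def Nd (F : Space 3 → ℝ) : Prop := Dense {θ : Sph 3 | F θ ≠ 0}

theorem continuous_circ (a b : Space 3) : Continuous (circ a b) := by unfold circ; fun_prop

/-- An analytic function that vanishes on a nonempty open set vanishes on the sphere. -/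
theorem Anal.zero_of_open {F : Space 3 → ℝ} (hF : F ∈ Anal) {O : Set (Sph 3)} (hO : IsOpen O)
    (hne : O.Nonempty) (h : ∀ θ ∈ O, F θ = 0) (φ : Sph 3) : F φ = 0 := by
  obtain ⟨θ, hθ⟩ := hne
  obtain ⟨b, hb, t, -, ht⟩ := exists_circ θ φ
  rw [← ht]
  refine Anal.circ_zero hF hb (t₀ := 0) ?_ t
  set c := fun s : ℝ => (⟨circ θ b s, by simp [norm_circ hb s]⟩ : Sph 3) with hc
  have hcc : Continuous c := (continuous_circ _ _).subtype_mk _
  have h0 : c 0 = θ := Subtype.ext (by simp [c, circ])
  filter_upwards [hcc.continuousAt.preimage_mem_nhds (hO.mem_nhds (h0.symm ▸ hθ))] with s hs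
  exact h _ hs

/-- A nonzero analytic function is nonzero on a dense set. -/
theorem Anal.nd {F : Space 3 → ℝ} (hF : F ∈ Anal) (h : ∃ θ : Sph 3, F θ ≠ 0) : Nd F := by
  rw [Nd, dense_iff_inter_open]
  intro O hO hne
  by_contra hcon
  obtain ⟨φ, hφ⟩ := h
  refine hφ (Anal.zero_of_open hF hO hne (fun θ hθ => ?_) φ)
  by_contra hθ'
  exact hcon ⟨θ, hθ, hθ'⟩

theorem Nd.exists_ne {F : Space 3 → ℝ} (h : Nd F) : ∃ θ : Sph 3, F θ ≠ 0 :=
  h.inter_open_nonempty univ isOpen_univ ⟨⟨EuclideanSpace.single 0 1, by simp⟩, trivial⟩ |>.imp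
    fun _ hθ => hθ.2

theorem Nd.mul {F G : Space 3 → ℝ} (hF : Nd F) (hFc : Continuous F) (hG : Nd G) :
    Nd fun x => F x * G x := by
  have ho : IsOpen {θ : Sph 3 | F θ ≠ 0} :=
    isOpen_compl_singleton.preimage (hFc.comp continuous_subtype_val)
  refine (hF.inter_of_isOpen_left hG ho).mono fun θ hθ => mul_ne_zero hθ.1 hθ.2

/-- A finite product of nonzero analytic functions is nonzero. -/
theorem Anal.prod_ne_zero {ι : Type*} (s : Finset ι) (F : ι → Space 3 → ℝ)
    (hF : ∀ i ∈ s, F i ∈ Anal) (h : ∀ i ∈ s, ∃ θ : Sph 3, F i θ ≠ 0) :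
    ∃ θ : Sph 3, ∏ i ∈ s, F i θ ≠ 0 := by
  classical
  suffices Nd fun x => ∏ i ∈ s, F i x from this.exists_ne
  induction s using Finset.induction_on with
  | empty => simp [Nd]
  | insert a s ha ih =>
    simp only [Finset.prod_insert ha]
    exact (Anal.nd (hF a (Finset.mem_insert_self a s)) (h a (Finset.mem_insert_self a s))).mul
      (Anal.continuous (hF a (Finset.mem_insert_self a s)))
      (ih (fun i hi => hF i (Finset.mem_insert_of_mem hi)) fun i hi => h i (Finset.mem_insert_of_mem hi))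

theorem cas_Fn (hg : Super g) : cas (Fn g) = Fn fun l => (-((l : ℝ) * (l + 1))) • g l := by
  have hs : Super fun l => (-((l : ℝ) * (l + 1))) • g l :=
    hg.smul _ (m := 4) ⟨1, fun l => by
      rw [neg_sq, one_mul, show ((l : ℝ) + 1) ^ 4 = (((l : ℝ) + 1) * (l + 1)) ^ 2 by ring]
      refine pow_le_pow_left₀ (by positivity) ?_ 2
      nlinarith [(Nat.cast_nonneg l : (0:ℝ) ≤ l)]⟩
  funext x
  refine HasSum.unique ?_ (hs.hasSum x)
  have h1 := hasSum_sum (s := Finset.univ) fun k _ => ((hg.rotStep k).rotStep k).hasSum x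
  have e : cas (Fn g) x = ∑ k, Fn (fun l => rotP k (rotP k (g l))) x := by
    simp only [cas, rot_Fn hg, fun k => rot_Fn (hg.rotStep k) k]
  rw [e]
  refine h1.congr_fun fun l => ?_
  have h2 := congrArg (fun r => evalFun r x) (casimir (hg.hom l) (hg.harm l))
  simp [evalFun, Fin.sum_univ_three] at h2 ⊢
  linarith

theorem Anal.cas_add {F G : Space 3 → ℝ} (hF : F ∈ Anal) (hG : G ∈ Anal) (x : Space 3) :
    cas (F + G) x = cas F x + cas G x := by
  simp only [cas, ← Finset.sum_add_distrib]
  exact Finset.sum_congr rfl fun k _ => by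
    rw [Anal.rot_add hF hG, Anal.rot_add (Anal.rot_mem hF k) (Anal.rot_mem hG k), Pi.add_apply]

theorem Anal.cas_smul {F : Space 3 → ℝ} (hF : F ∈ Anal) (c : ℝ) (x : Space 3) :
    cas (c • F) x = c * cas F x := by
  simp only [cas, Finset.mul_sum]
  exact Finset.sum_congr rfl fun k _ => by
    rw [Anal.rot_smul hF, Anal.rot_smul (Anal.rot_mem hF k), Pi.smul_apply, smul_eq_mul]

/-- The eigenfunctions of `-Δ F = lam p F` on the sphere. -/
def efun (lam : ℝ) (p : MvPolynomial (Fin 3) ℝ) : Submodule ℝ (Space 3 → ℝ) where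
  carrier := {F | F ∈ Anal ∧ ∀ θ : Sph 3, cas F θ + lam * res p θ * F θ = 0}
  add_mem' := by
    rintro F G ⟨hF, hF'⟩ ⟨hG, hG'⟩
    refine ⟨add_mem hF hG, fun θ => ?_⟩
    rw [Anal.cas_add hF hG, Pi.add_apply]
    linarith [hF' θ, hG' θ]
  zero_mem' := by
    refine ⟨zero_mem _, fun θ => ?_⟩
    rw [show (0 : Space 3 → ℝ) = (0 : ℝ) • (0 : Space 3 → ℝ) by simp, Anal.cas_smul (zero_mem _)]
    simp
  smul_mem' := by
    rintro c F ⟨hF, hF'⟩
    refine ⟨Submodule.smul_mem _ c hF, fun θ => ?_⟩
    rw [Anal.cas_smul hF, Pi.smul_apply, smul_eq_mul,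
      show c * cas F θ + lam * res p θ * (c * F θ) = c * (cas F θ + lam * res p θ * F θ) by ring,
      hF' θ, mul_zero]

theorem mem_efun {lam : ℝ} {p : MvPolynomial (Fin 3) ℝ} {F : Space 3 → ℝ} :
    F ∈ efun lam p ↔ F ∈ Anal ∧ ∀ θ : Sph 3, cas F θ + lam * res p θ * F θ = 0 := Iff.rfl

/-- Weak solutions are eigenfunctions. -/
theorem exists_efun {lam A : ℝ} (hlam : 0 ≤ lam) {p : MvPolynomial (Fin 3) ℝ} {D : ℕ}
    (hD : p.totalDegree ≤ D) {h : ℕ → MvPolynomial (Fin 3) ℝ} (hhom : ∀ l, (h l).IsHomogeneous l)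
    (hharm : ∀ l, lapP (h l) = 0) (hA : ∀ l, sphIp (h l) (h l) ≤ A)
    (heq : ∀ l, ∀ q : MvPolynomial (Fin 3) ℝ, q.IsHomogeneous l → lapP q = 0 →
      (l : ℝ) * (l + 1) * sphIp (h l) q =
        lam * ∑ j ∈ Finset.range (l + D + 1), sphIp (h j) (p * q)) :
    ∃ F ∈ efun lam p, ∀ l, ∀ q : MvPolynomial (Fin 3) ℝ, q.IsHomogeneous l → lapP q = 0 →
      ∫ θ : Sph 3, F θ * res q θ ∂(sig 3) = sphIp (h l) q := by
  have hS := super_of_eqn hlam hD hhom hharm hA heq
  refine ⟨Fn h, ⟨⟨h, hS, rfl⟩, ?_⟩, fun l q hq hql => integral_Fn_level hS hq hql⟩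
  have hs : Super fun l => (-((l : ℝ) * (l + 1))) • h l :=
    hS.smul _ (m := 4) ⟨1, fun l => by
      rw [neg_sq, one_mul, show ((l : ℝ) + 1) ^ 4 = (((l : ℝ) + 1) * (l + 1)) ^ 2 by ring]
      refine pow_le_pow_left₀ (by positivity) ?_ 2
      nlinarith [(Nat.cast_nonneg l : (0:ℝ) ≤ l)]⟩
  rw [cas_Fn hS]
  set W := fun x => Fn (fun l => (-((l : ℝ) * (l + 1))) • h l) x + lam * evalFun p x * Fn h x
  have hWc : Continuous W := (differentiable_Fn hs).continuous.add
    ((continuous_const.mul (contDiff_evalFun p (m := 0)).continuous).mul (differentiable_Fn hS).continuous)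
  have hone : ∀ θ : Sph 3, (1 : ℝ) • (θ : Space 3) = θ := fun θ => one_smul _ _
  have hlev : ∀ j, ∀ q : MvPolynomial (Fin 3) ℝ, q.IsHomogeneous j → lapP q = 0 → mom W q 1 = 0 := by
    intro j q hq hql
    simp only [mom, hone, W]
    rw [show (fun θ : Sph 3 => (Fn (fun l => (-((l : ℝ) * (l + 1))) • h l) θ +
        lam * evalFun p θ * Fn h θ) * evalFun q θ) = fun θ : Sph 3 =>
        Fn (fun l => (-((l : ℝ) * (l + 1))) • h l) θ * res q θ + lam * (Fn h θ * res (p * q) θ) from
      funext fun θ => by simp [res, evalFun]; ring]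
    have hc : ∀ {g : ℕ → MvPolynomial (Fin 3) ℝ}, Super g → ∀ r, Integrable
        (fun θ : Sph 3 => Fn g θ * res r θ) (sig 3) := fun hg r =>
      integrable_sig (((differentiable_Fn hg).continuous.comp continuous_subtype_val).mul (continuous_res r))
    rw [integral_add (hc hs q) ((hc hS (p * q)).const_mul lam), integral_const_mul,
      integral_Fn_level hs hq hql, sphIp_smul]
    have hpq : ∫ θ : Sph 3, Fn h θ * res (p * q) θ ∂(sig 3) =
        ∑ i ∈ Finset.range (j + D + 1), sphIp (h i) (p * q) := by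
      refine (hasSum_integral_Fn hS (p * q)).unique (hasSum_sum_of_ne_finset_zero fun i hi => ?_)
      refine sphIp_low (hhom i) (hharm i) ?_
      simp only [Finset.mem_range] at hi
      have := totalDegree_mul p q
      have := hq.totalDegree_le
      omega
    rw [hpq]
    linarith [heq j q hq hql]
  have hall : ∀ r, mom W r 1 = 0 := by
    refine functional_zero (n := 3) (by norm_num) (momY W hWc 1) (fun q => ?_) hlev
    show mom W (sq 3 * q) 1 = mom W q 1
    simp only [mom]
    congr 1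
    funext θ
    have := evalFun_sq_sph θ
    simp only [evalFun, map_mul] at this ⊢
    rw [this, one_mul]
  intro θ
  have := eq_zero_of_moments hWc hall θ
  rw [hone] at this
  exact this

/-- The weak form of the equation of an eigenfunction. -/
theorem efun_weak {lam : ℝ} {p : MvPolynomial (Fin 3) ℝ} {F : Space 3 → ℝ} (hF : F ∈ efun lam p)
    {l : ℕ} {q : MvPolynomial (Fin 3) ℝ} (hq : q.IsHomogeneous l) (hql : lapP q = 0) :
    (l : ℝ) * (l + 1) * ∫ θ : Sph 3, F θ * res q θ ∂(sig 3) =
      lam * ∫ θ : Sph 3, res p θ * F θ * res q θ ∂(sig 3) := by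
  obtain ⟨⟨g, hg, rfl⟩, heq⟩ := hF
  have hs : Super fun l => (-((l : ℝ) * (l + 1))) • g l :=
    hg.smul _ (m := 4) ⟨1, fun l => by
      rw [neg_sq, one_mul, show ((l : ℝ) + 1) ^ 4 = (((l : ℝ) + 1) * (l + 1)) ^ 2 by ring]
      refine pow_le_pow_left₀ (by positivity) ?_ 2
      nlinarith [(Nat.cast_nonneg l : (0:ℝ) ≤ l)]⟩
  have h1 := integral_Fn_level hs hq hql
  rw [sphIp_smul, ← cas_Fn hg] at h1
  have h2 : (fun θ : Sph 3 => cas (Fn g) θ * res q θ) =
      fun θ : Sph 3 => -lam * (res p θ * Fn g θ * res q θ) := funext fun θ => by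
    linear_combination res q θ * heq θ
  rw [h2, integral_const_mul] at h1
  rw [integral_Fn_level hg hq hql]
  linarith

/-- Independent continuous functions have dual polynomials. -/
theorem exists_dual_polys {k : ℕ} {F : Fin k → Space 3 → ℝ} (hF : ∀ i, Continuous (F i))
    (h : LinearIndependent ℝ fun i => fun θ : Sph 3 => F i θ) :
    ∃ q : Fin k → MvPolynomial (Fin 3) ℝ, ∀ i j,
      ∫ θ : Sph 3, res (q j) θ * F i θ ∂(sig 3) = if i = j then 1 else 0 := by
  classical
  let T : MvPolynomial (Fin 3) ℝ →ₗ[ℝ] (Fin k → ℝ) := LinearMap.pi fun i => momY (F i) (hF i) 1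
  have hmom : ∀ i r, mom (F i) r 1 = ∫ θ : Sph 3, res r θ * F i θ ∂(sig 3) := fun i r => by
    simp only [mom, one_smul, res, mul_comm]
  have hT : LinearMap.range T = ⊤ := by
    by_contra hne
    obtain ⟨f, hf0, hf⟩ := Submodule.exists_le_ker_of_lt_top _ (lt_top_iff_ne_top.2 hne)
    refine hf0 (LinearMap.pi_ext fun i c => ?_)
    have hz : ∀ r, ∑ i, f (Pi.single i 1) * mom (F i) r 1 = 0 := fun r => by
      have h1 : f (T r) = 0 := hf (LinearMap.mem_range_self T r)
      rw [pi_eq_sum_univ (T r), map_sum] at h1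
      refine Eq.trans (Finset.sum_congr rfl fun i _ => ?_) h1
      rw [map_smul, smul_eq_mul, mul_comm, show (Pi.single i 1 : Fin k → ℝ) =
        fun j => if i = j then 1 else 0 from funext fun j => by simp [Pi.single_apply, eq_comm]]
      rfl
    set G := fun x => ∑ i, f (Pi.single i 1) * F i x
    have hG : Continuous G := continuous_finsetSum _ fun i _ => continuous_const.mul (hF i)
    have hG0 : ∀ r, mom G r 1 = 0 := fun r => by
      simp only [mom, G, Finset.sum_mul, mul_assoc]
      rw [integral_finsetSum _ fun i _ => (integrable_mom (hF i) r 1).const_mul _]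
      simp only [integral_const_mul]
      exact hz r
    have h0 := Fintype.linearIndependent_iff.1 h (fun i => f (Pi.single i 1)) (funext fun θ => by
      have := eq_zero_of_moments hG hG0 θ
      simpa [G, one_smul] using this) i
    rw [show (Pi.single i c : Fin k → ℝ) = c • Pi.single i 1 by simp [← Pi.single_smul], map_smul, h0]
    simp
  choose q hq using fun j => LinearMap.range_eq_top.1 hT (Pi.single j 1)
  refine ⟨q, fun i j => ?_⟩
  rw [← hmom, show mom (F i) (q j) 1 = T (q j) i from rfl, hq, Pi.single_apply]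

end

end Vale.Agent.P225.Disproof
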