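import Vale.Agent.P225.Disproof.PencilOp
import Vale.Agent.P225.Disproof.EigenFun

/-!
# P225: eigenvectors of a polynomial shape as analytic eigenfunctions, and their limits

An eigenvector of the pencil of a positive polynomial weight lifts to the restriction of a
function in `efun`. Eigenvectors of a convergent sequence of operators with a compact limit have
convergent subsequences. Every polynomial has a harmonic representative on the sphere.
-/

namespace Vale.Agent.P225.Disproof

open MvPolynomial MeasureTheory Set Filter Topology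
open scoped RealInnerProductSpace

noncomputable section

/-- A function on space restricted to the sphere. -/
def sphFun (F : Space 3 → ℝ) (hF : Continuous F) : C(Sph 3, ℝ) :=
  ⟨fun θ => F θ, hF.comp continuous_subtype_val⟩

@[simp] theorem sphFun_apply {F : Space 3 → ℝ} (hF : Continuous F) (θ : Sph 3) :
    sphFun F hF θ = F θ := rfl

theorem lev_toH {l : ℕ} {q : MvPolynomial (Fin 3) ℝ} (hq : q.IsHomogeneous l) (hql : lapP q = 0) :
    lev l (toH q) = toH q :=
  Submodule.starProjection_eq_self_iff.2 (toH_mem_levSpace hq hql)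

theorem inner_lev_toH (v : L2S) {l : ℕ} {q : MvPolynomial (Fin 3) ℝ} (hq : q.IsHomogeneous l)
    (hql : lapP q = 0) : ⟪lev l v, toH q⟫ = ⟪v, toH q⟫ := by
  rw [inner_lev, lev_toH hq hql]

/-- The weak equation gives an analytic eigenfunction. -/
theorem exists_efun_of_eigen {p : MvPolynomial (Fin 3) ℝ} (hp : ∀ θ : Sph 3, 0 < res p θ)
    {x : L2S} {ν : ℝ} (hν : 0 < ν) (hx : pencil (sphAlg 3 p) x = ν • x) :
    ∃ F ∈ efun ν⁻¹ p, ∃ hF : Continuous F, lift (sphAlg 3 p) x = wvec (sphFun F hF) := by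
  set w := sphAlg 3 p
  have hw : ∀ θ, 0 < w θ := fun θ => by rw [sphAlg_apply]; exact hp θ
  set v := lift w x
  choose h hhom hharm hh using fun l => mem_levSpace.1 (lev_mem l v)
  have hhv : ∀ l, ∀ q : MvPolynomial (Fin 3) ℝ, q.IsHomogeneous l → lapP q = 0 →
      sphIp (h l) q = ⟪v, toH q⟫ := fun l q hq hql => by
    rw [← inner_toH, hh, inner_lev_toH v hq hql]
  have hsum : ∀ r : MvPolynomial (Fin 3) ℝ, ∀ N, r.totalDegree < N →
      ⟪v, toH r⟫ = ∑ j ∈ Finset.range N, sphIp (h j) r := fun r N hN => by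
    have h1 : HasSum (fun j => sphIp (h j) r) ⟪v, toH r⟫ := by
      have h2 := (innerSL ℝ (toH r)).hasSum (hasSum_lev v)
      rw [innerSL_apply_apply, real_inner_comm] at h2
      refine h2.congr_fun fun j => ?_
      rw [innerSL_apply_apply, ← hh, inner_toH, sphIp_comm]
    refine h1.unique (hasSum_sum_of_ne_finset_zero fun j hj => ?_)
    simp only [Finset.mem_range] at hj
    exact sphIp_low (hhom j) (hharm j) (by omega)
  have heq : ∀ l, ∀ q : MvPolynomial (Fin 3) ℝ, q.IsHomogeneous l → lapP q = 0 →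
      (l : ℝ) * (l + 1) * sphIp (h l) q =
        ν⁻¹ * ∑ j ∈ Finset.range (l + p.totalDegree + 1), sphIp (h j) (p * q) := by
    intro l q hq hql
    have hd : (p * q).totalDegree < l + p.totalDegree + 1 := by
      have := totalDegree_mul p q
      have := hq.totalDegree_le
      omega
    have e := congrArg (fun z => ⟪z, toH q⟫) (eigen_weak (tot_pos hw).ne' hν.ne' hx l)
    simp only [real_inner_smul_left] at e
    rw [← inner_toH, hh, e, inner_lev_toH _ hq hql, mulOp_symm, mulOp_toH, hsum _ _ hd]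
  have hA : ∀ l, sphIp (h l) (h l) ≤ ‖v‖ ^ 2 := fun l => by
    rw [← inner_toH, hh, real_inner_self_eq_norm_sq]
    exact pow_le_pow_left₀ (norm_nonneg _) ((levSpace l).norm_starProjection_apply_le v) 2
  obtain ⟨F, hF, hFl⟩ := exists_efun (inv_nonneg.2 hν.le) le_rfl hhom hharm hA heq
  refine ⟨F, hF, Anal.continuous hF.1, ?_⟩
  set u := wvec (sphFun F (Anal.continuous hF.1))
  refine (hasSum_lev v).unique ((hasSum_lev u).congr_fun fun l => ?_)
  obtain ⟨q, hq, hql, hqz⟩ := mem_levSpace.1 ((levSpace l).sub_mem (lev_mem l v) (lev_mem l u))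
  refine sub_eq_zero.1 (inner_self_eq_zero (𝕜 := ℝ).1 ?_)
  nth_rw 2 [← hqz]
  rw [inner_sub_left, inner_lev_toH v hq hql, inner_lev_toH u hq hql, ← hhv l q hq hql,
    ← hFl l q hq hql, sub_eq_zero]
  rw [show toH q = wvec (sphAlg 3 q) from rfl, inner_wvec]
  simp [res, sphAlg_apply]

/-- Unit eigenvectors of operators converging to a compact one converge along a subsequence. -/
theorem exists_subseq_eigen {H : Type*} [NormedAddCommGroup H] [InnerProductSpace ℝ H]
    {ι : Type*} [Finite ι] {T : ℕ → H →L[ℝ] H} {T₀ : H →L[ℝ] H} (hc : IsCompactOperator T₀)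
    (hT : Tendsto T atTop (𝓝 T₀)) {x : ℕ → ι → H} (hx : ∀ n a, ‖x n a‖ = 1)
    {ν : ℕ → ι → ℝ} (he : ∀ n a, T n (x n a) = ν n a • x n a) {ν₀ : ι → ℝ}
    (hν : ∀ a, Tendsto (fun n => ν n a) atTop (𝓝 (ν₀ a))) (h₀ : ∀ a, ν₀ a ≠ 0) :
    ∃ φ : ℕ → ℕ, StrictMono φ ∧ ∃ y : ι → H,
      (∀ a, Tendsto (fun n => x (φ n) a) atTop (𝓝 (y a))) ∧ ∀ a, T₀ (y a) = ν₀ a • y a := by
  have := Fintype.ofFinite ι
  have hK := hc.isCompact_closure_image_closedBall (f := T₀.toLinearMap) 1
  obtain ⟨z, -, φ, hφ, hz⟩ :=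
    (isCompact_univ_pi fun _ : ι => hK).tendsto_subseq (x := fun n a => T₀ (x n a))
      fun n a _ => subset_closure ⟨x n a, by simp [hx], rfl⟩
  have hφt := hφ.tendsto_atTop
  have hd : ∀ a, Tendsto (fun n => T (φ n) (x (φ n) a) - T₀ (x (φ n) a)) atTop (𝓝 0) := fun a => by
    refine squeeze_zero_norm (a := fun n => ‖T (φ n) - T₀‖) (fun n => ?_) ?_
    · rw [← sub_apply]
      exact ((T (φ n) - T₀).le_opNorm _).trans_eq (by rw [hx, mul_one])
    · exact (tendsto_iff_norm_sub_tendsto_zero.1 hT).comp hφt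
  have hy : ∀ a, Tendsto (fun n => x (φ n) a) atTop (𝓝 ((ν₀ a)⁻¹ • z a)) := fun a => by
    have h1 : Tendsto (fun n => T (φ n) (x (φ n) a)) atTop (𝓝 (z a)) := by
      simpa using (hd a).add ((tendsto_pi_nhds.1 hz) a)
    have h2 := (((hν a).comp hφt).inv₀ (h₀ a)).smul h1
    refine h2.congr' ?_
    filter_upwards [((hν a).comp hφt).eventually_ne (h₀ a)] with n hn
    simp only [Function.comp_apply] at hn ⊢
    rw [he, smul_smul, inv_mul_cancel₀ hn, one_smul]
  refine ⟨φ, hφ, _, hy, fun a => ?_⟩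
  rw [smul_smul, mul_inv_cancel₀ (h₀ a), one_smul]
  exact tendsto_nhds_unique ((T₀.continuous.tendsto _).comp (hy a)) ((tendsto_pi_nhds.1 hz) a)

/-- Every polynomial agrees on the sphere with a harmonic one of no larger degree. -/
theorem exists_harm_rep {D : ℕ} {p : MvPolynomial (Fin 3) ℝ} (hp : p.totalDegree ≤ D) :
    ∃ h : Gal D, ∀ θ : Sph 3, res h.poly θ = res p θ := by
  have hom : ∀ j, j ≤ D → ∀ p : MvPolynomial (Fin 3) ℝ, p.IsHomogeneous j →
      ∃ h : Gal D, ∀ θ : Sph 3, res h.poly θ = res p θ := by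
    intro j
    induction j using Nat.strong_induction_on with
    | _ j ih =>
      intro hjD p hp
      by_cases hj : j < 2
      · exact ⟨Gal.mk p (mem_harmUpTo.2 ⟨hp.totalDegree_le.trans hjD, lapP_eq_zero_of_lt hp hj⟩),
          fun θ => rfl⟩
      obtain ⟨i, rfl⟩ : ∃ i, j = i + 2 := ⟨j - 2, by omega⟩
      obtain ⟨q, h, hq, hh, hl, rfl⟩ := exists_decomp (n := 3) (by norm_num) i p hp
      obtain ⟨g, hg⟩ := ih i (by omega) (by omega) q hq
      refine ⟨Gal.mk h (mem_harmUpTo.2 ⟨hh.totalDegree_le.trans hjD, hl⟩) + g, fun θ => ?_⟩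
      have e : evalFun (sq 3) (θ : Space 3) = 1 := evalFun_sq_sph θ
      rw [map_add, res_add, hg, Gal.poly_mk, res_add]
      simp only [res, evalFun, map_mul] at e ⊢
      rw [e, one_mul]
  choose g hg using fun j : Finset.range (p.totalDegree + 1) =>
    hom j (by have := j.2; simp only [Finset.mem_range] at this; omega) _
      (homogeneousComponent_isHomogeneous j p)
  refine ⟨∑ j, g j, fun θ => ?_⟩
  conv_rhs => rw [← sum_homogeneousComponent p, ← Finset.sum_coe_sort]
  simp only [map_sum, res, evalFun]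
  exact Finset.sum_congr rfl fun j _ => hg j θ

end

end Vale.Agent.P225.Disproof
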