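import Vale.Agent.P225.Disproof.PencilCluster
import Vale.Agent.P225.Disproof.StrataBridge

/-!
# P225: eigenvectors of the pencil are analytic eigenfunctions

For a positive polynomial weight `p`, the lifts of the eigenvectors with eigenvalue `ν` are exactly
the functions of `efun ν⁻¹ p`. Closed gaps sit inside finite exact clusters, and eigenvectors of
converging weights have converging subsequences.
-/

namespace Vale.Agent.P225.Disproof

open MvPolynomial MeasureTheory Set Filter Topology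
open scoped RealInnerProductSpace

noncomputable section

section Abstract

variable {H : Type*} [NormedAddCommGroup H] [InnerProductSpace ℝ H] [CompleteSpace H]
  {T : H →L[ℝ] H}

/-- The eigenvalues tend to zero. -/
theorem GoodOp.exists_nu_lt (hT : GoodOp T) {c : ℝ} (hc : 0 < c) : ∃ k, nu T k < c := by
  by_contra hcon
  simp only [not_exists, not_lt] at hcon
  have hK := hT.compact.isCompact_closure_image_closedBall (f := T.toLinearMap) 1
  obtain ⟨y, -, φ, hφ, hy⟩ := hK.tendsto_subseq (x := fun i => T (eigvec T i)) fun i =>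
    subset_closure ⟨eigvec T i, by simp [(hT.eigvec_spec i).1], rfl⟩
  have hsucc := hy.comp (tendsto_add_atTop_nat 1)
  have hd : Tendsto (fun i => ‖T (eigvec T (φ (i + 1))) - T (eigvec T (φ i))‖ ^ 2) atTop (𝓝 0) := by
    simpa using ((hsucc.sub hy).norm.pow 2)
  obtain ⟨i, hi⟩ := (hd.eventually_lt_const (pow_pos hc 2)).exists
  refine absurd hi (not_lt.2 ?_)
  have hne : φ (i + 1) ≠ φ i := (hφ i.lt_succ_self).ne'
  rw [(hT.eigvec_spec _).2.2.1, (hT.eigvec_spec _).2.2.1, norm_sub_sq_real, norm_smul, norm_smul,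
    (hT.eigvec_spec _).1, (hT.eigvec_spec _).1, real_inner_smul_left, real_inner_smul_right,
    hT.inner_eigvec, if_neg hne, mul_zero, mul_zero, mul_zero, sub_zero, mul_one, mul_one,
    Real.norm_eq_abs, Real.norm_eq_abs, sq_abs, sq_abs]
  have := pow_le_pow_left₀ hc.le (hcon (φ (i + 1))) 2
  linarith [sq_nonneg (nu T (φ i))]

/-- A closed gap lies inside a finite exact cluster with open gaps around it. -/
theorem GoodOp.exists_cluster (hT : GoodOp T) {j : ℕ} (hj : 1 ≤ j) (hg : ¬ Gap T j) :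
    ∃ i r, 2 ≤ r ∧ i < j ∧ j < i + r ∧ (i = 0 ∨ Gap T i) ∧ Gap T (i + r) ∧
      ∀ a, a < r → nu T (i + a) = nu T i := by
  have heq : nu T j = nu T (j - 1) :=
    le_antisymm (hT.nu_antitone (Nat.sub_le j 1)) (not_lt.1 fun h => hg ⟨hj, h⟩)
  classical
  have h1 : ∃ i, nu T i = nu T j := ⟨j, rfl⟩
  have h2 : ∃ k, nu T k < nu T j := hT.exists_nu_lt (hT.nu_pos j)
  set i := Nat.find h1
  set k := Nat.find h2
  have hi : nu T i = nu T j := Nat.find_spec h1
  have hij : i < j := lt_of_le_of_lt (Nat.find_min' h1 heq.symm) (by omega)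
  have hk : nu T k < nu T j := Nat.find_spec h2
  have hjk : j < k := not_le.1 fun h => (hT.nu_antitone h).not_gt hk
  refine ⟨i, k - i, by omega, hij, by omega, ?_, ⟨by omega, ?_⟩, fun a ha => ?_⟩
  · rcases Nat.eq_zero_or_pos i with h0 | h0
    · exact Or.inl h0
    · refine Or.inr ⟨h0, lt_of_le_of_ne (hT.nu_antitone (Nat.sub_le i 1)) fun h => ?_⟩
      exact Nat.find_min h1 (show i - 1 < i by omega) (h.symm.trans hi)
  · rw [show i + (k - i) = k by omega]
    exact hk.trans_le (not_lt.1 (Nat.find_min h2 (show k - 1 < k by omega)))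
  · refine le_antisymm (hT.nu_antitone (Nat.le_add_right i a)) ?_
    rw [hi]
    exact not_lt.1 (Nat.find_min h2 (show i + a < k by omega))

/-- A vector between two top spaces is a combination of the eigenvectors between them. -/
theorem GoodOp.sum_eigvec (hT : GoodOp T) (i : ℕ) : ∀ (r : ℕ) (x : H), x ∈ topSpace T (i + r) →
    x ∈ (topSpace T i)ᗮ →
    x = ∑ a : Fin r, ⟪eigvec T (i + a), x⟫ • eigvec T (i + a)
  | 0, x, hx, hx' => by
    simpa using inner_self_eq_zero.1 ((Submodule.mem_orthogonal _ _).1 hx' x hx)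
  | r + 1, x, hx, hx' => by
    obtain ⟨s, hs, t, ht, rfl⟩ := Submodule.mem_sup.1
      (show x ∈ topSpace T (i + r) ⊔ Submodule.span ℝ {nextVec T (topSpace T (i + r))} from hx)
    obtain ⟨c, rfl⟩ := Submodule.mem_span_singleton.1 ht
    have he' : eigvec T (i + r) ∈ (topSpace T i)ᗮ :=
      Submodule.orthogonal_le (topSpace_mono T (Nat.le_add_right i r)) (hT.eigvec_spec _).2.1
    have hs' : s ∈ (topSpace T i)ᗮ := by
      simpa [eigvec] using Submodule.sub_mem _ hx' (Submodule.smul_mem _ c he')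
    have hse : ⟪eigvec T (i + r), s⟫ = 0 := by
      rw [real_inner_comm]; exact (Submodule.mem_orthogonal _ _).1 (hT.eigvec_spec _).2.1 s hs
    rw [show nextVec T (topSpace T (i + r)) = eigvec T (i + r) from rfl, Fin.sum_univ_castSucc]
    congr 1
    · conv_lhs => rw [hT.sum_eigvec i r s hs hs']
      refine Finset.sum_congr rfl fun a _ => ?_
      rw [Fin.val_castSucc, inner_add_right, real_inner_smul_right, hT.inner_eigvec,
        if_neg (by omega : i + (a : ℕ) ≠ i + r), mul_zero, add_zero]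
    · rw [Fin.val_last, inner_add_right, real_inner_smul_right, hT.inner_eigvec, if_pos rfl,
        hse, zero_add, mul_one]

/-- Eigenvectors of the cluster value are combinations of the cluster eigenvectors. -/
theorem GoodOp.eigen_eq_sum (hT : GoodOp T) {i r : ℕ} (hr : 1 ≤ r) (hi : i = 0 ∨ Gap T i)
    (hir : Gap T (i + r)) (he : ∀ a, a < r → nu T (i + a) = nu T i) {x : H}
    (hx : T x = nu T i • x) : x = ∑ a : Fin r, ⟪eigvec T (i + a), x⟫ • eigvec T (i + a) := by
  have hlt : nu T (i + r) < nu T i := by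
    refine hir.2.trans_le (le_of_eq ?_)
    rw [show i + r - 1 = i + (r - 1) by omega]
    exact he _ (by omega)
  have hcomm : ∀ j, T (topProj T j x) = nu T i • topProj T j x := fun j => by
    rw [← map_smul, ← hx]
    refine (Submodule.eq_starProjection_of_mem_orthogonal (u := T x)
      (hT.topSpace_inv j ((topSpace T j).starProjection_apply_mem x)) ?_).symm
    rw [← map_sub]
    exact hT.orth_inv j ((topSpace T j).sub_starProjection_mem_orthogonal x)
  have hP : topProj T i x = 0 := by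
    rcases hi with rfl | hi
    · simp [topProj_zero]
    have h := hT.le_form hi.1 ((topSpace T i).starProjection_apply_mem x)
    rw [show (topSpace T i).starProjection x = topProj T i x from rfl, hcomm, real_inner_smul_left,
      real_inner_self_eq_norm_sq] at h
    have : ‖topProj T i x‖ ^ 2 ≤ 0 := by
      nlinarith [hi.2, sq_nonneg ‖topProj T i x‖]
    exact norm_eq_zero.1 (pow_eq_zero_iff two_ne_zero |>.1 (le_antisymm this (sq_nonneg _)))
  have hQ : x - topProj T (i + r) x = 0 := by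
    have h := hT.form_le ((topSpace T (i + r)).sub_starProjection_mem_orthogonal x)
    rw [show (topSpace T (i + r)).starProjection x = topProj T (i + r) x from rfl, map_sub, hcomm,
      hx, ← smul_sub, real_inner_smul_left, real_inner_self_eq_norm_sq] at h
    have : ‖x - topProj T (i + r) x‖ ^ 2 ≤ 0 := by
      nlinarith [sq_nonneg ‖x - topProj T (i + r) x‖]
    exact norm_eq_zero.1 (pow_eq_zero_iff two_ne_zero |>.1 (le_antisymm this (sq_nonneg _)))
  refine hT.sum_eigvec i r x ?_ ((Submodule.starProjection_apply_eq_zero_iff _).1 hP)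
  rw [sub_eq_zero.1 hQ]
  exact (topSpace T (i + r)).starProjection_apply_mem x

end Abstract

/-- Eigenvectors of converging operators converge along a subsequence. -/
theorem exists_subseq_eigvec {H : Type*} [NormedAddCommGroup H] [InnerProductSpace ℝ H]
    [CompleteSpace H] {T₀ : H →L[ℝ] H} (hT₀ : GoodOp T₀) {T : ℕ → H →L[ℝ] H}
    (hT : ∀ n, GoodOp (T n)) (hlim : Tendsto T atTop (𝓝 T₀)) (m : ℕ) :
    ∃ φ : ℕ → ℕ, StrictMono φ ∧ ∀ i < m, ∃ x : H, ‖x‖ = 1 ∧ T₀ x = nu T₀ i • x ∧
      Tendsto (fun n => eigvec (T (φ n)) i) atTop (𝓝 x) := by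
  obtain ⟨φ, hφ, y, hy, hy'⟩ := exists_subseq_eigen hT₀.compact hlim
    (x := fun n (a : Fin m) => eigvec (T n) a) (fun n a => ((hT n).eigvec_spec a).1)
    (fun n a => ((hT n).eigvec_spec a).2.2.1)
    (fun a => ((continuous_nu (a : ℕ)).tendsto T₀).comp hlim) (fun a => (hT₀.nu_pos a).ne')
  exact ⟨φ, hφ, fun i hi => ⟨y ⟨i, hi⟩,
    tendsto_nhds_unique (hy ⟨i, hi⟩).norm (by simp [((hT _).eigvec_spec i).1]),
    hy' ⟨i, hi⟩, hy ⟨i, hi⟩⟩⟩

/-- An eigenfunction as an element of `L2S`. -/
def efunVec (lam : ℝ) (p : MvPolynomial (Fin 3) ℝ) : efun lam p →ₗ[ℝ] L2S where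
  toFun F := wvec (sphFun F.1 (Anal.continuous (mem_efun.1 F.2).1))
  map_add' F G := by rw [← map_add]; rfl
  map_smul' c F := by rw [RingHom.id_apply, ← map_smul]; rfl

variable {lam : ℝ} {p : MvPolynomial (Fin 3) ℝ}

theorem inner_efunVec (F : efun lam p) (f : C(Sph 3, ℝ)) :
    ⟪efunVec lam p F, wvec f⟫ = ∫ θ, F.1 (θ : Space 3) * f θ ∂(sig 3) :=
  inner_wvec _ f

theorem inner_efunVec_toH (F : efun lam p) (q : MvPolynomial (Fin 3) ℝ) :
    ⟪efunVec lam p F, toH q⟫ = ∫ θ, F.1 (θ : Space 3) * res q θ ∂(sig 3) := by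
  rw [show toH q = wvec (sphAlg 3 q) from rfl, inner_efunVec]
  simp only [sphAlg_apply]
  rfl

theorem inner_mulOp_efunVec {lam' : ℝ} {p' : MvPolynomial (Fin 3) ℝ} (h : C(Sph 3, ℝ))
    (F : efun lam p) (G : efun lam' p') :
    ⟪mulOp h (efunVec lam p F), efunVec lam' p' G⟫ =
      ∫ θ, h θ * (F.1 (θ : Space 3) * G.1 (θ : Space 3)) ∂(sig 3) := by
  simp only [efunVec, LinearMap.coe_mk, AddHom.coe_mk]
  rw [mulOp_wvec, inner_wvec]
  refine integral_congr_ae (Eventually.of_forall fun θ => ?_)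
  simp only [ContinuousMap.mul_apply, sphFun_apply]
  ring

theorem efunVec_injective : Function.Injective (efunVec lam p) := by
  refine (injective_iff_map_eq_zero _).2 fun F hF => Subtype.ext ?_
  refine Anal.ext_sphere (mem_efun.1 F.2).1 fun θ => ?_
  exact DFunLike.congr_fun (ContinuousMap.toLp_injective (𝕜 := ℝ) (p := 2) (sig 3)
    (hF.trans (map_zero wvec).symm)) θ

/-- The lift of an eigenvector is an eigenfunction vector. -/
theorem exists_efunVec_of_eigen (hp : ∀ θ : Sph 3, 0 < res p θ) {x : L2S} {ν : ℝ} (hν : 0 < ν)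
    (h : pencil (sphAlg 3 p) x = ν • x) :
    ∃ F : efun ν⁻¹ p, efunVec ν⁻¹ p F = lift (sphAlg 3 p) x := by
  obtain ⟨F, hF, hc, he⟩ := exists_efun_of_eigen hp hν h
  exact ⟨⟨F, hF⟩, he.symm⟩

/-- The lift is linear. -/
theorem lift_sum {ι : Type*} (s : Finset ι) (w : C(Sph 3, ℝ)) (c : ι → ℝ) (x : ι → L2S) :
    lift w (∑ a ∈ s, c a • x a) = ∑ a ∈ s, c a • lift w (x a) := by
  simp only [lift, map_sum, map_smul, inner_sum, real_inner_smul_right, smul_sub,
    Finset.sum_sub_distrib, Finset.mul_sum, Finset.sum_smul, smul_smul]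
  congr 1
  exact Finset.sum_congr rfl fun a _ => by rw [mul_left_comm]

/-- The vector behind an eigenfunction. -/
def efunPre (lam : ℝ) (p : MvPolynomial (Fin 3) ℝ) : efun lam p →ₗ[ℝ] L2S :=
  lam • (resolv.toLinearMap.comp ((mulOp (sphAlg 3 p)).toLinearMap.comp (efunVec lam p)))

/-- An eigenfunction is the lift of an eigenvector. -/
theorem eigen_of_efun (hp : ∀ θ : Sph 3, 0 < res p θ) (hlam : 0 < lam) (F : efun lam p) :
    pencil (sphAlg 3 p) (efunPre lam p F) = lam⁻¹ • efunPre lam p F ∧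
      lift (sphAlg 3 p) (efunPre lam p F) = efunVec lam p F := by
  have hw : ∀ θ, 0 < sphAlg 3 p θ := fun θ => by rw [sphAlg_apply]; exact hp θ
  set w := sphAlg 3 p
  set v := efunVec lam p F
  have hweak : ∀ l, ∀ r : MvPolynomial (Fin 3) ℝ, r.IsHomogeneous l → lapP r = 0 →
      (l : ℝ) * (l + 1) * ⟪v, toH r⟫ = lam * ⟪mulOp w v, toH r⟫ := fun l r hr hrl => by
    rw [inner_efunVec_toH, mulOp_symm, mulOp_toH, inner_efunVec_toH, efun_weak F.2 hr hrl]
    congr 1
    exact integral_congr_ae (Eventually.of_forall fun θ => by simp [res, evalFun]; ring)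
  have h0 : ⟪oneH, mulOp w v⟫ = 0 := by
    have h := hweak 0 1 (isHomogeneous_one _ _) (by simp [lapP])
    rw [Nat.cast_zero, zero_mul, zero_mul] at h
    have h1 : toH 1 = oneH := by simp [toH, oneH]
    rw [real_inner_comm, ← h1]
    exact ((mul_eq_zero.1 h.symm).resolve_left hlam.ne')
  set x := efunPre lam p F with hx'
  have hx : x = lam • resolv (mulOp w v) := rfl
  -- the difference is a constant
  obtain ⟨c, hc⟩ : ∃ c : ℝ, v - resolv x = c • oneH := by
    obtain ⟨q, hq, -, hq'⟩ := mem_levSpace.1 (lev_mem 0 (v - resolv x))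
    refine ⟨coeff 0 q, ?_⟩
    have e0 : lev 0 (v - resolv x) = coeff 0 q • oneH := by
      rw [← hq']
      conv_lhs => rw [totalDegree_eq_zero_iff_eq_C.1 ((totalDegree_zero_iff_isHomogeneous _).2 hq),
        show (MvPolynomial.C (coeff 0 q) : MvPolynomial (Fin 3) ℝ) = coeff 0 q • 1 by
          rw [smul_eq_C_mul, mul_one], map_smul, show toH 1 = oneH by simp [toH, oneH]]
    refine (hasSum_lev (v - resolv x)).unique ?_
    rw [← e0]
    refine hasSum_single 0 fun l hl => (Submodule.starProjection_apply_eq_zero_iff _).2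
      ((Submodule.mem_orthogonal _ _).2 fun z hz => ?_)
    obtain ⟨r, hr, hrl, rfl⟩ := mem_levSpace.1 hz
    have hlev : lev l (toH r) = toH r :=
      Submodule.starProjection_eq_self_iff.2 (toH_mem_levSpace hr hrl)
    have e : resolv (toH r) = resCoef l • toH r := by
      refine (hasSum_resolv_apply _).unique ?_
      have := hasSum_single (f := fun m => resCoef m • lev m (toH r)) l fun m hm => by
        rw [← hlev, lev_lev, if_neg hm, smul_zero]
      rwa [hlev] at this
    have e2 : ⟪toH r, resolv x⟫ = lam * (resCoef l * resCoef l) * ⟪mulOp w v, toH r⟫ := by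
      rw [← inner_resolv, e, hx, real_inner_smul_left, real_inner_smul_right, ← inner_resolv, e,
        real_inner_smul_left, real_inner_comm (mulOp w v)]
      ring
    have h1 := hweak l r hr hrl
    rw [inner_sub_right, e2, real_inner_comm v]
    linear_combination (resCoef l * resCoef l) * h1 - ⟪v, toH r⟫ * resCoef_sq hl
  have hv : v = resolv x + c • oneH := by rw [← hc]; abel
  have hlift : lift w x = v := by
    rw [hv, lift, sub_eq_add_neg, ← neg_smul]
    congr 2
    rw [← mulOp_symm, mulOp_oneH, hv, inner_add_right, real_inner_smul_right,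
      show ⟪wvec w, oneH⟫ = tot w from real_inner_comm _ _] at h0
    have := (tot_pos hw).ne'
    field_simp
    linarith
  refine ⟨?_, hlift⟩
  rw [pencil_apply, hlift, hx, smul_smul, inv_mul_cancel₀ hlam.ne', one_smul]

theorem efunPre_injective (hp : ∀ θ : Sph 3, 0 < res p θ) (hlam : 0 < lam) :
    Function.Injective (efunPre lam p) := fun F G h => efunVec_injective
  ((eigen_of_efun hp hlam F).2.symm.trans ((congrArg _ h).trans (eigen_of_efun hp hlam G).2))

/-- Eigenspaces are finite-dimensional. -/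
theorem finiteDimensional_efun (hp : ∀ θ : Sph 3, 0 < res p θ) (hlam : 0 < lam) :
    FiniteDimensional ℝ (efun lam p) := by
  have hw : ∀ θ, 0 < sphAlg 3 p θ := fun θ => by rw [sphAlg_apply]; exact hp θ
  have := ContinuousLinearMap.finite_dimensional_eigenspace (goodOp_pencil hw).compact lam⁻¹
    (inv_pos.2 hlam).ne'
  exact FiniteDimensional.of_injective
    ((efunPre lam p).codRestrict (Module.End.eigenspace (pencil (sphAlg 3 p)).toLinearMap lam⁻¹)
      fun F => Module.End.mem_eigenspace_iff.2 (eigen_of_efun hp hlam F).1)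
    fun F G h => efunPre_injective hp hlam (congrArg Subtype.val h)

/-- The eigenfunctions of an exact cluster. -/
theorem exists_cluster_efun (hp : ∀ θ : Sph 3, 0 < res p θ) {i r : ℕ}
    (hg : OuterGaps (sphAlg 3 p) i r) (hr : 1 ≤ r) (he : Exact (sphAlg 3 p) i r) :
    ∃ F : Fin r → efun (nu (pencil (sphAlg 3 p)) i)⁻¹ p,
      (∀ a, efunVec _ p (F a) = clusterFun (sphAlg 3 p) i a) ∧
      (∀ a b, ∫ θ, res p θ * ((F a).1 (θ : Space 3) * (F b).1 (θ : Space 3)) ∂(sig 3) =
        if a = b then nu (pencil (sphAlg 3 p)) i else 0) ∧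
      (∀ G : efun (nu (pencil (sphAlg 3 p)) i)⁻¹ p, ∃ c : Fin r → ℝ, G = ∑ a, c a • F a) ∧
      ∀ (a b : Fin r) (h : C(Sph 3, ℝ)), clusterD (sphAlg 3 p) i r a b h =
        (∫ θ, h θ * ((F a).1 (θ : Space 3) * (F b).1 (θ : Space 3)) ∂(sig 3)) -
          (if a = b then (1 : ℝ) else 0) / r *
            ∑ c, ∫ θ, h θ * ((F c).1 (θ : Space 3) * (F c).1 (θ : Space 3)) ∂(sig 3) := by
  have hw : ∀ θ, 0 < sphAlg 3 p θ := fun θ => by rw [sphAlg_apply]; exact hp θ
  have hT := goodOp_pencil hw
  set ν := nu (pencil (sphAlg 3 p)) i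
  have hx : ∀ a : Fin r, pencil (sphAlg 3 p) (clusterVec (sphAlg 3 p) i a) =
      ν • clusterVec (sphAlg 3 p) i a := fun a => by
    rw [clusterVec, (hT.eigvec_spec _).2.2.1, he a a.2]
  choose F hF using fun a => exists_efunVec_of_eigen hp (hT.nu_pos i) (hx a)
  refine ⟨F, hF, fun a b => ?_, fun G => ?_, fun a b h => ?_⟩
  · have h1 := inner_mulOp_efunVec (sphAlg 3 p) (F a) (F b)
    rw [hF, hF, ← inner_pencil (tot_pos hw).ne', hx, real_inner_smul_left, clusterVec, clusterVec,
      hT.inner_eigvec] at h1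
    simp only [sphAlg_apply] at h1
    refine h1.symm.trans ?_
    simp [Fin.val_inj]
  · obtain ⟨h1, h2⟩ := eigen_of_efun hp (inv_pos.2 (hT.nu_pos i)) G
    rw [inv_inv] at h1
    refine ⟨fun a => ⟪clusterVec (sphAlg 3 p) i a, efunPre ν⁻¹ p G⟫, efunVec_injective ?_⟩
    rw [← h2, map_sum]
    conv_lhs => rw [hT.eigen_eq_sum hr hg.1 hg.2 he h1, lift_sum]
    refine Finset.sum_congr rfl fun a _ => ?_
    rw [map_smul, hF a]
    rfl
  · simp only [clusterD, sub_apply, smul_apply, sum_apply, pairD_apply, smul_eq_mul, clusterFun, ← hF,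
      inner_mulOp_efunVec]

end

end Vale.Agent.P225.Disproof
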