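import Vale.Agent.P225.Disproof.CentreBlock
import Vale.Agent.P225.Disproof.CentreFirst
import Vale.Agent.P225.Disproof.CentreSecOp
import Vale.Agent.P225.Disproof.PencilEigen

/-!
# P225, module F: the labels of a cluster of the crossing shape

The eigenspace of an exact cluster of `certP e` is a labelled cluster for the first variation of
the pencil.
-/

namespace Vale.Agent.P225.Disproof

open MvPolynomial MeasureTheory Set
open scoped RealInnerProductSpace

noncomputable section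

/-- The first variation in the direction of a polynomial. -/
def varOp (w : C(Sph 3, ℝ)) : MvPolynomial (Fin 3) ℝ →ₗ[ℝ] (L2S →L[ℝ] L2S) :=
  (dPencil w).toLinearMap.comp (sphAlg 3).toLinearMap

theorem varOp_apply (w : C(Sph 3, ℝ)) (q : MvPolynomial (Fin 3) ℝ) :
    varOp w q = dPencil w (sphAlg 3 q) := rfl

theorem inner_varOp {p : MvPolynomial (Fin 3) ℝ} (hp : ∀ θ : Sph 3, 0 < res p θ) {lam : ℝ}
    (hlam : 0 < lam) (q : MvPolynomial (Fin 3) ℝ) (F G : efun lam p) :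
    ⟪varOp (sphAlg 3 p) q (efunPre lam p F), efunPre lam p G⟫ = hIp q F.1 G.1 := by
  have hw : ∀ θ, 0 < sphAlg 3 p θ := fun θ => by rw [sphAlg_apply]; exact hp θ
  rw [varOp_apply, inner_dPencil (tot_pos hw).ne', pairD_apply, (eigen_of_efun hp hlam F).2,
    (eigen_of_efun hp hlam G).2, inner_mulOp_efunVec, hIp]
  refine integral_congr_ae (Filter.Eventually.of_forall fun θ => ?_)
  simp [sphAlg_apply, res]
  ring

theorem inner_efunPre {p : MvPolynomial (Fin 3) ℝ} (hp : ∀ θ : Sph 3, 0 < res p θ) {lam : ℝ}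
    (hlam : 0 < lam) (F G : efun lam p) :
    ⟪efunPre lam p F, efunPre lam p G⟫ = lam * pIp p F.1 G.1 := by
  have hw : ∀ θ, 0 < sphAlg 3 p θ := fun θ => by rw [sphAlg_apply]; exact hp θ
  have h1 := inner_pencil (tot_pos hw).ne' (efunPre lam p F) (efunPre lam p G)
  rw [(eigen_of_efun hp hlam F).1, real_inner_smul_left, (eigen_of_efun hp hlam F).2,
    (eigen_of_efun hp hlam G).2, inner_mulOp_efunVec] at h1
  have h2 : ∫ θ, sphAlg 3 p θ * (F.1 (θ : Space 3) * G.1 (θ : Space 3)) ∂(sig 3) =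
      pIp p F.1 G.1 := by
    rw [pIp]
    refine integral_congr_ae (Filter.Eventually.of_forall fun θ => ?_)
    simp [sphAlg_apply, res]
    ring
  rw [← h2, ← h1, ← mul_assoc, mul_inv_cancel₀ hlam.ne', one_mul]

/-- The self coupling by the sine. -/
theorem block_sin {p : MvPolynomial (Fin 3) ℝ} {m : ℕ} (hm : m ≠ 0) {v : Space 3 → ℝ}
    (h : IsCos p m v) : hIp (hSin (2 * m)) v v = 0 ∧
      hIp (hSin (2 * m)) (sinOf m v) (sinOf m v) = 0 ∧
      hIp (hSin (2 * m)) v (sinOf m v) = hIp (hCos (2 * m)) v v := by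
  obtain ⟨-, -, hcw⟩ := block_self hm h
  have hmR : (m : ℝ) ≠ 0 := Nat.cast_ne_zero.2 hm
  set w := sinOf m v with hw
  have aw : w ∈ Anal := Anal.smul_mem _ (Anal.rot_mem h.anal 2)
  have hv' : rot 2 v = (-(m : ℝ)) • w := by
    rw [hw, sinOf, smul_smul, neg_mul_neg, mul_inv_cancel₀ hmR, one_smul]
  have hw' : rot 2 w = (m : ℝ) • v := h.rot_w
  obtain ⟨hc, hs⟩ := rotP2_cxPow (2 * m)
  have comm : ∀ (q : MvPolynomial (Fin 3) ℝ) (F G : Space 3 → ℝ), hIp q F G = hIp q G F :=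
    fun q F G => pIp_comm q F G
  have e1 := hIp_rot2 (hCos (2 * m)) h.anal h.anal
  have e2 := hIp_rot2 (hCos (2 * m)) aw aw
  have e3 := hIp_rot2 (hSin (2 * m)) h.anal h.anal
  rw [hc, ← map_neg, hIp_C_mul, hv', hIp_smul_left, hIp_smul_right, comm (hCos (2 * m)) w v, hcw]
    at e1
  rw [hc, ← map_neg, hIp_C_mul, hw', hIp_smul_left, hIp_smul_right, comm (hCos (2 * m)) w v, hcw]
    at e2
  rw [hs, hIp_C_mul, hv', hIp_smul_left, hIp_smul_right, comm (hSin (2 * m)) w v] at e3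
  push_cast at e1 e2 e3
  have h2 : (2 * (m : ℝ)) ≠ 0 := mul_ne_zero two_ne_zero hmR
  refine ⟨?_, ?_, ?_⟩
  · have : (2 * (m : ℝ)) * hIp (hSin (2 * m)) v v = 0 := by linarith
    exact (mul_eq_zero.1 this).resolve_left h2
  · have : (2 * (m : ℝ)) * hIp (hSin (2 * m)) w w = 0 := by linarith
    exact (mul_eq_zero.1 this).resolve_left h2
  · have : (2 * (m : ℝ)) * (hIp (hSin (2 * m)) v w - hIp (hCos (2 * m)) v v) = 0 := by linarith
    linarith [(mul_eq_zero.1 this).resolve_left h2]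

theorem rotP_certP (e : ℝ) : rotP 2 (certP e) = 0 := by
  simp [certP, Derivation.leibniz, rotP_apply]

/-- The labels of the eigenspace of a cluster of the crossing shape. -/
theorem exists_labels {e : ℝ} (he : e ∈ Icc 0 certE) {i r : ℕ} (hex : Exact (certWgt e) i r) :
    ∃ (S : Finset ℕ) (c s : ℕ → L2S), AxiBlocks (varOp (certWgt e)) S c s ∧
      (∀ x ∈ blockSpan c s S, pencil (certWgt e) x = nu (pencil (certWgt e)) i • x) ∧
      ∀ a : Fin r, eigvec (pencil (certWgt e)) (i + a) ∈ blockSpan c s S := by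
  classical
  set p := certP e
  have hp : ∀ θ : Sph 3, 0 < res p θ := fun θ => by linarith [res_certP_pos he.1 he.2 θ]
  have hT := goodOp_pencil (certWgt_pos he)
  set ν := nu (pencil (certWgt e)) i
  have hν : 0 < ν := hT.nu_pos i
  have hlam : 0 < ν⁻¹ := inv_pos.2 hν
  have := finiteDimensional_efun (p := p) (lam := ν⁻¹) hp hlam
  obtain ⟨S, v, w, hS, horth, hspan⟩ := axi_decomp hp (rotP_certP e) (efun ν⁻¹ p) le_rfl
    fun F hF => rot2_mem_efun (rotP_certP e) hF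
  let c : ℕ → L2S := fun m => if h : m ∈ S then efunPre ν⁻¹ p ⟨v m, (hS m h).1⟩ else 0
  let s : ℕ → L2S := fun m => if h : m ∈ S then efunPre ν⁻¹ p ⟨w m, (hS m h).2.1⟩ else 0
  have hc : ∀ m (h : m ∈ S), c m = efunPre ν⁻¹ p ⟨v m, (hS m h).1⟩ := fun m h => dif_pos h
  have hs : ∀ m (h : m ∈ S), s m = efunPre ν⁻¹ p ⟨w m, (hS m h).2.1⟩ := fun m h => dif_pos h
  have hB : ∀ q (F G : efun ν⁻¹ p),
      ⟪varOp (certWgt e) q (efunPre ν⁻¹ p F), efunPre ν⁻¹ p G⟫ = hIp q F.1 G.1 :=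
    fun q F G => inner_varOp hp hlam q F G
  have hI : ∀ F G : efun ν⁻¹ p, ⟪efunPre ν⁻¹ p F, efunPre ν⁻¹ p G⟫ = ν⁻¹ * pIp p F.1 G.1 :=
    fun F G => inner_efunPre hp hlam F G
  have hcc : ∀ m (h : m ∈ S), ⟪c m, c m⟫ = ν⁻¹ := fun m h => by
    rw [hc m h, hI, (hS m h).2.2.1.unit, mul_one]
  refine ⟨S, c, s, ⟨fun q x y => ?_, fun a ha b hb => ⟨?_, fun hab => ?_⟩,
    fun a ha => ⟨fun h0 => ?_, fun h0 => ?_, fun h0 => ?_⟩, fun M hM h0 => ?_,
    fun M hM h0 a ha hle b hb hlt q hq x hx y hy => ?_⟩, fun x hx => ?_, fun a => ?_⟩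
  · rw [varOp_apply, inner_dPencil (tot_pos (certWgt_pos he)).ne', real_inner_comm _ x,
      inner_dPencil (tot_pos (certWgt_pos he)).ne', pairD_apply, pairD_apply, mulOp_symm,
      real_inner_comm]
  · rw [hc a ha, hs b hb, hI]
    rcases eq_or_ne a b with rfl | hab
    · rw [(hS a ha).2.2.2.2.2.2.1, mul_zero]
    · rw [(horth a ha b hb hab).2.1, mul_zero]
  · rw [hc a ha, hc b hb, hs a ha, hs b hb, hI, hI, (horth a ha b hb hab).1,
      (horth a ha b hb hab).2.2.2, mul_zero]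
    exact ⟨rfl, rfl⟩
  · have := hcc a ha
    rw [h0, inner_zero_left] at this
    exact hlam.ne this
  · have h1 : ⟪s a, s a⟫ = ν⁻¹ := by
      rw [hs a ha, hI, (hS a ha).2.2.2.2.2.2.2.1 h0, mul_one]
    rw [norm_eq_sqrt_real_inner, norm_eq_sqrt_real_inner, h1, hcc a ha]
  · rw [hs a ha, show (⟨w a, (hS a ha).2.1⟩ : efun ν⁻¹ p) = 0 from
      Subtype.ext ((hS a ha).2.2.2.2.2.2.2.2 h0), map_zero]
  · obtain ⟨-, -, hcos, hw, -⟩ := hS M hM
    obtain ⟨a1, a2, a3⟩ := block_self h0 hcos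
    obtain ⟨b1, b2, b3⟩ := block_sin h0 hcos
    rw [← hw] at a2 a3 b2 b3
    refine ⟨_, a1, ⟨?_, ?_, ?_⟩, ⟨?_, ?_, ?_⟩⟩ <;>
      simp only [hc M hM, hs M hM, hB, a2, a3, b1, b2, b3]
  · have hq' : ∃ n, n = 2 * M ∧ rotP 2 (rotP 2 q) = MvPolynomial.C (-(n : ℝ) ^ 2) * q := by
      rcases hq with rfl | rfl
      exacts [⟨_, rfl, (rotP2_rotP2_cxPow _).1⟩, ⟨_, rfl, (rotP2_rotP2_cxPow _).2⟩]
    obtain ⟨n, hn, hh⟩ := hq'
    have key : ∀ (F G : efun ν⁻¹ p), IsSec a F.1 → IsSec b G.1 →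
        ⟪varOp (certWgt e) q (efunPre ν⁻¹ p F), efunPre ν⁻¹ p G⟫ = 0 := fun F G hF hG => by
      rw [hB]
      exact coupling_zero hh F.2.1 G.2.1 hF hG (by omega) (by omega) (by omega)
    obtain ⟨-, -, hva, hwa, -⟩ := hS a ha
    obtain ⟨-, -, hvb, hwb, -⟩ := hS b hb
    have hwa' : IsSec a (w a) := hwa ▸ hva.sec_sin
    have hwb' : IsSec b (w b) := hwb ▸ hvb.sec_sin
    rcases hx with rfl | rfl <;> rcases hy with rfl | rfl
    · rw [hc a ha, hc b hb]; exact key _ _ hva.sec hvb.sec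
    · rw [hc a ha, hs b hb]; exact key _ _ hva.sec hwb'
    · rw [hs a ha, hc b hb]; exact key _ _ hwa' hvb.sec
    · rw [hs a ha, hs b hb]; exact key _ _ hwa' hwb'
  · have hgen : ∀ F : efun ν⁻¹ p,
        pencil (certWgt e) (efunPre ν⁻¹ p F) = ν • efunPre ν⁻¹ p F := fun F => by
      have := (eigen_of_efun hp hlam F).1
      rwa [inv_inv] at this
    induction hx using Submodule.span_induction with
    | mem x hx =>
      rcases hx with ⟨a, ha, rfl⟩ | ⟨a, ha, rfl⟩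
      · rw [hc a ha]; exact hgen _
      · rw [hs a ha]; exact hgen _
    | zero => simp
    | add x y _ _ hx hy => rw [map_add, hx, hy, smul_add]
    | smul t x _ hx => rw [map_smul, hx, smul_comm]
  · set x := eigvec (pencil (certWgt e)) (i + a)
    have hx : pencil (certWgt e) x = ν • x := by
      rw [(hT.eigvec_spec _).2.2.1, hex a a.2]
    obtain ⟨G, hG⟩ := exists_efunVec_of_eigen hp hν hx
    have hpre : efunPre ν⁻¹ p G = x := by
      show ν⁻¹ • resolv (mulOp (sphAlg 3 p) (efunVec ν⁻¹ p G)) = x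
      rw [hG, ← pencil_apply, show sphAlg 3 p = certWgt e from rfl, hx, smul_smul,
        inv_mul_cancel₀ hν.ne', one_smul]
    rw [← hpre]
    have hGE : (G.1 : Space 3 → ℝ) ∈ Submodule.span ℝ (v '' S ∪ w '' S) := hspan ▸ G.2
    obtain ⟨G', hG'⟩ : ∃ G' : efun ν⁻¹ p, G'.1 = G.1 ∧
        efunPre ν⁻¹ p G' ∈ blockSpan c s S := by
      have hind : ∀ f ∈ Submodule.span ℝ (v '' (S : Set ℕ) ∪ w '' S), ∃ G' : efun ν⁻¹ p,
          G'.1 = f ∧ efunPre ν⁻¹ p G' ∈ blockSpan c s S := fun f hf => by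
        induction hf using Submodule.span_induction with
        | mem f hf =>
          rcases hf with ⟨m, hm, rfl⟩ | ⟨m, hm, rfl⟩
          · exact ⟨⟨v m, (hS m hm).1⟩, rfl,
              hc m hm ▸ Submodule.subset_span (Or.inl ⟨m, hm, rfl⟩)⟩
          · exact ⟨⟨w m, (hS m hm).2.1⟩, rfl,
              hs m hm ▸ Submodule.subset_span (Or.inr ⟨m, hm, rfl⟩)⟩
        | zero => exact ⟨0, rfl, by rw [map_zero]; exact zero_mem _⟩
        | add f g _ _ hf hg =>
          obtain ⟨F, rfl, hF⟩ := hf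
          obtain ⟨G', rfl, hG'⟩ := hg
          exact ⟨F + G', rfl, by rw [map_add]; exact add_mem hF hG'⟩
        | smul t f _ hf =>
          obtain ⟨F, rfl, hF⟩ := hf
          exact ⟨t • F, rfl, by rw [map_smul]; exact Submodule.smul_mem _ _ hF⟩
      exact hind _ hGE
    rw [← Subtype.ext hG'.1]
    exact hG'.2

end

end Vale.Agent.P225.Disproof
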