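import Vale.Agent.P225.Disproof.CentreClose
import Vale.Agent.P225.Disproof.CentreLabels
import Vale.Agent.P225.Disproof.LoopSpec
import Vale.Agent.P225.Disproof.StrataUniform

/-!
# P225, module F: a reversing circle next to every closed gap

Around the crossing shape with gap `j` closed a small circle of shapes, in one degree for all `j`,
has gap `j` open, and the top projection reverses its orientation along it.
-/

namespace Vale.Agent.P225.Disproof

open MvPolynomial MeasureTheory Set Filter Topology Strata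
open scoped RealInnerProductSpace

noncomputable section

/-- The first eigenvectors span the top space. -/
theorem topSpace_le_span {T : L2S →L[ℝ] L2S} : ∀ {k i : ℕ}, k ≤ i →
    topSpace T k ≤ Submodule.span ℝ (eigvec T '' Set.Iio i)
  | 0, i, _ => bot_le
  | k + 1, i, h =>
    sup_le (topSpace_le_span (by omega)) (Submodule.span_le.2 fun x hx => by
      rw [Set.mem_singleton_iff.1 hx]
      exact Submodule.subset_span ⟨k, (show k < i by omega), rfl⟩)

/-- Top states of a cluster lie below it or in any space holding its eigenvectors. -/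
theorem top_le_sup {T : L2S →L[ℝ] L2S} {i r : ℕ} {Msp : Submodule ℝ L2S}
    (hvec : ∀ a : Fin r, eigvec T (i + a) ∈ Msp) : topSpace T (i + r) ≤ topSpace T i ⊔ Msp := by
  refine (topSpace_le_span le_rfl).trans (Submodule.span_le.2 ?_)
  rintro _ ⟨k, hk, rfl⟩
  rcases lt_or_ge k i with h | h
  · exact Submodule.mem_sup_left (eigvec_mem T h)
  · have := hvec ⟨k - i, by simp only [Set.mem_Iio] at hk; omega⟩
    rw [show i + (k - i) = k by omega] at this
    exact Submodule.mem_sup_right this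

/-- The frame: fixed eigenvectors, the turning state, a fixed basis. -/
def turnFrame (T : L2S →L[ℝ] L2S) (c s : ℕ → L2S) (M i : ℕ) (f : ℕ → L2S) (j : ℕ) (φ : ℝ)
    (k : Fin j) : L2S :=
  if (k : ℕ) < i then eigvec T k else if (k : ℕ) = i then turnVec c s M φ else f (k - i - 1)

theorem continuous_turnFrame (T : L2S →L[ℝ] L2S) (c s : ℕ → L2S) (M i : ℕ) (f : ℕ → L2S) (j : ℕ) :
    Continuous fun x : ℝ => turnFrame T c s M i f j (2 * Real.pi * x) := by
  refine continuous_pi fun k => ?_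
  simp only [turnFrame]
  split_ifs
  · exact continuous_const
  · simp only [turnVec]; fun_prop
  · exact continuous_const

/-- The frame returns with its turning state negated. -/
theorem turnFrame_return (T : L2S →L[ℝ] L2S) (c s : ℕ → L2S) (M : ℕ) {i j : ℕ} (hij : i < j)
    (f : ℕ → L2S) : ∃ C : Matrix (Fin j) (Fin j) ℝ,
      (∀ k, turnFrame T c s M i f j (2 * Real.pi * 1) k =
        ∑ m, C m k • turnFrame T c s M i f j (2 * Real.pi * 0) m) ∧ C.det = -1 := by
  refine ⟨Matrix.diagonal fun k : Fin j => if (k : ℕ) = i then -1 else 1, fun k => ?_, ?_⟩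
  · rw [Finset.sum_eq_single k]
    · rw [Matrix.diagonal_apply_eq]
      simp only [turnFrame, turnVec, mul_one, mul_zero, zero_div, Real.cos_zero, Real.sin_zero,
        show 2 * Real.pi / 2 = Real.pi by ring, Real.cos_pi, Real.sin_pi]
      split_ifs with h1 h2
      · omega
      all_goals simp
    · intro m _ hm
      rw [Matrix.diagonal_apply_ne _ hm, zero_smul]
    · exact fun h => absurd (Finset.mem_univ k) h
  · rw [Matrix.det_diagonal, Finset.prod_eq_single ⟨i, hij⟩]
    · simp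
    · exact fun k _ hk => if_neg fun h => hk (Fin.ext h)
    · exact fun h => absurd (Finset.mem_univ _) h

/-- A harmonic shape with given values. -/
theorem exists_shape {D : ℕ} {q : MvPolynomial (Fin 3) ℝ} (hq : q.totalDegree ≤ D) :
    ∃ a : Gal D, wt D a = sphAlg 3 q := by
  obtain ⟨a, ha⟩ := exists_harm_rep hq
  exact ⟨a, ContinuousMap.ext fun θ => by rw [wt_eval, sphAlg_apply]; exact ha θ⟩

/-- The small perturbations of a weight along a circle of shapes. -/
theorem exists_radius {D : ℕ} {U : Set (Gal D)} (hU : IsOpen U) {p₀ : Gal D} (hp₀ : p₀ ∈ U)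
    (a b d : Gal D) {δ η₀ : ℝ} (hη₀ : 0 < η₀) :
    ∃ η ∈ Ioc 0 η₀, ∀ φ : ℝ, p₀ + η • (Real.cos φ • a + Real.sin φ • b + δ • d) ∈ U := by
  obtain ⟨ρ, hρ, hball⟩ := Metric.isOpen_iff.1 hU p₀ hp₀
  set K := ‖a‖ + ‖b‖ + ‖δ • d‖ + 1
  have hK : 0 < K := by positivity
  refine ⟨min η₀ (ρ / (2 * K)), ⟨lt_min hη₀ (by positivity), min_le_left _ _⟩, fun φ => hball ?_⟩
  rw [Metric.mem_ball, dist_eq_norm, add_sub_cancel_left, norm_smul, Real.norm_eq_abs,
    abs_of_pos (lt_min hη₀ (by positivity))]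
  have h1 : ‖Real.cos φ • a + Real.sin φ • b + δ • d‖ ≤ K := by
    refine (norm_add₃_le).trans ?_
    have ha : ‖Real.cos φ • a‖ ≤ ‖a‖ := by
      rw [norm_smul, Real.norm_eq_abs]
      exact mul_le_of_le_one_left (norm_nonneg a) (Real.abs_cos_le_one φ)
    have hb : ‖Real.sin φ • b‖ ≤ ‖b‖ := by
      rw [norm_smul, Real.norm_eq_abs]
      exact mul_le_of_le_one_left (norm_nonneg b) (Real.abs_sin_le_one φ)
    linarith
  have h2 := min_le_right η₀ (ρ / (2 * K))
  rw [le_div_iff₀ (by positivity)] at h2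
  calc min η₀ (ρ / (2 * K)) * ‖Real.cos φ • a + Real.sin φ • b + δ • d‖
      ≤ min η₀ (ρ / (2 * K)) * K :=
        mul_le_mul_of_nonneg_left h1 (lt_min hη₀ (by positivity)).le
    _ < ρ := by linarith

/-- The forms of a nearby weight on the turning split. -/
theorem exists_eta {w0 : C(Sph 3, ℝ)} (hw : ∀ θ, 0 < w0 θ) {i r : ℕ}
    (hg : OuterGaps w0 i r) (hr : 1 ≤ r) (hex : Exact w0 i r) {Msp : Submodule ℝ L2S}
    [FiniteDimensional ℝ Msp]
    (heig : ∀ x ∈ Msp, pencil w0 x = nu (pencil w0) i • x)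
    (hvec : ∀ a : Fin r, eigvec (pencil w0) (i + a) ∈ Msp)
    {qa qb qd : C(Sph 3, ℝ)} {γ0 γ1 : ℝ} (hγ : γ0 < γ1) :
    topSpace (pencil w0) i ⟂ Msp ∧ ∃ η₀ > (0 : ℝ), ∀ η ∈ Ioc 0 η₀, ∀ (φ : ℝ) (S0 : Submodule ℝ L2S), S0 ≤ Msp →
      (∀ x ∈ S0, γ1 * ‖x‖ ^ 2 ≤
        ⟪dPencil w0 (Real.cos φ • qa + Real.sin φ • qb + qd) x, x⟫) →
      (∀ x ∈ Msp ⊓ S0ᗮ,
        ⟪dPencil w0 (Real.cos φ • qa + Real.sin φ • qb + qd) x, x⟫ ≤ γ0 * ‖x‖ ^ 2) →
      ∃ lo hi : ℝ, lo < hi ∧
        (∀ x ∈ topSpace (pencil w0) i ⊔ S0, hi * ‖x‖ ^ 2 ≤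
          ⟪pencil (w0 + η • (Real.cos φ • qa + Real.sin φ • qb + qd)) x, x⟫) ∧
        ∀ y ∈ (topSpace (pencil w0) i ⊔ S0)ᗮ,
          ⟪pencil (w0 + η • (Real.cos φ • qa + Real.sin φ • qb + qd)) y, y⟫ ≤ lo * ‖y‖ ^ 2 := by
  set T := pencil w0
  have hT := goodOp_pencil hw
  set ν := nu T i
  have hnu : nu T (i + r) < ν := by
    refine hg.2.2.trans_le (le_of_eq ?_)
    rw [show i + r - 1 = i + (r - 1) by omega]
    exact hex _ (by omega)
  have hperp : topSpace T i ⟂ Msp := by
    rw [Submodule.isOrtho_iff_inner_eq]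
    intro a ha x hx
    have key : ∀ k < i, ⟪eigvec T k, x⟫ = 0 := fun k hk => by
      have h1 : ν < nu T k := by
        rcases hg.1 with h0 | h0
        · omega
        · exact h0.2.trans_le (hT.nu_antitone (by omega))
      have h2 := hT.symm (eigvec T k) x
      rw [(hT.eigvec_spec k).2.2.1, heig x hx, real_inner_smul_left, real_inner_smul_right] at h2
      have : (nu T k - ν) * ⟪eigvec T k, x⟫ = 0 := by linarith
      exact (mul_eq_zero.1 this).resolve_left (sub_ne_zero.2 h1.ne')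
    exact orth_of_gens (G := eigvec T '' Set.Iio i) (G' := {x})
      (by rintro _ ⟨k, hk, rfl⟩ _ rfl; exact key k hk) (topSpace_le_span le_rfl ha)
      (Submodule.subset_span rfl)
  have htop : topSpace T (i + r) ≤ topSpace T i ⊔ Msp := top_le_sup hvec
  obtain ⟨g, hg0, hgA, hgB⟩ : ∃ g > (0 : ℝ),
      (∀ a ∈ topSpace T i, (ν + g) * ‖a‖ ^ 2 ≤ ⟪T a, a⟫) ∧ nu T (i + r) ≤ ν - g := by
    rcases Nat.eq_zero_or_pos i with h0 | h0
    · refine ⟨ν - nu T (i + r), sub_pos.2 hnu, fun a ha => ?_, by linarith⟩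
      rw [h0] at ha
      simp [(Submodule.mem_bot ℝ).1 ha]
    · have h1 : ν < nu T (i - 1) := (hg.1.resolve_left (by omega)).2
      refine ⟨min (nu T (i - 1) - ν) (ν - nu T (i + r)), lt_min (by linarith) (by linarith),
        fun a ha => le_trans (mul_le_mul_of_nonneg_right ?_ (sq_nonneg _)) (hT.le_form h0 ha), ?_⟩
      · linarith [min_le_left (nu T (i - 1) - ν) (ν - nu T (i + r))]
      · linarith [min_le_right (nu T (i - 1) - ν) (ν - nu T (i + r))]
  set Kq := ‖qa‖ + ‖qb‖ + ‖qd‖ + 1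
  have hKq : 0 < Kq := by positivity
  set C := ‖dPencil w0‖ * Kq
  obtain ⟨η1, hη1, hpert⟩ := exists_pert_bound (H := L2S) ν hg0
    (show 0 ≤ C by positivity) hγ
  set D := γ1 - γ0
  have hD : 0 < D := sub_pos.2 hγ
  obtain ⟨δr, hδr, hrem⟩ := exists_remainder (tot_pos hw).ne' (ε := D / 8 / Kq) (by positivity)
  refine ⟨hperp, min η1 (δr / (2 * Kq)), lt_min hη1 (by positivity),
    fun η hη φ S0 hS0 hlo hhi => ?_⟩
  set h := Real.cos φ • qa + Real.sin φ • qb + qd
  have hh : ‖h‖ ≤ Kq := by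
    refine (norm_add₃_le).trans ?_
    have ha : ‖Real.cos φ • qa‖ ≤ ‖qa‖ := by
      rw [norm_smul, Real.norm_eq_abs]
      exact mul_le_of_le_one_left (norm_nonneg qa) (Real.abs_cos_le_one φ)
    have hb : ‖Real.sin φ • qb‖ ≤ ‖qb‖ := by
      rw [norm_smul, Real.norm_eq_abs]
      exact mul_le_of_le_one_left (norm_nonneg qb) (Real.abs_sin_le_one φ)
    linarith
  have hηh : ‖η • h‖ ≤ η * Kq := by
    rw [norm_smul, Real.norm_eq_abs, abs_of_pos hη.1]
    exact mul_le_mul_of_nonneg_left hh hη.1.le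
  have hη2 : η * Kq < δr := by
    have := (le_div_iff₀ (by positivity)).1 (hη.2.trans (min_le_right η1 (δr / (2 * Kq))))
    nlinarith [hη.1]
  set E := pencil (w0 + η • h) - T with hE
  have hEb : ‖E - η • dPencil w0 h‖ ≤ η * (D / 8) := by
    rw [← map_smul]
    refine (hrem _ (hηh.trans_lt hη2)).trans ?_
    calc D / 8 / Kq * ‖η • h‖ ≤ D / 8 / Kq * (η * Kq) :=
          mul_le_mul_of_nonneg_left hηh (by positivity)
      _ = η * (D / 8) := by field_simp
  have hmem : ∀ a ∈ topSpace T i, T a ∈ topSpace T i ∧ (ν + g) * ‖a‖ ^ 2 ≤ ⟪T a, a⟫ :=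
    fun a ha => ⟨hT.topSpace_inv i ha, hgA a ha⟩
  have hB : ∀ y ∈ (topSpace T i ⊔ Msp)ᗮ, ⟪T y, y⟫ ≤ (ν - g) * ‖y‖ ^ 2 := fun y hy =>
    (hT.form_le (Submodule.orthogonal_le htop hy)).trans
      (mul_le_mul_of_nonneg_right hgB (sq_nonneg _))
  obtain ⟨h1, h2⟩ := hpert η ⟨hη.1, hη.2.trans (min_le_left _ _)⟩ T (dPencil w0 h) E
    (topSpace T i) Msp S0 inferInstance hT.symm hperp hmem heig hB
    (((dPencil w0).le_opNorm h).trans (mul_le_mul_of_nonneg_left hh (norm_nonneg _))) hS0 hlo hhi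
    hEb
  rw [hE, add_sub_cancel] at h1 h2
  exact ⟨_, _, by nlinarith [hη.1], h1, h2⟩

/-- The circle around one closed gap. -/
theorem exists_flipping_loop {j : ℕ} (hj : j ∈ Icc 225 728) :
    ∃ N : ℕ, ∀ D, N ≤ D → ∀ U : Set (Gal D), IsOpen U → (∀ p ∈ U, wt D p ∈ PosW) →
      (∀ e ∈ Icc 0 certE, ∃ p ∈ U, wt D p = sphAlg 3 (certP e)) →
      ∃ g : ℝ → Gal D, ContDiff ℝ 1 g ∧ g 0 = g 1 ∧
        (∀ x ∈ Icc (0 : ℝ) 1, g x ∈ U ∧ Gap (pencil (wt D (g x))) j) ∧
        TurnsBy j (fun x => topProj (pencil (wt D (g x))) j) 0 1 (-1) := by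
  obtain ⟨e, he, hclosed⟩ := exists_closed_gap hj
  have hw := certWgt_pos he
  have hT := goodOp_pencil hw
  obtain ⟨i, r, hr2, hij, hjir, hgi, hgir, hex⟩ :=
    hT.exists_cluster (show 1 ≤ j by have := hj.1; omega) hclosed
  obtain ⟨S, c, s, hblk, heig, hvec⟩ := exists_labels he hex
  set T0 := pencil (certWgt e)
  have htop : topSpace T0 (i + r) ≤ topSpace T0 i ⊔ blockSpan c s S := top_le_sup hvec
  have hrn : r ≤ Module.finrank ℝ (blockSpan c s S) := by
    have h1 := (Submodule.finrank_mono htop).trans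
      (Submodule.finrank_add_le_finrank_add_finrank _ _)
    rw [hT.finrank_topSpace, hT.finrank_topSpace] at h1
    omega
  obtain ⟨M, hM, h0, q, S1, hS1, hS1r, δ, -, γ0, γ1, hγ, hsplit⟩ :=
    hblk.exists_turn (r := j - i) (by omega) (by omega)
  have : FiniteDimensional ℝ S1 := Submodule.finiteDimensional_of_le hS1
  refine ⟨max (hCos (2 * M)).totalDegree (max (hSin (2 * M)).totalDegree q.totalDegree),
    fun D hD U hU hpos hseg => ?_⟩
  obtain ⟨a, ha⟩ := exists_shape (D := D) ((le_max_left _ _).trans hD)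
  obtain ⟨b, hb⟩ := exists_shape (D := D) (((le_max_left _ _).trans (le_max_right _ _)).trans hD)
  obtain ⟨d, hd⟩ := exists_shape (D := D) (((le_max_right _ _).trans (le_max_right _ _)).trans hD)
  obtain ⟨p₀, hp₀U, hp₀⟩ := hseg e he
  obtain ⟨hperp, η₀, hη₀, hforms⟩ := exists_eta hw (qa := sphAlg 3 (hCos (2 * M)))
    (qb := sphAlg 3 (hSin (2 * M))) (qd := δ • sphAlg 3 q) ⟨hgi, hgir⟩ (by omega) hex heig hvec hγ
  obtain ⟨η, hη, hball⟩ := exists_radius hU hp₀U a b d (δ := δ) hη₀
  set g : ℝ → Gal D := fun x => p₀ + η • (Real.cos (2 * Real.pi * x) • a +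
    Real.sin (2 * Real.pi * x) • b + δ • d) with hg
  have hwg : ∀ x, wt D (g x) = certWgt e + η • (Real.cos (2 * Real.pi * x) •
      sphAlg 3 (hCos (2 * M)) + Real.sin (2 * Real.pi * x) • sphAlg 3 (hSin (2 * M)) +
        δ • sphAlg 3 q) := fun x => by
    simp only [hg, map_add, map_smul, ha, hb, hd, hp₀]
    rfl
  have hcpl : ∀ φ, dPencil (certWgt e) (Real.cos φ • sphAlg 3 (hCos (2 * M)) +
      Real.sin φ • sphAlg 3 (hSin (2 * M)) + δ • sphAlg 3 q) =
      varOp (certWgt e) (rotCpl M φ + δ • q) := fun φ => by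
    rw [varOp_apply, rotCpl, map_add (sphAlg 3), map_add (sphAlg 3), map_smul, map_smul, map_smul]
  have hgood : ∀ x, GoodOp (pencil (wt D (g x))) := fun x =>
    goodOp_pencil (hpos _ (hball (2 * Real.pi * x)))
  have hle : blockSpan c s (S.erase M) ≤ blockSpan c s S := Submodule.span_mono
    (union_subset_union (image_mono (Finset.coe_subset.2 (Finset.erase_subset M S)))
      (image_mono (Finset.coe_subset.2 (Finset.erase_subset M S))))
  -- the frame
  obtain ⟨bs⟩ : Nonempty (Module.Basis (Fin (Module.finrank ℝ S1)) ℝ S1) :=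
    ⟨Module.finBasis ℝ S1⟩
  let f : ℕ → L2S := fun n => if h : n < Module.finrank ℝ S1 then (bs ⟨n, h⟩ : L2S) else 0
  set W : ℝ → Submodule ℝ L2S := fun φ =>
    topSpace T0 i ⊔ (Submodule.span ℝ {turnVec c s M φ} ⊔ S1) with hW
  have hS0le : ∀ φ, Submodule.span ℝ {turnVec c s M φ} ⊔ S1 ≤ blockSpan c s S := fun φ =>
    sup_le (by rw [Submodule.span_le, Set.singleton_subset_iff]; exact turnVec_mem c s hM φ)
      (hS1.trans hle)
  have hWdim : ∀ φ, Module.finrank ℝ (W φ) = j := fun φ => by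
    have hd : topSpace T0 i ⊓ (Submodule.span ℝ {turnVec c s M φ} ⊔ S1) = ⊥ :=
      (Submodule.eq_bot_iff _).2 fun x hx => inner_self_eq_zero.1
        (Submodule.isOrtho_iff_inner_eq.1 hperp x hx.1 x (hS0le φ hx.2))
    have := Submodule.finrank_sup_add_finrank_inf_eq (topSpace T0 i)
      (Submodule.span ℝ {turnVec c s M φ} ⊔ S1)
    rw [hd, finrank_bot, add_zero, hT.finrank_topSpace, hblk.finrank_turn hM h0 φ hS1] at this
    rw [hW, this]
    omega
  have hframe : ∀ φ, W φ ≤ Submodule.span ℝ (range (turnFrame T0 c s M i f j φ)) := fun φ => by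
    refine sup_le ((topSpace_le_span le_rfl).trans (Submodule.span_le.2 ?_)) (sup_le ?_ ?_)
    · rintro _ ⟨k, hk, rfl⟩
      have hk' : k < i := hk
      exact Submodule.subset_span ⟨⟨k, by omega⟩, if_pos hk'⟩
    · rw [Submodule.span_le, Set.singleton_subset_iff]
      exact Submodule.subset_span ⟨⟨i, hij⟩, by simp [turnFrame]⟩
    · intro x hx
      have hx' := bs.sum_repr ⟨x, hx⟩
      have : x = ∑ n, bs.repr ⟨x, hx⟩ n • (bs n : L2S) := by
        have h := congrArg Subtype.val hx'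
        simp only [Submodule.coe_sum, Submodule.coe_smul] at h
        exact h.symm
      rw [this]
      refine Submodule.sum_mem _ fun n _ => Submodule.smul_mem _ _ (Submodule.subset_span
        ⟨⟨i + 1 + n, by omega⟩, ?_⟩)
      simp only [turnFrame, if_neg (show ¬i + 1 + (n : ℕ) < i by omega),
        if_neg (show i + 1 + (n : ℕ) ≠ i by omega), f,
        show i + 1 + (n : ℕ) - i - 1 = n by omega, dif_pos n.2]
  have hind : ∀ φ, LinearIndependent ℝ (turnFrame T0 c s M i f j φ) := fun φ => by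
    rw [linearIndependent_iff_card_eq_finrank_span, Fintype.card_fin]
    have : FiniteDimensional ℝ (Submodule.span ℝ (range (turnFrame T0 c s M i f j φ))) :=
      FiniteDimensional.span_of_finite ℝ (Set.finite_range _)
    refine le_antisymm ((hWdim φ).symm.le.trans (Submodule.finrank_mono (hframe φ))) ?_
    exact (finrank_range_le_card _).trans (Fintype.card_fin _).le
  have hspan : ∀ φ, Submodule.span ℝ (range (turnFrame T0 c s M i f j φ)) = W φ := fun φ => by
    have : FiniteDimensional ℝ (Submodule.span ℝ (range (turnFrame T0 c s M i f j φ))) :=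
      FiniteDimensional.span_of_finite ℝ (Set.finite_range _)
    refine (Submodule.eq_of_le_of_finrank_eq (hframe φ) ?_).symm
    rw [hWdim, finrank_span_eq_card (hind φ), Fintype.card_fin]
  have hgap : ∀ x, Gap (pencil (wt D (g x))) j ∧
      ∀ z ∈ Submodule.span ℝ (range (turnFrame T0 c s M i f j (2 * Real.pi * x))),
        topProj (pencil (wt D (g x))) j z = 0 → z = 0 := fun x => by
    obtain ⟨hlo, hhi⟩ := hsplit (2 * Real.pi * x)
    obtain ⟨lo, hi, hlh, h1, h2⟩ := hforms η hη (2 * Real.pi * x) _ (hS0le _)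
      (fun z hz => by rw [hcpl]; exact hlo z hz) (fun z hz => by rw [hcpl]; exact hhi z hz)
    rw [← hwg] at h1 h2
    rw [hspan]
    have : FiniteDimensional ℝ (W (2 * Real.pi * x)) := by
      rw [← hspan]
      exact FiniteDimensional.span_of_finite ℝ (Set.finite_range _)
    exact gap_of_forms (hgood x) (S := W (2 * Real.pi * x)) (by omega) (hWdim _) hlh h1 h2
  have hgd : ContDiff ℝ 1 g := by rw [hg]; fun_prop
  have hper : g 1 = g 0 := by
    simp only [hg, mul_one, mul_zero, Real.cos_two_pi, Real.sin_two_pi, Real.cos_zero,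
      Real.sin_zero]
  obtain ⟨C, hC, hdet⟩ := turnFrame_return T0 c s M hij f
  refine ⟨g, hgd, hper.symm, fun x _ => ⟨hball _, (hgap x).1⟩,
    turnsBy_of_frame (T := fun x => pencil (wt D (g x))) ?_ (by simp only [hper])
      (fun x _ => hgood x) (fun x _ => (hgap x).1)
      (continuous_turnFrame T0 c s M i f j).continuousOn (fun x _ => hind _)
      (fun x _ => (hgap x).2) (C := C) hC (by rw [hdet]; norm_num)⟩
  intro x _
  have hc : ContinuousAt (fun x => wt D (g x)) x :=
    ((wt D).continuous.comp hgd.continuous).continuousAt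
  exact (ContinuousAt.comp (g := pencil) (f := fun x => wt D (g x))
    (continuousAt_pencil (tot_pos (hpos (g x) (hball _))).ne') hc).continuousWithinAt

end

end Vale.Agent.P225.Disproof
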