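import Vale.Agent.P225.Disproof.CertZonal

/-!
# P225, module F (ii): the sector certificates

Picone's identity with the comparison exponent `l / 2 log (x ^ 2 + y ^ 2 + ε) + c z ^ 2`: a `C²`
function with `rot 2 (rot 2 u) = -l ^ 2 u` on the sphere is above `certMu` for the crossing shape.
-/

namespace Vale.Agent.P225.Disproof

open MvPolynomial MeasureTheory Set

noncomputable section

/-- The regularisation of the comparison function. -/
def certEps : ℝ := 1 / 1000000

/-- The squared distance to the axis, regularised. -/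
def axisA (x : Space 3) : ℝ := x 0 ^ 2 + x 1 ^ 2 + certEps

theorem axisA_pos (x : Space 3) : 0 < axisA x := by
  have := sq_nonneg (x 0)
  have := sq_nonneg (x 1)
  norm_num [axisA, certEps]
  linarith

theorem contDiff_coord (a : Fin 3) {m : WithTop ℕ∞} : ContDiff ℝ m fun x : Space 3 => x a :=
  (EuclideanSpace.proj a : Space 3 →L[ℝ] ℝ).contDiff

theorem pd_coord (a b : Fin 3) (x : Space 3) :
    pd b (fun y => y a) x = if b = a then 1 else 0 := by
  rw [pd, show (fun y : Space 3 => y a) = ⇑(EuclideanSpace.proj a : Space 3 →L[ℝ] ℝ) from rfl,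
    (EuclideanSpace.proj a : Space 3 →L[ℝ] ℝ).fderiv]
  simp [eq_comm]

theorem rot_coord (j a : Fin 3) (x : Space 3) : rot j (fun y => y a) x =
    (if a = j + 2 then x (j + 1) else 0) - if a = j + 1 then x (j + 2) else 0 := by
  simp [rot, pd_coord, eq_comm]

theorem contDiff_axisA {m : WithTop ℕ∞} : ContDiff ℝ m axisA :=
  (((contDiff_coord 0).pow 2).add ((contDiff_coord 1).pow 2)).add contDiff_const

theorem rot_axisA (j : Fin 3) (x : Space 3) :
    rot j axisA x = 2 * x 0 * rot j (fun y => y 0) x + 2 * x 1 * rot j (fun y => y 1) x := by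
  have h : ∀ a : Fin 3, Differentiable ℝ fun y : Space 3 => y a := fun a =>
    (contDiff_coord a (m := 1)).differentiable one_ne_zero
  simp only [rot_eq_fderiv]
  rw [show axisA = fun y : Space 3 => (y 0 * y 0 + y 1 * y 1) + certEps from
    funext fun y => by simp only [axisA]; ring]
  rw [fderiv_add_const, fderiv_fun_add ((h 0 x).fun_mul (h 0 x)) ((h 1 x).fun_mul (h 1 x)),
    fderiv_fun_mul (h 0 x) (h 0 x), fderiv_fun_mul (h 1 x) (h 1 x)]
  simp only [add_apply, smul_apply, smul_eq_mul]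
  ring

/-- The factor of the comparison field. -/
def pkap (l c : ℝ) (x : Space 3) : ℝ := 2 * c - l * (axisA x)⁻¹

theorem contDiff_pkap (l c : ℝ) {m : WithTop ℕ∞} : ContDiff ℝ m (pkap l c) :=
  contDiff_const.sub (contDiff_const.mul (contDiff_axisA.inv fun x => (axisA_pos x).ne'))

theorem rot_pkap (l c : ℝ) (j : Fin 3) (x : Space 3) :
    rot j (pkap l c) x = l / axisA x ^ 2 * rot j axisA x := by
  have h1 : HasFDerivAt axisA (fderiv ℝ axisA x) x :=
    ((contDiff_axisA (m := 1)).differentiable one_ne_zero x).hasFDerivAt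
  have h2 : HasFDerivAt (pkap l c)
      (-(l • ((-(axisA x ^ 2)⁻¹) • fderiv ℝ axisA x))) x :=
    (((hasDerivAt_inv (axisA_pos x).ne').comp_hasFDerivAt x h1).const_mul l).const_sub (2 * c)
  simp only [rot_eq_fderiv, h2.fderiv, neg_apply, smul_apply, smul_eq_mul]
  ring

/-- The comparison field: the rotation derivatives of the comparison exponent. -/
def pfield (l c : ℝ) (j : Fin 3) (x : Space 3) : ℝ :=
  if j = 0 then x 1 * x 2 * pkap l c x else if j = 1 then -(x 0 * x 2) * pkap l c x else 0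

theorem contDiff_pfield (l c : ℝ) (j : Fin 3) : ContDiff ℝ 2 (pfield l c j) := by
  fin_cases j
  · exact ((contDiff_coord 1).mul (contDiff_coord 2)).mul (contDiff_pkap l c)
  · exact ((contDiff_coord 0).mul (contDiff_coord 2)).neg.mul (contDiff_pkap l c)
  · exact contDiff_const

theorem sum_rot_pfield (l c : ℝ) (x : Space 3) :
    ∑ j, rot j (pfield l c j) x = (x 0 ^ 2 + x 1 ^ 2 - 2 * x 2 ^ 2) * pkap l c x -
      2 * l * (x 0 ^ 2 + x 1 ^ 2) * x 2 ^ 2 / axisA x ^ 2 := by
  have hd : ∀ a : Fin 3, Differentiable ℝ fun y : Space 3 => y a := fun a =>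
    (contDiff_coord a (m := 1)).differentiable one_ne_zero
  have hk : Differentiable ℝ (pkap l c) := (contDiff_pkap l c (m := 1)).differentiable one_ne_zero
  have e0 : pfield l c 0 = fun y => y 1 * y 2 * pkap l c y := rfl
  have e1 : pfield l c 1 = fun y => y 0 * (-1 * y 2) * pkap l c y := by
    funext y
    show -(y 0 * y 2) * pkap l c y = _
    ring
  have e2 : pfield l c 2 = fun _ => 0 := rfl
  rw [Fin.sum_univ_three, e0, e1, e2,
    rot_mul (f := fun y => y 1 * y 2) ((hd 1).mul (hd 2)) hk, rot_mul (hd 1) (hd 2),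
    rot_mul (f := fun y => y 0 * (-1 * y 2)) ((hd 0).mul ((hd 2).const_mul (-1))) hk,
    rot_mul (hd 0) ((hd 2).const_mul (-1))]
  have hneg : rot 1 (fun y : Space 3 => -1 * y 2) x = -1 * rot 1 (fun y => y 2) x := by
    simp only [rot_eq_fderiv, fderiv_const_mul (hd 2 x), smul_apply, smul_eq_mul]
  have hz : rot 2 (fun _ : Space 3 => (0 : ℝ)) x = 0 := by simp [rot_eq_fderiv]
  simp only [hneg, hz, rot_pkap, rot_axisA, rot_coord]
  simp +decide
  ring

/-- The quadratic of the certificate stays above `1 / 10`. -/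
theorem certF_ge (i : Fin 12) (s : ℝ) : 1 / 10 ≤ (certL i : ℝ) * (certL i + 1) -
    (1 - s) * (2 * certC i + 4 * certC i ^ 2 * s) + 4 * certC i * (certL i + 1) * s -
      certMu i * (1 + certE * (s - 1 / 3)) := by
  have key : ∀ A B C : ℝ, 0 < A → B ^ 2 ≤ 4 * A * (C - 1 / 10) →
      1 / 10 ≤ A * s ^ 2 + B * s + C := fun A B C hA h => by
    nlinarith [sq_nonneg (2 * A * s + B)]
  refine le_trans (key (4 * certC i ^ 2)
    (2 * certC i - 4 * certC i ^ 2 + 4 * certC i * (certL i + 1) - certMu i * certE)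
    ((certL i : ℝ) * (certL i + 1) - 2 * certC i - certMu i * (1 - certE / 3)) ?_ ?_) (le_of_eq ?_)
  · fin_cases i <;> norm_num [certC]
  · fin_cases i <;> norm_num [certC, certMu, certE, certL]
  · ring

theorem certC_bounds (i : Fin 12) : 0 ≤ certC i ∧ certC i ≤ 5 / 2 := by
  fin_cases i <;> norm_num [certC]

/-- The pointwise comparison. -/
theorem cert_pointwise (i : Fin 12) {σ s : ℝ} (hσ : 0 ≤ σ) (hs : 0 ≤ s) (h1 : σ + s = 1) :
    certMu i * (1 + certE * (s - 1 / 3)) ≤
      (certL i : ℝ) ^ 2 / (σ + certEps) -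
        ((σ - 2 * s) * (2 * certC i - certL i * (σ + certEps)⁻¹) -
          2 * certL i * σ * s / (σ + certEps) ^ 2) -
        σ * s * (2 * certC i - certL i * (σ + certEps)⁻¹) ^ 2 := by
  obtain ⟨hc0, hc1⟩ := certC_bounds i
  have hF := certF_ge i s
  have hl15 : (15 : ℝ) ≤ certL i := by simp [certL]
  have hl26 : (certL i : ℝ) ≤ 26 := by
    have := i.2
    exact_mod_cast (show certL i ≤ 26 by simp only [certL]; omega)
  set l : ℝ := (certL i : ℝ)
  set c : ℝ := certC i
  set A : ℝ := σ + certEps with hA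
  have hε : (0 : ℝ) < certEps := by norm_num [certEps]
  have hA0 : 0 < A := by linarith
  have hs' : s = 1 - σ := by linarith
  set br : ℝ := l * (l - 2 * s) - l ^ 2 * (2 * σ + certEps) - (l + 4 * c * l * s) * A with hbr
  have e : l ^ 2 / A - ((σ - 2 * s) * (2 * c - l * A⁻¹) - 2 * l * σ * s / A ^ 2) -
      σ * s * (2 * c - l * A⁻¹) ^ 2 =
      (l * (l + 1) - (1 - s) * (2 * c + 4 * c ^ 2 * s) + 4 * c * (l + 1) * s) +
        certEps * br / A ^ 2 := by
    rw [hbr, hA, hs']
    rw [hA] at hA0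
    field_simp
    ring
  have hB : l + 4 * c * l * s ≤ 11 * l := by
    nlinarith [mul_le_mul hc1 (show s ≤ 1 by linarith) hs (by norm_num)]
  have hlow : -(1 / 10) ≤ certEps * br / A ^ 2 := by
    rcases le_or_gt σ (1 / 20) with h | h
    · have hbr0 : 0 ≤ br := by
        have hb := mul_le_mul hB (show A ≤ 1 / 10 by norm_num [hA, certEps]; linarith) hA0.le
          (by positivity)
        have he : 2 * σ + certEps ≤ 1 / 5 := by norm_num [certEps]; linarith
        nlinarith [mul_le_mul_of_nonneg_left he (sq_nonneg l)]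
      have : 0 ≤ certEps * br / A ^ 2 := by positivity
      linarith
    · rw [le_div_iff₀ (by positivity)]
      have h2 : -((3 * l ^ 2 + 11 * l) * A) ≤ br := by
        have hb := mul_le_mul_of_nonneg_right hB hA0.le
        nlinarith [mul_le_mul_of_nonneg_left (show 2 * σ + certEps ≤ 3 * A by linarith) (sq_nonneg l)]
      have h3 : 3 * l ^ 2 + 11 * l ≤ 2314 := by nlinarith
      have h4 : certEps * 2314 ≤ A / 10 := by
        norm_num [certEps] at hA ⊢
        linarith
      nlinarith [mul_le_mul_of_nonneg_left h2 hε.le, mul_le_mul_of_nonneg_left h4 hA0.le,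
        mul_le_mul_of_nonneg_left h3 (mul_nonneg hε.le hA0.le)]
  rw [e]
  linarith

/-- The algebra of the pointwise Picone inequality. -/
theorem picone_algebra {q u r l2 iA T S W V : ℝ} (hpt : q ≤ l2 * iA - S - W)
    (hV : r ^ 2 * iA ≤ V) :
    q * u ^ 2 + (T + u * u * S + (r ^ 2 - l2 * u ^ 2) * iA) ≤ V + T - u ^ 2 * W := by
  have h := mul_le_mul_of_nonneg_left hpt (sq_nonneg u)
  linarith

/-- The sector certificate: on the sector `m = l` the crossing shape is above `certMu i`. -/
theorem sector_above (i : Fin 12) {u : Space 3 → ℝ} (hu : ContDiff ℝ 2 u)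
    (hm : ∀ θ : Sph 3,
      rot 2 (rot 2 u) (θ : Space 3) = -((certL i : ℝ) ^ 2) * u (θ : Space 3)) :
    certMu i * ∫ θ : Sph 3, res (certP certE) θ * u (θ : Space 3) ^ 2 ∂(sig 3) ≤
      ∫ θ : Sph 3, ∑ j, rot j u (θ : Space 3) ^ 2 ∂(sig 3) := by
  set l : ℝ := (certL i : ℝ)
  set c : ℝ := certC i
  have hu1 : ContDiff ℝ 1 u := hu.of_le (by norm_num)
  have hud : Differentiable ℝ u := hu1.differentiable one_ne_zero
  have hW : ∀ j, ContDiff ℝ 1 (pfield l c j) := fun j => (contDiff_pfield l c j).of_le (by norm_num)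
  have hru : ∀ j, ContDiff ℝ 1 (rot j u) := fun j =>
    ((contDiff_coord _).mul (contDiff_pd hu _)).sub ((contDiff_coord _).mul (contDiff_pd hu _))
  have hcs : ∀ {f : Space 3 → ℝ}, Continuous f → Continuous fun θ : Sph 3 => f (θ : Space 3) :=
    fun hf => hf.comp continuous_subtype_val
  -- the two exact derivatives
  set P : Fin 3 → Space 3 → ℝ := fun j y => u y * u y * pfield l c j y with hP
  have hPc : ∀ j, ContDiff ℝ 1 (P j) := fun j => (hu1.mul hu1).mul (hW j)
  set Q : Space 3 → ℝ := fun y => u y * rot 2 u y * (axisA y)⁻¹ with hQ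
  have hQc : ContDiff ℝ 1 Q :=
    (hu1.mul (hru 2)).mul (contDiff_axisA.inv fun x => (axisA_pos x).ne')
  have hrA : ∀ y, rot 2 (fun z => (axisA z)⁻¹) y = 0 := fun y => by
    have h1 : HasFDerivAt axisA (fderiv ℝ axisA y) y :=
      ((contDiff_axisA (m := 1)).differentiable one_ne_zero y).hasFDerivAt
    have h2 : HasFDerivAt (fun z => (axisA z)⁻¹) ((-(axisA y ^ 2)⁻¹) • fderiv ℝ axisA y) y :=
      (hasDerivAt_inv (axisA_pos y).ne').comp_hasFDerivAt y h1
    have h3 : rot 2 axisA y = 0 := by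
      rw [rot_axisA, rot_coord, rot_coord]
      simp +decide
      ring
    rw [rot_eq_fderiv] at h3 ⊢
    rw [h2.fderiv, smul_apply, h3, smul_zero]
  have key : ∀ θ : Sph 3, certMu i * (res (certP certE) θ * u (θ : Space 3) ^ 2) +
      (∑ j, rot j (P j) (θ : Space 3) + rot 2 Q (θ : Space 3)) ≤
        ∑ j, rot j u (θ : Space 3) ^ 2 := by
    intro θ
    set x : Space 3 := (θ : Space 3) with hx
    have hn : x 0 ^ 2 + x 1 ^ 2 + x 2 ^ 2 = 1 := by
      have h : ‖x‖ = 1 := by simp [hx]
      rw [EuclideanSpace.norm_eq, Real.sqrt_eq_one] at h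
      simpa [Fin.sum_univ_three] using h
    have hPj : ∀ j, rot j (P j) x = 2 * u x * rot j u x * pfield l c j x +
        u x * u x * rot j (pfield l c j) x := fun j => by
      rw [hP, rot_mul (f := fun y => u y * u y) (hud.mul hud)
        ((hW j).differentiable one_ne_zero), rot_mul hud hud]
      ring
    have hQj : rot 2 Q x = (rot 2 u x ^ 2 - l ^ 2 * u x ^ 2) * (axisA x)⁻¹ := by
      rw [hQ, rot_mul (f := fun y => u y * rot 2 u y) (g := fun y => (axisA y)⁻¹)
        (hud.mul ((hru 2).differentiable one_ne_zero))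
        (((contDiff_axisA (m := 1)).inv fun y => (axisA_pos y).ne').differentiable one_ne_zero),
        rot_mul hud ((hru 2).differentiable one_ne_zero), hrA, hm θ]
      ring
    -- the remainder dominates the axial part
    set v : Fin 3 → ℝ := fun j => rot j u x - u x * pfield l c j x with hv
    have hperp : x 0 * v 0 + x 1 * v 1 + x 2 * v 2 = 0 := by
      simp [hv, rot, pfield]
      ring
    have hv2 : rot 2 u x = v 2 := by simp [hv, pfield]
    have hcs2 : v 2 ^ 2 ≤ axisA x * ∑ j, v j ^ 2 := by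
      rw [Fin.sum_univ_three]
      have h1 : (x 2 * v 2) ^ 2 ≤ (x 0 ^ 2 + x 1 ^ 2) * (v 0 ^ 2 + v 1 ^ 2) := by
        rw [show x 2 * v 2 = -(x 0 * v 0 + x 1 * v 1) by linarith, neg_sq]
        nlinarith [sq_nonneg (x 0 * v 1 - x 1 * v 0)]
      have h2 : v 2 ^ 2 * (x 0 ^ 2 + x 1 ^ 2 + x 2 ^ 2) = v 2 ^ 2 := by rw [hn, mul_one]
      have h3 : 0 ≤ certEps * (v 0 ^ 2 + v 1 ^ 2 + v 2 ^ 2) := by
        refine mul_nonneg (by norm_num [certEps]) ?_
        positivity
      simp only [axisA]
      nlinarith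
    have hcs3 : rot 2 u x ^ 2 * (axisA x)⁻¹ ≤ ∑ j, v j ^ 2 := by
      rw [hv2, ← div_eq_mul_inv, div_le_iff₀ (axisA_pos x)]
      linarith
    have hpt := cert_pointwise i (add_nonneg (sq_nonneg (x 0)) (sq_nonneg (x 1)))
      (sq_nonneg (x 2)) (by linarith)
    have hW2 : ∑ j, pfield l c j x ^ 2 = (x 0 ^ 2 + x 1 ^ 2) * x 2 ^ 2 * pkap l c x ^ 2 := by
      simp [Fin.sum_univ_three, pfield]
      ring
    have hS := sum_rot_pfield l c x
    have hsq : ∑ j, rot j u x ^ 2 = ∑ j, v j ^ 2 + ∑ j, 2 * u x * rot j u x * pfield l c j x -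
        u x ^ 2 * ∑ j, pfield l c j x ^ 2 := by
      simp only [hv, Finset.mul_sum, ← Finset.sum_add_distrib, ← Finset.sum_sub_distrib]
      exact Finset.sum_congr rfl fun j _ => by ring
    have hiA : l ^ 2 / axisA x = l ^ 2 * (axisA x)⁻¹ := div_eq_mul_inv _ _
    rw [show x 0 ^ 2 + x 1 ^ 2 + certEps = axisA x from rfl, hiA,
      show 2 * certC i - (certL i : ℝ) * (axisA x)⁻¹ = pkap l c x from rfl, ← hS, ← hW2] at hpt
    refine le_trans (le_of_eq ?_) ((picone_algebra (u := u x) hpt hcs3).trans (le_of_eq hsq.symm))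
    simp only [hPj, hQj, Finset.sum_add_distrib, ← Finset.mul_sum, res_certP, ← hx]
    ring
  have i1 : Integrable (fun θ : Sph 3 => certMu i * (res (certP certE) θ * u (θ : Space 3) ^ 2))
      (sig 3) := integrable_sig (continuous_const.mul
        ((continuous_res _).mul ((hcs hu.continuous).pow 2)))
  have i2 : ∀ j, Integrable (fun θ : Sph 3 => rot j (P j) (θ : Space 3)) (sig 3) := fun j =>
    integrable_sig (hcs (continuous_rot (hPc j) j))
  have i3 : Integrable (fun θ : Sph 3 => rot 2 Q (θ : Space 3)) (sig 3) :=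
    integrable_sig (hcs (continuous_rot hQc 2))
  have i4 : Integrable (fun θ : Sph 3 => ∑ j, rot j u (θ : Space 3) ^ 2) (sig 3) :=
    integrable_sig (continuous_finsetSum _ fun j _ => (hcs (hru j).continuous).pow 2)
  have i5 := integrable_finsetSum Finset.univ fun j _ => i2 j
  have h : ∫ θ : Sph 3, (certMu i * (res (certP certE) θ * u (θ : Space 3) ^ 2) +
      (∑ j, rot j (P j) (θ : Space 3) + rot 2 Q (θ : Space 3))) ∂(sig 3) ≤
        ∫ θ : Sph 3, ∑ j, rot j u (θ : Space 3) ^ 2 ∂(sig 3) :=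
    integral_mono (i1.fun_add (i5.fun_add i3)) i4 key
  rw [integral_add i1 (i5.fun_add i3), integral_add i5 i3, integral_rot hQc,
    integral_finsetSum _ fun j _ => i2 j, integral_const_mul] at h
  simp only [integral_rot (hPc _), Finset.sum_const_zero, add_zero] at h
  exact h

end

end Vale.Agent.P225.Disproof
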