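import Vale.Agent.P225.Disproof.CentreSecOp
import Vale.Agent.P225.Disproof.CentrePert
import Vale.Agent.P225.Disproof.CertSector
import Vale.Agent.P225.Disproof.PencilCluster
import Vale.Agent.P225.Disproof.RestBudget

/-!
# P225, module F: every gap of the window closes on the segment

At the round weight the gaps inside a block are closed. A gap between two blocks would keep the
number of zonal top states along the segment, against the certificates at `certE`.
-/

namespace Vale.Agent.P225.Disproof

open MvPolynomial MeasureTheory Set Filter Topology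
open scoped RealInnerProductSpace

noncomputable section

theorem certWgt_eq (e : ℝ) :
    certWgt e = (1 - e / 3) • 1 + e • (sphAlg 3 (X 2) * sphAlg 3 (X 2)) := by
  ext θ
  simp [certWgt, certP, sphAlg_apply, evalFun]

theorem certWgt_zero : certWgt 0 = 1 := by simp [certWgt_eq]

theorem continuous_certWgt : Continuous certWgt := by
  rw [show certWgt = fun e => (1 - e / 3) • (1 : C(Sph 3, ℝ)) +
    e • (sphAlg 3 (X 2) * sphAlg 3 (X 2)) from funext certWgt_eq]
  fun_prop

theorem certE_nonneg : (0 : ℝ) ≤ certE := by norm_num [certE]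

theorem goodOp_cert {e : ℝ} (he : e ∈ Icc 0 certE) : GoodOp (pencil (certWgt e)) :=
  goodOp_pencil (certWgt_pos he)

theorem pencil_one_apply (x : L2S) : pencil 1 x = resolv (resolv x) := by
  rw [pencil_apply, mulOp_one, one_apply_eq_self, lift_one]

/-- The resolvent is scalar on each level. -/
theorem resolv_levSpace {L : ℕ} {x : L2S} (hx : x ∈ levSpace L) :
    resolv x = resCoef L • x := by
  refine (hasSum_resolv_apply x).unique ?_
  have h := hasSum_single (f := fun k => resCoef k • lev k x) L fun k hk => by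
    rw [show lev k x = 0 from (Submodule.starProjection_apply_eq_zero_iff _).2
      ((Submodule.mem_orthogonal _ _).2 fun u hu => inner_levSpace hk hu hx), smul_zero]
  rwa [show lev L x = x from Submodule.starProjection_eq_self_iff.2 hx] at h

theorem resolv_lowSpace : ∀ {l : ℕ} {x : L2S}, x ∈ lowSpace l → resolv x ∈ lowSpace l
  | 0, x, hx => by
    rw [show x = 0 from (Submodule.mem_bot ℝ).1 hx, map_zero]
    exact zero_mem _
  | l + 1, x, hx => by
    obtain ⟨a, ha, b, hb, rfl⟩ := Submodule.mem_sup.1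
      (show x ∈ lowSpace l ⊔ levSpace (l + 1) from hx)
    rw [map_add, resolv_levSpace hb]
    exact Submodule.add_mem_sup (resolv_lowSpace ha) (Submodule.smul_mem _ _ hb)

/-- The block boundaries of the round weight. -/
theorem gap_round {l : ℕ} (hl : 1 ≤ l) : Gap (pencil 1) (l ^ 2 + 2 * l) ∧
    topSpace (pencil 1) (l ^ 2 + 2 * l) = lowSpace l := by
  have hT := goodOp_pencil (w := 1) fun θ => one_pos
  have h1 : nu (pencil 1) (l ^ 2 + 2 * l - 1) = ((l : ℝ) * (l + 1))⁻¹ :=
    nu_pencil_one (by omega) (by ring_nf; omega)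
  have h2 : nu (pencil 1) (l ^ 2 + 2 * l) = (((l + 1 : ℕ) : ℝ) * ((l + 1 : ℕ) + 1))⁻¹ :=
    nu_pencil_one (by ring_nf; omega) (by ring_nf; omega)
  push_cast at h2
  have hlt : (((l : ℝ) + 1) * (l + 1 + 1))⁻¹ < ((l : ℝ) * (l + 1))⁻¹ := by
    have : (0 : ℝ) < l := by exact_mod_cast hl
    exact inv_strictAnti₀ (by positivity) (by nlinarith)
  refine ⟨⟨by nlinarith, by linarith⟩, (hT.eq_topSpace (fun x hx => ?_)
    (b := ((l : ℝ) * (l + 1))⁻¹) (fun x hx => ?_) (by linarith) ?_).symm⟩
  · rw [pencil_one_apply]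
    exact resolv_lowSpace (resolv_lowSpace hx)
  · refine hasSum_le (fun m => ?_) ((hasSum_norm_lev x).mul_left _) (form_pencil_one x)
    by_cases hm : m = 0 ∨ l < m
    · simp [lev_lowSpace hm x hx]
    · simp only [not_or, not_lt] at hm
      have h0 : (0 : ℝ) < m := by exact_mod_cast Nat.pos_of_ne_zero hm.1
      have : (m : ℝ) ≤ l := Nat.cast_le.2 hm.2
      refine mul_le_mul_of_nonneg_right ?_ (sq_nonneg _)
      rw [resCoef_sq_eq]
      exact inv_anti₀ (by positivity) (by nlinarith)
  · rw [finrank_lowSpace]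
    ring_nf
    omega

/-- Inside a block the gaps are closed. -/
theorem closed_round {l j : ℕ} (h1 : l ^ 2 + 2 * l < j) (h2 : j < (l + 1) ^ 2 + 2 * (l + 1)) :
    ¬Gap (pencil 1) j := by
  rintro ⟨-, h⟩
  rw [nu_pencil_one (l := l + 1) (i := j) (by ring_nf at h1 ⊢; omega) (by ring_nf at h2 ⊢; omega),
    nu_pencil_one (l := l + 1) (i := j - 1) (by ring_nf at h1 ⊢; omega)
      (by ring_nf at h2 ⊢; omega)] at h
  exact lt_irrefl _ h

/-- At an open gap the top projection commutes with the sectors. -/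
theorem topProj_mem_Sec {e : ℝ} (he : e ∈ Icc 0 certE) {K : ℕ} (hg : Gap (pencil (certWgt e)) K)
    {t : ℕ} {x : L2S} (hx : x ∈ Sec t) : topProj (pencil (certWgt e)) K x ∈ Sec t := by
  set T := pencil (certWgt e)
  have hT := goodOp_cert he
  have hinv : ∀ k ≤ K, ∀ y ∈ topSpace T k, secProj t y ∈ topSpace T K := by
    intro k
    induction k with
    | zero => intro _ y hy; rw [show y = 0 from (Submodule.mem_bot ℝ).1 hy, map_zero]; exact zero_mem _
    | succ k ih =>
      intro hk y hy
      obtain ⟨a, ha, b, hb, rfl⟩ := Submodule.mem_sup.1 hy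
      obtain ⟨c, rfl⟩ := Submodule.mem_span_singleton.1 hb
      rw [map_add, map_smul]
      refine Submodule.add_mem _ (ih (by omega) a ha) (Submodule.smul_mem _ c ?_)
      show secProj t (eigvec T k) ∈ topSpace T K
      set v := secProj t (eigvec T k) with hv
      have hTv : T v = nu T k • v := by
        rw [hv, pencil_secProj he, (hT.eigvec_spec k).2.2.1, map_smul]
      have hP := (topSpace T K).starProjection_apply_mem v
      set z := v - topProj T K v with hz
      have hzK : z ∈ (topSpace T K)ᗮ := (topSpace T K).sub_starProjection_mem_orthogonal v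
      have hdiff : T z - nu T k • z = nu T k • topProj T K v - T (topProj T K v) := by
        rw [hz, map_sub, hTv, smul_sub]; abel
      have hTz : T z - nu T k • z = 0 := inner_self_eq_zero (𝕜 := ℝ).1 (by
        nth_rw 1 [hdiff]
        exact Submodule.inner_right_of_mem_orthogonal
          (Submodule.sub_mem _ (Submodule.smul_mem _ _ hP) (hT.topSpace_inv K hP))
          (Submodule.sub_mem _ (hT.orth_inv K hzK) (Submodule.smul_mem _ _ hzK)))
      have hle := hT.form_le hzK
      rw [sub_eq_zero.1 hTz, real_inner_smul_left, real_inner_self_eq_norm_sq] at hle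
      have hgt : nu T K < nu T k := hg.2.trans_le (hT.nu_antitone (by omega))
      have hz0 : z = 0 := by
        by_contra h0
        nlinarith [pow_pos (norm_pos_iff.2 h0) 2]
      rw [hz, sub_eq_zero] at hz0
      rw [hz0]
      exact hP
  refine Submodule.orthogonal_orthogonal (Sec t) ▸ ?_
  intro z hz
  have hz0 : secProj t z = 0 := (Submodule.starProjection_apply_eq_zero_iff _).2 hz
  have hPz : secProj t (topProj T K z) = 0 := by
    have hmem := hinv K le_rfl _ ((topSpace T K).starProjection_apply_mem z)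
    refine inner_self_eq_zero (𝕜 := ℝ).1 ?_
    calc ⟪secProj t (topProj T K z), secProj t (topProj T K z)⟫
        = ⟪topProj T K z, secProj t (topProj T K z)⟫ := by
          rw [secProj, Submodule.inner_starProjection_left_eq_right,
            Submodule.starProjection_eq_self_iff.2 ((Sec t).starProjection_apply_mem _)]
      _ = ⟪z, secProj t (topProj T K z)⟫ := by
          rw [topProj, Submodule.inner_starProjection_left_eq_right,
            Submodule.starProjection_eq_self_iff.2 hmem]
      _ = 0 := by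
          rw [secProj, ← Submodule.inner_starProjection_left_eq_right,
            show (Sec t).starProjection z = 0 from hz0, inner_zero_left]
  rw [topProj, ← Submodule.inner_starProjection_left_eq_right, real_inner_comm]
  exact (Submodule.starProjection_apply_eq_zero_iff _).1 hPz x hx

/-- The number of top states in a sector is locally constant. -/
theorem finrank_top_sec_le {e e' : ℝ} (he' : e' ∈ Icc 0 certE) {K : ℕ}
    (hg' : Gap (pencil (certWgt e')) K)
    (h : ‖topProj (pencil (certWgt e)) K - topProj (pencil (certWgt e')) K‖ < 1) (t : ℕ) :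
    Module.finrank ℝ (topSpace (pencil (certWgt e)) K ⊓ Sec t : Submodule ℝ L2S) ≤
      Module.finrank ℝ (topSpace (pencil (certWgt e')) K ⊓ Sec t : Submodule ℝ L2S) := by
  set S := topSpace (pencil (certWgt e)) K
  set S' := topSpace (pencil (certWgt e')) K
  set P := topProj (pencil (certWgt e)) K with hP
  set P' := topProj (pencil (certWgt e')) K with hP'
  let f : (S ⊓ Sec t : Submodule ℝ L2S) →ₗ[ℝ] (S' ⊓ Sec t : Submodule ℝ L2S) :=
    (P'.toLinearMap.comp (S ⊓ Sec t).subtype).codRestrict _ fun x =>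
      ⟨S'.starProjection_apply_mem _, topProj_mem_Sec he' hg' x.2.2⟩
  refine LinearMap.finrank_le_finrank_of_injective (f := f)
    ((injective_iff_map_eq_zero f).2 fun x hx => ?_)
  have h0 : P' (x : L2S) = 0 := congrArg Subtype.val hx
  have h1 : P (x : L2S) = x := Submodule.starProjection_eq_self_iff.2 x.2.1
  refine Subtype.ext (norm_le_zero_iff.1 ?_)
  have h2 := (P - P').le_opNorm (x : L2S)
  rw [sub_apply, h0, h1, sub_zero] at h2
  nlinarith [norm_nonneg (x : L2S)]

theorem lift_eq_resolv {t : ℕ} (ht : t ≠ 0) {e : ℝ} {x : L2S} (hx : x ∈ secSpan t) :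
    lift (certWgt e) x = resolv x := by
  have h : ⟪wvec (certWgt e), resolv x⟫ = 0 := by
    rw [← mulOp_oneH, mulOp_symm]
    exact inner_Sec (Ne.symm ht) (secE_zero_zero ▸ secE_mem_Sec 0 0)
      (secSpan_le t (mulOp_secSpan e (resolv_secSpan hx)))
  simp [lift, h]

/-- The zonal certificate in the pencil. -/
theorem zonal_form (i : Fin 12) {y : L2S}
    (hy : y ∈ Submodule.span ℝ (range fun n : Fin (certL i + 1) => secE 0 ((n : ℕ) + 1)))
    (hy0 : y ≠ 0) : ‖y‖ ^ 2 < certMu i * ⟪pencil (certWgt certE) y, y⟫ := by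
  set L := certL i + 1 with hL
  obtain ⟨b, hb⟩ := (Submodule.mem_span_range_iff_exists_fun ℝ).1 hy
  let bb : ℕ → ℝ := fun n => if h : 1 ≤ n ∧ n ≤ L then b ⟨n - 1, by omega⟩ else 0
  set w := certWgt certE with hw
  set κ := (tot w)⁻¹ * ⟪wvec w, resolv y⟫
  let c : ℕ → ℝ := fun n => if n = 0 then -κ else resCoef n * bb n
  have hsum : ∀ f : ℕ → L2S, (f 0 = 0) →
      ∑ n ∈ Finset.range (L + 1), f n = ∑ n : Fin L, f ((n : ℕ) + 1) := fun f hf => by
    rw [Finset.sum_range_succ', hf, add_zero, Finset.sum_range]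
  have hbb : ∀ n : Fin L, bb ((n : ℕ) + 1) = b n := fun n => by
    have := n.2
    simp only [bb, dif_pos (show 1 ≤ (n : ℕ) + 1 ∧ (n : ℕ) + 1 ≤ L by omega)]
    rfl
  have hE : ∀ n, toH (zonH n) = secE 0 n := fun n => by rw [secE, secB_zero]
  have ey : toH (zonPoly (L + 1) bb) = y := by
    rw [zonPoly, map_sum]
    simp only [map_smul, hE]
    rw [hsum (fun n => bb n • secE 0 n) (by simp [bb]), ← hb]
    exact Finset.sum_congr rfl fun n _ => by simp only [hbb]
  have er : resolv y = ∑ n : Fin L, (resCoef ((n : ℕ) + 1) * bb ((n : ℕ) + 1)) • secE 0 ((n : ℕ) + 1) := by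
    rw [← hb, map_sum]
    refine Finset.sum_congr rfl fun n _ => ?_
    rw [map_smul, resolv_secE, smul_smul, hbb, show secM 0 = 0 from rfl, zero_add, mul_comm]
  have el : toH (zonPoly (L + 1) c) = lift w y := by
    rw [zonPoly, map_sum]
    simp only [map_smul, hE]
    rw [Finset.sum_range_succ', Finset.sum_range, lift, er]
    simp [c, κ, secE_zero_zero, er, sub_eq_add_neg]
  have hc : ∀ n, L + 1 ≤ n → c n = 0 := fun n hn => by
    simp only [c, bb, if_neg (show n ≠ 0 by omega),
      dif_neg (show ¬(1 ≤ n ∧ n ≤ L) by omega), mul_zero]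
  have hne : ∃ n, c n ≠ 0 := by
    by_contra hcon
    simp only [not_exists, not_not] at hcon
    refine hy0 ?_
    rw [← hb]
    refine Finset.sum_eq_zero fun n _ => ?_
    have h := hcon ((n : ℕ) + 1)
    simp only [c, Nat.add_one_ne_zero, if_false, hbb, mul_eq_zero] at h
    have := resCoef_sq (show (n : ℕ) + 1 ≠ 0 by omega)
    rcases h with h | h
    · simp [h] at this
    · rw [h, zero_smul]
  have hcond : ∀ n < L + 1, zonD (certMu i) certE (certWt i) n < 0 := fun n hn =>
    zonCond_all i n (by omega)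
  have key := zon_neg_of_weights (mul_nonneg (certMu_pos i).le certE_nonneg) (certWt_pos i) hcond
    hc hne
  rw [(zon_forms hc certE).1] at key
  have hnorm : ∑ n ∈ Finset.range (L + 1), (n : ℝ) * (n + 1) * (c n ^ 2 * zonN n) = ‖y‖ ^ 2 := by
    rw [← real_inner_self_eq_norm_sq, ← ey, inner_toH, sphIp_zonPoly]
    refine Finset.sum_congr rfl fun n _ => ?_
    rcases Nat.eq_zero_or_pos n with rfl | hn
    · simp [bb]
    · have := resCoef_sq hn.ne'
      simp only [c, if_neg hn.ne']
      linear_combination (bb n ^ 2 * zonN n) * this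
  rw [hnorm] at key
  refine key.trans_le (le_of_eq (congrArg (certMu i * ·) ?_))
  rw [inner_pencil (tot_pos (certWgt_pos ⟨certE_nonneg, le_rfl⟩)).ne', ← el, certWgt,
    mulOp_toH, inner_toH, sphIp]
  congr 1
  funext θ
  simp [res, evalFun]
  ring

/-- The sector certificate in the pencil. -/
theorem sector_form (i : Fin 12) {y : L2S} (hy : y ∈ Sec (2 * certL i)) :
    certMu i * ⟪pencil (certWgt certE) y, y⟫ ≤ ‖y‖ ^ 2 := by
  set T := pencil (certWgt certE)
  have hl : 15 ≤ certL i := by simp [certL]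
  refine le_of_tendsto_of_tendsto'
    (((T.continuous.inner continuous_id).tendsto y).comp (tendsto_sum_lev y) |>.const_mul _)
    (((continuous_norm.pow 2).tendsto y).comp (tendsto_sum_lev y)) fun N => ?_
  simp only [Function.comp_apply, id_eq, Pi.pow_apply]
  set z := ∑ L ∈ Finset.range N, lev L y
  have hz : z ∈ secSpan (2 * certL i) := sum_lev_mem_secSpan hy N
  have h0 : lev 0 z = 0 := by
    obtain ⟨c, hc⟩ := lev_mem_secSpan (secSpan_le _ hz) 0
    rw [hc, secM_even, if_neg (by omega)]
  obtain ⟨u, hu1, hu2, hu3⟩ := exists_energy _ hz h0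
  rw [secM_even] at hu2
  have key := sector_above i (contDiff_evalFun u) fun θ => by
    rw [rot_evalFun, rot_evalFun, hu2]
    simp [evalFun, MvPolynomial.smul_eval]
  have e1 : ⟪T z, z⟫ = ∫ θ : Sph 3, res (certP certE) θ * evalFun u (θ : Space 3) ^ 2 ∂(sig 3) := by
    rw [inner_pencil (tot_pos (certWgt_pos ⟨certE_nonneg, le_rfl⟩)).ne',
      lift_eq_resolv (by omega) hz, ← hu1, certWgt, mulOp_toH, inner_toH, sphIp]
    congr 1
    funext θ
    simp [res, evalFun]
    ring
  have e2 : ∫ θ : Sph 3, ∑ j, rot j (evalFun u) (θ : Space 3) ^ 2 ∂(sig 3) = ‖z‖ ^ 2 := by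
    rw [← hu3, integral_finsetSum]
    · simp only [rot_evalFun, sphIp, res, pow_two]
    · exact fun j _ => integrable_sig (by
        simp only [rot_evalFun]; exact (continuous_res (rotP j u)).pow 2)
  rw [e1, ← e2]
  exact key

/-- The top states of the round weight in the zonal sector. -/
theorem round_zonal_le {l : ℕ} (hl : 1 ≤ l) :
    Module.finrank ℝ
      (topSpace (pencil (certWgt 0)) (l ^ 2 + 2 * l) ⊓ Sec 0 : Submodule ℝ L2S) ≤ l := by
  rw [certWgt_zero, (gap_round hl).2]
  set v := fun n : Fin l => secE 0 ((n : ℕ) + 1)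
  have : FiniteDimensional ℝ (Submodule.span ℝ (range v)) :=
    FiniteDimensional.span_of_finite ℝ (Set.finite_range v)
  refine (Submodule.finrank_mono (t := Submodule.span ℝ (range v)) fun x hx => ?_).trans
    ((finrank_range_le_card v).trans (Fintype.card_fin _).le)
  have hsupp : ∀ L ∉ Finset.Icc 1 l, lev L x = 0 := fun L hL =>
    lev_lowSpace (by simp only [Finset.mem_Icc] at hL; omega) x hx.1
  rw [(hasSum_lev x).unique (hasSum_sum_of_ne_finset_zero hsupp)]
  refine Submodule.sum_mem _ fun L hL => ?_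
  obtain ⟨c, hc⟩ := lev_mem_secSpan hx.2 L
  simp only [Finset.mem_Icc] at hL
  rw [hc, show secM 0 = 0 from rfl, if_pos (Nat.zero_le _)]
  refine Submodule.smul_mem _ _ (Submodule.subset_span ⟨⟨L - 1, by omega⟩, ?_⟩)
  show secE 0 (L - 1 + 1) = secE 0 (L - 0)
  congr 1
  omega

/-- The round weight has a top state in the sector of frequency `l`. -/
theorem round_sector_pos {l : ℕ} (hl : 1 ≤ l) :
    0 < Module.finrank ℝ
      (topSpace (pencil (certWgt 0)) (l ^ 2 + 2 * l) ⊓ Sec (2 * l) : Submodule ℝ L2S) := by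
  rw [certWgt_zero, (gap_round hl).2]
  refine Module.finrank_pos_iff_exists_ne_zero.2 ⟨⟨secE (2 * l) 0, ?_, secE_mem_Sec _ _⟩,
    fun h => secE_ne_zero _ _ (congrArg Subtype.val h)⟩
  refine levSpace_le_lowSpace hl le_rfl ?_
  have := secE_mem (2 * l) 0
  rwa [secM_even, add_zero] at this

/-- If the sector of frequency `l` reaches the top at `certE`, the zonal sector has one state more
there. -/
theorem cert_zonal_ge (i : Fin 12) {K : ℕ} (hg : Gap (pencil (certWgt certE)) K)
    (hpos : 0 < Module.finrank ℝ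
      (topSpace (pencil (certWgt certE)) K ⊓ Sec (2 * certL i) : Submodule ℝ L2S)) :
    certL i + 1 ≤ Module.finrank ℝ
      (topSpace (pencil (certWgt certE)) K ⊓ Sec 0 : Submodule ℝ L2S) := by
  set T := pencil (certWgt certE)
  have hT := goodOp_cert (e := certE) ⟨certE_nonneg, le_rfl⟩
  have hμ := certMu_pos i
  obtain ⟨⟨x, hx1, hx2⟩, hx0⟩ := Module.finrank_pos_iff_exists_ne_zero.1 hpos
  have hsec : nu T (K - 1) * certMu i ≤ 1 := by
    have ha := hT.le_form hg.1 hx1
    have hb := sector_form i hx2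
    have hn : 0 < ‖x‖ ^ 2 := pow_pos (norm_pos_iff.2 fun h => hx0 (Subtype.ext h)) 2
    nlinarith [mul_le_mul_of_nonneg_left ha hμ.le]
  set v := fun n : Fin (certL i + 1) => secE 0 ((n : ℕ) + 1)
  set V := Submodule.span ℝ (range v)
  have hV : Module.finrank ℝ V = certL i + 1 := by
    rw [finrank_span_eq_card (linearIndependent_of_ne_zero_of_inner_eq_zero
      (fun _ => secE_ne_zero _ _) fun a b hab => inner_secE fun h => hab
        (Fin.ext (Nat.succ_injective (congrArg Prod.snd h)))), Fintype.card_fin]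
  have hVS : V ≤ Sec 0 := Submodule.span_le.2 (by rintro _ ⟨n, rfl⟩; exact secE_mem_Sec _ _)
  let g : V →ₗ[ℝ] (topSpace T K ⊓ Sec 0 : Submodule ℝ L2S) :=
    ((topProj T K).toLinearMap.comp V.subtype).codRestrict _ fun y =>
      ⟨(topSpace T K).starProjection_apply_mem _,
        topProj_mem_Sec ⟨certE_nonneg, le_rfl⟩ hg (hVS y.2)⟩
  have : FiniteDimensional ℝ V := FiniteDimensional.span_of_finite ℝ (Set.finite_range v)
  rw [← hV]
  refine LinearMap.finrank_le_finrank_of_injective (f := g)
    ((injective_iff_map_eq_zero g).2 fun y hy => ?_)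
  by_contra h0
  have ha := zonal_form i y.2 fun h => h0 (Subtype.ext h)
  have hb := hT.form_le ((Submodule.starProjection_apply_eq_zero_iff _).1
    (show topProj T K (y : L2S) = 0 from congrArg Subtype.val hy))
  have hlt : certMu i * nu T K ≤ 1 := by
    nlinarith [mul_le_mul_of_nonneg_left hg.2.le hμ.le]
  nlinarith [mul_le_mul_of_nonneg_left hb hμ.le,
    mul_le_mul_of_nonneg_right hlt (sq_nonneg ‖(y : L2S)‖)]

/-- Where the top projections are close, the sector counts agree. -/
theorem finrank_top_sec_eq {e e' : ℝ} (he : e ∈ Icc 0 certE) (he' : e' ∈ Icc 0 certE) {K : ℕ}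
    (hg : Gap (pencil (certWgt e)) K) (hg' : Gap (pencil (certWgt e')) K)
    (h : ‖topProj (pencil (certWgt e')) K - topProj (pencil (certWgt e)) K‖ < 1) (t : ℕ) :
    Module.finrank ℝ (topSpace (pencil (certWgt e')) K ⊓ Sec t : Submodule ℝ L2S) =
      Module.finrank ℝ (topSpace (pencil (certWgt e)) K ⊓ Sec t : Submodule ℝ L2S) :=
  le_antisymm (finrank_top_sec_le he hg h t)
    (finrank_top_sec_le he' hg' (by rwa [norm_sub_rev]) t)

theorem continuousOn_certTop {K : ℕ} (hg : ∀ e ∈ Icc 0 certE, Gap (pencil (certWgt e)) K) :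
    ContinuousOn (fun e => topProj (pencil (certWgt e)) K) (Icc (0 : ℝ) certE) :=
  continuousOn_topProj (fun e he => ((continuousAt_pencil (tot_pos (certWgt_pos he)).ne').comp
    continuous_certWgt.continuousAt).continuousWithinAt) (fun e he => goodOp_cert he) hg

/-- An integer valued map that is constant near each point of an interval is constant. -/
theorem eq_of_nat_locally {a b : ℝ} (hab : a ≤ b) (f : ℝ → ℕ)
    (h : ∀ e ∈ Icc a b, ∃ r > 0, ∀ e' ∈ Icc a b, |e' - e| < r → f e' = f e) : f b = f a := by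
  haveI : PreconnectedSpace (Icc a b) := Subtype.preconnectedSpace isPreconnected_Icc
  have hloc : IsLocallyConstant fun e : Icc a b => f e.1 := by
    rw [IsLocallyConstant.iff_eventually_eq]
    intro e
    obtain ⟨r, hr, hr'⟩ := h e e.2
    filter_upwards [Metric.ball_mem_nhds e hr] with e' he'
    exact hr' e' e'.2 (by rwa [Metric.mem_ball, Subtype.dist_eq, Real.dist_eq] at he')
  exact hloc.apply_eq_of_preconnectedSpace ⟨b, hab, le_rfl⟩ ⟨a, le_rfl, hab⟩

/-- Along a segment with the gap open the number of top states in a sector is constant. -/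
theorem top_sec_const {K : ℕ} (hg : ∀ e ∈ Icc 0 certE, Gap (pencil (certWgt e)) K) (t : ℕ) :
    Module.finrank ℝ (topSpace (pencil (certWgt certE)) K ⊓ Sec t : Submodule ℝ L2S) =
      Module.finrank ℝ (topSpace (pencil (certWgt 0)) K ⊓ Sec t : Submodule ℝ L2S) := by
  refine eq_of_nat_locally certE_nonneg (fun e => Module.finrank ℝ
    (topSpace (pencil (certWgt e)) K ⊓ Sec t : Submodule ℝ L2S)) fun e he => ?_
  obtain ⟨r, hr, h⟩ := (Metric.continuousWithinAt_iff.1 (continuousOn_certTop hg e he)) 1 one_pos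
  refine ⟨r, hr, fun e' he' hd => finrank_top_sec_eq he he' (hg e he) (hg e' he') ?_ t⟩
  have h' := h he' (by rwa [Real.dist_eq])
  rwa [dist_eq_norm] at h'

/-- Every gap of the window is closed somewhere on the segment. -/
theorem exists_closed_gap {j : ℕ} (hj : j ∈ Icc 225 728) :
    ∃ e ∈ Icc (0 : ℝ) certE, ¬Gap (pencil (certWgt e)) j := by
  obtain ⟨hj1, hj2⟩ := hj
  obtain ⟨l, h1, h2, hl1, hl2⟩ : ∃ l, (l + 1) ^ 2 ≤ j + 1 ∧ j + 1 < (l + 2) ^ 2 ∧
      14 ≤ l ∧ l ≤ 26 := by
    have h1 : Nat.sqrt (j + 1) ^ 2 ≤ j + 1 := Nat.sqrt_le' _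
    have h2 : j + 1 < (Nat.sqrt (j + 1) + 1) ^ 2 := Nat.lt_succ_sqrt' _
    have ha : 15 ≤ Nat.sqrt (j + 1) := Nat.le_sqrt'.2 (by omega)
    have hb : Nat.sqrt (j + 1) ≤ 27 := by
      by_contra h
      have := Nat.pow_le_pow_left (show 28 ≤ Nat.sqrt (j + 1) by omega) 2
      omega
    refine ⟨Nat.sqrt (j + 1) - 1, ?_, ?_, by omega, by omega⟩
    · rwa [show Nat.sqrt (j + 1) - 1 + 1 = Nat.sqrt (j + 1) by omega]
    · rwa [show Nat.sqrt (j + 1) - 1 + 2 = Nat.sqrt (j + 1) + 1 by omega]
  by_cases hb : l ^ 2 + 2 * l < j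
  · exact ⟨0, ⟨le_rfl, certE_nonneg⟩, by
      rw [certWgt_zero]; exact closed_round hb (by ring_nf at h2 ⊢; omega)⟩
  have hjl : j = l ^ 2 + 2 * l := by ring_nf at h1 hb ⊢; omega
  subst hjl
  have hl15 : 15 ≤ l := by
    by_contra h
    have := Nat.pow_le_pow_left (show l ≤ 14 by omega) 2
    omega
  obtain ⟨i, hi⟩ : ∃ i : Fin 12, certL i = l := ⟨⟨l - 15, by omega⟩, by simp [certL]; omega⟩
  by_contra hcon
  simp only [not_exists, not_and, not_not] at hcon
  have h := cert_zonal_ge i (hcon _ ⟨certE_nonneg, le_rfl⟩)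
    (by rw [hi, top_sec_const hcon]; exact round_sector_pos (by omega))
  rw [hi, top_sec_const hcon] at h
  have := round_zonal_le (l := l) (by omega)
  omega

end

end Vale.Agent.P225.Disproof
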