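import Mathlib

/-!
# P225, module F: the data of the twelve crossing certificates

For `i < 12` the level is `15 + i`. `certMu i` separates the zonal polynomials of degree at most
`l + 1` from the sector `m = l` of the pencil of `1 + certE (z ^ 2 - 1 / 3)`; `certC i` is the
exponent of the comparison function of the sector and `certW i` lists the weights (in thousandths)
that show the zonal tridiagonal form negative.
-/

namespace Vale.Agent.P225.Disproof

noncomputable section

/-- The amplitude of the axisymmetric crossing shape. -/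
def certE : ℝ := 157 / 500

/-- The separating values. -/
def certMu (i : Fin 12) : ℝ :=
  [264859 / 1000, 30037 / 100, 33811 / 100, 378081 / 1000, 420281 / 1000, 464721 / 1000,
    511396 / 1000, 560301 / 1000, 611436 / 1000, 664802 / 1000, 720399 / 1000, 778235 / 1000].getD i.val 0

/-- The exponents of the comparison functions. -/
def certC (i : Fin 12) : ℝ :=
  [34 / 25, 73 / 50, 39 / 25, 83 / 50, 44 / 25, 46 / 25, 97 / 50, 51 / 25, 107 / 50, 56 / 25,
    117 / 50, 121 / 50].getD i.val 0

/-- The weights of the zonal certificates, in thousandths. -/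
def certW (i : Fin 12) : List ℕ :=
  [
    [1000000, 9554, 12851, 12736, 12592, 12265, 11816, 11257, 10594, 9829, 8965, 8000, 6936, 5771,
      4504, 3130, 1640, 1],
    [1000000, 9554, 12861, 12769, 12660, 12378, 11986, 11496, 10912, 10239, 9478, 8629, 7692,
      6666, 5552, 4346, 3045, 1639, 1],
    [1000000, 9554, 12870, 12797, 12716, 12472, 12128, 11694, 11177, 10581, 9905, 9151, 8320,
      7410, 6422, 5354, 4205, 2969, 1638, 1],
    [1000000, 9554, 12878, 12820, 12763, 12551, 12247, 11861, 11400, 10868, 10264, 9591, 8848,
      8036, 7153, 6200, 5176, 4077, 2901, 1637, 1],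
    [1000000, 9554, 12884, 12840, 12803, 12618, 12348, 12003, 11590, 11112, 10570, 9965, 9297,
      8567, 7774, 6918, 5998, 5013, 3962, 2839, 1635, 1],
    [1000000, 9554, 12890, 12857, 12837, 12676, 12434, 12124, 11752, 11321, 10831, 10284, 9681,
      9021, 8305, 7532, 6701, 5813, 4866, 3857, 2782, 1633, 1],
    [1000000, 9554, 12894, 12871, 12867, 12725, 12509, 12229, 11892, 11501, 11057, 10560, 10013,
      9413, 8763, 8061, 7307, 6502, 5643, 4730, 3761, 2731, 1631, 1],
    [1000000, 9554, 12898, 12884, 12892, 12768, 12574, 12320, 12014, 11657, 11253, 10800, 10301,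
      9754, 9161, 8521, 7834, 7099, 6317, 5486, 4605, 3673, 2684, 1629, 1],
    [1000000, 9554, 12902, 12895, 12915, 12806, 12631, 12400, 12120, 11794, 11424, 11010, 10553,
      10052, 9509, 8923, 8293, 7621, 6905, 6146, 5341, 4490, 3591, 2640, 1626, 1],
    [1000000, 9554, 12905, 12905, 12935, 12839, 12680, 12470, 12214, 11915, 11575, 11194, 10774,
      10314, 9815, 9276, 8698, 8080, 7422, 6725, 5986, 5206, 4384, 3516, 2599, 1624, 1],
    [1000000, 9554, 12908, 12914, 12952, 12869, 12725, 12532, 12297, 12022, 11708, 11358, 10970,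
      10546, 10085, 9588, 9055, 8485, 7879, 7236, 6556, 5838, 5081, 4285, 3446, 2562, 1621, 1],
    [1000000, 9554, 12910, 12921, 12968, 12895, 12764, 12587, 12370, 12116, 11827, 11502, 11144,
      10752, 10326, 9866, 9372, 8845, 8285, 7690, 7061, 6398, 5699, 4965, 4193, 3382, 2526, 1618,
      1]].getD i.val []

end

end Vale.Agent.P225.Disproof
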