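import Vale.Agent.P225.Disproof.CertLegendre
import Vale.Agent.P225.Disproof.CertData

/-!
# P225, module F (i): the zonal certificates

For each of the twelve levels `l` the pencil of `1 + certE (z ^ 2 - 1 / 3)` is below `certMu` on
all zonal polynomials of degree at most `l + 1`, constants included.
-/

namespace Vale.Agent.P225.Disproof

open MvPolynomial MeasureTheory Set
open scoped RealInnerProductSpace

noncomputable section

/-- The inner product of restrictions, as a bilinear map. -/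
def sphL : MvPolynomial (Fin 3) ℝ →ₗ[ℝ] MvPolynomial (Fin 3) ℝ →ₗ[ℝ] ℝ :=
  LinearMap.mk₂ ℝ sphIp sphIp_add sphIp_smul
    (fun p q r => by rw [sphIp_comm, sphIp_add, sphIp_comm q, sphIp_comm r])
    (fun a p q => by rw [sphIp_comm, sphIp_smul, sphIp_comm q, smul_eq_mul])

theorem sphL_apply (p q : MvPolynomial (Fin 3) ℝ) : sphL p q = sphIp p q := rfl

/-- The axisymmetric shape `1 + e (z ^ 2 - 1 / 3)`. -/
def certP (e : ℝ) : MvPolynomial (Fin 3) ℝ := C (1 - e / 3) + C e * (X 2 * X 2)

theorem res_certP (e : ℝ) (θ : Sph 3) :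
    res (certP e) θ = 1 + e * ((θ : Space 3) 2 ^ 2 - 1 / 3) := by
  simp [certP, res, evalFun]
  ring

/-- A zonal polynomial. -/
def zonPoly (K : ℕ) (c : ℕ → ℝ) : MvPolynomial (Fin 3) ℝ := ∑ n ∈ Finset.range K, c n • zonH n

theorem rotP_zonPoly (K : ℕ) (c : ℕ → ℝ) : rotP 2 (zonPoly K c) = 0 := by
  simp [zonPoly, map_sum, rotP_zonH]

theorem zonPoly_mem {N K : ℕ} (h : K ≤ N + 1) (c : ℕ → ℝ) : zonPoly K c ∈ harmUpTo N :=
  Submodule.sum_mem _ fun n hn =>
    Submodule.smul_mem _ _ (zonH_mem (by have := Finset.mem_range.1 hn; omega))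

theorem sphIp_zonPoly (K : ℕ) (c d : ℕ → ℝ) :
    sphIp (zonPoly K c) (zonPoly K d) = ∑ n ∈ Finset.range K, c n * d n * zonN n := by
  rw [← sphL_apply]
  simp only [zonPoly, map_sum, map_smul, LinearMap.sum_apply, LinearMap.smul_apply, smul_eq_mul,
    sphL_apply, sphIp_zonH, mul_ite, mul_zero, Finset.sum_ite_eq']
  refine Finset.sum_congr rfl fun n hn => ?_
  rw [if_pos hn]
  ring

/-- The coefficients of `z` times a zonal polynomial, on the sphere. -/
def zonShift (c : ℕ → ℝ) (j : ℕ) : ℝ :=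
  (if j = 0 then 0 else zonA (j - 1) * c (j - 1)) + zonB (j + 1) * c (j + 1)

theorem sum_shift_up (K : ℕ) (c : ℕ → ℝ) (g : ℕ → ℝ) :
    ∑ j ∈ Finset.range (K + 1), (if j = 0 then 0 else zonA (j - 1) * c (j - 1)) * g j =
      ∑ n ∈ Finset.range K, zonA n * c n * g (n + 1) := by
  rw [Finset.sum_range_succ']
  simp

theorem sum_shift_down {K : ℕ} {f : ℕ → ℝ} (h0 : f 0 = 0) (hK : ∀ n, K ≤ n → f n = 0) :
    ∑ j ∈ Finset.range (K + 1), f (j + 1) = ∑ n ∈ Finset.range K, f n := by
  have h := Finset.sum_range_succ' f (K + 1)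
  rw [h0, add_zero, Finset.sum_range_succ, Finset.sum_range_succ, hK (K + 1) (by omega),
    hK K le_rfl, add_zero, add_zero] at h
  exact h.symm

theorem res_zonPoly (K : ℕ) (c : ℕ → ℝ) (θ : Sph 3) :
    res (zonPoly K c) θ = ∑ n ∈ Finset.range K, c n * res (zonH n) θ := by
  simp [res, evalFun, zonPoly, map_sum, MvPolynomial.smul_eval]

theorem res_X_mul_zonPoly {K : ℕ} {c : ℕ → ℝ} (hc : ∀ n, K ≤ n → c n = 0) (θ : Sph 3) :
    (θ : Space 3) 2 * res (zonPoly K c) θ = res (zonPoly (K + 1) (zonShift c)) θ := by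
  rw [res_zonPoly, res_zonPoly, Finset.mul_sum]
  simp only [zonShift, add_mul, Finset.sum_add_distrib, sum_shift_up K c fun j => res (zonH j) θ]
  have h2 := sum_shift_down (K := K)
    (f := fun n => zonB n * c n * res (zonH (n - 1)) θ) (by simp [zonB])
    (fun n hn => by simp [hc n hn])
  simp only [Nat.add_sub_cancel] at h2
  rw [h2, ← Finset.sum_add_distrib]
  refine Finset.sum_congr rfl fun n _ => ?_
  rw [mul_left_comm, res_X_mul_zonH]
  ring

/-- The two forms of the pencil on a zonal polynomial. -/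
theorem zon_forms {K : ℕ} {c : ℕ → ℝ} (hc : ∀ n, K ≤ n → c n = 0) (e : ℝ) :
    (∑ j, sphIp (rotP j (zonPoly K c)) (rotP j (zonPoly K c)) =
      ∑ n ∈ Finset.range K, (n : ℝ) * (n + 1) * (c n ^ 2 * zonN n)) ∧
    ∫ θ, res (certP e) θ * (res (zonPoly K c) θ * res (zonPoly K c) θ) ∂(sig 3) =
      (1 - e / 3) * (∑ n ∈ Finset.range K, c n ^ 2 * zonN n) +
        e * ∑ j ∈ Finset.range (K + 1), zonShift c j ^ 2 * zonN j := by
  constructor
  · have hL : ∑ j, rotP j (rotP j (zonPoly K c)) =
        zonPoly K fun n => -((n : ℝ) * (n + 1)) * c n := by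
      simp only [zonPoly, map_sum, Derivation.map_smul]
      rw [Finset.sum_comm]
      refine Finset.sum_congr rfl fun n _ => ?_
      rw [← Finset.smul_sum, casimir (zonH_hom n) (lapP_zonH n), ← map_neg, ← smul_eq_C_mul,
        smul_smul, mul_comm]
    calc ∑ j, sphIp (rotP j (zonPoly K c)) (rotP j (zonPoly K c))
        = -sphL (∑ j, rotP j (rotP j (zonPoly K c))) (zonPoly K c) := by
          rw [map_sum, LinearMap.sum_apply, ← Finset.sum_neg_distrib]
          exact Finset.sum_congr rfl fun j _ => by rw [sphL_apply, sphIp_rotP j (rotP j _), neg_neg]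
      _ = _ := by
          rw [hL, sphL_apply, sphIp_zonPoly, ← Finset.sum_neg_distrib]
          exact Finset.sum_congr rfl fun n _ => by ring
  · set u := zonPoly K c
    set v := zonPoly (K + 1) (zonShift c)
    have hu : sphIp u u = ∑ n ∈ Finset.range K, c n ^ 2 * zonN n :=
      (sphIp_zonPoly K c c).trans (Finset.sum_congr rfl fun n _ => by ring)
    have hv : sphIp v v = ∑ j ∈ Finset.range (K + 1), zonShift c j ^ 2 * zonN j :=
      (sphIp_zonPoly _ _ _).trans (Finset.sum_congr rfl fun n _ => by ring)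
    rw [← hu, ← hv, sphIp, sphIp, ← integral_const_mul, ← integral_const_mul, ← integral_add]
    · refine integral_congr_ae (Filter.Eventually.of_forall fun θ => ?_)
      simp only [res_certP, ← res_X_mul_zonPoly hc θ, v, u]
      ring
    all_goals exact integrable_sig (continuous_const.mul ((continuous_res _).mul (continuous_res _)))

/-- The diagonal left after the weighted splitting of the tridiagonal form. -/
def zonD (μ e : ℝ) (w : ℕ → ℝ) (n : ℕ) : ℝ :=
  ((n : ℝ) * (n + 1) - μ * (1 - e / 3)) / (2 * n + 1) -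
    μ * e * ((1 - w (n + 1)) * zonA n ^ 2 / (2 * ((n + 1 : ℕ) : ℝ) + 1) +
      (1 - (w (n - 1))⁻¹) * zonB n ^ 2 / (2 * ((n - 1 : ℕ) : ℝ) + 1))

theorem zon_neg_of_weights {K : ℕ} {μ e : ℝ} (hμe : 0 ≤ μ * e) {w : ℕ → ℝ}
    (hw : ∀ j, 0 < w j) (hD : ∀ n < K, zonD μ e w n < 0) {c : ℕ → ℝ}
    (hc : ∀ n, K ≤ n → c n = 0) (hne : ∃ n, c n ≠ 0) :
    ∑ j, sphIp (rotP j (zonPoly K c)) (rotP j (zonPoly K c)) <
      μ * ∫ θ, res (certP e) θ * (res (zonPoly K c) θ * res (zonPoly K c) θ) ∂(sig 3) := by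
  obtain ⟨h1, h2⟩ := zon_forms hc e
  rw [h1, h2]
  set a : ℕ → ℝ := fun j => if j = 0 then 0 else zonA (j - 1) * c (j - 1) with ha
  set b : ℕ → ℝ := fun j => zonB (j + 1) * c (j + 1) with hb
  have hsq : ∀ j, (1 - w j) * a j ^ 2 + (1 - (w j)⁻¹) * b j ^ 2 ≤ zonShift c j ^ 2 := by
    intro j
    have h0 : 0 ≤ (w j)⁻¹ * (w j * a j + b j) ^ 2 :=
      mul_nonneg (inv_nonneg.2 (hw j).le) (sq_nonneg _)
    have e0 : (w j)⁻¹ * (w j * a j + b j) ^ 2 =
        w j * a j ^ 2 + 2 * (a j * b j) + (w j)⁻¹ * b j ^ 2 := by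
      have := (hw j).ne'
      field_simp
      ring
    show _ ≤ (a j + b j) ^ 2
    linarith [e0 ▸ h0, show (a j + b j) ^ 2 = a j ^ 2 + 2 * (a j * b j) + b j ^ 2 by ring]
  have hlow : ∑ n ∈ Finset.range K, c n ^ 2 *
      ((1 - w (n + 1)) * zonA n ^ 2 * zonN (n + 1) +
        (1 - (w (n - 1))⁻¹) * zonB n ^ 2 * zonN (n - 1)) ≤
      ∑ j ∈ Finset.range (K + 1), zonShift c j ^ 2 * zonN j := by
    refine le_trans (le_of_eq ?_) (Finset.sum_le_sum fun j _ =>
      mul_le_mul_of_nonneg_right (hsq j) (zonN_pos j).le)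
    simp only [add_mul, Finset.sum_add_distrib, mul_add]
    congr 1
    · rw [Finset.sum_range_succ' (fun j => (1 - w j) * a j ^ 2 * zonN j)]
      simp only [ha, if_pos rfl, Nat.add_one_ne_zero, if_false, Nat.add_sub_cancel]
      simp only [ne_eq, OfNat.ofNat_ne_zero, not_false_eq_true, zero_pow, mul_zero, zero_mul,
        add_zero]
      exact Finset.sum_congr rfl fun n _ => by ring
    · have h := sum_shift_down (K := K)
        (f := fun n => (1 - (w (n - 1))⁻¹) * (zonB n * c n) ^ 2 * zonN (n - 1)) (by simp [zonB])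
        (fun n hn => by simp [hc n hn])
      simp only [Nat.add_sub_cancel] at h
      rw [hb, h]
      exact Finset.sum_congr rfl fun n _ => by ring
  obtain ⟨m, hm⟩ := hne
  have hmK : m < K := lt_of_not_ge fun h => hm (hc m h)
  have hneg : ∑ n ∈ Finset.range K, c n ^ 2 * zonN 0 * zonD μ e w n < 0 := by
    refine Finset.sum_neg' (fun n hn => mul_nonpos_of_nonneg_of_nonpos
      (mul_nonneg (sq_nonneg _) (zonN_pos 0).le) (hD n (Finset.mem_range.1 hn)).le)
      ⟨m, Finset.mem_range.2 hmK, mul_neg_of_pos_of_neg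
        (mul_pos (sq_pos_of_ne_zero hm) (zonN_pos 0)) (hD m hmK)⟩
  have hexp : ∑ n ∈ Finset.range K, c n ^ 2 * zonN 0 * zonD μ e w n =
      (∑ n ∈ Finset.range K, (n : ℝ) * (n + 1) * (c n ^ 2 * zonN n)) -
        μ * (1 - e / 3) * (∑ n ∈ Finset.range K, c n ^ 2 * zonN n) -
        μ * e * ∑ n ∈ Finset.range K, c n ^ 2 *
          ((1 - w (n + 1)) * zonA n ^ 2 * zonN (n + 1) +
            (1 - (w (n - 1))⁻¹) * zonB n ^ 2 * zonN (n - 1)) := by
    rw [Finset.mul_sum, Finset.mul_sum, ← Finset.sum_sub_distrib, ← Finset.sum_sub_distrib]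
    refine Finset.sum_congr rfl fun n _ => ?_
    rw [zonD, zonN_eq n, zonN_eq (n + 1), zonN_eq (n - 1)]
    ring
  linarith [mul_le_mul_of_nonneg_left hlow hμe]

/-- The level of a certificate. -/
def certL (i : Fin 12) : ℕ := 15 + i

/-- The weights of a certificate. -/
def certWt (i : Fin 12) (j : ℕ) : ℝ := ((certW i).getD j 1 : ℕ) / 1000

/-- The certificate inequalities. -/
def zonCond (i : Fin 12) : Prop :=
  ∀ n < certL i + 2, zonD (certMu i) certE (certWt i) n < 0

theorem zonCond_0 : zonCond 0 := by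
  intro n hn
  simp only [certL, show ((0 : Fin 12) : ℕ) = 0 from rfl] at hn
  interval_cases n <;> norm_num [zonD, certWt, certW, certMu, certE, zonA, zonB]

theorem zonCond_1 : zonCond 1 := by
  intro n hn
  simp only [certL, show ((1 : Fin 12) : ℕ) = 1 from rfl] at hn
  interval_cases n <;> norm_num [zonD, certWt, certW, certMu, certE, zonA, zonB]

theorem zonCond_2 : zonCond 2 := by
  intro n hn
  simp only [certL, show ((2 : Fin 12) : ℕ) = 2 from rfl] at hn
  interval_cases n <;> norm_num [zonD, certWt, certW, certMu, certE, zonA, zonB]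

theorem zonCond_3 : zonCond 3 := by
  intro n hn
  simp only [certL, show ((3 : Fin 12) : ℕ) = 3 from rfl] at hn
  interval_cases n <;> norm_num [zonD, certWt, certW, certMu, certE, zonA, zonB]

theorem zonCond_4 : zonCond 4 := by
  intro n hn
  simp only [certL, show ((4 : Fin 12) : ℕ) = 4 from rfl] at hn
  interval_cases n <;> norm_num [zonD, certWt, certW, certMu, certE, zonA, zonB]

theorem zonCond_5 : zonCond 5 := by
  intro n hn
  simp only [certL, show ((5 : Fin 12) : ℕ) = 5 from rfl] at hn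
  interval_cases n <;> norm_num [zonD, certWt, certW, certMu, certE, zonA, zonB]

theorem zonCond_6 : zonCond 6 := by
  intro n hn
  simp only [certL, show ((6 : Fin 12) : ℕ) = 6 from rfl] at hn
  interval_cases n <;> norm_num [zonD, certWt, certW, certMu, certE, zonA, zonB]

theorem zonCond_7 : zonCond 7 := by
  intro n hn
  simp only [certL, show ((7 : Fin 12) : ℕ) = 7 from rfl] at hn
  interval_cases n <;> norm_num [zonD, certWt, certW, certMu, certE, zonA, zonB]

theorem zonCond_8 : zonCond 8 := by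
  intro n hn
  simp only [certL, show ((8 : Fin 12) : ℕ) = 8 from rfl] at hn
  interval_cases n <;> norm_num [zonD, certWt, certW, certMu, certE, zonA, zonB]

theorem zonCond_9 : zonCond 9 := by
  intro n hn
  simp only [certL, show ((9 : Fin 12) : ℕ) = 9 from rfl] at hn
  interval_cases n <;> norm_num [zonD, certWt, certW, certMu, certE, zonA, zonB]

theorem zonCond_10 : zonCond 10 := by
  intro n hn
  simp only [certL, show ((10 : Fin 12) : ℕ) = 10 from rfl] at hn
  interval_cases n <;> norm_num [zonD, certWt, certW, certMu, certE, zonA, zonB]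

theorem zonCond_11 : zonCond 11 := by
  intro n hn
  simp only [certL, show ((11 : Fin 12) : ℕ) = 11 from rfl] at hn
  interval_cases n <;> norm_num [zonD, certWt, certW, certMu, certE, zonA, zonB]

theorem zonCond_all (i : Fin 12) : zonCond i := by
  fin_cases i
  exacts [zonCond_0, zonCond_1, zonCond_2, zonCond_3, zonCond_4, zonCond_5, zonCond_6, zonCond_7,
    zonCond_8, zonCond_9, zonCond_10, zonCond_11]

theorem certWt_pos (i : Fin 12) (j : ℕ) : 0 < certWt i j := by
  have h : ∀ x ∈ certW i, 0 < x := by fin_cases i <;> decide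
  refine div_pos (Nat.cast_pos.2 ?_) (by norm_num)
  rw [List.getD_eq_getElem?_getD]
  rcases hg : (certW i)[j]? with _ | x
  · simp
  · exact h x (List.mem_of_getElem? hg)

theorem certMu_pos (i : Fin 12) : 0 < certMu i := by
  fin_cases i <;> norm_num [certMu]

/-- The zonal certificate: a space of zonal polynomials of degree at most `l + 1`, of dimension
`l + 2`, on which the pencil of the crossing shape is below `certMu i`. -/
theorem zonal_plane (i : Fin 12) {N : ℕ} (hN : certL i + 1 ≤ N) :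
    ∃ W : Submodule ℝ (Gal N), Module.finrank ℝ W = certL i + 2 ∧ ∀ p ∈ W,
      rotP 2 p.poly = 0 ∧ p.poly.totalDegree ≤ certL i + 1 ∧
      (p ≠ 0 → ∑ j, ‖rotG j p‖ ^ 2 <
        certMu i * ∫ θ, res (certP certE) θ * (res p.poly θ * res p.poly θ) ∂(sig 3)) := by
  set K := certL i + 2 with hK
  let ext : (Fin K → ℝ) → ℕ → ℝ := fun c n => if h : n < K then c ⟨n, h⟩ else 0
  let T : (Fin K → ℝ) →ₗ[ℝ] Gal N :=
    { toFun := fun c => Gal.mk (zonPoly K (ext c)) (zonPoly_mem (by omega) _)
      map_add' := fun c d => Gal.ext (by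
        simp only [map_add, Gal.poly_mk, zonPoly, ← Finset.sum_add_distrib]
        exact Finset.sum_congr rfl fun n hn => by
          rw [← add_smul]; simp [ext, Finset.mem_range.1 hn])
      map_smul' := fun r c => Gal.ext (by
        simp only [map_smul, RingHom.id_apply, Gal.poly_mk, zonPoly, Finset.smul_sum]
        exact Finset.sum_congr rfl fun n hn => by
          simp [ext, Finset.mem_range.1 hn, smul_smul]) }
  have hext : ∀ c n, K ≤ n → ext c n = 0 := fun c n hn => dif_neg (by omega)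
  have hneg : ∀ c : Fin K → ℝ, c ≠ 0 → ∑ j, ‖rotG j (T c)‖ ^ 2 <
      certMu i * ∫ θ, res (certP certE) θ * (res (T c).poly θ * res (T c).poly θ) ∂(sig 3) := by
    intro c hc
    obtain ⟨k, hk⟩ := Function.ne_iff.1 hc
    have h := zon_neg_of_weights (e := certE) (mul_nonneg (certMu_pos i).le (by norm_num [certE]))
      (certWt_pos i) (zonCond_all i) (hext c)
      ⟨k, by simp only [ext, dif_pos k.2]; exact hk⟩
    refine lt_of_le_of_lt (le_of_eq (Finset.sum_congr rfl fun j _ => ?_)) h
    rw [← real_inner_self_eq_norm_sq, inner_gal, poly_rotG]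
    rfl
  have hinj : Function.Injective T := (injective_iff_map_eq_zero T).2 fun c hc => by
    by_contra hne
    have h := hneg c hne
    rw [hc] at h
    simp [res, evalFun] at h
  refine ⟨LinearMap.range T, by rw [LinearMap.finrank_range_of_inj hinj]; simp, ?_⟩
  rintro p ⟨c, rfl⟩
  refine ⟨rotP_zonPoly K _, ?_, fun hp => hneg c fun h => hp (by rw [h, map_zero])⟩
  exact (mem_harmUpTo.1 (zonPoly_mem (N := certL i + 1) (K := K) (by omega) (ext c))).1

end

end Vale.Agent.P225.Disproof
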