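import Vale.Agent.P225.Disproof.PencilOp
import Vale.Agent.P225.Disproof.CertZonal

/-!
# P225, module F: sectors of the axisymmetric pencil

`secB t n` is the harmonic polynomial `Re (x + i y) ^ m` (for `t` even) or `Im (x + i y) ^ m`
(for `t` odd), `m = (t + 1) / 2`, times a polynomial in `z` of degree `n`. These are an orthogonal
and complete system on the sphere, `z` shifts `n` by one, so the pencil of `certP e` commutes with
the projection on each sector.
-/

namespace Vale.Agent.P225.Disproof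

open MvPolynomial MeasureTheory Set
open scoped RealInnerProductSpace

noncomputable section

/-- The real and imaginary parts of `(x + i y) ^ m`. -/
def cwsw : ℕ → MvPolynomial (Fin 3) ℝ × MvPolynomial (Fin 3) ℝ
  | 0 => (1, 0)
  | m + 1 => (X 0 * (cwsw m).1 - X 1 * (cwsw m).2, X 0 * (cwsw m).2 + X 1 * (cwsw m).1)

/-- The real part of `(x + i y) ^ m`. -/
def cw (m : ℕ) : MvPolynomial (Fin 3) ℝ := (cwsw m).1

/-- The imaginary part of `(x + i y) ^ m`. -/
def sw (m : ℕ) : MvPolynomial (Fin 3) ℝ := (cwsw m).2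

theorem cw_zero : cw 0 = 1 := rfl

theorem sw_zero : sw 0 = 0 := rfl

theorem cw_succ (m : ℕ) : cw (m + 1) = X 0 * cw m - X 1 * sw m := rfl

theorem sw_succ (m : ℕ) : sw (m + 1) = X 0 * sw m + X 1 * cw m := rfl

theorem cw_hom : ∀ m, (cw m).IsHomogeneous m ∧ (sw m).IsHomogeneous m
  | 0 => ⟨isHomogeneous_one _ _, isHomogeneous_zero _ _ _⟩
  | m + 1 => by
    obtain ⟨h1, h2⟩ := cw_hom m
    have hX : ∀ (i : Fin 3) {q : MvPolynomial (Fin 3) ℝ}, q.IsHomogeneous m →
        (X i * q).IsHomogeneous (m + 1) := fun i q hq =>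
      Nat.add_comm 1 m ▸ (isHomogeneous_X ℝ i).mul hq
    exact ⟨(hX 0 h1).sub (hX 1 h2), (hX 0 h2).add (hX 1 h1)⟩

theorem cw_add : ∀ a b, cw (a + b) = cw a * cw b - sw a * sw b ∧
    sw (a + b) = sw a * cw b + cw a * sw b
  | a, 0 => by simp [cw_zero, sw_zero]
  | a, b + 1 => by
    obtain ⟨h1, h2⟩ := cw_add a b
    rw [← Nat.add_assoc, cw_succ (a + b), sw_succ (a + b), cw_succ b, sw_succ b, h1, h2]
    constructor <;> ring

theorem pderiv_cw : ∀ m : ℕ,
    pderiv 0 (cw (m + 1)) = ((m : ℝ) + 1) • cw m ∧ pderiv 1 (cw (m + 1)) = -((m : ℝ) + 1) • sw m ∧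
    pderiv 0 (sw (m + 1)) = ((m : ℝ) + 1) • sw m ∧ pderiv 1 (sw (m + 1)) = ((m : ℝ) + 1) • cw m
  | 0 => by simp [cw_succ, sw_succ, cw_zero, sw_zero]
  | m + 1 => by
    obtain ⟨a, b, c, d⟩ := pderiv_cw m
    refine ⟨?_, ?_, ?_, ?_⟩ <;>
    · simp [cw_succ (m + 1), sw_succ (m + 1), pderiv_X, a, b, c, d]
      simp only [cw_succ, sw_succ]
      simp only [smul_eq_C_mul, map_add, map_neg, C_1, map_natCast]
      ring

theorem pderiv_two_cw : ∀ m, pderiv 2 (cw m) = 0 ∧ pderiv 2 (sw m) = 0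
  | 0 => by simp [cw_zero, sw_zero]
  | m + 1 => by
    obtain ⟨a, b⟩ := pderiv_two_cw m
    simp [cw_succ, sw_succ, a, b]

theorem lapP_cw : ∀ m, lapP (cw m) = 0 ∧ lapP (sw m) = 0
  | 0 => ⟨lapP_eq_zero_of_lt (cw_hom 0).1 (by omega), lapP_eq_zero_of_lt (cw_hom 0).2 (by omega)⟩
  | 1 => ⟨lapP_eq_zero_of_lt (cw_hom 1).1 (by omega), lapP_eq_zero_of_lt (cw_hom 1).2 (by omega)⟩
  | m + 2 => by
    obtain ⟨a, b, c, d⟩ := pderiv_cw (m + 1)
    obtain ⟨a', b', c', d'⟩ := pderiv_cw m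
    simp only [lapP, Fin.sum_univ_three, a, b, c, d, Derivation.map_smul, a', b', c', d',
      (pderiv_two_cw (m + 2)).1, (pderiv_two_cw (m + 2)).2, map_zero, add_zero, smul_smul]
    constructor <;>
    · rw [← add_smul]
      ring_nf
      simp

theorem rotP_cw : ∀ m : ℕ, rotP 2 (cw m) = -(m : ℝ) • sw m ∧ rotP 2 (sw m) = (m : ℝ) • cw m
  | 0 => by simp [cw_zero, sw_zero]
  | m + 1 => by
    obtain ⟨a, b, c, d⟩ := pderiv_cw m
    simp only [rotP_apply, show (2 : Fin 3) + 1 = 0 from rfl, show (2 : Fin 3) + 2 = 1 from rfl,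
      a, b, c, d]
    rw [cw_succ, sw_succ]
    simp only [smul_eq_C_mul, map_add, map_neg, C_1, map_natCast, Nat.cast_add, Nat.cast_one]
    constructor <;> ring

/-- The axial factor of a sector harmonic. -/
def secQ (m : ℕ) : ℕ → MvPolynomial (Fin 3) ℝ
  | 0 => 1
  | 1 => (2 * (m : ℝ) + 1) • X 2
  | n + 2 => ((2 * ((n : ℝ) + m) + 3) / (n + 2)) • (X 2 * secQ m (n + 1)) -
      (((n : ℝ) + 1 + 2 * m) / (n + 2)) • (sq 3 * secQ m n)

theorem secQ_succ_succ (m n : ℕ) : secQ m (n + 2) =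
    ((2 * ((n : ℝ) + m) + 3) / (n + 2)) • (X 2 * secQ m (n + 1)) -
      (((n : ℝ) + 1 + 2 * m) / (n + 2)) • (sq 3 * secQ m n) := by
  rw [secQ]

theorem secQ_hom (m : ℕ) : ∀ n, (secQ m n).IsHomogeneous n
  | 0 => isHomogeneous_one _ _
  | 1 => (homogeneousSubmodule (Fin 3) ℝ 1).smul_mem _ (isHomogeneous_X ℝ _)
  | n + 2 => by
    have h1 : (X 2 * secQ m (n + 1)).IsHomogeneous (n + 2) :=
      (show 1 + (n + 1) = n + 2 by omega) ▸ (isHomogeneous_X ℝ _).mul (secQ_hom m (n + 1))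
    have h2 : (sq 3 * secQ m n).IsHomogeneous (n + 2) :=
      (show 2 + n = n + 2 by omega) ▸ sq_hom.mul (secQ_hom m n)
    rw [secQ_succ_succ]
    exact (homogeneousSubmodule (Fin 3) ℝ (n + 2)).sub_mem
      ((homogeneousSubmodule (Fin 3) ℝ (n + 2)).smul_mem _ h1)
      ((homogeneousSubmodule (Fin 3) ℝ (n + 2)).smul_mem _ h2)

theorem pderiv_secQ (m : ℕ) : ∀ n : ℕ,
    pderiv 2 (secQ m (n + 1)) = ((n : ℝ) + 1 + 2 * m) • secQ m n
  | 0 => by
    simp [secQ]
    ring_nf
  | 1 => by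
    rw [secQ_succ_succ]
    simp only [secQ, map_sub, Derivation.map_smul, pderiv_mul, pderiv_sq, pderiv_X_self,
      one_mul, mul_one, two_mul, mul_smul_comm]
    match_scalars
    field_simp
    push_cast
    ring
  | n + 2 => by
    rw [secQ_succ_succ m (n + 1)]
    simp only [map_sub, Derivation.map_smul, pderiv_mul, pderiv_sq, pderiv_X_self,
      pderiv_secQ m (n + 1), pderiv_secQ m n, one_mul, mul_smul_comm, two_mul, add_mul]
    rw [secQ_succ_succ m n]
    match_scalars <;> (field_simp; push_cast; ring)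

theorem rotP_secQ (m : ℕ) : ∀ n, rotP 2 (secQ m n) = 0
  | 0 => by simp [secQ]
  | 1 => by simp [secQ, rotP_X]
  | n + 2 => by
    have hs : rotP 2 (sq 3) = 0 := by
      simp [rotP_apply, pderiv_sq]
      ring
    rw [secQ_succ_succ, map_sub, Derivation.map_smul, Derivation.map_smul, Derivation.leibniz,
      Derivation.leibniz, rotP_secQ m (n + 1), rotP_secQ m n, hs, rotP_X]
    simp

theorem secQ_pole (m : ℕ) : ∀ n,
    0 < MvPolynomial.eval (fun i : Fin 3 => if i = 2 then (1 : ℝ) else 0) (secQ m n) ∧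
      MvPolynomial.eval (fun i : Fin 3 => if i = 2 then (1 : ℝ) else 0) (secQ m n) ≤
        MvPolynomial.eval (fun i : Fin 3 => if i = 2 then (1 : ℝ) else 0) (secQ m (n + 1))
  | 0 => by simp [secQ, MvPolynomial.smul_eval]
  | n + 1 => by
    obtain ⟨h0, h1⟩ := secQ_pole m n
    refine ⟨h0.trans_le h1, ?_⟩
    have hs : MvPolynomial.eval (fun i : Fin 3 => if i = 2 then (1 : ℝ) else 0) (sq 3) = 1 := by
      simp [sq, Fin.sum_univ_three]
    rw [secQ_succ_succ]
    simp only [map_sub, MvPolynomial.smul_eval, map_mul, eval_X, if_pos, one_mul, hs]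
    rw [div_mul_eq_mul_div, div_mul_eq_mul_div, ← sub_div, le_div_iff₀ (by positivity)]
    have : 0 ≤ (n : ℝ) + 1 + 2 * m := by positivity
    nlinarith [mul_le_mul_of_nonneg_left h1 this]

theorem secQ_ne_zero (m n : ℕ) : secQ m n ≠ 0 := fun h => by
  have := (secQ_pole m n).1
  simp [h] at this

/-- A sector harmonic times an axially symmetric factor is harmonic. -/
theorem lapP_wp_mul_secQ {m : ℕ} {w : MvPolynomial (Fin 3) ℝ} (hw : w.IsHomogeneous m)
    (hwl : lapP w = 0) (hw2 : pderiv 2 w = 0) : ∀ n, lapP (w * secQ m n) = 0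
  | 0 => by simpa [secQ] using hwl
  | 1 => by
    have e : lapP (X 2 * w) = 2 * pderiv 2 w + X 2 * lapP w := by
      simp [lapP, Fin.sum_univ_three, pderiv_X, map_add]
      ring
    rw [show w * secQ m 1 = (2 * (m : ℝ) + 1) • (X 2 * w) by
      simp [secQ, mul_comm w], lapP_smul, e, hw2, hwl]
    simp
  | n + 2 => by
    have e : ∀ F : MvPolynomial (Fin 3) ℝ, lapP (X 2 * F) = 2 * pderiv 2 F + X 2 * lapP F := by
      intro F
      simp [lapP, Fin.sum_univ_three, pderiv_X, map_add]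
      ring
    have h2 : pderiv 2 (w * secQ m (n + 1)) = ((n : ℝ) + 1 + 2 * m) • (w * secQ m n) := by
      rw [pderiv_mul, hw2, pderiv_secQ, zero_mul, zero_add, mul_smul_comm]
    rw [secQ_succ_succ, mul_sub, mul_smul_comm, mul_smul_comm, sub_eq_add_neg, ← neg_smul,
      lapP_add, lapP_smul, lapP_smul, ← mul_assoc, mul_comm w (X 2), mul_assoc, e, h2,
      ← mul_assoc, mul_comm w (sq 3), mul_assoc, lapP_sq_mul (hw.mul (secQ_hom m n)),
      lapP_wp_mul_secQ hw hwl hw2 n, lapP_wp_mul_secQ hw hwl hw2 (n + 1), mul_zero, mul_zero,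
      zero_add, add_zero, smul_smul, mul_smul_comm, two_mul (w * secQ m n)]
    match_scalars
    field_simp
    push_cast
    ring

/-- The frequency of a sector. -/
def secM (t : ℕ) : ℕ := (t + 1) / 2

/-- The angular factor of a sector. -/
def wP (t : ℕ) : MvPolynomial (Fin 3) ℝ := if t % 2 = 0 then cw (secM t) else sw (secM t)

theorem secM_even (m : ℕ) : secM (2 * m) = m := by simp only [secM]; omega

theorem secM_odd (m : ℕ) : secM (2 * m + 1) = m + 1 := by simp only [secM]; omega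

theorem wP_even (m : ℕ) : wP (2 * m) = cw m := by simp [wP, secM_even]

theorem wP_odd (m : ℕ) : wP (2 * m + 1) = sw (m + 1) := by simp [wP, secM_odd]

theorem sector_cases (t : ℕ) : ∃ m, t = 2 * m ∨ t = 2 * m + 1 := ⟨t / 2, by omega⟩

theorem wP_hom (t : ℕ) : (wP t).IsHomogeneous (secM t) := by
  unfold wP
  split_ifs
  exacts [(cw_hom _).1, (cw_hom _).2]

/-- The harmonic polynomials of a sector. -/
def secB (t n : ℕ) : MvPolynomial (Fin 3) ℝ := wP t * secQ (secM t) n

theorem secB_hom (t n : ℕ) : (secB t n).IsHomogeneous (secM t + n) :=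
  (wP_hom t).mul (secQ_hom _ n)

theorem lapP_secB (t n : ℕ) : lapP (secB t n) = 0 := by
  refine lapP_wp_mul_secQ (wP_hom t) ?_ ?_ n <;> unfold wP <;> split_ifs
  exacts [(lapP_cw _).1, (lapP_cw _).2, (pderiv_two_cw _).1, (pderiv_two_cw _).2]

theorem secB_even (m n : ℕ) : secB (2 * m) n = cw m * secQ m n := by
  rw [secB, wP_even, secM_even]

theorem secB_odd (m n : ℕ) : secB (2 * m + 1) n = sw (m + 1) * secQ (m + 1) n := by
  rw [secB, wP_odd, secM_odd]

theorem rotP_cw_mul (m n : ℕ) : rotP 2 (cw m * secQ m n) = -(m : ℝ) • (sw m * secQ m n) ∧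
    rotP 2 (sw m * secQ m n) = (m : ℝ) • (cw m * secQ m n) := by
  constructor <;>
    simp [Derivation.leibniz, rotP_secQ, (rotP_cw m).1, (rotP_cw m).2, mul_comm (secQ m n)]

theorem rotP_rotP_secB (t n : ℕ) :
    rotP 2 (rotP 2 (secB t n)) = -((secM t : ℝ) ^ 2) • secB t n := by
  obtain ⟨m, rfl | rfl⟩ := sector_cases t
  · simp only [secB_even, secM_even, (rotP_cw_mul m n).1, Derivation.map_smul,
      (rotP_cw_mul m n).2, smul_smul]
    congr 1
    ring
  · simp only [secB_odd, secM_odd, (rotP_cw_mul (m + 1) n).2, Derivation.map_smul,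
      (rotP_cw_mul (m + 1) n).1, smul_smul]
    congr 1
    ring

theorem cw_ne_zero (m : ℕ) : cw m ≠ 0 := by
  have : ∀ m, MvPolynomial.eval (fun i : Fin 3 => if i = 0 then (1 : ℝ) else 0) (cw m) = 1 := by
    intro m
    induction m with
    | zero => simp [cw_zero]
    | succ m ih => simp [cw_succ, ih]
  intro h
  simpa [h] using this m

theorem secB_ne_zero (t n : ℕ) : secB t n ≠ 0 := by
  refine mul_ne_zero ?_ (secQ_ne_zero _ n)
  obtain ⟨m, rfl | rfl⟩ := sector_cases t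
  · rw [wP_even]
    exact cw_ne_zero m
  · rw [wP_odd]
    intro h
    have := congrArg (pderiv 1) h
    rw [(pderiv_cw m).2.2.2, map_zero, smul_eq_zero] at this
    exact cw_ne_zero m (this.resolve_left (by positivity))

theorem secB_zero : ∀ n, secB 0 n = zonH n := by
  have h : ∀ n, secQ 0 n = zonH n ∧ secQ 0 (n + 1) = zonH (n + 1) := by
    intro n
    induction n with
    | zero => simp [secQ, zonH]
    | succ n ih =>
      refine ⟨ih.2, ?_⟩
      rw [secQ_succ_succ, zonH_succ_succ, ih.1, ih.2]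
      norm_num
  intro n
  rw [secB, show wP 0 = 1 by simp [wP, secM, cw_zero], one_mul, show secM 0 = 0 from rfl, (h n).1]

/-- The sector vectors. -/
def secE (t n : ℕ) : L2S := toH (secB t n)

theorem secE_mem (t n : ℕ) : secE t n ∈ levSpace (secM t + n) :=
  toH_mem_levSpace (secB_hom t n) (lapP_secB t n)

theorem secE_zero_zero : secE 0 0 = oneH := by
  rw [secE, secB_zero]
  simp [zonH, toH, oneH]

theorem eq_zero_of_toH {l : ℕ} {q : MvPolynomial (Fin 3) ℝ} (hq : q.IsHomogeneous l)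
    (hql : lapP q = 0) (h : toH q = 0) : q = 0 :=
  eq_zero_of_sphIp (mem_harmUpTo.2 ⟨hq.totalDegree_le, hql⟩)
    (by rw [← inner_toH, h, inner_zero_left])

theorem secE_ne_zero (t n : ℕ) : secE t n ≠ 0 := fun h =>
  secB_ne_zero t n (eq_zero_of_toH (secB_hom t n) (lapP_secB t n) h)

/-- The sector vectors are orthogonal. -/
theorem inner_secE {s k t n : ℕ} (h : (s, k) ≠ (t, n)) : ⟪secE s k, secE t n⟫ = 0 := by
  by_cases hl : secM s + k = secM t + n
  swap
  · exact inner_levSpace hl (secE_mem s k) (secE_mem t n)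
  rw [secE, secE, inner_toH]
  by_cases hm : secM s = secM t
  · have hk : k = n := by omega
    subst hk
    have hst : s ≠ t := fun e => h (by rw [e])
    have key : ∀ f g : MvPolynomial (Fin 3) ℝ, ∀ c : ℝ, c ≠ 0 → rotP 2 f = c • g →
        sphIp f g = 0 := fun f g c hc hf => by
      have h1 := sphIp_rotP 2 f f
      rw [hf, sphIp_smul, sphIp_comm f (c • g), sphIp_smul, sphIp_comm g f] at h1
      have : c * sphIp f g = 0 := by linarith
      exact (mul_eq_zero.1 this).resolve_left hc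
    obtain ⟨a, rfl | rfl⟩ := sector_cases s <;> obtain ⟨b, rfl | rfl⟩ := sector_cases t <;>
      simp only [secM_even, secM_odd] at hm
    · exact absurd (by rw [hm]) hst
    · rw [secB_even, secB_odd, hm]
      exact key _ _ _ (neg_ne_zero.2 (by exact_mod_cast Nat.succ_ne_zero b)) (rotP_cw_mul _ k).1
    · rw [secB_even, secB_odd, ← hm, sphIp_comm]
      exact key _ _ _ (neg_ne_zero.2 (by exact_mod_cast Nat.succ_ne_zero a)) (rotP_cw_mul _ k).1
    · exact absurd (by rw [Nat.succ_injective hm]) hst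
  · have h1 := sphIp_rotP 2 (rotP 2 (secB s k)) (secB t n)
    rw [sphIp_rotP 2 (secB s k) (rotP 2 (secB t n)), neg_neg, rotP_rotP_secB, rotP_rotP_secB,
      sphIp_smul, sphIp_comm (secB s k) (_ • _), sphIp_smul, sphIp_comm (secB t n)] at h1
    have : ((secM s : ℝ) ^ 2 - (secM t : ℝ) ^ 2) * sphIp (secB s k) (secB t n) = 0 := by linarith
    refine (mul_eq_zero.1 this).resolve_left (sub_ne_zero.2 fun e => hm ?_)
    exact_mod_cast (pow_left_inj₀ (Nat.cast_nonneg _) (Nat.cast_nonneg _) two_ne_zero).1 e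

theorem toH_sq_mul_assoc (a b : MvPolynomial (Fin 3) ℝ) : toH (a * (sq 3 * b)) = toH (a * b) := by
  rw [mul_left_comm, toH_sq_mul]

/-- The span of one sector. -/
def secSpan (t : ℕ) : Submodule ℝ L2S := Submodule.span ℝ (range (secE t))

theorem secE_mem_secSpan (t n : ℕ) : secE t n ∈ secSpan t :=
  Submodule.subset_span (mem_range_self n)

/-- Multiplication by `z` keeps a sector. -/
theorem toH_X_mul_secB_mem (t n : ℕ) : toH (X 2 * secB t n) ∈ secSpan t := by
  set m := secM t with hm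
  rcases n with _ | n
  · have e : X 2 * secB t 0 = (2 * (m : ℝ) + 1)⁻¹ • secB t 1 := by
      simp only [secB, secQ, ← hm, mul_smul_comm, smul_smul, mul_one]
      rw [inv_mul_cancel₀ (by positivity), one_smul, mul_comm]
    rw [e, map_smul]
    exact Submodule.smul_mem _ _ (secE_mem_secSpan t 1)
  · set a := (2 * ((n : ℝ) + m) + 3) / (n + 2)
    set b := ((n : ℝ) + 1 + 2 * m) / (n + 2)
    have ha : a ≠ 0 := by positivity
    have e : X 2 * secB t (n + 1) = a⁻¹ • secB t (n + 2) + (a⁻¹ * b) • (sq 3 * secB t n) := by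
      simp only [secB, ← hm, secQ_succ_succ m n, mul_sub, mul_smul_comm, smul_sub, smul_smul,
        inv_mul_cancel₀ ha, one_smul, a, b]
      ring_nf
    rw [e, map_add, map_smul, map_smul, toH_sq_mul]
    exact Submodule.add_mem _ (Submodule.smul_mem _ _ (secE_mem_secSpan t _))
      (Submodule.smul_mem _ _ (secE_mem_secSpan t _))

theorem mulOp_X_mem (t : ℕ) {x : L2S} (hx : x ∈ secSpan t) :
    mulOp (sphAlg 3 (X 2)) x ∈ secSpan t := by
  have : secSpan t ≤ (secSpan t).comap (mulOp (sphAlg 3 (X 2))).toLinearMap := by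
    rw [secSpan, Submodule.span_le]
    rintro _ ⟨n, rfl⟩
    show mulOp (sphAlg 3 (X 2)) (toH (secB t n)) ∈ secSpan t
    rw [mulOp_toH]
    exact toH_X_mul_secB_mem t n
  exact this hx

theorem toH_wP_mul_pow_mem (t : ℕ) : ∀ k, toH (wP t * X 2 ^ k) ∈ secSpan t
  | 0 => by simpa [secE, secB, secQ] using secE_mem_secSpan t 0
  | k + 1 => by
    have h := mulOp_X_mem t (toH_wP_mul_pow_mem t k)
    rwa [mulOp_toH, ← mul_assoc, mul_comm (X 2), mul_assoc, ← pow_succ'] at h

/-- The span of the monomials `Re (x + i y) ^ m z ^ k`, `Im (x + i y) ^ m z ^ k`. -/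
def secAll : Submodule ℝ L2S :=
  Submodule.span ℝ (range fun a : ℕ × ℕ × Bool =>
    toH ((if a.2.2 then cw a.1 else sw a.1) * X 2 ^ a.2.1))

theorem cw_sw_mem (m k : ℕ) : toH (cw m * X 2 ^ k) ∈ secAll ∧ toH (sw m * X 2 ^ k) ∈ secAll :=
  ⟨Submodule.subset_span ⟨(m, k, true), rfl⟩, Submodule.subset_span ⟨(m, k, false), rfl⟩⟩

theorem toH_X_mul_mem (i : Fin 3) (m k : ℕ) :
    toH (X i * (cw m * X 2 ^ k)) ∈ secAll ∧ toH (X i * (sw m * X 2 ^ k)) ∈ secAll := by
  have hhalf : ∀ F G : MvPolynomial (Fin 3) ℝ, (2 : ℝ) • F = G → toH G ∈ secAll →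
      toH F ∈ secAll := fun F G h hG => by
    rw [← h, map_smul] at hG
    have := secAll.smul_mem (2 : ℝ)⁻¹ hG
    rwa [smul_smul, inv_mul_cancel₀ two_ne_zero, one_smul] at this
  have hlow : ∀ F : MvPolynomial (Fin 3) ℝ, (∀ k : ℕ, toH (F * X 2 ^ k) ∈ secAll) →
      toH ((X 0 * X 0 + X 1 * X 1) * (F * X 2 ^ k)) ∈ secAll := fun F hF => by
    rw [show (X 0 * X 0 + X 1 * X 1 : MvPolynomial (Fin 3) ℝ) = sq 3 - X 2 * X 2 by
      simp [sq, Fin.sum_univ_three], sub_mul, map_sub, toH_sq_mul,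
      show X 2 * X 2 * (F * X 2 ^ k) = F * X 2 ^ (k + 2) by ring]
    exact secAll.sub_mem (hF k) (hF (k + 2))
  obtain rfl | rfl | rfl : i = 0 ∨ i = 1 ∨ i = 2 := by fin_cases i <;> simp
  · rcases m with _ | m
    · exact ⟨by simpa [cw_succ, cw_zero, sw_zero] using (cw_sw_mem 1 k).1, by simp [sw_zero]⟩
    · refine ⟨hhalf _ (cw (m + 2) * X 2 ^ k + (X 0 * X 0 + X 1 * X 1) * (cw m * X 2 ^ k)) ?_ ?_,
        hhalf _ (sw (m + 2) * X 2 ^ k + (X 0 * X 0 + X 1 * X 1) * (sw m * X 2 ^ k)) ?_ ?_⟩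
      · rw [cw_succ (m + 1), sw_succ m, cw_succ m, two_smul]
        ring
      · rw [map_add]
        exact secAll.add_mem (cw_sw_mem _ k).1 (hlow _ fun k => (cw_sw_mem m k).1)
      · rw [sw_succ (m + 1), sw_succ m, cw_succ m, two_smul]
        ring
      · rw [map_add]
        exact secAll.add_mem (cw_sw_mem _ k).2 (hlow _ fun k => (cw_sw_mem m k).2)
  · rcases m with _ | m
    · exact ⟨by simpa [sw_succ, cw_zero, sw_zero] using (cw_sw_mem 1 k).2, by simp [sw_zero]⟩
    · refine ⟨hhalf _ (sw (m + 2) * X 2 ^ k - (X 0 * X 0 + X 1 * X 1) * (sw m * X 2 ^ k)) ?_ ?_,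
        hhalf _ ((X 0 * X 0 + X 1 * X 1) * (cw m * X 2 ^ k) - cw (m + 2) * X 2 ^ k) ?_ ?_⟩
      · rw [sw_succ (m + 1), sw_succ m, cw_succ m, two_smul]
        ring
      · rw [map_sub]
        exact secAll.sub_mem (cw_sw_mem _ k).2 (hlow _ fun k => (cw_sw_mem m k).2)
      · rw [cw_succ (m + 1), sw_succ m, cw_succ m, two_smul]
        ring
      · rw [map_sub]
        exact secAll.sub_mem (hlow _ fun k => (cw_sw_mem m k).1) (cw_sw_mem _ k).1
  · constructor <;> rw [mul_left_comm, ← pow_succ']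
    exacts [(cw_sw_mem m (k + 1)).1, (cw_sw_mem m (k + 1)).2]

/-- The monomials exhaust the polynomials. -/
theorem toH_mem_secAll (p : MvPolynomial (Fin 3) ℝ) : toH p ∈ secAll := by
  induction p using MvPolynomial.induction_on with
  | C r =>
    rw [show (C r : MvPolynomial (Fin 3) ℝ) = r • (cw 0 * X 2 ^ 0) by simp [cw_zero, smul_eq_C_mul],
      map_smul]
    exact secAll.smul_mem r (cw_sw_mem 0 0).1
  | add p q hp hq => rw [map_add]; exact secAll.add_mem hp hq
  | mul_X p i hp =>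
    have hmap : secAll ≤ secAll.comap (mulOp (sphAlg 3 (X i))).toLinearMap := by
      conv_lhs => rw [secAll]
      rw [Submodule.span_le]
      rintro _ ⟨⟨m, k, b⟩, rfl⟩
      show mulOp (sphAlg 3 (X i)) (toH _) ∈ secAll
      rw [mulOp_toH]
      cases b
      · exact (toH_X_mul_mem i m k).2
      · exact (toH_X_mul_mem i m k).1
    rw [mul_comm, ← mulOp_toH]
    exact hmap hp

/-- Completeness of the sectors. -/
theorem eq_zero_of_orth_secE {x : L2S} (h : ∀ t n, ⟪secE t n, x⟫ = 0) : x = 0 := by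
  have hK : ∀ t, secSpan t ≤ LinearMap.ker (innerSL ℝ x).toLinearMap := fun t => by
    rw [secSpan, Submodule.span_le]
    rintro _ ⟨n, rfl⟩
    show ⟪x, secE t n⟫ = 0
    rw [real_inner_comm, h]
  have hle : secAll ≤ LinearMap.ker (innerSL ℝ x).toLinearMap := by
    rw [secAll, Submodule.span_le]
    rintro _ ⟨⟨m, k, b⟩, rfl⟩
    cases b
    · rcases m with _ | m
      · simp [sw_zero]
      · show toH (sw (m + 1) * X 2 ^ k) ∈ _
        rw [← wP_odd]
        exact hK (2 * m + 1) (toH_wP_mul_pow_mem _ k)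
    · show toH (cw m * X 2 ^ k) ∈ _
      rw [← wP_even]
      exact hK (2 * m) (toH_wP_mul_pow_mem _ k)
  refine eq_zero_of_orth_toH fun p => ?_
  rw [real_inner_comm]
  exact hle (toH_mem_secAll p)

end

end Vale.Agent.P225.Disproof
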