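import Vale.Agent.P225.Disproof.Galerkin

/-!
# P225, module F: zonal harmonic polynomials

`zonH n` is the zonal harmonic polynomial `r^n P_n(z / r)` about the third axis. On the sphere
multiplication by `z` is tridiagonal and `(2 n + 1) ‖zonH n‖²` is constant; together with the
Casimir identity this turns the two forms of the pencil on zonal polynomials into explicit sums.
-/

namespace Vale.Agent.P225.Disproof

open MvPolynomial MeasureTheory Set

noncomputable section

/-- The zonal harmonic polynomial of degree `n`. -/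
def zonH : ℕ → MvPolynomial (Fin 3) ℝ
  | 0 => 1
  | 1 => X 2
  | n + 2 => ((2 * (n : ℝ) + 3) / (n + 2)) • (X 2 * zonH (n + 1)) -
      (((n : ℝ) + 1) / (n + 2)) • (sq 3 * zonH n)

theorem zonH_succ_succ (n : ℕ) : zonH (n + 2) =
    ((2 * (n : ℝ) + 3) / (n + 2)) • (X 2 * zonH (n + 1)) -
      (((n : ℝ) + 1) / (n + 2)) • (sq 3 * zonH n) := by
  rw [zonH]

theorem zonH_hom : ∀ n, (zonH n).IsHomogeneous n
  | 0 => isHomogeneous_one _ _
  | 1 => isHomogeneous_X ℝ _
  | n + 2 => by
    have h1 : (X 2 * zonH (n + 1)).IsHomogeneous (n + 2) :=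
      (show 1 + (n + 1) = n + 2 by omega) ▸ (isHomogeneous_X ℝ _).mul (zonH_hom (n + 1))
    have h2 : (sq 3 * zonH n).IsHomogeneous (n + 2) :=
      (show 2 + n = n + 2 by omega) ▸ sq_hom.mul (zonH_hom n)
    rw [zonH_succ_succ]
    exact (homogeneousSubmodule (Fin 3) ℝ (n + 2)).sub_mem
      ((homogeneousSubmodule (Fin 3) ℝ (n + 2)).smul_mem _ h1)
      ((homogeneousSubmodule (Fin 3) ℝ (n + 2)).smul_mem _ h2)

theorem pderiv_zonH : ∀ n : ℕ, pderiv 2 (zonH (n + 1)) = ((n : ℝ) + 1) • zonH n
  | 0 => by simp [zonH]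
  | 1 => by
    rw [zonH_succ_succ]
    simp only [zonH, map_sub, Derivation.map_smul, pderiv_mul, pderiv_sq, pderiv_X_self,
      one_mul, mul_one, two_mul]
    match_scalars
    norm_num
  | n + 2 => by
    rw [zonH_succ_succ (n + 1)]
    simp only [map_sub, Derivation.map_smul, pderiv_mul, pderiv_sq, pderiv_X_self,
      pderiv_zonH (n + 1), pderiv_zonH n, one_mul, mul_smul_comm, two_mul, add_mul]
    rw [zonH_succ_succ n]
    match_scalars <;> (field_simp; ring)

theorem lapP_zonH : ∀ n, lapP (zonH n) = 0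
  | 0 => lapP_eq_zero_of_lt (zonH_hom 0) (by omega)
  | 1 => lapP_eq_zero_of_lt (zonH_hom 1) (by omega)
  | n + 2 => by
    have e : lapP (X 2 * zonH (n + 1)) = 2 * pderiv 2 (zonH (n + 1)) := by
      have h1 := lapP_zonH (n + 1)
      simp only [lapP, Fin.sum_univ_three] at h1 ⊢
      simp [pderiv_X, map_add]
      linear_combination X 2 * h1
    rw [zonH_succ_succ, sub_eq_add_neg, ← neg_smul, lapP_add, lapP_smul, lapP_smul, e,
      lapP_sq_mul (zonH_hom n), lapP_zonH n, pderiv_zonH n, mul_zero, zero_add, smul_smul,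
      mul_smul_comm, smul_smul, two_mul (zonH n)]
    match_scalars
    field_simp
    ring

theorem rotP_zonH : ∀ n, rotP 2 (zonH n) = 0
  | 0 => by simp [zonH]
  | 1 => by simp [zonH, rotP_X]
  | n + 2 => by
    have hs : rotP 2 (sq 3) = 0 := by
      simp [rotP_apply, pderiv_sq]
      ring
    rw [zonH_succ_succ, map_sub, Derivation.map_smul, Derivation.map_smul, Derivation.leibniz,
      Derivation.leibniz, rotP_zonH (n + 1), rotP_zonH n, hs, rotP_X]
    simp

theorem eval_zonH_pole : ∀ n,
    MvPolynomial.eval (fun i : Fin 3 => if i = 2 then (1 : ℝ) else 0) (zonH n) = 1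
  | 0 => by simp [zonH]
  | 1 => by simp [zonH]
  | n + 2 => by
    rw [zonH_succ_succ]
    simp [eval_zonH_pole (n + 1), eval_zonH_pole n, sq, MvPolynomial.smul_eval]
    field_simp
    ring

theorem zonH_mem {N n : ℕ} (h : n ≤ N) : zonH n ∈ harmUpTo N :=
  mem_harmUpTo.2 ⟨(zonH_hom n).totalDegree_le.trans h, lapP_zonH n⟩

/-- The squared norm of `zonH n`. -/
def zonN (n : ℕ) : ℝ := sphIp (zonH n) (zonH n)

theorem zonN_pos (n : ℕ) : 0 < zonN n := by
  refine (integral_nonneg fun θ => mul_self_nonneg _).lt_of_ne fun h => ?_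
  have h0 := eq_zero_of_sphIp (zonH_mem (le_refl n)) h.symm
  have := eval_zonH_pole n
  simp [h0] at this

theorem sphIp_zonH {i j : ℕ} : sphIp (zonH i) (zonH j) = if i = j then zonN i else 0 := by
  split_ifs with h
  · rw [h]; rfl
  · exact sphIp_eq_zero h (zonH_hom i) (lapP_zonH i) (zonH_hom j) (lapP_zonH j)

/-- The coefficient of `zonH (n + 1)` in `z zonH n`. -/
def zonA (n : ℕ) : ℝ := (n + 1) / (2 * n + 1)

/-- The coefficient of `zonH (n - 1)` in `z zonH n`. -/
def zonB (n : ℕ) : ℝ := n / (2 * n + 1)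

theorem res_X_mul_zonH (n : ℕ) (θ : Sph 3) : (θ : Space 3) 2 * res (zonH n) θ =
    zonA n * res (zonH (n + 1)) θ + zonB n * res (zonH (n - 1)) θ := by
  rcases n with _ | n
  · simp [zonH, res, evalFun, zonA, zonB]
  · have hsq : res (sq 3) θ = 1 := by
      have h : ‖(θ : Space 3)‖ = 1 := by simp
      rw [EuclideanSpace.norm_eq, Real.sqrt_eq_one] at h
      simpa [res, evalFun, sq, ← pow_two] using h
    simp only [res, evalFun] at hsq
    simp only [zonA, zonB, res, evalFun, zonH_succ_succ, map_sub, map_mul,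
      MvPolynomial.smul_eval, eval_X, hsq, add_tsub_cancel_right]
    push_cast
    field_simp
    ring

theorem sphIp_X_mul_zonH (i j : ℕ) : sphIp (X 2 * zonH i) (zonH j) =
    zonA i * sphIp (zonH (i + 1)) (zonH j) + zonB i * sphIp (zonH (i - 1)) (zonH j) := by
  simp only [sphIp]
  rw [← integral_const_mul, ← integral_const_mul, ← integral_add]
  · refine integral_congr_ae (Filter.Eventually.of_forall fun θ => ?_)
    have h := res_X_mul_zonH i θ
    simp only [res, evalFun, map_mul, eval_X] at h ⊢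
    rw [h]
    ring
  all_goals exact integrable_sig (continuous_const.mul ((continuous_res _).mul (continuous_res _)))

/-- `(2 n + 1) ‖zonH n‖²` does not depend on `n`. -/
theorem zonN_eq : ∀ n : ℕ, zonN n = zonN 0 / (2 * n + 1)
  | 0 => by simp
  | n + 1 => by
    have h1 := sphIp_X_mul_zonH n (n + 1)
    have h2 := sphIp_X_mul_zonH (n + 1) n
    have hc : sphIp (X 2 * zonH n) (zonH (n + 1)) = sphIp (X 2 * zonH (n + 1)) (zonH n) := by
      simp only [sphIp, res, evalFun, map_mul]
      congr 1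
      funext θ
      ring
    rw [h1, h2] at hc
    simp [sphIp_zonH, zonA, zonB, show n - 1 ≠ n + 1 by omega, show n + 1 + 1 ≠ n by omega,
      zonN_eq n] at hc
    push_cast
    field_simp at hc ⊢
    linarith

end

end Vale.Agent.P225.Disproof
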