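import Vale.Agent.P225.Disproof.Schedule
import Mathlib.Analysis.SpecialFunctions.SmoothTransition
import Mathlib.Topology.Algebra.Order.Support

/-!
# P225: the curve of shapes

From the round shape `one` to the rest shape `p0` during `[tau0, 2 tau0]`, then the schedule.
-/

namespace Vale.Agent.P225.Disproof

open Set Filter Topology

noncomputable section

variable {X : Type*} [NormedAddCommGroup X] [NormedSpace ℝ X]

/-- The data of the control. -/
structure Ctrl (X : Type*) [NormedAddCommGroup X] [NormedSpace ℝ X] where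
  sch : Sched
  one : X
  p0 : X
  loops : LoopFam X sch.P
  ht1 : 2 * sch.tau0 ≤ sch.t1

namespace Ctrl

variable (C : Ctrl X)

/-- The switch from round to rest. -/
def switch (t : ℝ) : ℝ := Real.smoothTransition ((t - C.sch.tau0) / C.sch.tau0)

/-- The shape at time `t` for the parameters `s`. -/
def rho (s : ℕ → ℝ) (t : ℝ) : X :=
  C.one + C.switch t • (C.p0 - C.one) + (C.sch.slots C.loops s).total t

theorem contDiff_switch {m : ℕ∞} : ContDiff ℝ m C.switch :=
  Real.smoothTransition.contDiff.comp ((contDiff_id.sub contDiff_const).div_const _)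

theorem switch_of_le {t : ℝ} (ht : t ≤ C.sch.tau0) : C.switch t = 0 :=
  Real.smoothTransition.zero_of_nonpos
    (div_nonpos_of_nonpos_of_nonneg (by linarith) C.sch.htau0.le)

theorem switch_of_ge {t : ℝ} (ht : 2 * C.sch.tau0 ≤ t) : C.switch t = 1 :=
  Real.smoothTransition.one_of_one_le ((one_le_div C.sch.htau0).2 (by linarith))

theorem total_of_le (s : ℕ → ℝ) {t : ℝ} (ht : t ≤ C.sch.t1) :
    (C.sch.slots C.loops s).total t = 0 :=
  (C.sch.slots C.loops s).total_zero_before (ht.trans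
    (by simp [Sched.slots, Sched.slotStart, Sched.hstart]))

theorem contDiff_rho (s : ℕ → ℝ) : ContDiff ℝ (⊤ : ℕ∞) (C.rho s) := by
  refine (contDiff_const.add (C.contDiff_switch.smul contDiff_const)).add
    ((C.sch.slots C.loops s).contDiff_total fun n => ?_)
  exact (C.loops.smooth _).comp
    (contDiff_const.prodMk ((contDiff_id.sub contDiff_const).div_const _))

/-- Round before `tau0`. -/
theorem rho_early (s : ℕ → ℝ) {t : ℝ} (ht : t ≤ C.sch.tau0) : C.rho s t = C.one := by
  rw [rho, C.switch_of_le ht, C.total_of_le s (ht.trans (by linarith [C.ht1, C.sch.htau0]))]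
  simp

/-- Before the loops, on the segment from round to rest. -/
theorem rho_of_le (s : ℕ → ℝ) {t : ℝ} (ht : t ≤ C.sch.t1) :
    C.rho s t = C.one + C.switch t • (C.p0 - C.one) := by
  rw [rho, C.total_of_le s ht, add_zero]

/-- From `2 tau0` on, the schedule. -/
theorem rho_eq_shape (s : ℕ → ℝ) {t : ℝ} (ht : 2 * C.sch.tau0 ≤ t) :
    C.rho s t = C.sch.shape C.loops C.p0 s t := by
  rw [rho, Sched.shape, C.switch_of_ge ht]
  simp

/-- The shapes lie on the segment or on the loops. -/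
theorem rho_mem (s : ℕ → ℝ) (hs : ∀ n, s n ∈ Icc (0 : ℝ) 1) (t : ℝ) :
    (∃ c ∈ Icc (0 : ℝ) 1, C.rho s t = C.one + c • (C.p0 - C.one)) ∨
      ∃ k, ∃ u ∈ Icc (0 : ℝ) 1, ∃ x, C.rho s t = C.p0 + C.loops.path k u x := by
  rcases le_total t C.sch.t1 with ht | ht
  · exact Or.inl ⟨_, ⟨Real.smoothTransition.nonneg _, Real.smoothTransition.le_one _⟩,
      C.rho_of_le s ht⟩
  · have h2 : 2 * C.sch.tau0 ≤ t := C.ht1.trans ht
    rcases (C.sch.slots C.loops s).total_cases t with ⟨n, hn, heq⟩ | heq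
    · exact Or.inr ⟨_, s n, hs n, _, (C.rho_eq_shape s h2).trans
        (congrArg (fun y => C.p0 + y) heq.eq_of_nhds)⟩
    · refine Or.inl ⟨1, ⟨zero_le_one, le_rfl⟩, ?_⟩
      rw [C.rho_eq_shape s h2, Sched.shape, heq.eq_of_nhds]
      simp

theorem eventually_eq_shape (s : ℕ → ℝ) {t : ℝ} (ht : 2 * C.sch.tau0 < t) :
    C.rho s =ᶠ[𝓝 t] C.sch.shape C.loops C.p0 s :=
  Filter.eventuallyEq_of_mem (Ioi_mem_nhds ht) fun _ hx => C.rho_eq_shape s (le_of_lt hx)

/-- Derivative bounds in half block `h`. -/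
theorem rho_deriv_bound (s : ℕ → ℝ) {m : ℕ} (hm : 1 ≤ m) {B : ℝ} (hB : 0 ≤ B)
    (hL : ∀ k n x, ‖iteratedDeriv m (C.loops.path k (s n)) x‖ ≤ B) (h : ℕ) {t : ℝ}
    (ht : t ∈ Icc (C.sch.hstart h) (C.sch.hstart (h + 1))) (ht2 : 2 * C.sch.tau0 < t) :
    ‖iteratedDeriv m (C.rho s) t‖ ≤ B / C.sch.tau h ^ m := by
  rw [(C.eventually_eq_shape s ht2).iteratedDeriv_eq m]
  exact C.sch.shape_deriv_bound C.loops C.p0 s hm hB hL h ht

/-- Derivative bounds during the switch, with a constant of the transition function only. -/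
theorem rho_deriv_bound_early (s : ℕ → ℝ) {m : ℕ} (hm : 1 ≤ m) {B : ℝ}
    (hB : ∀ y, |iteratedDeriv m Real.smoothTransition y| ≤ B) {t : ℝ} (ht : t < C.sch.t1) :
    ‖iteratedDeriv m (C.rho s) t‖ ≤ B / C.sch.tau0 ^ m * ‖C.p0 - C.one‖ := by
  have he : C.rho s =ᶠ[𝓝 t] fun x => C.one + C.switch x • (C.p0 - C.one) :=
    Filter.eventuallyEq_of_mem (Iio_mem_nhds ht) fun _ hx => C.rho_of_le s (le_of_lt hx)
  have hsw : ContDiff ℝ (m : ℕ∞) C.switch := C.contDiff_switch
  rw [he.iteratedDeriv_eq m,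
    iteratedDeriv_const_add (by omega) C.one,
    iteratedDeriv_smul_const (by exact_mod_cast hsw.contDiffAt) , norm_smul]
  refine mul_le_mul_of_nonneg_right ?_ (norm_nonneg _)
  have e : C.switch = fun x => Real.smoothTransition (C.sch.tau0⁻¹ * (x - C.sch.tau0)) := by
    funext x
    rw [switch, div_eq_inv_mul]
  rw [e, congrFun (iteratedDeriv_comp_sub_const m
      (fun x => Real.smoothTransition (C.sch.tau0⁻¹ * x)) C.sch.tau0) t,
    congrFun (iteratedDeriv_comp_const_mul (by exact_mod_cast Real.smoothTransition.contDiff (n := m))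
      C.sch.tau0⁻¹) (t - C.sch.tau0)]
  rw [Real.norm_eq_abs, abs_mul, abs_of_nonneg (pow_nonneg (inv_nonneg.2 C.sch.htau0.le) m),
    inv_pow, ← div_eq_inv_mul]
  exact div_le_div_of_nonneg_right (hB _) (pow_nonneg C.sch.htau0.le m)

end Ctrl

/-- Every derivative of the transition function is bounded. -/
theorem exists_transition_bound {m : ℕ} (hm : 1 ≤ m) :
    ∃ B : ℝ, ∀ y, |iteratedDeriv m Real.smoothTransition y| ≤ B := by
  have hc : Continuous (iteratedDeriv m Real.smoothTransition) :=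
    ContDiff.continuous_iteratedDeriv m (Real.smoothTransition.contDiff (n := m)) le_rfl
  obtain ⟨B, hB⟩ := (isCompact_Icc (a := (0 : ℝ)) (b := 1)).exists_bound_of_continuousOn
    hc.continuousOn
  refine ⟨max B 0, fun y => ?_⟩
  rcases lt_or_ge y 0 with hy | hy
  · rw [(Filter.eventuallyEq_of_mem (Iio_mem_nhds hy) fun x hx =>
        Real.smoothTransition.zero_of_nonpos (le_of_lt hx)).iteratedDeriv_eq m, iteratedDeriv_const]
    simp [show m ≠ 0 by omega]
  rcases le_or_gt y 1 with hy1 | hy1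
  · exact (hB y ⟨hy, hy1⟩).trans (le_max_left _ _)
  · rw [(Filter.eventuallyEq_of_mem (Ioi_mem_nhds hy1) fun x hx =>
        Real.smoothTransition.one_of_one_le (le_of_lt hx)).iteratedDeriv_eq m, iteratedDeriv_const]
    simp [show m ≠ 0 by omega]

end

end Vale.Agent.P225.Disproof
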