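import Vale.Agent.P225.Disproof.CtrlFam

/-!
# P225: the slow solutions of a control up to a horizon

When the dual systems of a parameter lose at most `K exp (2 * 26 (t - t1))` up to the horizon, the
Galerkin system has `730` solutions of growth `exp (26 t)`, independent at the start of the
schedule, with constants that see neither the truncation, the horizon nor the parameter.
-/

namespace Vale.Agent.P225.Disproof

open MeasureTheory Set Filter Topology
open scoped RealInnerProductSpace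

noncomputable section

/-- The growth constant of the slow solutions. -/
def ctrlConst (g top K t1 lo : ℝ) : ℝ :=
  max 1 (Real.sqrt (TraceData.slowConst g top (g / 8) K t1 / lo))

theorem ctrlConst_pos (g top K t1 lo : ℝ) : 0 < ctrlConst g top K t1 lo :=
  lt_max_of_lt_left one_pos

/-- A smaller rate gives a smaller bound. -/
theorem slowConst_mono {g top ε ε' K τ : ℝ} (hK : 0 ≤ K) (hε : ε ≤ ε') (hε' : ε' < g / 2) :
    TraceData.slowConst g top ε K τ ≤ TraceData.slowConst g top ε' K τ := by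
  have h1 : TraceData.sepConst (g / 2) top ε' ≤ TraceData.sepConst (g / 2) top ε := by
    refine mul_le_mul (sub_le_sub_left (Real.exp_le_exp.2 (by linarith)) 1)
      (Real.exp_le_exp.2 (by linarith)) (Real.exp_nonneg _)
      (sub_nonneg.2 (Real.exp_le_one_iff.2 (by linarith)))
  have h2 := TraceData.sepConst_pos (top := top) hε'
  exact add_le_add le_rfl
    (div_le_div_of_nonneg_left hK (pow_pos h2 2) (pow_le_pow_left₀ h2.le h1 2))

variable {X : Type*} [NormedAddCommGroup X] [InnerProductSpace ℝ X]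
  {W : X →L[ℝ] C(Sph 3, ℝ)} {L : LoopFam X wordLen} {p0 : X} {Λ : Levels W L p0} {C : Ctrl X}
  {N : ℕ} {H ε : ℝ} {E : Type*} [NormedAddCommGroup E] [InnerProductSpace ℝ E]
  [FiniteDimensional ℝ E]

/-- The slow solutions up to the horizon. -/
theorem exists_ctrlSolutions (h : CtrlSmall Λ C N ε) {F : TraceFam W C N 0 H ε Λ.g}
    (Z : SlowFam Λ F E) (s : paramCube) {K : ℝ} (hK : 0 ≤ K)
    (hC : ∀ x : E, ∀ t ∈ Icc C.sch.t1 H, (Z.sys s).nrm C.sch.t1 x ≤
      K * Real.exp (2 * 26 * (t - C.sch.t1)) * (Z.sys s).nrm t x)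
    {w ν : ℝ → Space 3 → ℝ} (hw : F.nu s = fun t => sphC (w t))
    (hν : F.om s = fun t => sphC (ν t)) (hw0 : ∀ t ≤ 0, sphC (w t) = 1)
    (hν0 : ∀ t ≤ 0, sphC (ν t) = 1) {lo hi : ℝ} (hlo : 0 < lo) (hhi : 0 < hi)
    (hb : ∀ t ∈ Icc (0 : ℝ) H, ∀ θ, lo ≤ sphC (w t) θ ∧ sphC (w t) θ ≤ hi) :
    ∃ u : Fin 730 → ℝ → Gal N, (∀ m, IsGalSol N w ν (Iio H) (u m)) ∧
      (∀ m, ∀ t ≤ 0, deriv (u m) t = degOp N (u m t)) ∧
      (∀ m, ∀ t ≤ H,
        ‖u m t‖ ≤ ctrlConst Λ.g Λ.top K C.sch.t1 lo * Real.exp (26 * max t 0)) ∧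
      ∀ z : Fin 730 → ℝ, hi⁻¹ * ∑ i, z i ^ 2 ≤ ‖∑ i, z i • u i C.sch.t1‖ ^ 2 := by
  have hH : 0 < H := F.le_t1.trans_lt F.lt_H
  have hG : ∀ t ∈ Icc (0 : ℝ) H, (F.P s).G t = massOp N (sphC (w t)) := fun t _ => by
    rw [F.eqG, hw]
  have hKop : ∀ t ∈ Icc (0 : ℝ) H, (F.P s).K t = stiffOp N (sphC (ν t)) := fun t _ => by
    rw [F.eqK, hν]
  have hg := Λ.g_pos
  have hε := h.eps_le
  have hq : ∀ t ∈ Icc C.sch.t1 H, C.rho s t ∈ openShapes L p0 729 := fun t ht =>
    h.ctrl.mem_top s.2 ht.1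
  have hsm2 : ∀ t ∈ Icc C.sch.t1 H,
      ε * (2 * topLev Λ C s t + 1) + |topLevD Λ C s t| ≤ Λ.g ^ 2 / 2 := fun t ht => by
    have h1 := mul_le_mul_of_nonneg_left
      (show 2 * topLev Λ C s t + 1 ≤ 2 * Λ.top + 2 by linarith [((Z.dual s).levelν t ht).2])
      (F.P s).hε
    have h2 := (h.level_deriv top_mem_win s (Icc C.sch.t1 H) (hq t ht)).2
    have h3 := h.rate s t
    have h4 := sq_nonneg Λ.g
    simp only [topLevD] at *
    linarith
  have hend : (F.P s).Split H (topLev Λ C s H) Λ.g (Module.finrank ℝ E) := by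
    rw [Z.dim]
    exact h.level_split F top_mem_win ⟨F.lt_H.le, le_rfl⟩ (hq H ⟨F.lt_H.le, le_rfl⟩)
  obtain ⟨u, -, hd, hn, hz⟩ := exists_galSlowSolutions (wt := fun t => sphC (w t)) hlo hhi hG hb
    (hw0 0 le_rfl) (F.start s) F.le_t1 (Z.dual s) (by linarith) hsm2
    (fun t ht => (Λ.good 729 top_mem_win _ (hq t ht)).1.2.1) hend
    (Z.dim.trans (rfl : slowDim = 730)) hK (by norm_num : (0 : ℝ) ≤ 26)
    (fun t ht x => by
      have h1 := hC x t ht
      rwa [SlowFam.sys, TraceData.DualStart.dualSys_nrm, TraceData.DualStart.dualSys_nrm] at h1)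
  refine ⟨u, fun m => isGalSol_of_deriv hH hG hKop (F.start s) hw0 hν0 (hd m),
    fun m t ht => by rw [(hd m t (ht.trans_lt hH)).deriv, if_pos ht], fun m t ht => ?_, hz⟩
  exact (hn m t ht).trans (mul_le_mul_of_nonneg_right ((Real.sqrt_le_sqrt (div_le_div_of_nonneg_right
    (slowConst_mono hK hε (by linarith)) hlo.le)).trans (le_max_right _ _)) (Real.exp_nonneg _))

end

end Vale.Agent.P225.Disproof
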