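import Vale.Agent.P225.Disproof.DualOpen

/-!
# P225: the start of a dual system, and the slow plane of solutions it controls
-/

namespace Vale.Agent.P225.Disproof

open Set Filter Topology
open scoped RealInnerProductSpace

noncomputable section

variable {V : Type*} [NormedAddCommGroup V] [InnerProductSpace ℝ V] [FiniteDimensional ℝ V]
  {E : Type*} [NormedAddCommGroup E] [InnerProductSpace ℝ E] [FiniteDimensional ℝ E]

namespace TraceData

variable {a b ε : ℝ} {P : TraceData V a b ε}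

/-- A split at the initial time starts a dual system of the same dimension. -/
theorem exists_dualStart (hab : a < b) (hG' : ContinuousOn P.G' (Icc a b)) {ν ν' : ℝ → ℝ}
    {g top : ℝ} (hg : 0 < g) (hcν : Continuous ν)
    (hdν : ∀ t ∈ Icc a b, HasDerivWithinAt ν (ν' t) (Icc a b) t)
    (hν : ∀ t ∈ Icc a b, 0 ≤ ν t ∧ ν t ≤ top)
    (hsm : ∀ t ∈ Icc a b, ε * (2 * ν t + 2) + |ν' t| ≤ g ^ 2)
    (hgap : ∀ t ∈ Icc a b, P.Gap t (ν t) g) (h0 : P.Split a (ν a) g (Module.finrank ℝ E)) :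
    ∃ U : ℝ → E →L[ℝ] V, DualStart P U ν ν' g top := by
  obtain ⟨-, S, S', hSS, hSd, hlow, hhigh, horth⟩ := h0
  set φ : E ≃ₗ[ℝ] S := LinearEquiv.ofFinrankEq E S hSd.symm
  obtain ⟨U, hU, hU'⟩ :=
    exists_orbit P hab.le hG' (LinearMap.toContinuousLinearMap (S.subtype.comp φ.toLinearMap))
  have hUa : ∀ x, U a x = ((φ x : S) : V) := fun x => by rw [hU]; rfl
  have hp0 : ∀ p ∈ S, ∀ q ∈ S', (∀ x : E, ⟪p + q, P.G a (U a x)⟫ = 0) → p = 0 :=
    fun p hp q hq hu => by
      have ha : a ∈ Icc a b := ⟨le_rfl, hab.le⟩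
      have h1 := hu (φ.symm ⟨p, hp⟩)
      rw [hUa, φ.apply_symm_apply, inner_add_left] at h1
      have h2 : ⟪q, P.G a p⟫ = 0 := by
        rw [← P.symG a ha, real_inner_comm]; exact (horth p hp q hq).1
      exact eq_zero_of_nrm_le (P := P) ha (by simp only [nrm] at *; linarith)
  refine ⟨U, ⟨hab, hU', fun x y h => ?_, hg, hcν, hdν, hν, hsm, hgap, fun x => ?_,
    fun u hu => ?_, fun u hu x => ?_⟩⟩
  · rw [hUa, hUa] at h
    exact φ.injective (Subtype.ext h)
  · rw [hUa]
    exact hlow _ (φ x).2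
  · obtain ⟨p, hp, q, hq, rfl⟩ :=
      Submodule.mem_sup.1 (hSS.sup_eq_top ▸ Submodule.mem_top (x := u))
    rw [hp0 p hp q hq hu, zero_add]
    exact hhigh q hq
  · obtain ⟨p, hp, q, hq, rfl⟩ :=
      Submodule.mem_sup.1 (hSS.sup_eq_top ▸ Submodule.mem_top (x := u))
    rw [hp0 p hp q hq hu, zero_add, hUa, ← P.symB a ⟨le_rfl, hab.le⟩, real_inner_comm]
    exact (horth _ (φ x).2 q hq).2

namespace DualStart

variable {U : ℝ → E →L[ℝ] V} {ν ν' : ℝ → ℝ} {g top : ℝ} (hs : DualStart P U ν ν' g top)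
include hs

/-- The slow plane of solutions: for every `x` a solution with projection `x` at the initial time,
bounded by the reciprocal decay of the dual orbits. -/
theorem exists_plane_bound (hg2 : ε < g / 2)
    (hsm2 : ∀ t ∈ Icc a b, ε * (2 * ν t + 1) + |ν' t| ≤ g ^ 2 / 2) (hgν : ∀ t ∈ Icc a b, g ≤ ν t)
    (hb : P.Split b (ν b) g (Module.finrank ℝ E)) {C : ℝ → ℝ}
    (hC : ∀ t ∈ Icc a b, ∀ x : E, P.nrm a (U a x) ≤ C t * P.nrm t (U t x)) (x : E) :
    ∃ u : ℝ → V, P.IsSol a b u ∧ (∀ y, ⟪u a - U a x, P.G a (U a y)⟫ = 0) ∧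
      (∀ t ∈ Icc a b, P.eng t (u t) ≤ ν t * P.nrm t (u t)) ∧
      g / 2 * P.nrm a (u a) ≤ (ν a + g) * P.nrm a (U a x) ∧
      ∀ t ∈ Icc (a + 1) b, sepConst (g / 2) top ε ^ 2 * P.nrm t (u t) ≤
        C t * P.nrm a (U a x) := by
  obtain ⟨-, S, S', hSS, hSd, hSlow, -, -⟩ := hb
  have ha : a ∈ Icc a b := hs.ht0
  have hbI : b ∈ Icc a b := ⟨hs.hab.le, le_rfl⟩
  obtain ⟨R, hR, hRsol⟩ := P.exists_solMap le_rfl le_rfl hs.hab.le
  obtain ⟨Q, hQ⟩ := hs.exists_projMap ha
  have hlow : ∀ v : S, ∀ t ∈ Icc a b,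
      P.eng t (R t (v : V)) ≤ (ν t - g / 2) * P.nrm t (R t (v : V)) := fun v t ht => by
    have hi : Icc t b ⊆ Icc a b := Icc_subset_Icc_left ht.1
    refine low_backward (P := P) (μ := fun q => ν q - g / 2) (μ' := ν') (g := g / 2) ht.1 le_rfl
      ht.2 ((hRsol v).mono ht.1 le_rfl) (hs.contν.sub continuous_const)
      (fun q hq => by linarith [hgν q (hi hq), hs.hg])
      (fun q hq => ((hs.derivν q (hi hq)).mono hi).sub_const _)
      (fun q hq => by
        have := hsm2 q (hi hq)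
        have h0 : 0 ≤ ε * g := mul_nonneg P.hε hs.hg.le
        linarith)
      (fun q hq => ?_) ?_
    · have h1 := (hs.gapν q (hi hq)).shift (hi hq) (μ' := ν q - g / 2)
        (by rw [sub_sub_cancel_left, abs_neg, abs_of_pos (half_pos hs.hg)]; linarith [hs.hg])
      rwa [sub_sub_cancel_left, abs_neg, abs_of_pos (half_pos hs.hg), sub_half] at h1
    · rw [hR, one_apply_eq_self]
      have h1 := hSlow v v.2
      have h2 := mul_nonneg (half_pos hs.hg).le (nrm_nonneg (P := P) hbI (v : V))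
      linarith
  set Φ : S →ₗ[ℝ] E := Q.comp (((R a : V →L[ℝ] V) : V →ₗ[ℝ] V).comp S.subtype)
  have hfirst : ∀ v : S, g / 2 * P.nrm a (R a (v : V)) ≤ (ν a + g) * P.nrm a (U a (Φ v)) :=
    fun v => by
      set u := R a (v : V)
      set p := U a (Φ v)
      have hperp := hs.perp (u - p) (hQ u)
      have h1 := hlow v a ha
      have horth : ⟪p, P.G a (u - p)⟫ = 0 := by
        rw [← P.symG a ha, real_inner_comm]; exact hQ u (Φ v)
      have hN : P.nrm a u = P.nrm a p + P.nrm a (u - p) := by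
        conv_lhs => rw [show u = p + (u - p) by abel]
        simp only [nrm, map_add, inner_add_left, inner_add_right, horth]
        rw [show ⟪u - p, P.G a p⟫ = 0 from hQ u (Φ v)]
        ring
      have hBorth := hs.perpB (u - p) (hQ u) (Φ v)
      have hB : P.eng a u = P.eng a p + P.eng a (u - p) := by
        conv_lhs => rw [show u = p + (u - p) by abel]
        simp only [eng, map_add, inner_add_left, inner_add_right]
        rw [show ⟪u - p, P.B a p⟫ = 0 from hBorth,
          show ⟪p, P.B a (u - p)⟫ = 0 by rw [← P.symB a ha, real_inner_comm]; exact hBorth]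
        ring
      have h2 := P.nonnegB a ha p
      rw [hN] at h1 ⊢
      rw [hB] at h1
      simp only [eng, nrm] at h1 h2 hperp ⊢
      have h3 : 0 ≤ g * ⟪u - p, P.G a (u - p)⟫ := mul_nonneg hs.hg.le (nrm_nonneg (P := P) ha _)
      have h4 : 0 ≤ g * ⟪p, P.G a p⟫ := mul_nonneg hs.hg.le (nrm_nonneg (P := P) ha _)
      linarith
  have hΦ : Function.Injective Φ := (injective_iff_map_eq_zero Φ).2 fun v hv => by
    have h1 := hfirst v
    rw [hv, map_zero, show P.nrm a 0 = 0 by simp [nrm], mul_zero] at h1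
    have h2 := rate_upper_level (P := P) (μ := fun q => ν q - g / 2) le_rfl le_rfl hs.hab.le
      (hRsol v) (hs.contν.sub continuous_const) (hlow v)
    rw [hR, one_apply_eq_self] at h2
    exact Subtype.ext (eq_zero_of_nrm_le (P := P) hbI (h2.trans (mul_nonpos_of_nonneg_of_nonpos
      (Real.exp_nonneg _) (nonpos_of_mul_nonpos_right h1 (half_pos hs.hg)))))
  obtain ⟨v, hv⟩ := (LinearMap.injective_iff_surjective_of_finrank_eq_finrank hSd).1 hΦ x
  set u := fun t => R t (v : V) with hu_def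
  refine ⟨u, hRsol v, fun y => by rw [← hv]; exact hQ _ y, fun t ht => ?_, hv ▸ hfirst v,
    fun t ht => ?_⟩
  · have h1 := hlow v t ht
    have h2 := mul_nonneg (half_pos hs.hg).le (nrm_nonneg (P := P) ht (R t (v : V)))
    simp only [u]
    linarith
  have htI : t ∈ Icc a b := ⟨by linarith [ht.1], ht.2⟩
  obtain ⟨y, hy⟩ := hs.exists_proj htI (u t)
  have hk := hs.orbit_separation ht.1 ht.2 ((hRsol v).mono (by linarith [ht.1]) ht.2)
    (μ := fun q => ν q - g / 2) (hs.contν.sub continuous_const) (d := g / 2)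
    (fun q _ => by linarith) (half_pos hs.hg).le
    (fun q hq => hlow v q ⟨by linarith [hq.1, ht.1], hq.2.trans ht.2⟩) hy
  have hk2 : sepConst (g / 2) top ε ^ 2 * P.nrm t (u t) ≤ P.nrm t (U t y) := by
    have h1 := pow_le_pow_left₀ (mul_nonneg (sepConst_pos hg2).le (Real.sqrt_nonneg _)) hk 2
    rwa [mul_pow, Real.sq_sqrt (nrm_nonneg (P := P) htI _),
      Real.sq_sqrt (nrm_nonneg (P := P) htI _)] at h1
  refine hk2.trans ?_
  have hpair : P.nrm t (U t y) = ⟪U a x, P.G a (U a y)⟫ := by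
    have h1 := pairing_const (P := P) hs.hab le_rfl htI.2 ((hRsol v).mono le_rfl htI.2)
      ((hs.orbit y).mono le_rfl htI.2) ⟨htI.1, le_rfl⟩
    have h2 := hy y
    have h3 : ⟪u a - U a x, P.G a (U a y)⟫ = 0 := by rw [← hv]; exact hQ _ y
    rw [inner_sub_left] at h2 h3
    simp only [nrm, u] at h1 h2 h3 ⊢
    linarith
  have hcs := inner_sq_le (P := P) ha (U a x) (U a y)
  rw [← hpair] at hcs
  have hC' := mul_le_mul_of_nonneg_left (hC t htI y) (nrm_nonneg (P := P) ha (U a x))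
  rcases (nrm_nonneg (P := P) htI (U t y)).eq_or_lt with h0 | h0
  · rw [← h0]
    rcases (nrm_nonneg (P := P) ha (U a x)).eq_or_lt with h1 | h1
    · rw [← h1, mul_zero]
    · refine mul_nonneg (le_of_not_gt fun hneg => ?_) h1.le
      have h2 := (hC t htI x)
      linarith [mul_nonpos_of_nonpos_of_nonneg hneg.le (nrm_nonneg (P := P) htI (U t x))]
  · refine le_of_mul_le_mul_right ?_ h0
    linarith [pow_two (P.nrm t (U t y))]

end DualStart

end TraceData

end

end Vale.Agent.P225.Disproof
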