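import Vale.Agent.P225.Disproof.EigenRank
import Mathlib.Analysis.InnerProductSpace.Spectrum

/-!
# P225: eigenfunctions of an axisymmetric weight

For a weight killed by `rot 2` an eigenspace splits into labels `m`, each carried by one cosine and
sine pair: in a sector the Wronskian of two meridian profiles vanishes at the pole.
-/

namespace Vale.Agent.P225.Disproof

open MvPolynomial MeasureTheory Set Filter
open scoped Topology RealInnerProductSpace

noncomputable section

/-- The rotation about the last axis. -/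
def rotZ (φ : ℝ) (x : Space 3) : Space 3 :=
  Real.cos φ • (x 0 • EuclideanSpace.single 0 (1 : ℝ) + x 1 • EuclideanSpace.single 1 (1 : ℝ)) +
    Real.sin φ • (x 0 • EuclideanSpace.single 1 (1 : ℝ) - x 1 • EuclideanSpace.single 0 (1 : ℝ)) +
    x 2 • EuclideanSpace.single 2 (1 : ℝ)

/-- The meridian of the first axis. -/
def mer (s : ℝ) : Space 3 :=
  circ (EuclideanSpace.single 2 (1 : ℝ)) (EuclideanSpace.single 0 (1 : ℝ)) s

theorem onPair_mer :
    OnPair (EuclideanSpace.single 2 (1 : ℝ)) (EuclideanSpace.single (0 : Fin 3) (1 : ℝ)) :=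
  ⟨by simp, by simp, by simp [EuclideanSpace.inner_single_left]⟩

theorem rotZ_coord (φ : ℝ) (x : Space 3) :
    rotZ φ x 0 = Real.cos φ * x 0 - Real.sin φ * x 1 ∧
    rotZ φ x 1 = Real.sin φ * x 0 + Real.cos φ * x 1 ∧ rotZ φ x 2 = x 2 := by
  refine ⟨?_, ?_, ?_⟩ <;> simp [rotZ] <;> ring

theorem mer_coord (s : ℝ) : mer s 0 = Real.sin s ∧ mer s 1 = 0 ∧ mer s 2 = Real.cos s := by
  refine ⟨?_, ?_, ?_⟩ <;> simp [mer, circ]

theorem hasDerivAt_rotZ {F : Space 3 → ℝ} (hF : Differentiable ℝ F) (x : Space 3) (φ : ℝ) :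
    HasDerivAt (fun t => F (rotZ t x)) (rot 2 F (rotZ φ x)) φ := by
  have hc := (((Real.hasDerivAt_cos φ).smul_const
      (x 0 • EuclideanSpace.single (0 : Fin 3) (1 : ℝ) + x 1 • EuclideanSpace.single 1 (1 : ℝ))).add
    ((Real.hasDerivAt_sin φ).smul_const
      (x 0 • EuclideanSpace.single (1 : Fin 3) (1 : ℝ) - x 1 • EuclideanSpace.single 0 (1 : ℝ)))).add_const
    (x 2 • EuclideanSpace.single (2 : Fin 3) (1 : ℝ))
  refine (((hF (rotZ φ x)).hasFDerivAt.comp_hasDerivAt φ hc)).congr_deriv ?_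
  obtain ⟨h0, h1, -⟩ := rotZ_coord φ x
  simp only [rot, pd, show (2 : Fin 3) + 1 = 0 from rfl, show (2 : Fin 3) + 2 = 1 from rfl, h0, h1,
    map_add, map_sub, map_smul, smul_eq_mul]
  ring

theorem hasDerivAt_mer {F : Space 3 → ℝ} (hF : Differentiable ℝ F) (s : ℝ) :
    HasDerivAt (fun t => F (mer t)) (rot 1 F (mer s)) s := by
  refine (hasDerivAt_circ hF onPair_mer s).congr_deriv ?_
  simp [Fin.sum_univ_three, axis, mer]

theorem norm_mer (s : ℝ) : ‖mer s‖ = 1 := norm_circ onPair_mer s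

/-- A point of the meridian. -/
def merPt (s : ℝ) : Sph 3 := ⟨mer s, by simp [norm_mer]⟩

/-- Every point of the sphere is a rotated meridian point. -/
theorem exists_rotZ_mer (θ : Sph 3) : ∃ φ s : ℝ, (θ : Space 3) = rotZ φ (mer s) := by
  have h1 : (θ : Space 3) 0 ^ 2 + (θ : Space 3) 1 ^ 2 + (θ : Space 3) 2 ^ 2 = 1 := by
    have := EuclideanSpace.real_norm_sq_eq (θ : Space 3)
    rw [norm_eq_of_mem_sphere, Fin.sum_univ_three] at this; linarith
  set z : ℂ := ⟨(θ : Space 3) 0, (θ : Space 3) 1⟩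
  have hz2 : (θ : Space 3) 2 ^ 2 ≤ 1 := by
    nlinarith [sq_nonneg ((θ : Space 3) 0), sq_nonneg ((θ : Space 3) 1)]
  refine ⟨z.arg, Real.arccos ((θ : Space 3) 2), ?_⟩
  have hs : Real.sin (Real.arccos ((θ : Space 3) 2)) = ‖z‖ := by
    rw [Real.sin_arccos, Complex.norm_def]
    congr 1
    simp [z, Complex.normSq_apply]; nlinarith
  have hc := Real.cos_arccos (abs_le.1 ((sq_le_one_iff_abs_le_one _).1 hz2)).1
    (abs_le.1 ((sq_le_one_iff_abs_le_one _).1 hz2)).2
  obtain ⟨m0, m1, m2⟩ := mer_coord (Real.arccos ((θ : Space 3) 2))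
  obtain ⟨r0, r1, r2⟩ := rotZ_coord z.arg (mer (Real.arccos ((θ : Space 3) 2)))
  ext i
  fin_cases i
  · simp only [Fin.zero_eta, r0, m0, m1, hs, mul_zero, sub_zero]
    rw [mul_comm]; exact (Complex.norm_mul_cos_arg z).symm
  · simp only [Fin.mk_one, r1, m0, m1, hs, mul_zero, add_zero]
    rw [mul_comm]; exact (Complex.norm_mul_sin_arg z).symm
  · change (θ : Space 3) 2 = rotZ z.arg (mer (Real.arccos ((θ : Space 3) 2))) 2
    rw [r2, m2, hc]

theorem Anal.rot_cas {F : Space 3 → ℝ} (hF : F ∈ Anal) (k : Fin 3) :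
    rot k (cas F) = cas (rot k F) := by
  obtain ⟨g, hg, rfl⟩ := hF
  have hs : Super fun l => (-((l : ℝ) * (l + 1))) • g l :=
    hg.smul _ (m := 4) ⟨1, fun l => by
      rw [neg_sq, one_mul, show ((l : ℝ) + 1) ^ 4 = (((l : ℝ) + 1) * (l + 1)) ^ 2 by ring]
      refine pow_le_pow_left₀ (by positivity) ?_ 2
      nlinarith [(Nat.cast_nonneg l : (0:ℝ) ≤ l)]⟩
  rw [cas_Fn hg, rot_Fn hs, rot_Fn hg, cas_Fn (hg.rotStep k)]
  congr 1
  funext l
  exact map_smul (rotP k).toLinearMap _ _

/-- An axisymmetric weight keeps its eigenspaces under the rotation. -/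
theorem rot2_mem_efun {lam : ℝ} {p : MvPolynomial (Fin 3) ℝ} (hp : rotP 2 p = 0)
    {F : Space 3 → ℝ} (hF : F ∈ efun lam p) : rot 2 F ∈ efun lam p := by
  obtain ⟨aF, eF⟩ := hF
  refine ⟨Anal.rot_mem aF 2, fun θ => ?_⟩
  have hd : Differentiable ℝ (evalFun p) := (contDiff_evalFun p (m := 1)).differentiable one_ne_zero
  have hcd : Differentiable ℝ (cas F) := by
    obtain ⟨g, hg, rfl⟩ := aF
    unfold cas
    exact Differentiable.fun_sum fun k _ =>
      Anal.differentiable (Anal.rot_mem (Anal.rot_mem ⟨g, hg, rfl⟩ k) k)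
  have hFd := Anal.differentiable aF
  have h := rot_congr_sphere (A := fun x => cas F x) (B := fun x => -lam * (evalFun p x * F x))
    hcd ((hd.fun_mul hFd).const_mul _) (fun φ => by
      have := eF φ
      simp only [res] at this
      linarith) 2 θ
  have e : rot 2 (fun x => -lam * (evalFun p x * F x)) θ = -lam * (res p θ * rot 2 F θ) := by
    simp only [rot_eq_fderiv]
    rw [fderiv_const_mul ((hd.fun_mul hFd) _), fderiv_fun_mul (hd _) (hFd _)]
    have h0 : rot 2 (evalFun p) θ = 0 := by rw [rot_evalFun, hp]; simp [evalFun]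
    rw [rot_eq_fderiv] at h0
    simp only [add_apply, smul_apply, smul_eq_mul, h0, res]
    ring
  rw [e, show (fun x => cas F x) = cas F from rfl, Anal.rot_cas aF] at h
  linarith

/-- The rotation fields are skew for smooth functions. -/
theorem integral_rot_mul {A B : Space 3 → ℝ} (hA : ContDiff ℝ 1 A) (hB : ContDiff ℝ 1 B)
    (k : Fin 3) : ∫ θ : Sph 3, rot k A θ * B θ ∂(sig 3) = -∫ θ : Sph 3, A θ * rot k B θ ∂(sig 3) := by
  have h := integral_rot (hA.mul hB) k
  simp only [rot_mul (hA.differentiable one_ne_zero) (hB.differentiable one_ne_zero)] at h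
  rw [integral_add (integrable_sig (f := fun θ : Sph 3 => rot k A θ * B θ)
      (((continuous_rot hA k).comp continuous_subtype_val).mul
        (hB.continuous.comp continuous_subtype_val)))
    (integrable_sig (f := fun θ : Sph 3 => A θ * rot k B θ)
      ((hA.continuous.comp continuous_subtype_val).mul
        ((continuous_rot hB k).comp continuous_subtype_val)))] at h
  linarith

theorem Anal.contDiff1 {F : Space 3 → ℝ} (hF : F ∈ Anal) : ContDiff ℝ 1 F :=
  (Anal.contDiff hF).of_le (by exact_mod_cast le_top)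

theorem pIp_rot2 {p : MvPolynomial (Fin 3) ℝ} (hp : rotP 2 p = 0) {F G : Space 3 → ℝ}
    (hF : F ∈ Anal) (hG : G ∈ Anal) : pIp p (rot 2 F) G = -pIp p F (rot 2 G) := by
  have h := integral_rot_mul (A := F) (B := fun x => evalFun p x * G x) (Anal.contDiff1 hF)
    ((contDiff_evalFun p).mul (Anal.contDiff1 hG)) 2
  have h0 : rot 2 (evalFun p) = 0 := by rw [rot_evalFun, hp]; funext x; simp [evalFun]
  simp only [rot_mul ((contDiff_evalFun p (m := 1)).differentiable one_ne_zero)
    (Anal.differentiable hG), h0, Pi.zero_apply, zero_mul, zero_add] at h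
  simp only [pIp, res]
  calc ∫ θ : Sph 3, evalFun p θ * rot 2 F θ * G θ ∂(sig 3)
      = ∫ θ : Sph 3, rot 2 F θ * (evalFun p θ * G θ) ∂(sig 3) := by congr 1; funext θ; ring
    _ = _ := h
    _ = _ := by congr 2; funext θ; ring

theorem eq_zero_of_pIp {p : MvPolynomial (Fin 3) ℝ} (hp : ∀ θ : Sph 3, 0 < res p θ)
    {F : Space 3 → ℝ} (hF : F ∈ Anal) (h : pIp p F F = 0) : F = 0 := by
  refine Anal.ext_sphere hF fun θ => ?_
  have hc : Continuous fun θ : Sph 3 => res p θ * F θ * F θ :=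
    ((continuous_res p).mul ((Anal.continuous hF).comp continuous_subtype_val)).mul
      ((Anal.continuous hF).comp continuous_subtype_val)
  have h1 := (integral_eq_zero_iff_of_nonneg (fun φ => by
    simp only [Pi.zero_apply, mul_assoc]; exact mul_nonneg (hp φ).le (mul_self_nonneg _))
    (integrable_sig hc)).1 h
  have h2 := congrFun (hc.ae_eq_iff_eq (sig 3) continuous_const |>.1 h1) θ
  rcases mul_eq_zero.1 h2 with h3 | h3
  · exact (mul_eq_zero.1 h3).resolve_left (hp θ).ne'
  · exact h3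

/-- The rotated values solve the oscillator equation. -/
theorem sector_value {F : Space 3 → ℝ} (hF : F ∈ Anal) {ω : ℝ}
    (hJ : rot 2 (rot 2 F) = (-ω ^ 2) • F) (x : Space 3) (φ : ℝ) :
    (ω ≠ 0 → F (rotZ φ x) = Real.cos (ω * φ) * F (rotZ 0 x) +
      Real.sin (ω * φ) / ω * rot 2 F (rotZ 0 x)) ∧
    (ω ≠ 0 → rot 2 F (rotZ φ x) = -ω * Real.sin (ω * φ) * F (rotZ 0 x) +
      Real.cos (ω * φ) * rot 2 F (rotZ 0 x)) := by
  rcases eq_or_ne ω 0 with rfl | hω
  · exact ⟨fun h => absurd rfl h, fun h => absurd rfl h⟩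
  set y0 := F (rotZ 0 x)
  set z0 := rot 2 F (rotZ 0 x)
  set d := fun t => F (rotZ t x) - (Real.cos (ω * t) * y0 + Real.sin (ω * t) / ω * z0)
  set e := fun t => rot 2 F (rotZ t x) - (-ω * Real.sin (ω * t) * y0 + Real.cos (ω * t) * z0)
  have hd : ∀ t, HasDerivAt d (e t) t := fun t => by
    have h1 := hasDerivAt_rotZ (Anal.differentiable hF) x t
    have hl : HasDerivAt (fun t => ω * t) ω t := by simpa using (hasDerivAt_id t).const_mul ω
    refine (h1.fun_sub ((hl.cos.mul_const y0).fun_add ((hl.sin.div_const ω).mul_const z0))).congr_deriv ?_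
    simp only [e]; field_simp
  have he : ∀ t, HasDerivAt e (-ω ^ 2 * d t) t := fun t => by
    have h1 := hasDerivAt_rotZ (Anal.differentiable (Anal.rot_mem hF 2)) x t
    rw [hJ] at h1
    have hl : HasDerivAt (fun t => ω * t) ω t := by simpa using (hasDerivAt_id t).const_mul ω
    refine (h1.fun_sub (((hl.sin.const_mul (-ω)).mul_const y0).fun_add
      (hl.cos.mul_const z0))).congr_deriv ?_
    simp only [d, Pi.smul_apply, smul_eq_mul]; field_simp; ring
  have hE : ∀ t, HasDerivAt (fun t => ω ^ 2 * (d t * d t) + e t * e t) 0 t := fun t =>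
    ((((hd t).fun_mul (hd t)).const_mul (ω ^ 2)).fun_add ((he t).fun_mul (he t))).congr_deriv (by ring)
  have hconst := is_const_of_deriv_eq_zero (fun t => (hE t).differentiableAt) (fun t => (hE t).deriv) φ 0
  have h0 : d 0 = 0 ∧ e 0 = 0 := by simp [d, e, y0, z0]
  simp only [h0.1, h0.2, mul_zero, add_zero] at hconst
  have hd0 : d φ * d φ = 0 := by
    nlinarith [mul_self_nonneg (d φ), mul_self_nonneg (e φ), sq_pos_of_ne_zero hω,
      mul_nonneg (sq_nonneg ω) (mul_self_nonneg (d φ))]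
  have he0 : e φ * e φ = 0 := by
    nlinarith [mul_self_nonneg (e φ), mul_nonneg (sq_nonneg ω) (mul_self_nonneg (d φ))]
  refine ⟨fun _ => ?_, fun _ => ?_⟩
  · have := mul_self_eq_zero.1 hd0
    simp only [d] at this; linarith
  · have := mul_self_eq_zero.1 he0
    simp only [e] at this; linarith

theorem rotZ_zero (x : Space 3) : rotZ 0 x = x := by
  ext i; fin_cases i <;> simp [rotZ]

theorem rotZ_two_pi (x : Space 3) : rotZ (2 * Real.pi) x = x := by
  ext i; fin_cases i <;> simp [rotZ]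

/-- The frequencies of the rotation are integers. -/
theorem exists_label {F : Space 3 → ℝ} (hF : F ∈ Anal) (hne : F ≠ 0) {c : ℝ} (hc : 0 ≤ c)
    (hJ : rot 2 (rot 2 F) = (-c) • F) : ∃ m : ℕ, c = (m : ℝ) ^ 2 := by
  rcases hc.eq_or_lt with h | h
  · exact ⟨0, by simp [← h]⟩
  set ω := Real.sqrt c
  have hω : 0 < ω := Real.sqrt_pos.2 h
  have hω2 : ω ^ 2 = c := Real.sq_sqrt hc
  rw [← hω2] at hJ
  obtain ⟨θ, hθ⟩ : ∃ θ : Sph 3, F θ ≠ 0 := by
    by_contra hcon
    simp only [not_exists, not_not] at hcon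
    exact hne (Anal.ext_sphere hF hcon)
  obtain ⟨e1, e2⟩ := sector_value hF hJ (θ : Space 3) (2 * Real.pi)
  have h1 := e1 hω.ne'
  have h2 := e2 hω.ne'
  rw [rotZ_two_pi, rotZ_zero] at h1 h2
  set C := Real.cos (ω * (2 * Real.pi))
  set S := Real.sin (ω * (2 * Real.pi))
  have hcs : S ^ 2 + C ^ 2 = 1 := Real.sin_sq_add_cos_sq _
  have hC : C = 1 := by
    have h1' : (1 - C) * (ω * F θ) = S * rot 2 F θ := by
      have := congrArg (fun r => ω * r) h1
      simp only [mul_add] at this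
      rw [show ω * (S / ω * rot 2 F θ) = S * rot 2 F θ by field_simp] at this
      linarith
    have h2' : (1 - C) * rot 2 F θ = -S * (ω * F θ) := by linarith
    have : ((1 - C) ^ 2 + S ^ 2) * (ω * F θ) = 0 := by linear_combination (1 - C) * h1' + S * h2'
    have h3 := (mul_eq_zero.1 this).resolve_right (mul_ne_zero hω.ne' hθ)
    nlinarith [sq_nonneg (1 - C), sq_nonneg S]
  obtain ⟨k, hk⟩ := (Real.cos_eq_one_iff _).1 hC
  have hk' : (k : ℝ) = ω := mul_right_cancel₀ Real.two_pi_pos.ne' hk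
  refine ⟨k.toNat, ?_⟩
  have hk0 : 0 ≤ k := by exact_mod_cast (hk'.symm ▸ hω.le : (0 : ℝ) ≤ k)
  have h4 : ((k.toNat : ℕ) : ℝ) = (k : ℝ) := by exact_mod_cast Int.toNat_of_nonneg hk0
  rw [h4, hk', hω2]

theorem rot2_rot0 {F : Space 3 → ℝ} (hF : F ∈ Anal) (x : Space 3) :
    rot 2 (rot 0 F) x = rot 0 (rot 2 F) x - rot 1 F x := by
  obtain ⟨g, hg, rfl⟩ := hF
  rw [rot_Fn hg, rot_Fn (hg.rotStep 0), rot_Fn hg, rot_Fn (hg.rotStep 2), rot_Fn hg]
  refine (((hg.rotStep 0).rotStep 2).hasSum x).unique ?_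
  refine (((hg.rotStep 2).rotStep 0).hasSum x).sub ((hg.rotStep 1).hasSum x) |>.congr_fun fun l => ?_
  have h := congrArg (fun q => evalFun q x) (rotP_commutator 2 0 (g l))
  simp [evalFun, eps] at h ⊢
  linarith

/-- The Casimir operator on the meridian of a sector. -/
theorem sector_ode {F : Space 3 → ℝ} (hF : F ∈ Anal) {m : ℝ}
    (hJ : rot 2 (rot 2 F) = (-m ^ 2) • F) (s : ℝ) :
    Real.sin s ^ 2 * cas F (mer s) = Real.sin s ^ 2 * rot 1 (rot 1 F) (mer s) +
      Real.sin s * Real.cos s * rot 1 F (mer s) - m ^ 2 * F (mer s) := by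
  obtain ⟨m0, m1, m2⟩ := mer_coord s
  have hrel : ∀ G : Space 3 → ℝ,
      Real.sin s * rot 0 G (mer s) = -Real.cos s * rot 2 G (mer s) := fun G => by
    simp only [rot, show (0 : Fin 3) + 1 = 1 from rfl, show (0 : Fin 3) + 2 = 2 from rfl,
      show (2 : Fin 3) + 1 = 0 from rfl, show (2 : Fin 3) + 2 = 1 from rfl, m0, m1, m2]
    ring
  have h1 := hrel (rot 0 F)
  rw [rot2_rot0 hF] at h1
  have h2 := hrel (rot 2 F)
  rw [hJ, Pi.smul_apply, smul_eq_mul] at h2
  have h3 : cas F (mer s) = rot 0 (rot 0 F) (mer s) + rot 1 (rot 1 F) (mer s) + -m ^ 2 * F (mer s) := by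
    simp [cas, Fin.sum_univ_three, hJ]
  rw [h3]
  linear_combination Real.sin s * h1 - Real.cos s * h2 -
    m ^ 2 * F (mer s) * Real.sin_sq_add_cos_sq s

/-- A differentiable ratio with vanishing Wronskian is locally constant. -/
theorem ratio_eventually_const {f g f' g' : ℝ → ℝ} (hf : ∀ s, HasDerivAt f (f' s) s)
    (hg : ∀ s, HasDerivAt g (g' s) s) (hW : ∀ s, f s * g' s - f' s * g s = 0) {t : ℝ}
    (ht : f t ≠ 0) : ∀ᶠ s in 𝓝 t, g s - g t / f t * f s = 0 := by
  obtain ⟨ε, hε, hball⟩ :=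
    Metric.eventually_nhds_iff_ball.1 ((hf t).continuousAt.eventually_ne ht)
  filter_upwards [Metric.ball_mem_nhds t hε] with s hs
  have hd : ∀ r ∈ Metric.ball t ε, HasDerivWithinAt (fun r => g r / f r) 0 (Metric.ball t ε) r := by
    intro r hr
    refine (((hg r).div (hf r) (hball r hr)).hasDerivWithinAt).congr_deriv ?_
    rw [div_eq_zero_iff]
    left
    linarith [hW r]
  have hconst := (convex_ball t ε).is_const_of_fderivWithin_eq_zero
    (fun r hr => (hd r hr).differentiableWithinAt)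
    (fun r hr => by
      rw [(hd r hr).hasFDerivWithinAt.fderivWithin (Metric.isOpen_ball.uniqueDiffWithinAt hr)]
      simp)
    hs (Metric.mem_ball_self hε)
  rw [div_eq_iff (hball s hs)] at hconst
  linarith

/-- Two meridian profiles of one sector are proportional. -/
theorem sector_prop {lam : ℝ} {p : MvPolynomial (Fin 3) ℝ} {F G : Space 3 → ℝ}
    (hF : F ∈ efun lam p) (hG : G ∈ efun lam p) {m : ℝ} (hJF : rot 2 (rot 2 F) = (-m ^ 2) • F)
    (hJG : rot 2 (rot 2 G) = (-m ^ 2) • G) (hm : m = 0 → rot 2 F = 0 ∧ rot 2 G = 0) {t : ℝ}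
    (ht : F (mer t) ≠ 0) (s : ℝ) : G (mer s) = G (mer t) / F (mer t) * F (mer s) := by
  obtain ⟨aF, eF⟩ := hF
  obtain ⟨aG, eG⟩ := hG
  have hu := fun s => hasDerivAt_mer (Anal.differentiable aF) s
  have hv := fun s => hasDerivAt_mer (Anal.differentiable aG) s
  have hu' := fun s => hasDerivAt_mer (Anal.differentiable (Anal.rot_mem aF 1)) s
  have hv' := fun s => hasDerivAt_mer (Anal.differentiable (Anal.rot_mem aG 1)) s
  have hpole : ∀ {K : Space 3 → ℝ}, K ∈ Anal → (m = 0 → rot 2 K = 0) →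
      rot 2 (rot 2 K) = (-m ^ 2) • K → ∀ r, Real.sin r = 0 →
      m ^ 2 * K (mer r) = 0 ∧ (m = 0 → rot 1 K (mer r) = 0) := by
    intro K hK hK0 hKJ r hr
    obtain ⟨m0, m1, m2⟩ := mer_coord r
    refine ⟨?_, fun h0 => ?_⟩
    · have := sector_ode hK hKJ r
      rw [hr] at this
      linarith
    · have h1 : rot 2 (rot 0 K) (mer r) = 0 := by
        simp [rot, m0, m1, hr]
      rw [rot2_rot0 hK, hK0 h0] at h1
      have h2 : rot 0 (0 : Space 3 → ℝ) (mer r) = 0 := by simp [rot, pd]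
      linarith
  set q := fun r => F (mer r) * rot 1 G (mer r) - rot 1 F (mer r) * G (mer r)
  have hqpole : ∀ r, Real.sin r = 0 → q r = 0 := fun r hr => by
    obtain ⟨f1, f2⟩ := hpole aF (fun h => (hm h).1) hJF r hr
    obtain ⟨g1, g2⟩ := hpole aG (fun h => (hm h).2) hJG r hr
    by_cases h0 : m = 0
    · simp [q, f2 h0, g2 h0]
    · simp [q, (mul_eq_zero.1 f1).resolve_left (pow_ne_zero 2 h0),
        (mul_eq_zero.1 g1).resolve_left (pow_ne_zero 2 h0)]
  set W := fun r => Real.sin r * q r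
  have hW : ∀ r, HasDerivAt W 0 r := fun r => by
    refine ((Real.hasDerivAt_sin r).fun_mul (((hu r).fun_mul (hv' r)).fun_sub
      ((hu' r).fun_mul (hv r)))).congr_deriv ?_
    by_cases hr : Real.sin r = 0
    · have := hqpole r hr
      simp only [q] at this
      rw [hr, this]; ring
    · have e1 := sector_ode aF hJF r
      have e2 := sector_ode aG hJG r
      have c1 := eF (merPt r)
      have c2 := eG (merPt r)
      simp only [merPt] at c1 c2
      have : Real.sin r * (Real.cos r * (F (mer r) * rot 1 G (mer r) - rot 1 F (mer r) * G (mer r)) +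
          Real.sin r * (rot 1 F (mer r) * rot 1 G (mer r) + F (mer r) * rot 1 (rot 1 G) (mer r) -
            (rot 1 (rot 1 F) (mer r) * G (mer r) + rot 1 F (mer r) * rot 1 G (mer r)))) = 0 := by
        linear_combination G (mer r) * e1 - F (mer r) * e2 -
          Real.sin r ^ 2 * G (mer r) * c1 + Real.sin r ^ 2 * F (mer r) * c2
      exact (mul_eq_zero.1 this).resolve_left hr
  have hW0 : ∀ r, W r = 0 := fun r => by
    rw [is_const_of_deriv_eq_zero (fun x => (hW x).differentiableAt) (fun x => (hW x).deriv) r 0]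
    simp [W]
  have hq : ∀ r, q r = 0 := fun r => by
    by_cases hr : Real.sin r = 0
    · exact hqpole r hr
    · exact (mul_eq_zero.1 (hW0 r)).resolve_left hr
  set c := G (mer t) / F (mer t)
  have hev := ratio_eventually_const (fun r => hu r) (fun r => hv r) hq ht
  have hH : (fun x => -c * F x + 1 * G x) ∈ Anal := anal_comb2 aF aG _ _
  have := Anal.circ_zero hH onPair_mer (t₀ := t) (by
    filter_upwards [hev] with r hr
    show -c * F (mer r) + 1 * G (mer r) = 0
    linarith) s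
  change -c * F (mer s) + 1 * G (mer s) = 0 at this
  linarith

/-- A member of a sector is zero if it and its rotation vanish on the meridian. -/
theorem sector_ext {F : Space 3 → ℝ} (hF : F ∈ Anal) {m : ℝ}
    (hJ : rot 2 (rot 2 F) = (-m ^ 2) • F) (h0 : m = 0 → rot 2 F = 0) (h1 : ∀ s, F (mer s) = 0)
    (h2 : ∀ s, rot 2 F (mer s) = 0) : F = 0 := by
  refine Anal.ext_sphere hF fun θ => ?_
  obtain ⟨φ, s, hθ⟩ := exists_rotZ_mer θ
  rw [hθ]
  rcases eq_or_ne m 0 with hm | hm
  · have hc : ∀ t, HasDerivAt (fun t => F (rotZ t (mer s))) 0 t := fun t => by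
      simpa [h0 hm] using hasDerivAt_rotZ (Anal.differentiable hF) (mer s) t
    rw [is_const_of_deriv_eq_zero (fun x => (hc x).differentiableAt) (fun x => (hc x).deriv) φ 0,
      rotZ_zero, h1]
  · rw [(sector_value hF hJ (mer s) φ).1 hm, rotZ_zero, h1, h2]
    simp

end

end Vale.Agent.P225.Disproof
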