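import Vale.Agent.P225.Disproof.EigenFun
import Mathlib.Analysis.Complex.Polynomial.Basic

/-!
# P225: ranks of products of eigenfunctions

For eigenfunctions orthonormal in `∫ p u v`: the two products of a pair are independent, three
states give three independent traceless quadratic forms, and two pairs give at least three
independent products (for arbitrary eigenvalues).
-/

namespace Vale.Agent.P225.Disproof

open MvPolynomial MeasureTheory Set Filter
open scoped Topology RealInnerProductSpace ComplexConjugate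

noncomputable section

/-- The inner product of the weight `p`. -/
def pIp (p : MvPolynomial (Fin 3) ℝ) (F G : Space 3 → ℝ) : ℝ :=
  ∫ θ : Sph 3, res p θ * F θ * G θ ∂(sig 3)

theorem pIp_comm (p : MvPolynomial (Fin 3) ℝ) (F G : Space 3 → ℝ) : pIp p F G = pIp p G F := by
  simp only [pIp]; congr 1; funext θ; ring

theorem integrable_pIp (p : MvPolynomial (Fin 3) ℝ) {F G : Space 3 → ℝ} (hF : Continuous F)
    (hG : Continuous G) : Integrable (fun θ : Sph 3 => res p θ * F θ * G θ) (sig 3) :=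
  integrable_sig (((continuous_res p).mul (hF.comp continuous_subtype_val)).mul
    (hG.comp continuous_subtype_val))

/-- Orthonormal functions are independent on the sphere. -/
theorem coeff_eq_zero {ι : Type*} [Fintype ι] [DecidableEq ι] {p : MvPolynomial (Fin 3) ℝ}
    {F : ι → Space 3 → ℝ} (hF : ∀ a, Continuous (F a))
    (horth : ∀ a b, pIp p (F a) (F b) = if a = b then 1 else 0) {c : ι → ℝ}
    (h : ∀ θ : Sph 3, ∑ a, c a * F a θ = 0) (b : ι) : c b = 0 := by
  have h1 : ∑ a, c a * pIp p (F a) (F b) = 0 := by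
    simp only [pIp, ← integral_const_mul]
    rw [← integral_finsetSum _ fun a _ => (integrable_pIp p (hF a) (hF b)).const_mul _]
    refine integral_eq_zero_of_ae (Eventually.of_forall fun θ => ?_)
    simp only [Pi.zero_apply]
    calc ∑ a, c a * (res p θ * F a θ * F b θ) = (∑ a, c a * F a θ) * (res p θ * F b θ) := by
          rw [Finset.sum_mul]; exact Finset.sum_congr rfl fun a _ => by ring
      _ = 0 := by rw [h θ, zero_mul]
  simpa [horth] using h1

theorem anal_comb2 {F G : Space 3 → ℝ} (hF : F ∈ Anal) (hG : G ∈ Anal) (a b : ℝ) :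
    (fun x => a * F x + b * G x) ∈ Anal := by
  have := add_mem (Anal.smul_mem a hF) (Anal.smul_mem b hG)
  convert this using 1
  funext x; simp

theorem pair_comb_ne_zero {p : MvPolynomial (Fin 3) ℝ} {f g : Space 3 → ℝ} (hf : f ∈ Anal)
    (hg : g ∈ Anal) (h1 : pIp p f f = 1) (h2 : pIp p g g = 1) (h3 : pIp p f g = 0) {a b : ℝ}
    (hab : a ≠ 0 ∨ b ≠ 0) : ∃ θ : Sph 3, a * f θ + b * g θ ≠ 0 := by
  by_contra hcon
  simp only [not_exists, not_not] at hcon
  have := coeff_eq_zero (p := p) (F := ![f, g]) (c := ![a, b])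
    (fun i => by fin_cases i; exacts [Anal.continuous hf, Anal.continuous hg])
    (fun i j => by fin_cases i <;> fin_cases j <;> simp [h1, h2, h3, pIp_comm p g f])
    (fun θ => by simpa [Fin.sum_univ_two] using hcon θ)
  rcases hab with h | h
  · exact h (this 0)
  · exact h (this 1)

/-- A nontrivial combination of the products of a pair is nonzero on a dense set. -/
theorem pair_nd {p : MvPolynomial (Fin 3) ℝ} {f g : Space 3 → ℝ} (hf : f ∈ Anal) (hg : g ∈ Anal)
    (h1 : pIp p f f = 1) (h2 : pIp p g g = 1) (h3 : pIp p f g = 0) {u v : ℝ}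
    (huv : u ≠ 0 ∨ v ≠ 0) : Nd fun x => u * (f x * f x - g x * g x) + v * (f x * g x) := by
  have key : ∀ a b a' b' : ℝ, (a ≠ 0 ∨ b ≠ 0) → (a' ≠ 0 ∨ b' ≠ 0) →
      Nd fun x => (a * f x + b * g x) * (a' * f x + b' * g x) := fun a b a' b' ha ha' =>
    (Anal.nd (anal_comb2 hf hg a b) (pair_comb_ne_zero hf hg h1 h2 h3 ha)).mul
      (Anal.continuous (anal_comb2 hf hg a b))
      (Anal.nd (anal_comb2 hf hg a' b') (pair_comb_ne_zero hf hg h1 h2 h3 ha'))
  by_cases hu : u = 0
  · have hv : v ≠ 0 := huv.resolve_left (not_not.2 hu)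
    have := key v 0 0 1 (Or.inl hv) (Or.inr one_ne_zero)
    convert this using 1
    funext x; rw [hu]; ring
  · set s := Real.sqrt ((v / u) ^ 2 + 4)
    have hs : s * s = (v / u) ^ 2 + 4 := Real.mul_self_sqrt (by positivity)
    have := key u (-u * (-(v / u) + s) / 2) 1 (-(-(v / u) - s) / 2) (Or.inl hu) (Or.inl one_ne_zero)
    convert this using 1
    funext x
    have e : u * (v / u) = v := mul_div_cancel₀ v hu
    linear_combination (u * g x * g x / 4) * hs - (f x * g x) * e

/-- The two products of a pair are independent. -/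
theorem rank_pair {p : MvPolynomial (Fin 3) ℝ} {f g : Space 3 → ℝ} (hf : f ∈ Anal) (hg : g ∈ Anal)
    (h1 : pIp p f f = 1) (h2 : pIp p g g = 1) (h3 : pIp p f g = 0) :
    LinearIndependent ℝ ![fun θ : Sph 3 => f θ * f θ - g θ * g θ, fun θ : Sph 3 => f θ * g θ] := by
  rw [LinearIndependent.pair_iff]
  intro u v huv
  by_contra hcon
  obtain ⟨θ, hθ⟩ := (pair_nd hf hg h1 h2 h3 (u := u) (v := v) (by tauto)).exists_ne
  exact hθ (by simpa using congrFun huv θ)

/-- Three states give three independent traceless forms. -/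
theorem rank_triple {p : MvPolynomial (Fin 3) ℝ} {F : Fin 3 → Space 3 → ℝ}
    (hF : ∀ a, F a ∈ Anal) (horth : ∀ a b, pIp p (F a) (F b) = if a = b then 1 else 0) :
    ∃ Q : Fin 3 → Fin 3 → Fin 3 → ℝ, (∀ i a b, Q i a b = Q i b a) ∧ (∀ i, ∑ a, Q i a a = 0) ∧
      LinearIndependent ℝ fun i => fun θ : Sph 3 => ∑ a, ∑ b, Q i a b * (F a θ * F b θ) := by
  have hc := fun a => Anal.continuous (hF a)
  obtain ⟨θ₀, hθ₀⟩ : ∃ θ : Sph 3, F 0 θ ≠ 0 := by
    by_contra hcon
    simp only [not_exists, not_not] at hcon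
    have := horth 0 0
    simp [pIp, hcon] at this
  set w : Fin 3 → ℝ := fun a => F a θ₀
  obtain ⟨a, ha, ha0⟩ : ∃ a : Fin 3 → ℝ, ∑ i, a i * w i = 0 ∧ a ≠ 0 := by
    refine ⟨![-w 1, w 0, 0], by simp [Fin.sum_univ_three]; ring, fun h => hθ₀ ?_⟩
    simpa using congrFun h 1
  set b : Fin 3 → ℝ := fun k => w (k + 1) * a (k + 2) - w (k + 2) * a (k + 1)
  have hb : ∑ i, b i * w i = 0 := by simp [b, Fin.sum_univ_three]; ring
  have hab : ∑ i, a i * b i = 0 := by simp [b, Fin.sum_univ_three]; ring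
  set na := ∑ i, a i * a i
  set nw := ∑ i, w i * w i
  have hna : 0 < na := by
    obtain ⟨i, hi⟩ : ∃ i, a i ≠ 0 := by by_contra h; exact ha0 (funext (by simpa using h))
    exact Finset.sum_pos' (fun j _ => mul_self_nonneg _) ⟨i, Finset.mem_univ i, mul_self_pos.2 hi⟩
  have hnw : 0 < nw := Finset.sum_pos' (fun j _ => mul_self_nonneg _)
    ⟨0, Finset.mem_univ 0, mul_self_pos.2 hθ₀⟩
  set Q : Fin 3 → Fin 3 → Fin 3 → ℝ :=
    ![fun i j => (a i * w j + a j * w i) / 2, fun i j => (a i * b j + a j * b i) / 2,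
      fun i j => na * (w i * w j) - nw * (a i * a j)]
  refine ⟨Q, fun i x y => by fin_cases i <;> simp [Q] <;> ring, fun i => ?_, ?_⟩
  · fin_cases i
    · simp [Q, Fin.sum_univ_three] at ha ⊢; linarith
    · simp [Q, Fin.sum_univ_three] at hab ⊢; linarith
    · simp [Q, na, nw, Fin.sum_univ_three]; ring
  · rw [Fintype.linearIndependent_iff]
    intro c hcz
    set A := fun x => ∑ i, a i * F i x
    set B := fun x => ∑ i, b i * F i x
    set W := fun x => ∑ i, w i * F i x
    have hz : ∀ θ : Sph 3, c 0 * (A θ * W θ) + c 1 * (A θ * B θ) +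
        c 2 * (na * (W θ * W θ) - nw * (A θ * A θ)) = 0 := fun θ => by
      have := congrFun hcz θ
      simp [Q, Fin.sum_univ_three] at this
      simp [A, B, W, Fin.sum_univ_three]
      linarith
    have hc2 : c 2 = 0 := by
      have e := hz θ₀
      rw [show A θ₀ = 0 from ha, show W θ₀ = nw from rfl] at e
      have : c 2 * (na * (nw * nw)) = 0 := by linarith
      exact (mul_eq_zero.1 this).resolve_right (by positivity)
    have hA : A ∈ Anal := by
      have := sum_mem (fun i (_ : i ∈ Finset.univ) => Anal.smul_mem (a i) (hF i))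
      convert this using 1
      funext x; simp [A]
    have hA0 : ∃ θ : Sph 3, A θ ≠ 0 := by
      by_contra hcon
      simp only [not_exists, not_not] at hcon
      exact ha0 (funext fun i => coeff_eq_zero hc horth hcon i)
    have hO : ∀ θ : Sph 3, A θ ≠ 0 → c 0 * W θ + c 1 * B θ = 0 := fun θ hθ => by
      have := hz θ
      rw [hc2] at this
      have : A θ * (c 0 * W θ + c 1 * B θ) = 0 := by linarith
      exact (mul_eq_zero.1 this).resolve_left hθ
    have hall : ∀ θ : Sph 3, c 0 * W θ + c 1 * B θ = 0 := fun θ => by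
      have h0 := Continuous.ext_on (Anal.nd hA hA0)
        (f := fun θ : Sph 3 => c 0 * W θ + c 1 * B θ) (g := fun _ => (0 : ℝ))
        (((continuous_finsetSum _ fun i _ => continuous_const.mul (hc i)).comp
          continuous_subtype_val).const_mul _ |>.add (((continuous_finsetSum _ fun i _ =>
            continuous_const.mul (hc i)).comp continuous_subtype_val).const_mul _))
        continuous_const hO
      exact congrFun h0 θ
    have hvec : ∀ i, c 0 * w i + c 1 * b i = 0 := coeff_eq_zero hc horth fun θ => by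
      have := hall θ
      simp [W, B, Fin.sum_univ_three] at this ⊢
      linarith
    have hc0 : c 0 = 0 := by
      have h1 : ∑ i, (c 0 * w i + c 1 * b i) * w i = 0 := by simp [hvec]
      rw [show ∑ i, (c 0 * w i + c 1 * b i) * w i = c 0 * nw + c 1 * ∑ i, b i * w i by
        simp only [nw, Finset.mul_sum, ← Finset.sum_add_distrib]
        exact Finset.sum_congr rfl fun i _ => by ring, hb] at h1
      simp only [mul_zero, add_zero] at h1
      exact (mul_eq_zero.1 h1).resolve_right hnw.ne'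
    have hc1 : c 1 = 0 := by
      by_contra hc1
      have hb0 : ∀ i, b i = 0 := fun i => by
        have := hvec i
        rw [hc0] at this
        simpa [hc1] using this
      have : na * nw = (∑ i, a i * w i) ^ 2 + ∑ i, b i * b i := by
        simp [b, na, nw, Fin.sum_univ_three]; ring
      rw [ha, Finset.sum_eq_zero fun i _ => by rw [hb0 i, mul_zero]] at this
      nlinarith [mul_pos hna hnw]
    intro i
    fin_cases i <;> assumption

/-- Rotation derivatives only see the values on the sphere. -/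
theorem rot_congr_sphere {A B : Space 3 → ℝ} (hA : Differentiable ℝ A) (hB : Differentiable ℝ B)
    (h : ∀ θ : Sph 3, A θ = B θ) (k : Fin 3) (θ : Sph 3) : rot k A θ = rot k B θ := by
  rw [rot_eq_fderiv, rot_eq_fderiv]
  set v := (θ : Space 3) (k + 1) • EuclideanSpace.single (k + 2) (1 : ℝ) -
    (θ : Space 3) (k + 2) • EuclideanSpace.single (k + 1) (1 : ℝ) with hv
  by_cases hv0 : v = 0
  · rw [hv0, map_zero, map_zero]
  have hperp : ⟪(θ : Space 3), v⟫ = 0 := by
    simp [v, inner_sub_right, inner_smul_right, EuclideanSpace.inner_single_right]; ring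
  set b := ‖v‖⁻¹ • v
  have hb : OnPair θ b := ⟨norm_eq_of_mem_sphere θ,
    by rw [norm_smul, norm_inv, norm_norm, inv_mul_cancel₀ (norm_ne_zero_iff.2 hv0)],
    by rw [real_inner_smul_right, hperp, mul_zero]⟩
  have hd : ∀ F : Space 3 → ℝ, Differentiable ℝ F →
      HasDerivAt (fun s => F (circ θ b s)) (fderiv ℝ F θ b) 0 := fun F hF => by
    have hc : HasDerivAt (circ θ b) b 0 := by
      have h0 := ((Real.hasDerivAt_cos 0).smul_const (θ : Space 3)).add
        ((Real.hasDerivAt_sin 0).smul_const b)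
      simp only [Real.sin_zero, neg_zero, zero_smul, Real.cos_zero, one_smul, zero_add] at h0
      exact h0
    have h1 := (hF (circ θ b 0)).hasFDerivAt.comp_hasDerivAt 0 hc
    rw [show circ θ b 0 = (θ : Space 3) by simp [circ]] at h1
    exact h1
  have e : fderiv ℝ A θ b = fderiv ℝ B θ b :=
    (hd A hA).unique ((hd B hB).congr_of_eventuallyEq (Eventually.of_forall fun s =>
      h ⟨circ θ b s, by simp [norm_circ hb s]⟩))
  simp only [b, map_smul, smul_eq_mul] at e
  exact mul_left_cancel₀ (inv_ne_zero (norm_ne_zero_iff.2 hv0)) e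

theorem rot_comb {f1 f2 f3 f4 : Space 3 → ℝ} (h1 : Differentiable ℝ f1) (h2 : Differentiable ℝ f2)
    (h3 : Differentiable ℝ f3) (h4 : Differentiable ℝ f4) (u v : ℝ) (k : Fin 3) (x : Space 3) :
    rot k (fun y => u * (f1 y * f1 y - f2 y * f2 y) + v * (f3 y * f4 y)) x =
      u * (2 * f1 x * rot k f1 x - 2 * f2 x * rot k f2 x) +
        v * (rot k f3 x * f4 x + f3 x * rot k f4 x) := by
  simp only [rot_eq_fderiv]
  have e := (((h1 x).hasFDerivAt.fun_mul (h1 x).hasFDerivAt).fun_sub
    ((h2 x).hasFDerivAt.fun_mul (h2 x).hasFDerivAt)).const_mul u |>.fun_add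
    (((h3 x).hasFDerivAt.fun_mul (h4 x).hasFDerivAt).const_mul v)
  rw [e.fderiv]
  simp only [add_apply, smul_apply, sub_apply, smul_eq_mul]
  ring

theorem rot_comb2 {f1 f2 f3 f4 : Space 3 → ℝ} (h1 : Differentiable ℝ f1) (h2 : Differentiable ℝ f2)
    (h3 : Differentiable ℝ f3) (h4 : Differentiable ℝ f4) {r1 r2 r3 r4 : Space 3 → ℝ}
    (h1' : Differentiable ℝ r1) (h2' : Differentiable ℝ r2)
    (h3' : Differentiable ℝ r3) (h4' : Differentiable ℝ r4) (u v : ℝ) (k : Fin 3) (x : Space 3) :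
    rot k (fun y => u * (2 * f1 y * r1 y - 2 * f2 y * r2 y) + v * (r3 y * f4 y + f3 y * r4 y)) x =
      u * (2 * (rot k f1 x * r1 x + f1 x * rot k r1 x) - 2 * (rot k f2 x * r2 x + f2 x * rot k r2 x)) +
        v * (rot k r3 x * f4 x + r3 x * rot k f4 x + rot k f3 x * r4 x + f3 x * rot k r4 x) := by
  simp only [rot_eq_fderiv]
  have e := ((((h1 x).hasFDerivAt.const_mul 2).fun_mul (h1' x).hasFDerivAt).fun_sub
    (((h2 x).hasFDerivAt.const_mul 2).fun_mul (h2' x).hasFDerivAt)).const_mul u |>.fun_add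
    ((((h3' x).hasFDerivAt.fun_mul (h4 x).hasFDerivAt).fun_add
      ((h3 x).hasFDerivAt.fun_mul (h4' x).hasFDerivAt)).const_mul v)
  rw [e.fderiv]
  simp only [add_apply, smul_apply, sub_apply, smul_eq_mul]
  ring

/-- Proportional squares contradict orthonormality. -/
theorem not_square_prop {p : MvPolynomial (Fin 3) ℝ} {f g f' g' : Space 3 → ℝ}
    (hf : f ∈ Anal) (hg : g ∈ Anal) (hf' : f' ∈ Anal) (hg' : g' ∈ Anal)
    (hn : pIp p f' f' = 1) (o1 : pIp p f f' = 0) (o2 : pIp p g f' = 0) (c : ℂ)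
    (h : ∀ θ : Sph 3, ((f' θ : ℂ) + Complex.I * g' θ) ^ 2 = c * ((f θ : ℂ) + Complex.I * g θ) ^ 2) :
    False := by
  obtain ⟨s, hs⟩ := IsAlgClosed.exists_pow_nat_eq c (n := 2) (by norm_num)
  have hfinal : ∀ σ : ℂ, (∀ θ : Sph 3, f' θ = σ.re * f θ + (-σ.im) * g θ) → False := fun σ hσ => by
    have h1 : pIp p f' f' = σ.re * pIp p f f' + -σ.im * pIp p g f' := by
      simp only [pIp, ← integral_const_mul]
      rw [← integral_add ((integrable_pIp p (Anal.continuous hf) (Anal.continuous hf')).const_mul _)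
        ((integrable_pIp p (Anal.continuous hg) (Anal.continuous hf')).const_mul _)]
      refine integral_congr_ae (Eventually.of_forall fun θ => ?_)
      simp only
      linear_combination (res p θ * f' θ) * hσ θ
    rw [hn, o1, o2] at h1
    simp at h1
  set R := fun x => 1 * f' x + -1 * (s.re * f x + (-s.im) * g x)
  set J := fun x => 1 * g' x + -1 * (s.im * f x + s.re * g x)
  have hR : R ∈ Anal := anal_comb2 hf' (anal_comb2 hf hg _ _) _ _
  have hJ : J ∈ Anal := anal_comb2 hg' (anal_comb2 hf hg _ _) _ _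
  by_cases hz : ∀ θ : Sph 3, R θ = 0
  · exact hfinal s fun θ => by have := hz θ; simp only [R] at this; linarith
  simp only [not_forall] at hz
  refine hfinal (-s) fun θ => ?_
  have h0 := Continuous.ext_on (Anal.nd hR hz)
    (f := fun θ : Sph 3 => f' θ) (g := fun θ : Sph 3 => (-s).re * f θ + (-(-s).im) * g θ)
    ((Anal.continuous hf').comp continuous_subtype_val)
    ((((Anal.continuous hf).comp continuous_subtype_val).const_mul _).add
      (((Anal.continuous hg).comp continuous_subtype_val).const_mul _)) ?_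
  · exact congrFun h0 θ
  intro φ hφ
  have e : (((f' φ : ℂ) + Complex.I * g' φ) - s * ((f φ : ℂ) + Complex.I * g φ)) *
      (((f' φ : ℂ) + Complex.I * g' φ) + s * ((f φ : ℂ) + Complex.I * g φ)) = 0 := by
    linear_combination h φ - ((f φ : ℂ) + Complex.I * g φ) ^ 2 * hs
  rcases mul_eq_zero.1 e with h1 | h1
  · refine absurd ?_ hφ
    have := congrArg Complex.re h1
    simp at this
    simp only [R]
    linarith
  · have := congrArg Complex.re h1
    simp at this
    simp
    linarith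

/-- The identity behind the rank of two pairs. -/
theorem two_pairs_identity {p : MvPolynomial (Fin 3) ℝ} {lam μ : ℝ} {f g f' g' : Space 3 → ℝ}
    (af : f ∈ Anal) (ag : g ∈ Anal) (af' : f' ∈ Anal) (ag' : g' ∈ Anal)
    (ef : ∀ θ : Sph 3, cas f θ + lam * res p θ * f θ = 0)
    (eg : ∀ θ : Sph 3, cas g θ + lam * res p θ * g θ = 0)
    (ef' : ∀ θ : Sph 3, cas f' θ + μ * res p θ * f' θ = 0)
    (eg' : ∀ θ : Sph 3, cas g' θ + μ * res p θ * g' θ = 0) {a1 a2 b1 b2 : ℝ}
    (hrel : ∀ θ : Sph 3,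
      f' θ * f' θ - g' θ * g' θ = a1 * (f θ * f θ - g θ * g θ) + a2 * (f θ * g θ) ∧
      f' θ * g' θ = b1 * (f θ * f θ - g θ * g θ) + b2 * (f θ * g θ)) :
    ∃ α β : ℂ, ∀ θ : Sph 3,
      ((f' θ : ℂ) + Complex.I * g' θ) ^ 2 =
        α * ((f θ : ℂ) + Complex.I * g θ) ^ 2 + β * ((f θ : ℂ) - Complex.I * g θ) ^ 2 ∧
      4 * (α * β) * ((∑ k, (g θ * rot k f θ - f θ * rot k g θ) ^ 2 : ℝ) : ℂ) =
        ((μ : ℂ) - lam) * res p θ * ((f' θ : ℂ) + Complex.I * g' θ) ^ 4 := by
  have df := Anal.differentiable af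
  have dg := Anal.differentiable ag
  have df' := Anal.differentiable af'
  have dg' := Anal.differentiable ag'
  have dr : ∀ {F : Space 3 → ℝ}, F ∈ Anal → ∀ k, Differentiable ℝ (rot k F) :=
    fun hF k => Anal.differentiable (Anal.rot_mem hF k)
  -- differentiating the two relations
  have hA : ∀ k, ∀ θ : Sph 3,
      1 * (2 * f' θ * rot k f' θ - 2 * g' θ * rot k g' θ) + 0 * (rot k f' θ * g' θ + f' θ * rot k g' θ) =
      a1 * (2 * f θ * rot k f θ - 2 * g θ * rot k g θ) + a2 * (rot k f θ * g θ + f θ * rot k g θ) := by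
    intro k θ
    rw [← rot_comb df' dg' df' dg' 1 0 k, ← rot_comb df dg df dg a1 a2 k]
    exact rot_congr_sphere (by fun_prop) (by fun_prop) (fun φ => by linarith [(hrel φ).1]) k θ
  have hB : ∀ k, ∀ θ : Sph 3,
      0 * (2 * f' θ * rot k f' θ - 2 * g' θ * rot k g' θ) + 1 * (rot k f' θ * g' θ + f' θ * rot k g' θ) =
      b1 * (2 * f θ * rot k f θ - 2 * g θ * rot k g θ) + b2 * (rot k f θ * g θ + f θ * rot k g θ) := by
    intro k θ
    rw [← rot_comb df' dg' df' dg' 0 1 k, ← rot_comb df dg df dg b1 b2 k]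
    exact rot_congr_sphere (by fun_prop) (by fun_prop) (fun φ => by linarith [(hrel φ).2]) k θ
  have hA2 := fun k θ => rot_congr_sphere
    (A := fun x => 1 * (2 * f' x * rot k f' x - 2 * g' x * rot k g' x) +
      0 * (rot k f' x * g' x + f' x * rot k g' x))
    (B := fun x => a1 * (2 * f x * rot k f x - 2 * g x * rot k g x) +
      a2 * (rot k f x * g x + f x * rot k g x))
    (by have := dr af' k; have := dr ag' k; fun_prop) (by have := dr af k; have := dr ag k; fun_prop)
    (hA k) k θ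
  have hB2 := fun k θ => rot_congr_sphere
    (A := fun x => 0 * (2 * f' x * rot k f' x - 2 * g' x * rot k g' x) +
      1 * (rot k f' x * g' x + f' x * rot k g' x))
    (B := fun x => b1 * (2 * f x * rot k f x - 2 * g x * rot k g x) +
      b2 * (rot k f x * g x + f x * rot k g x))
    (by have := dr af' k; have := dr ag' k; fun_prop) (by have := dr af k; have := dr ag k; fun_prop)
    (hB k) k θ
  simp only [fun k (u v : ℝ) (x : Space 3) =>
      rot_comb2 df' dg' df' dg' (dr af' k) (dr ag' k) (dr af' k) (dr ag' k) u v k x,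
    fun k (u v : ℝ) (x : Space 3) =>
      rot_comb2 df dg df dg (dr af k) (dr ag k) (dr af k) (dr ag k) u v k x] at hA2 hB2
  set α : ℂ := ((a1 : ℂ) + 2 * Complex.I * b1) / 2 - Complex.I * ((a2 : ℂ) + 2 * Complex.I * b2) / 4
    with hα
  set β : ℂ := ((a1 : ℂ) + 2 * Complex.I * b1) / 2 + Complex.I * ((a2 : ℂ) + 2 * Complex.I * b2) / 4
    with hβ
  have hG : ∀ θ : Sph 3, ((f' θ : ℂ) + Complex.I * g' θ) ^ 2 =
      α * ((f θ : ℂ) + Complex.I * g θ) ^ 2 + β * ((f θ : ℂ) - Complex.I * g θ) ^ 2 := fun θ => by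
    obtain ⟨h1, h2⟩ := hrel θ
    apply Complex.ext <;> simp [hα, hβ, pow_two] <;> linarith
  have hG1 : ∀ k, ∀ θ : Sph 3,
      ((f' θ : ℂ) + Complex.I * g' θ) * ((rot k f' θ : ℂ) + Complex.I * rot k g' θ) =
      α * ((f θ : ℂ) + Complex.I * g θ) * ((rot k f θ : ℂ) + Complex.I * rot k g θ) +
        β * ((f θ : ℂ) - Complex.I * g θ) * ((rot k f θ : ℂ) - Complex.I * rot k g θ) := fun k θ => by
    have h1 := hA k θ
    have h2 := hB k θ
    apply Complex.ext <;> simp [hα, hβ] <;> linarith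
  have hG2 : ∀ θ : Sph 3,
      ∑ k, ((rot k f' θ : ℂ) + Complex.I * rot k g' θ) ^ 2 =
      α * ∑ k, ((rot k f θ : ℂ) + Complex.I * rot k g θ) ^ 2 +
        β * ∑ k, ((rot k f θ : ℂ) - Complex.I * rot k g θ) ^ 2 +
        ((μ : ℂ) - lam) * res p θ * ((f' θ : ℂ) + Complex.I * g' θ) ^ 2 := fun θ => by
    obtain ⟨h1, h2⟩ := hrel θ
    have u0 := hA2 0 θ
    have u1 := hA2 1 θ
    have u2 := hA2 2 θ
    have v0 := hB2 0 θ
    have v1 := hB2 1 θ
    have v2 := hB2 2 θ
    have e1 := ef θ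
    have e2 := eg θ
    have e3 := ef' θ
    have e4 := eg' θ
    simp only [cas, Fin.sum_univ_three] at e1 e2 e3 e4
    apply Complex.ext
    · simp [hα, hβ, pow_two, Fin.sum_univ_three]
      linear_combination (1 / 2 : ℝ) * (u0 + u1 + u2) - f' θ * e3 + g' θ * e4 +
        (a1 * f θ + a2 / 2 * g θ) * e1 + (-a1 * g θ + a2 / 2 * f θ) * e2 + lam * res p θ * h1
    · simp [hα, hβ, pow_two, Fin.sum_univ_three]
      linear_combination (v0 + v1 + v2) - g' θ * e3 - f' θ * e4 +
        (2 * b1 * f θ + b2 * g θ) * e1 + (-2 * b1 * g θ + b2 * f θ) * e2 + 2 * lam * res p θ * h2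
  set S := fun θ : Sph 3 => ∑ k, (g θ * rot k f θ - f θ * rot k g θ) ^ 2
  refine ⟨α, β, fun θ => ⟨hG θ, ?_⟩⟩
  show 4 * (α * β) * (S θ : ℂ) = ((μ : ℂ) - lam) * res p θ * ((f' θ : ℂ) + Complex.I * g' θ) ^ 4
  have e0 := hG1 0 θ
  have e1 := hG1 1 θ
  have e2 := hG1 2 θ
  have eX := hG2 θ
  have eG := hG θ
  simp only [Fin.sum_univ_three] at eX
  simp only [S, Fin.sum_univ_three]
  push_cast
  set G := (f' θ : ℂ) + Complex.I * g' θ
  set F := (f θ : ℂ) + Complex.I * g θ with hF
  set F' := (f θ : ℂ) - Complex.I * g θ with hF'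
  set r0 := (rot 0 f θ : ℂ) + Complex.I * rot 0 g θ with hr0
  set r1 := (rot 1 f θ : ℂ) + Complex.I * rot 1 g θ with hr1
  set r2 := (rot 2 f θ : ℂ) + Complex.I * rot 2 g θ with hr2
  set q0 := (rot 0 f θ : ℂ) - Complex.I * rot 0 g θ with hq0
  set q1 := (rot 1 f θ : ℂ) - Complex.I * rot 1 g θ with hq1
  set q2 := (rot 2 f θ : ℂ) - Complex.I * rot 2 g θ with hq2
  set s0 := (rot 0 f' θ : ℂ) + Complex.I * rot 0 g' θ
  set s1 := (rot 1 f' θ : ℂ) + Complex.I * rot 1 g' θ
  set s2 := (rot 2 f' θ : ℂ) + Complex.I * rot 2 g' θ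
  have hS : (4 : ℂ) * (((g θ : ℂ) * rot 0 f θ - f θ * rot 0 g θ) ^ 2 +
      ((g θ : ℂ) * rot 1 f θ - f θ * rot 1 g θ) ^ 2 + ((g θ : ℂ) * rot 2 f θ - f θ * rot 2 g θ) ^ 2) =
      -((F * q0 - F' * r0) ^ 2 + (F * q1 - F' * r1) ^ 2 + (F * q2 - F' * r2) ^ 2) := by
    simp only [hF, hF', hr0, hr1, hr2, hq0, hq1, hq2]
    linear_combination 4 * (((g θ : ℂ) * rot 0 f θ - f θ * rot 0 g θ) ^ 2 +
      ((g θ : ℂ) * rot 1 f θ - f θ * rot 1 g θ) ^ 2 +
      ((g θ : ℂ) * rot 2 f θ - f θ * rot 2 g θ) ^ 2) * Complex.I_mul_I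
  linear_combination (α * β) * hS + G ^ 2 * eX +
    (α * (r0 ^ 2 + r1 ^ 2 + r2 ^ 2) + β * (q0 ^ 2 + q1 ^ 2 + q2 ^ 2)) * eG -
    (G * s0 + α * F * r0 + β * F' * q0) * e0 - (G * s1 + α * F * r1 + β * F' * q1) * e1 -
    (G * s2 + α * F * r2 + β * F' * q2) * e2
/-- A vanishing Wronskian field contradicts orthonormality. -/
theorem not_wronskian_zero {p : MvPolynomial (Fin 3) ℝ} {f g : Space 3 → ℝ} (af : f ∈ Anal)
    (ag : g ∈ Anal) (h1 : pIp p f f = 1) (h2 : pIp p g g = 1) (h3 : pIp p f g = 0)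
    (hwr : ∀ k, ∀ θ : Sph 3, g θ * rot k f θ - f θ * rot k g θ = 0) : False := by
  have df := Anal.differentiable af
  have dg := Anal.differentiable ag
  obtain ⟨θ₀, hθ₀⟩ : ∃ θ : Sph 3, f θ ≠ 0 := by
    by_contra hcon
    simp only [not_exists, not_not] at hcon
    have := h1
    simp [pIp, hcon] at this
  set c := g θ₀ / f θ₀
  have hh : (fun x => -c * f x + 1 * g x) ∈ Anal := anal_comb2 af ag _ _
  have hzero : ∀ φ : Sph 3, -c * f φ + 1 * g φ = 0 := fun φ => by
    obtain ⟨b, hb, t, -, ht⟩ := exists_circ θ₀ φ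
    rw [← ht]
    refine Anal.circ_zero hh hb (t₀ := 0) ?_ t
    have hc0 : circ θ₀ b 0 = θ₀ := by simp [circ]
    have hcont : Continuous fun s => f (circ θ₀ b s) :=
      (Anal.continuous af).comp (continuous_circ _ _)
    have hne : ∀ᶠ s in 𝓝 (0 : ℝ), f (circ θ₀ b s) ≠ 0 :=
      hcont.continuousAt.eventually_ne (by rw [hc0]; exact hθ₀)
    obtain ⟨ε, hε, hball⟩ := Metric.eventually_nhds_iff_ball.1 hne
    filter_upwards [Metric.ball_mem_nhds (0 : ℝ) hε] with s hs
    have hd : ∀ r ∈ Metric.ball (0 : ℝ) ε,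
        HasDerivWithinAt (fun r => g (circ θ₀ b r) / f (circ θ₀ b r)) 0 (Metric.ball 0 ε) r := by
      intro r hr
      refine ((hasDerivAt_circ dg hb r).div (hasDerivAt_circ df hb r) (hball r hr)).hasDerivWithinAt.congr_deriv ?_
      have hk := fun k => hwr k ⟨circ θ₀ b r, by simp [norm_circ hb r]⟩
      simp only [Fin.sum_univ_three]
      rw [div_eq_zero_iff]
      left
      linear_combination -(axis θ₀ b 0) * hk 0 - axis θ₀ b 1 * hk 1 - axis θ₀ b 2 * hk 2
    have hconst := (convex_ball (0 : ℝ) ε).is_const_of_fderivWithin_eq_zero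
      (fun r hr => (hd r hr).differentiableWithinAt)
      (fun r hr => by
        rw [(hd r hr).hasFDerivWithinAt.fderivWithin (Metric.isOpen_ball.uniqueDiffWithinAt hr)]
        simp)
      hs (Metric.mem_ball_self hε)
    simp only [hc0] at hconst
    have hfs := hball s hs
    rw [div_eq_iff hfs] at hconst
    simp only [c]
    linarith
  have := coeff_eq_zero (p := p) (F := ![f, g]) (c := ![-c, 1])
    (fun i => by fin_cases i; exacts [Anal.continuous af, Anal.continuous ag])
    (fun i j => by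
      fin_cases i <;> fin_cases j <;> simp [h1, h2, h3, pIp_comm p g f])
    (fun θ => by simpa [Fin.sum_univ_two] using hzero θ) 1
  simp at this

/-- Two pairs give at least three independent products. -/
theorem rank_two_pairs {p : MvPolynomial (Fin 3) ℝ} (hp : ∀ θ : Sph 3, 0 < res p θ) {lam μ : ℝ}
    {f g f' g' : Space 3 → ℝ} (hf : f ∈ efun lam p) (hg : g ∈ efun lam p) (hf' : f' ∈ efun μ p)
    (hg' : g' ∈ efun μ p) (horth : ∀ a b : Fin 4, pIp p (![f, g, f', g'] a) (![f, g, f', g'] b) =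
      if a = b then 1 else 0) :
    ¬ ∃ a1 a2 b1 b2 : ℝ, ∀ θ : Sph 3,
      f' θ * f' θ - g' θ * g' θ = a1 * (f θ * f θ - g θ * g θ) + a2 * (f θ * g θ) ∧
      f' θ * g' θ = b1 * (f θ * f θ - g θ * g θ) + b2 * (f θ * g θ) := by
  rintro ⟨a1, a2, b1, b2, hrel⟩
  obtain ⟨af, ef⟩ := hf
  obtain ⟨ag, eg⟩ := hg
  obtain ⟨af', ef'⟩ := hf'
  obtain ⟨ag', eg'⟩ := hg'
  obtain ⟨α, β, hid⟩ := two_pairs_identity af ag af' ag' ef eg ef' eg' hrel
  have hG := fun θ => (hid θ).1
  have hkey := fun θ => (hid θ).2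
  set S := fun θ : Sph 3 => ∑ k, (g θ * rot k f θ - f θ * rot k g θ) ^ 2
  have o : ∀ a b : Fin 4, a ≠ b → pIp p (![f, g, f', g'] a) (![f, g, f', g'] b) = 0 := fun a b hab => by
    rw [horth, if_neg hab]
  have n' : pIp p f' f' = 1 := by simpa using horth 2 2
  have ofg : pIp p f g = 0 := by simpa using o 0 1 (by decide)
  have off : pIp p f f' = 0 := by simpa using o 0 2 (by decide)
  have ogf : pIp p g f' = 0 := by simpa using o 1 2 (by decide)
  by_cases hβ0 : β = 0
  · exact not_square_prop af ag af' ag' n' off ogf α fun θ => by rw [hG θ, hβ0]; ring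
  by_cases hα0 : α = 0
  · have ogn : (fun x => (-1 : ℝ) * g x) ∈ Anal := by
      have := Anal.smul_mem (-1 : ℝ) ag
      convert this using 1
      funext x; simp
    refine not_square_prop af ogn af' ag' n' off ?_ β fun θ => ?_
    · simp only [pIp] at ogf ⊢
      rw [← neg_eq_zero, ← integral_neg]
      refine Eq.trans ?_ ogf
      congr 1; funext θ; ring
    · rw [hG θ, hα0]; push_cast; ring
  have hαβ : α * β ≠ 0 := mul_ne_zero hα0 hβ0
  by_cases hδ : μ = lam
  · have hwr : ∀ k, ∀ θ : Sph 3, g θ * rot k f θ - f θ * rot k g θ = 0 := fun k θ => by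
      have h1 := hkey θ
      rw [hδ, sub_self, zero_mul, zero_mul, mul_eq_zero] at h1
      have h2 : S θ = 0 := by
        rcases h1 with h1 | h1
        · exact absurd (mul_eq_zero.1 h1) (by simp [hα0, hβ0])
        · exact_mod_cast h1
      exact pow_eq_zero_iff two_ne_zero |>.1
        ((Finset.sum_eq_zero_iff_of_nonneg fun j _ => sq_nonneg _).1 h2 k (Finset.mem_univ k))
    exact not_wronskian_zero af ag (by simpa using horth 0 0) (by simpa using horth 1 1) ofg hwr
  · obtain ⟨c, hc⟩ := IsAlgClosed.exists_pow_nat_eq (α * β)⁻¹ (n := 2) (by norm_num)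
    have hc0 : c ≠ 0 := fun h => hαβ (inv_eq_zero.1 (by rw [← hc, h]; simp))
    have hcri : c.re ≠ 0 ∨ c.im ≠ 0 := by
      by_contra hcon
      exact hc0 (Complex.ext (by simp at hcon; tauto) (by simp at hcon; tauto))
    have n11 : pIp p g' g' = 1 := by simpa using horth 3 3
    have ofg' : pIp p f' g' = 0 := by simpa using o 2 3 (by decide)
    have hre := pair_nd af' ag' n' n11 ofg' (u := c.re) (v := -(2 * c.im))
      (hcri.imp id fun h => by simp [h])
    have him := pair_nd af' ag' n' n11 ofg' (u := c.im) (v := 2 * c.re)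
      (hcri.symm.imp id fun h => by simp [h])
    obtain ⟨θ, hθ⟩ := (hre.mul (by have := Anal.continuous af'; have := Anal.continuous ag'; fun_prop)
      him).exists_ne
    apply hθ
    have hδ' : ((μ : ℂ) - lam) * res p θ ≠ 0 := by
      refine mul_ne_zero (fun h => hδ ?_) (Complex.ofReal_ne_zero.2 (hp θ).ne')
      exact_mod_cast sub_eq_zero.1 h
    have hZ : (c * ((f' θ : ℂ) + Complex.I * g' θ) ^ 2) ^ 2 =
        ((4 * S θ / ((μ - lam) * res p θ) : ℝ) : ℂ) := by
      have h1 : c ^ 2 * (α * β) = 1 := by rw [hc, inv_mul_cancel₀ hαβ]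
      push_cast
      rw [eq_div_iff hδ']
      linear_combination -c ^ 2 * hkey θ + 4 * (S θ : ℂ) * h1
    have := congrArg Complex.im hZ
    rw [Complex.ofReal_im] at this
    simp [pow_two] at this
    linarith

/-- Three of the products of two pairs are independent. -/
theorem exists_three_independent {p : MvPolynomial (Fin 3) ℝ} (hp : ∀ θ : Sph 3, 0 < res p θ)
    {lam μ : ℝ} {f g f' g' : Space 3 → ℝ} (hf : f ∈ efun lam p) (hg : g ∈ efun lam p)
    (hf' : f' ∈ efun μ p) (hg' : g' ∈ efun μ p) (horth : ∀ a b : Fin 4,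
      pIp p (![f, g, f', g'] a) (![f, g, f', g'] b) = if a = b then 1 else 0) :
    LinearIndependent ℝ ![fun θ : Sph 3 => f θ * f θ - g θ * g θ, fun θ : Sph 3 => f θ * g θ,
        fun θ : Sph 3 => f' θ * f' θ - g' θ * g' θ] ∨
      LinearIndependent ℝ ![fun θ : Sph 3 => f θ * f θ - g θ * g θ, fun θ : Sph 3 => f θ * g θ,
        fun θ : Sph 3 => f' θ * g' θ] := by
  have hp2 := rank_pair hf.1 hg.1 (by simpa using horth 0 0) (by simpa using horth 1 1)
    (by simpa using horth 0 1)
  have key : ∀ h : Sph 3 → ℝ, ¬ LinearIndependent ℝ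
      ![fun θ : Sph 3 => f θ * f θ - g θ * g θ, fun θ : Sph 3 => f θ * g θ, h] →
      ∃ u v : ℝ, ∀ θ : Sph 3, h θ = u * (f θ * f θ - g θ * g θ) + v * (f θ * g θ) := by
    intro h hdep
    obtain ⟨c, hc, i, hi⟩ := Fintype.not_linearIndependent_iff.1 hdep
    by_cases h2 : c 2 = 0
    · refine absurd ?_ hi
      have := (LinearIndependent.pair_iff.1 hp2) (c 0) (c 1) (by
        simpa [Fin.sum_univ_three, h2] using hc)
      fin_cases i
      exacts [this.1, this.2, h2]
    · refine ⟨-c 0 / c 2, -c 1 / c 2, fun θ => ?_⟩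
      have := congrFun hc θ
      simp [Fin.sum_univ_three] at this
      field_simp
      linarith
  by_contra hcon
  rw [not_or] at hcon
  obtain ⟨a1, a2, ha⟩ := key _ hcon.1
  obtain ⟨b1, b2, hb⟩ := key _ hcon.2
  exact rank_two_pairs hp hf hg hf' hg' horth ⟨a1, a2, b1, b2, fun θ => ⟨ha θ, hb θ⟩⟩

end

end Vale.Agent.P225.Disproof
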