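import Vale.Agent.P225.Disproof.EigenAxi

/-!
# P225: the labels of an axisymmetric eigenspace
-/

namespace Vale.Agent.P225.Disproof

open MvPolynomial MeasureTheory Set Filter
open scoped Topology

noncomputable section

theorem Anal.rot_zero (k : Fin 3) : rot k (0 : Space 3 → ℝ) = 0 := by
  funext x; simp [rot, pd]

/-- The symmetries of `pIp`. -/
theorem pIp_smul_left (p : MvPolynomial (Fin 3) ℝ) (c : ℝ) (F G : Space 3 → ℝ) :
    pIp p (c • F) G = c * pIp p F G := by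
  simp only [pIp, Pi.smul_apply, smul_eq_mul, ← integral_const_mul]
  congr 1; funext θ; ring

theorem pIp_smul_right (p : MvPolynomial (Fin 3) ℝ) (c : ℝ) (F G : Space 3 → ℝ) :
    pIp p F (c • G) = c * pIp p F G := by
  rw [pIp_comm, pIp_smul_left, pIp_comm]

theorem pIp_add_left (p : MvPolynomial (Fin 3) ℝ) {F G K : Space 3 → ℝ} (hF : Continuous F)
    (hG : Continuous G) (hK : Continuous K) : pIp p (F + G) K = pIp p F K + pIp p G K := by
  simp only [pIp, Pi.add_apply, mul_add, add_mul]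
  exact integral_add (integrable_pIp p hF hK) (integrable_pIp p hG hK)

theorem pIp_self_nonneg {p : MvPolynomial (Fin 3) ℝ} (hp : ∀ θ : Sph 3, 0 < res p θ)
    (F : Space 3 → ℝ) : 0 ≤ pIp p F F :=
  integral_nonneg fun θ => by
    show 0 ≤ res p θ * F θ * F θ
    rw [mul_assoc]; exact mul_nonneg (hp θ).le (mul_self_nonneg _)

/-- The members of the sector `m`. -/
def IsSec (m : ℕ) (F : Space 3 → ℝ) : Prop := rot 2 (rot 2 F) = (-(m : ℝ) ^ 2) • F

theorem IsSec.rot_eq_zero {p : MvPolynomial (Fin 3) ℝ} (hp : ∀ θ : Sph 3, 0 < res p θ)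
    (hp2 : rotP 2 p = 0) {F : Space 3 → ℝ} (hF : F ∈ Anal) (h : IsSec 0 F) : rot 2 F = 0 := by
  refine eq_zero_of_pIp hp (Anal.rot_mem hF 2) ?_
  rw [pIp_rot2 hp2 hF (Anal.rot_mem hF 2), h, pIp_smul_right]
  simp

/-- The cosine member of a label: normalised, zero rotation on the meridian. -/
structure IsCos (p : MvPolynomial (Fin 3) ℝ) (m : ℕ) (v : Space 3 → ℝ) : Prop where
  anal : v ∈ Anal
  sec : IsSec m v
  unit : pIp p v v = 1
  even : ∀ s, rot 2 v (mer s) = 0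

/-- A sector of an eigenspace holds at most one label. -/
theorem exists_cos {lam : ℝ} {p : MvPolynomial (Fin 3) ℝ} (hp : ∀ θ : Sph 3, 0 < res p θ)
    (hp2 : rotP 2 p = 0) {E : Submodule ℝ (Space 3 → ℝ)} (hE : E ≤ efun lam p)
    (hEJ : ∀ F ∈ E, rot 2 F ∈ E) {m : ℕ} {F : Space 3 → ℝ} (hF : F ∈ E) (hne : F ≠ 0)
    (hs : IsSec m F) : ∃ v ∈ E, IsCos p m v ∧
      ∀ G ∈ E, IsSec m G → ∃ a b : ℝ, G = a • v + b • rot 2 v := by
  have aF : F ∈ Anal := (hE hF).1
  have h0 : ∀ {G : Space 3 → ℝ}, G ∈ Anal → IsSec m G → (m : ℝ) = 0 → rot 2 G = 0 := by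
    intro G hG hGs hm
    obtain rfl : m = 0 := Nat.cast_eq_zero.1 hm
    exact IsSec.rot_eq_zero hp hp2 hG hGs
  have secJ : ∀ {G : Space 3 → ℝ}, G ∈ Anal → IsSec m G → IsSec m (rot 2 G) := fun {G} hG hGs => by
    show rot 2 (rot 2 (rot 2 G)) = _
    rw [hGs, Anal.rot_smul hG]
  -- a member with even profile
  obtain ⟨w, hwE, hws, hw0, hwJ⟩ : ∃ w ∈ E, IsSec m w ∧ (∃ t, w (mer t) ≠ 0) ∧
      ∀ s, rot 2 w (mer s) = 0 := by
    by_cases hJ : ∀ s, rot 2 F (mer s) = 0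
    · refine ⟨F, hF, hs, ?_, hJ⟩
      by_contra hcon
      simp only [not_exists, not_not] at hcon
      exact hne (sector_ext aF hs (h0 aF hs) hcon hJ)
    simp only [not_forall] at hJ
    obtain ⟨t, ht⟩ := hJ
    have hm0 : (m : ℝ) ≠ 0 := fun h => by rw [h0 aF hs h] at ht; exact ht rfl
    by_cases hU : ∀ s, F (mer s) = 0
    · refine ⟨rot 2 F, hEJ F hF, secJ aF hs, ⟨t, ht⟩, fun s => ?_⟩
      rw [hs, Pi.smul_apply, hU, smul_zero]
    simp only [not_forall] at hU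
    obtain ⟨r, hr⟩ := hU
    have hprop := sector_prop (hE hF) (hE (hEJ F hF)) hs (secJ aF hs)
      (fun h => absurd h hm0) (t := r) hr
    set c := rot 2 F (mer r) / F (mer r)
    set u := c / (m : ℝ) ^ 2
    refine ⟨F + u • rot 2 F, add_mem hF (E.smul_mem u (hEJ F hF)), ?_, ⟨r, ?_⟩, fun s => ?_⟩
    · show rot 2 (rot 2 (F + u • rot 2 F)) = _
      rw [Anal.rot_add aF (Anal.smul_mem u (Anal.rot_mem aF 2)), Anal.rot_smul (Anal.rot_mem aF 2),
        Anal.rot_add (Anal.rot_mem aF 2) (Anal.smul_mem u (Anal.rot_mem (Anal.rot_mem aF 2) 2)),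
        Anal.rot_smul (Anal.rot_mem (Anal.rot_mem aF 2) 2), secJ aF hs, hs]
      module
    · simp only [Pi.add_apply, Pi.smul_apply, smul_eq_mul, hprop r, u]
      rw [show F (mer r) + c / (m : ℝ) ^ 2 * (c * F (mer r)) =
        F (mer r) * (1 + c ^ 2 / (m : ℝ) ^ 2) by ring]
      exact mul_ne_zero hr (by positivity)
    · rw [Anal.rot_add aF (Anal.smul_mem u (Anal.rot_mem aF 2)), Anal.rot_smul (Anal.rot_mem aF 2), hs]
      simp only [Pi.add_apply, Pi.smul_apply, smul_eq_mul, hprop s, u]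
      field_simp
      ring
  have aw : w ∈ Anal := (hE hwE).1
  obtain ⟨t, ht⟩ := hw0
  have hpos : 0 < pIp p w w := by
    refine (pIp_self_nonneg hp w).lt_of_ne fun h => ht ?_
    rw [eq_zero_of_pIp hp aw h.symm]; rfl
  set N := (Real.sqrt (pIp p w w))⁻¹
  have hN : 0 < N := by positivity
  have av : N • w ∈ Anal := Anal.smul_mem N aw
  have hvs : IsSec m (N • w) := by
    show rot 2 (rot 2 (N • w)) = _
    rw [Anal.rot_smul aw, Anal.rot_smul (Anal.rot_mem aw 2), hws, smul_comm]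
  refine ⟨N • w, E.smul_mem N hwE, ⟨av, hvs, ?_, fun s => ?_⟩, fun G hG hGs => ?_⟩
  · rw [pIp_smul_left, pIp_smul_right, ← mul_assoc]
    simp only [N]
    rw [← mul_inv, Real.mul_self_sqrt hpos.le, inv_mul_cancel₀ hpos.ne']
  · rw [Anal.rot_smul aw, Pi.smul_apply, hwJ, smul_zero]
  have aG : G ∈ Anal := (hE hG).1
  have htv : (N • w) (mer t) ≠ 0 := mul_ne_zero hN.ne' ht
  have hvE : N • w ∈ E := E.smul_mem N hwE
  have hP1 := sector_prop (hE hvE) (hE hG) hvs hGs (fun h => ⟨h0 av hvs h, h0 aG hGs h⟩) htv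
  have hP2 := sector_prop (hE hvE) (hE (hEJ G hG)) hvs (secJ aG hGs)
    (fun h => ⟨h0 av hvs h, h0 (Anal.rot_mem aG 2) (secJ aG hGs) h⟩) htv
  set v := N • w with hv
  set a := G (mer t) / v (mer t)
  set b := -(rot 2 G (mer t) / v (mer t)) / (m : ℝ) ^ 2
  refine ⟨a, b, sub_eq_zero.1 ?_⟩
  have hJv : ∀ s, rot 2 v (mer s) = 0 := fun s => by
    rw [hv, Anal.rot_smul aw, Pi.smul_apply, hwJ, smul_zero]
  have aK : a • v + b • rot 2 v ∈ Anal := add_mem (Anal.smul_mem a av) (Anal.smul_mem b (Anal.rot_mem av 2))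
  have hKs : IsSec m (a • v + b • rot 2 v) := by
    show rot 2 (rot 2 (a • v + b • rot 2 v)) = _
    rw [Anal.rot_add (Anal.smul_mem a av) (Anal.smul_mem b (Anal.rot_mem av 2)), Anal.rot_smul av,
      Anal.rot_smul (Anal.rot_mem av 2),
      Anal.rot_add (Anal.smul_mem a (Anal.rot_mem av 2))
        (Anal.smul_mem b (Anal.rot_mem (Anal.rot_mem av 2) 2)),
      Anal.rot_smul (Anal.rot_mem av 2), Anal.rot_smul (Anal.rot_mem (Anal.rot_mem av 2) 2),
      secJ av hvs, hvs]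
    module
  have hJK : rot 2 (a • v + b • rot 2 v) = a • rot 2 v + b • ((-(m : ℝ) ^ 2) • v) := by
    rw [Anal.rot_add (Anal.smul_mem a av) (Anal.smul_mem b (Anal.rot_mem av 2)), Anal.rot_smul av,
      Anal.rot_smul (Anal.rot_mem av 2), hvs]
  have hsub : G - (a • v + b • rot 2 v) = G + (-1 : ℝ) • (a • v + b • rot 2 v) := by module
  rw [hsub]
  have aD := add_mem aG (Anal.smul_mem (-1 : ℝ) aK)
  have hDs : IsSec m (G + (-1 : ℝ) • (a • v + b • rot 2 v)) := by
    show rot 2 (rot 2 (G + (-1 : ℝ) • (a • v + b • rot 2 v))) = _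
    rw [Anal.rot_add aG (Anal.smul_mem _ aK), Anal.rot_smul aK,
      Anal.rot_add (Anal.rot_mem aG 2) (Anal.smul_mem _ (Anal.rot_mem aK 2)),
      Anal.rot_smul (Anal.rot_mem aK 2), hGs, hKs]
    module
  refine sector_ext aD hDs (fun h => h0 aD hDs h) (fun s => ?_) fun s => ?_
  · simp only [Pi.add_apply, Pi.smul_apply, smul_eq_mul, hP1 s, hJv s, a]
    ring
  · rw [Anal.rot_add aG (Anal.smul_mem _ aK), Anal.rot_smul aK, hJK]
    simp only [Pi.add_apply, Pi.smul_apply, smul_eq_mul, hJv s]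
    rcases eq_or_ne (m : ℝ) 0 with hm | hm
    · rw [h0 aG hGs hm, hm]
      simp
    · rw [hP2 s]
      simp only [b]
      field_simp
      ring

/-- The sine member of a label. -/
def sinOf (m : ℕ) (v : Space 3 → ℝ) : Space 3 → ℝ := (-(m : ℝ)⁻¹) • rot 2 v

theorem IsCos.rot_v {p : MvPolynomial (Fin 3) ℝ} (hp : ∀ θ : Sph 3, 0 < res p θ)
    (hp2 : rotP 2 p = 0) {m : ℕ} {v : Space 3 → ℝ} (h : IsCos p m v) :
    rot 2 v = (-(m : ℝ)) • sinOf m v := by
  rcases eq_or_ne m 0 with rfl | hm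
  · rw [IsSec.rot_eq_zero hp hp2 h.anal h.sec]; simp
  · rw [sinOf, smul_smul, neg_mul_neg, mul_inv_cancel₀ (Nat.cast_ne_zero.2 hm), one_smul]

theorem IsCos.rot_w {p : MvPolynomial (Fin 3) ℝ} {m : ℕ} {v : Space 3 → ℝ} (h : IsCos p m v) :
    rot 2 (sinOf m v) = (m : ℝ) • v := by
  rw [sinOf, Anal.rot_smul (Anal.rot_mem h.anal 2), h.sec, smul_smul]
  rcases eq_or_ne m 0 with rfl | hm
  · simp
  · congr 1
    field_simp

/-- The labels of an axisymmetric eigenspace. -/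
theorem axi_decomp {lam : ℝ} {p : MvPolynomial (Fin 3) ℝ} (hp : ∀ θ : Sph 3, 0 < res p θ)
    (hp2 : rotP 2 p = 0) (E : Submodule ℝ (Space 3 → ℝ)) [FiniteDimensional ℝ E]
    (hE : E ≤ efun lam p) (hEJ : ∀ F ∈ E, rot 2 F ∈ E) :
    ∃ (S : Finset ℕ) (v w : ℕ → Space 3 → ℝ),
      (∀ m ∈ S, v m ∈ E ∧ w m ∈ E ∧ IsCos p m (v m) ∧ w m = sinOf m (v m) ∧
        rot 2 (v m) = (-(m : ℝ)) • w m ∧ rot 2 (w m) = (m : ℝ) • v m ∧
        pIp p (v m) (w m) = 0 ∧ (m ≠ 0 → pIp p (w m) (w m) = 1) ∧ (m = 0 → w m = 0)) ∧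
      (∀ m ∈ S, ∀ k ∈ S, m ≠ k → pIp p (v m) (v k) = 0 ∧ pIp p (v m) (w k) = 0 ∧
        pIp p (w m) (v k) = 0 ∧ pIp p (w m) (w k) = 0) ∧
      E = Submodule.span ℝ (v '' S ∪ w '' S) := by
  classical
  have hA : ∀ F : E, (F : Space 3 → ℝ) ∈ Anal := fun F => (hE F.2).1
  have hC : ∀ F : E, Continuous (F : Space 3 → ℝ) := fun F => Anal.continuous (hA F)
  let core : InnerProductSpace.Core ℝ E :=
    { inner := fun F G => pIp p F G
      conj_inner_symm := fun F G => by simp [pIp_comm p (F : Space 3 → ℝ)]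
      re_inner_nonneg := fun F => pIp_self_nonneg hp _
      add_left := fun F G K => pIp_add_left p (hC F) (hC G) (hC K)
      smul_left := fun F G r => by simpa using pIp_smul_left p r (F : Space 3 → ℝ) G
      definite := fun F h => Subtype.ext (eq_zero_of_pIp hp (hA F) h) }
  let : NormedAddCommGroup E := @InnerProductSpace.Core.toNormedAddCommGroup ℝ E _ _ _ core
  let : InnerProductSpace ℝ E := InnerProductSpace.ofCore core.toCore
  let T : E →ₗ[ℝ] E :=
    { toFun := fun F => ⟨-1 • rot 2 (rot 2 (F : Space 3 → ℝ)),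
        E.smul_of_tower_mem (-1 : ℤ) (hEJ _ (hEJ _ F.2))⟩
      map_add' := fun F G => Subtype.ext (by
        simp only [Submodule.coe_add, Anal.rot_add (hA F) (hA G),
          Anal.rot_add (Anal.rot_mem (hA F) 2) (Anal.rot_mem (hA G) 2), smul_add])
      map_smul' := fun r F => Subtype.ext (by
        simp only [Submodule.coe_smul, RingHom.id_apply, Anal.rot_smul (hA F),
          Anal.rot_smul (Anal.rot_mem (hA F) 2)]
        exact (smul_comm _ _ _).symm) }
  have hTapply : ∀ F : E, (T F : Space 3 → ℝ) = (-1 : ℝ) • rot 2 (rot 2 (F : Space 3 → ℝ)) := fun F => by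
    show (-1 : ℤ) • rot 2 (rot 2 (F : Space 3 → ℝ)) = _
    module
  have hT : T.IsSymmetric := fun F G => by
    show pIp p (T F : Space 3 → ℝ) G = pIp p F (T G : Space 3 → ℝ)
    rw [hTapply, hTapply, pIp_smul_left, pIp_smul_right,
      pIp_rot2 hp2 (Anal.rot_mem (hA F) 2) (hA G), pIp_rot2 hp2 (hA F) (Anal.rot_mem (hA G) 2)]
    ring
  set n := Module.finrank ℝ E
  set e := hT.eigenvectorBasis (n := n) rfl
  have heig : ∀ i, rot 2 (rot 2 (e i : Space 3 → ℝ)) =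
      (-(hT.eigenvalues (n := n) rfl i)) • (e i : Space 3 → ℝ) := fun i => by
    have h := congrArg (fun z : E => (z : Space 3 → ℝ)) (hT.apply_eigenvectorBasis (n := n) rfl i)
    simp only [hTapply] at h
    rw [show rot 2 (rot 2 (e i : Space 3 → ℝ)) = (-1 : ℝ) • ((-1 : ℝ) • rot 2 (rot 2 (e i : Space 3 → ℝ))) by
      module]
    rw [show (-1 : ℝ) • rot 2 (rot 2 (e i : Space 3 → ℝ)) =
      ((hT.eigenvalues (n := n) rfl i) • (e i : Space 3 → ℝ)) from h]
    module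
  have hene : ∀ i, (e i : Space 3 → ℝ) ≠ 0 := fun i h => e.orthonormal.ne_zero i (Subtype.ext h)
  have hnn : ∀ i, 0 ≤ hT.eigenvalues (n := n) rfl i := fun i => by
    have h1 := pIp_rot2 hp2 (Anal.rot_mem (hA (e i)) 2) (hA (e i))
    rw [heig, pIp_smul_left] at h1
    have h2 : 0 < pIp p (e i : Space 3 → ℝ) (e i) := (pIp_self_nonneg hp _).lt_of_ne fun h =>
      hene i (eq_zero_of_pIp hp (hA (e i)) h.symm)
    nlinarith [pIp_self_nonneg hp (rot 2 (e i : Space 3 → ℝ))]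
  choose lab hlab using fun i => exists_label (hA (e i)) (hene i) (hnn i) (heig i)
  have hsec : ∀ i, IsSec (lab i) (e i : Space 3 → ℝ) := fun i => by
    show _ = _
    rw [heig, hlab]
  set S := Finset.univ.image lab
  have hcos : ∀ m : ℕ, ∃ v, m ∈ S → v ∈ E ∧ IsCos p m v ∧
      ∀ G ∈ E, IsSec m G → ∃ a b : ℝ, G = a • v + b • rot 2 v := fun m => by
    by_cases hm : m ∈ S
    · obtain ⟨i, -, rfl⟩ := Finset.mem_image.1 hm
      obtain ⟨v, h1, h2, h3⟩ := exists_cos hp hp2 hE hEJ (e i).2 (hene i) (hsec i)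
      exact ⟨v, fun _ => ⟨h1, h2, h3⟩⟩
    · exact ⟨0, fun h => absurd h hm⟩
  choose v hv using hcos
  refine ⟨S, v, fun m => sinOf m (v m), fun m hm => ?_, fun m hm k hk hmk => ?_, ?_⟩
  · obtain ⟨h1, h2, -⟩ := hv m hm
    have hw : sinOf m (v m) ∈ E := E.smul_mem _ (hEJ _ h1)
    refine ⟨h1, hw, h2, rfl, IsCos.rot_v hp hp2 h2, IsCos.rot_w h2, ?_, fun hm0 => ?_, fun hm0 => ?_⟩
    · have := pIp_rot2 hp2 h2.anal h2.anal
      show pIp p (v m) (sinOf m (v m)) = 0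
      rw [sinOf, pIp_smul_right, pIp_comm p (v m) (rot 2 (v m))]
      rw [pIp_comm p (v m) (rot 2 (v m))] at this
      rw [show pIp p (rot 2 (v m)) (v m) = 0 by linarith, mul_zero]
    · show pIp p (sinOf m (v m)) (sinOf m (v m)) = 1
      rw [sinOf, pIp_smul_left, pIp_smul_right, pIp_rot2 hp2 h2.anal (Anal.rot_mem h2.anal 2), h2.sec,
        pIp_smul_right, h2.unit]
      field_simp
    · subst hm0
      simp [sinOf]
  · obtain ⟨-, h2, -⟩ := hv m hm
    obtain ⟨-, g2, -⟩ := hv k hk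
    have key : ∀ {F G : Space 3 → ℝ}, F ∈ Anal → G ∈ Anal → IsSec m F → IsSec k G → pIp p F G = 0 := by
      intro F G hF hG hFs hGs
      have e1 : pIp p (rot 2 (rot 2 F)) G = pIp p F (rot 2 (rot 2 G)) := by
        rw [pIp_rot2 hp2 (Anal.rot_mem hF 2) hG, pIp_rot2 hp2 hF (Anal.rot_mem hG 2), neg_neg]
      rw [hFs, hGs, pIp_smul_left, pIp_smul_right] at e1
      have h3 : ((k : ℝ) ^ 2 - (m : ℝ) ^ 2) * pIp p F G = 0 := by linarith
      refine (mul_eq_zero.1 h3).resolve_left fun h => hmk ?_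
      have h4 : ((k : ℝ)) = m := (pow_left_inj₀ (Nat.cast_nonneg k) (Nat.cast_nonneg m) two_ne_zero).1 (by linarith)
      exact (Nat.cast_injective h4).symm
    have secw : ∀ {j : ℕ} {u : Space 3 → ℝ}, IsCos p j u → IsSec j (sinOf j u) := fun {j u} hu => by
      show rot 2 (rot 2 (sinOf j u)) = _
      rw [sinOf, Anal.rot_smul (Anal.rot_mem hu.anal 2),
        Anal.rot_smul (Anal.rot_mem (Anal.rot_mem hu.anal 2) 2), hu.sec, Anal.rot_smul hu.anal]
      module
    have aw : ∀ {j : ℕ} {u : Space 3 → ℝ}, IsCos p j u → sinOf j u ∈ Anal := fun hu =>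
      Anal.smul_mem _ (Anal.rot_mem hu.anal 2)
    exact ⟨key h2.anal g2.anal h2.sec g2.sec, key h2.anal (aw g2) h2.sec (secw g2),
      key (aw h2) g2.anal (secw h2) g2.sec, key (aw h2) (aw g2) (secw h2) (secw g2)⟩
  · refine le_antisymm (fun F hF => ?_) (Submodule.span_le.2 ?_)
    · have h1 := congrArg (fun z : E => (z : Space 3 → ℝ)) (e.sum_repr ⟨F, hF⟩)
      simp only [Submodule.coe_sum, Submodule.coe_smul] at h1
      rw [← h1]
      refine Submodule.sum_mem _ fun i _ => Submodule.smul_mem _ _ ?_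
      have hi : lab i ∈ S := Finset.mem_image_of_mem _ (Finset.mem_univ i)
      obtain ⟨-, hcv, hspan⟩ := hv (lab i) hi
      obtain ⟨a, b, hab⟩ := hspan _ (e i).2 (hsec i)
      rw [hab, IsCos.rot_v hp hp2 hcv, smul_smul]
      exact add_mem (Submodule.smul_mem _ _ (Submodule.subset_span (Or.inl ⟨_, hi, rfl⟩)))
        (Submodule.smul_mem _ _ (Submodule.subset_span (Or.inr ⟨_, hi, rfl⟩)))
    · rintro _ (⟨m, hm, rfl⟩ | ⟨m, hm, rfl⟩)
      · exact (hv m hm).1
      · exact E.smul_mem _ (hEJ _ (hv m hm).1)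

end

end Vale.Agent.P225.Disproof
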