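import Vale.Agent.P225.Disproof.EigenSup
import Mathlib.Analysis.Calculus.SmoothSeries
import Mathlib.Analysis.Calculus.Taylor

/-!
# P225: eigenfunctions as series of harmonic polynomials

A weak eigenfunction of `-Δ u = lam p u` on the sphere, `p` a polynomial, has super-exponentially
decaying levels, because the equation is banded. Its series is smooth on space and analytic on
every great circle; so a finite product of nonzero eigenfunctions is nonzero.
-/

namespace Vale.Agent.P225.Disproof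

open MvPolynomial MeasureTheory Set Filter
open scoped Topology

noncomputable section

/-- A sequence of levels with super-exponential decay. -/
structure Super (g : ℕ → MvPolynomial (Fin 3) ℝ) : Prop where
  hom : ∀ l, (g l).IsHomogeneous l
  harm : ∀ l, lapP (g l) = 0
  decay : ∀ R : ℝ, 1 ≤ R → ∃ C : ℝ, ∀ l, sphIp (g l) (g l) * R ^ l ≤ C

/-- The sum of a series of levels. -/
def Fn (g : ℕ → MvPolynomial (Fin 3) ℝ) (x : Space 3) : ℝ := ∑' l, evalFun (g l) x

/-- The sum of the squares of the rotation fields. -/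
def cas (F : Space 3 → ℝ) (x : Space 3) : ℝ := ∑ k, rot k (rot k F) x

theorem sphIp_self_nonneg (q : MvPolynomial (Fin 3) ℝ) : 0 ≤ sphIp q q :=
  integral_nonneg fun _ => mul_self_nonneg _

theorem succ_pow_le (l m : ℕ) : ((l : ℝ) + 1) ^ m ≤ (2 ^ m) ^ l := by
  rw [← pow_mul, mul_comm, pow_mul]
  refine pow_le_pow_left₀ (by positivity) ?_ m
  have h : l + 1 ≤ 2 ^ l := Nat.lt_two_pow_self
  exact_mod_cast h

/-- A level on a ball of radius `R`. -/
theorem abs_evalFun_le {l : ℕ} {q : MvPolynomial (Fin 3) ℝ} (hq : q.IsHomogeneous l)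
    (hql : lapP q = 0) {R : ℝ} (hR : 0 < R) {x : Space 3} (hx : ‖x‖ ≤ R) :
    |evalFun q x| ≤ R ^ l * Real.sqrt (supConst * (l + 1 : ℝ) ^ 3 * sphIp q q) := by
  by_cases h0 : x = 0
  · rcases Nat.eq_zero_or_pos l with hl | hl
    · subst hl
      let θ : Sph 3 := ⟨EuclideanSpace.single 0 1, by simp⟩
      have e : evalFun q x = res q θ := by
        have h1 := evalFun_smul_point hq 0 (θ : Space 3)
        rw [pow_zero, one_mul, zero_smul] at h1
        rw [h0]; exact h1
      rw [e, pow_zero, one_mul]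
      exact Real.abs_le_sqrt (res_sq_le hq hql θ)
    · have h1 := evalFun_smul_point hq 0 x
      rw [zero_pow (by omega), zero_mul, zero_smul] at h1
      rw [h0, h1, abs_zero]
      positivity
  · set θ : Sph 3 := ⟨‖x‖⁻¹ • x, by simp [norm_smul, h0]⟩
    have e : evalFun q x = ‖x‖ ^ l * res q θ := by
      have h1 := evalFun_smul_point hq ‖x‖ (θ : Space 3)
      rw [show ‖x‖ • (θ : Space 3) = x by
        simp [θ, smul_smul, mul_inv_cancel₀ (norm_ne_zero_iff.2 h0)]] at h1
      exact h1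
    rw [e, abs_mul, abs_pow, abs_norm]
    exact mul_le_mul (pow_le_pow_left₀ (norm_nonneg _) hx l)
      (Real.abs_le_sqrt (res_sq_le hq hql θ)) (abs_nonneg _) (pow_nonneg hR.le l)

namespace Super

variable {g g' : ℕ → MvPolynomial (Fin 3) ℝ}

theorem nonneg_const {C : ℝ} {R : ℝ} (hR : 0 ≤ R)
    (h : ∀ l, sphIp (g l) (g l) * R ^ l ≤ C) : 0 ≤ C :=
  (mul_nonneg (sphIp_self_nonneg _) (pow_nonneg hR 0)).trans (h 0)

/-- Absorbing polynomial and exponential factors. -/
theorem decay' (hg : Super g) (m : ℕ) {R : ℝ} (hR : 1 ≤ R) :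
    ∃ C : ℝ, ∀ l, sphIp (g l) (g l) * ((l : ℝ) + 1) ^ m * R ^ l ≤ C := by
  obtain ⟨C, hC⟩ := hg.decay (2 ^ m * R) (one_le_mul_of_one_le_of_one_le (one_le_pow₀ one_le_two) hR)
  refine ⟨C, fun l => le_trans ?_ (hC l)⟩
  rw [mul_assoc, mul_pow]
  exact mul_le_mul_of_nonneg_left (mul_le_mul_of_nonneg_right (succ_pow_le l m) (by positivity))
    (sphIp_self_nonneg _)

/-- The majorant of the series on a ball. -/
theorem bound (hg : Super g) {R : ℝ} (hR : 1 ≤ R) :
    ∃ C : ℝ, 0 ≤ C ∧ ∀ l, ∀ x : Space 3, ‖x‖ ≤ R → |evalFun (g l) x| ≤ C * (1 / 2 : ℝ) ^ l := by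
  obtain ⟨C, hC⟩ := hg.decay' 3 (R := 4 * R ^ 2) (by nlinarith)
  have hC0 : 0 ≤ C := le_trans (mul_nonneg (mul_nonneg (sphIp_self_nonneg _) (by positivity))
    (by positivity)) (hC 0)
  refine ⟨Real.sqrt (supConst * C), Real.sqrt_nonneg _, fun l x hx => ?_⟩
  refine (abs_evalFun_le (hg.hom l) (hg.harm l) (by linarith) hx).trans ?_
  have h1 : (R ^ l) ^ 2 * (supConst * ((l : ℝ) + 1) ^ 3 * sphIp (g l) (g l)) ≤
      ((1 / 2 : ℝ) ^ l) ^ 2 * (supConst * C) := by
    have h2 := mul_le_mul_of_nonneg_left (hC l)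
      (mul_nonneg (sq_nonneg ((1 / 2 : ℝ) ^ l)) supConst_pos.le)
    have e : ((1 / 2 : ℝ) ^ l) ^ 2 * (4 * R ^ 2) ^ l = (R ^ l) ^ 2 := by
      rw [← pow_mul, ← pow_mul, mul_comm l 2, pow_mul, pow_mul, ← mul_pow]
      congr 1; ring
    calc (R ^ l) ^ 2 * (supConst * ((l : ℝ) + 1) ^ 3 * sphIp (g l) (g l))
        = ((1 / 2 : ℝ) ^ l) ^ 2 * supConst *
            (sphIp (g l) (g l) * ((l : ℝ) + 1) ^ 3 * (4 * R ^ 2) ^ l) := by rw [← e]; ring
      _ ≤ ((1 / 2 : ℝ) ^ l) ^ 2 * supConst * C := h2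
      _ = _ := by ring
  have h3 := Real.sqrt_le_sqrt h1
  rw [Real.sqrt_mul (sq_nonneg _), Real.sqrt_sq (by positivity), Real.sqrt_mul (sq_nonneg _),
    Real.sqrt_sq (by positivity)] at h3
  rw [mul_comm (Real.sqrt (supConst * C))]
  exact h3

theorem summable (hg : Super g) (x : Space 3) : Summable fun l => evalFun (g l) x := by
  obtain ⟨C, -, hC⟩ := hg.bound (le_max_right ‖x‖ 1)
  exact Summable.of_norm_bounded (summable_geometric_two.mul_left C)
    fun l => hC l x (le_max_left _ _)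

theorem hasSum (hg : Super g) (x : Space 3) : HasSum (fun l => evalFun (g l) x) (Fn g x) :=
  (hg.summable x).hasSum

theorem smul (hg : Super g) (f : ℕ → ℝ) {m : ℕ} (hf : ∃ K, ∀ l, f l ^ 2 ≤ K * ((l : ℝ) + 1) ^ m) :
    Super fun l => f l • g l := by
  refine ⟨fun l => by rw [smul_eq_C_mul]; exact (hg.hom l).C_mul _,
    fun l => by rw [lapP_smul, hg.harm, smul_zero], fun R hR => ?_⟩
  obtain ⟨K, hK⟩ := hf
  obtain ⟨C, hC⟩ := hg.decay' m hR
  have hK0 : 0 ≤ K := by have := hK 0; simp at this; nlinarith [sq_nonneg (f 0)]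
  refine ⟨K * C, fun l => ?_⟩
  rw [sphIp_smul, sphIp_comm, sphIp_smul]
  calc f l * (f l * sphIp (g l) (g l)) * R ^ l = f l ^ 2 * (sphIp (g l) (g l) * R ^ l) := by ring
    _ ≤ K * ((l : ℝ) + 1) ^ m * (sphIp (g l) (g l) * R ^ l) :=
        mul_le_mul_of_nonneg_right (hK l) (mul_nonneg (sphIp_self_nonneg _) (by positivity))
    _ = K * (sphIp (g l) (g l) * ((l : ℝ) + 1) ^ m * R ^ l) := by ring
    _ ≤ K * C := mul_le_mul_of_nonneg_left (hC l) hK0

theorem const_smul (hg : Super g) (c : ℝ) : Super fun l => c • g l :=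
  hg.smul (fun _ => c) (m := 0) ⟨c ^ 2, fun l => by simp⟩

theorem sphIp_add_self_le (p q : MvPolynomial (Fin 3) ℝ) :
    sphIp (p + q) (p + q) ≤ 2 * sphIp p p + 2 * sphIp q q := by
  have e1 : sphIp (p + q) (p + q) = sphIp p p + 2 * sphIp p q + sphIp q q := by
    rw [sphIp_add, sphIp_comm p (p + q), sphIp_comm q (p + q), sphIp_add, sphIp_add, sphIp_comm q p]
    ring
  have h := sphIp_self_nonneg (p + (-1 : ℝ) • q)
  rw [sphIp_add, sphIp_comm p, sphIp_comm _ (p + _), sphIp_add, sphIp_add, sphIp_smul, sphIp_smul,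
    sphIp_comm p ((-1 : ℝ) • q), sphIp_comm q ((-1 : ℝ) • q), sphIp_smul, sphIp_smul,
    sphIp_comm q p] at h
  linarith

theorem add (hg : Super g) (hg' : Super g') : Super fun l => g l + g' l := by
  refine ⟨fun l => (hg.hom l).add (hg'.hom l),
    fun l => by rw [lapP_add, hg.harm, hg'.harm, add_zero], fun R hR => ?_⟩
  obtain ⟨C, hC⟩ := hg.decay R hR
  obtain ⟨C', hC'⟩ := hg'.decay R hR
  refine ⟨2 * C + 2 * C', fun l => ?_⟩
  have := mul_le_mul_of_nonneg_right (sphIp_add_self_le (g l) (g' l)) (by positivity : (0:ℝ) ≤ R ^ l)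
  linarith [hC l, hC' l]

theorem rotStep (hg : Super g) (k : Fin 3) : Super fun l => rotP k (g l) := by
  refine ⟨fun l => rotP_hom k (hg.hom l), fun l => by rw [lapP_rotP, hg.harm, map_zero],
    fun R hR => ?_⟩
  obtain ⟨C, hC⟩ := hg.decay' 2 hR
  refine ⟨C, fun l => le_trans (mul_le_mul_of_nonneg_right ?_ (by positivity)) (hC l)⟩
  have h1 : sphIp (∑ j, rotP j (rotP j (g l))) (g l) = -((l : ℝ) * (l + 1)) * sphIp (g l) (g l) := by
    rw [casimir (hg.hom l) (hg.harm l), neg_mul, ← MvPolynomial.smul_eq_C_mul, ← neg_smul, sphIp_smul]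
  rw [sphIp_comm, sphIp_sum] at h1
  have h2 : ∀ j, sphIp (g l) (rotP j (rotP j (g l))) = -sphIp (rotP j (g l)) (rotP j (g l)) :=
    fun j => by rw [sphIp_rotP]; ring
  simp only [h2, Finset.sum_neg_distrib] at h1
  have h3 := Finset.single_le_sum (f := fun j => sphIp (rotP j (g l)) (rotP j (g l)))
    (fun j _ => sphIp_self_nonneg _) (Finset.mem_univ k)
  nlinarith [mul_nonneg (by positivity : (0:ℝ) ≤ l + 1) (sphIp_self_nonneg (g l))]

theorem pdStep (hg : Super g) (i : Fin 3) : Super fun l => pderiv i (g (l + 1)) := by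
  refine ⟨fun l => ?_, fun l => ?_, fun R hR => ?_⟩
  · have := (hg.hom (l + 1)).pderiv (i := i)
    rwa [Nat.add_sub_cancel] at this
  · have e : lapP (pderiv i (g (l + 1))) = pderiv i (lapP (g (l + 1))) := by
      simp only [lapP, map_sum]
      exact Finset.sum_congr rfl fun j _ => by
        rw [pderiv_comm' j i, pderiv_comm' j i]
    rw [e, hg.harm, map_zero]
  · obtain ⟨C, hC⟩ := hg.decay' 2 hR
    refine ⟨2 * C * 4, fun l => ?_⟩
    have h1 := sphIp_pderiv_le (hg.hom (l + 1)) (hg.harm (l + 1)) i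
    have h2 := mul_le_mul_of_nonneg_right h1 (by positivity : (0:ℝ) ≤ R ^ l)
    have h3 := hC (l + 1)
    push_cast at h2 h3
    have h4 : sphIp (g (l + 1)) (g (l + 1)) * ((l : ℝ) + 1 + 1) ^ 2 * R ^ l ≤ C := by
      refine le_trans (mul_le_mul_of_nonneg_left ?_ (mul_nonneg (sphIp_self_nonneg _) (by positivity))) h3
      exact pow_le_pow_right₀ hR (Nat.le_succ l)
    have h5 : 0 ≤ sphIp (g (l + 1)) (g (l + 1)) * ((l : ℝ) + 1 + 1) ^ 2 * R ^ l :=
      mul_nonneg (mul_nonneg (sphIp_self_nonneg _) (by positivity)) (by positivity)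
    nlinarith

end Super

variable {g g' : ℕ → MvPolynomial (Fin 3) ℝ}

theorem evalFun_add' (p q : MvPolynomial (Fin 3) ℝ) (x : Space 3) :
    evalFun (p + q) x = evalFun p x + evalFun q x := by simp [evalFun]

theorem Fn_add (hg : Super g) (hg' : Super g') :
    Fn (fun l => g l + g' l) = Fn g + Fn g' := by
  funext x
  simp only [Fn, evalFun_add', Pi.add_apply]
  exact (hg.summable x).tsum_add (hg'.summable x)

theorem Fn_smul (_hg : Super g) (c : ℝ) : Fn (fun l => c • g l) = c • Fn g := by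
  funext x
  simp only [Fn, evalFun, smul_eval, Pi.smul_apply, smul_eq_mul]
  exact tsum_mul_left

theorem hasFDerivAt_Fn (hg : Super g) (x : Space 3) :
    HasFDerivAt (Fn g) (∑ i, Fn (fun l => pderiv i (g (l + 1))) x •
      (EuclideanSpace.proj i : Space 3 →L[ℝ] ℝ)) x := by
  set R := max (‖x‖ + 1) 1
  have hb := fun i => (hg.pdStep i).bound (le_max_right (‖x‖ + 1) 1)
  choose C hC0 hC using hb
  set f' := fun (l : ℕ) (y : Space 3) =>
    ∑ i, evalFun (pderiv i (g l)) y • (EuclideanSpace.proj i : Space 3 →L[ℝ] ℝ)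
  set u := fun l : ℕ => (∑ i, C i * ‖(EuclideanSpace.proj i : Space 3 →L[ℝ] ℝ)‖) *
    (2 * (1 / 2 : ℝ) ^ l)
  have hu : Summable u := ((summable_geometric_two.mul_left 2).mul_left _)
  have hxR : x ∈ Metric.ball (0 : Space 3) R := by
    rw [Metric.mem_ball, dist_zero_right]
    linarith [le_max_left (‖x‖ + 1) 1]
  have hzero : ∀ i, pderiv i (g 0) = 0 := fun i => by
    rw [totalDegree_eq_zero_iff_eq_C.1 ((totalDegree_zero_iff_isHomogeneous _).2 (hg.hom 0)),
      pderiv_C]
  have h := hasFDerivAt_tsum_of_isPreconnected (f := fun l => evalFun (g l)) (f' := f') hu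
    Metric.isOpen_ball (convex_ball (0 : Space 3) R).isPreconnected
    (fun l y _ => hasFDerivAt_evalFun (g l) y) (fun l y hy => ?_) hxR (hg.summable x) hxR
  · have hs : HasSum (fun l => f' l x) (∑ i, Fn (fun l => pderiv i (g (l + 1))) x •
        (EuclideanSpace.proj i : Space 3 →L[ℝ] ℝ)) := by
      refine hasSum_sum fun i _ => ?_
      refine HasSum.smul_const ?_ _
      have h1 := ((hg.pdStep i).hasSum x)
      rw [hasSum_nat_add_iff (f := fun l => evalFun (pderiv i (g l)) x) 1] at h1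
      simpa [hzero, evalFun] using h1
    rw [← hs.tsum_eq]
    exact h
  · refine (norm_sum_le _ _).trans ?_
    simp only [u, Finset.sum_mul]
    refine Finset.sum_le_sum fun i _ => ?_
    rw [norm_smul, Real.norm_eq_abs]
    rcases l with _ | l
    · rw [hzero, show |evalFun (0 : MvPolynomial (Fin 3) ℝ) y| = 0 by simp [evalFun], zero_mul]
      exact mul_nonneg (mul_nonneg (hC0 i) (norm_nonneg _)) (by positivity)
    · refine (mul_le_mul_of_nonneg_right (hC i l y (by
        rw [Metric.mem_ball, dist_zero_right] at hy; exact hy.le)) (norm_nonneg _)).trans (le_of_eq ?_)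
      rw [pow_succ]
      ring

theorem differentiable_Fn (hg : Super g) : Differentiable ℝ (Fn g) := fun x =>
  (hasFDerivAt_Fn hg x).differentiableAt

theorem pd_Fn (hg : Super g) (i : Fin 3) :
    pd i (Fn g) = Fn fun l => pderiv i (g (l + 1)) := by
  funext x
  rw [pd, (hasFDerivAt_Fn hg x).fderiv]
  simp [Fin.sum_univ_three, PiLp.single_apply]
  fin_cases i <;> simp

theorem contDiff_Fn_nat : ∀ (k : ℕ) {g : ℕ → MvPolynomial (Fin 3) ℝ}, Super g →
    ContDiff ℝ k (Fn g)
  | 0, _, hg => contDiff_zero.2 (differentiable_Fn hg).continuous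
  | k + 1, g, hg => by
    have e : fderiv ℝ (Fn g) = fun x => ∑ i, Fn (fun l => pderiv i (g (l + 1))) x •
        (EuclideanSpace.proj i : Space 3 →L[ℝ] ℝ) := funext fun x => (hasFDerivAt_Fn hg x).fderiv
    rw [show ((k + 1 : ℕ) : WithTop ℕ∞) = (k : WithTop ℕ∞) + 1 by norm_num]
    refine contDiff_succ_iff_fderiv.2 ⟨differentiable_Fn hg, fun h => absurd h (by simp), ?_⟩
    rw [e]
    exact ContDiff.sum fun i _ => (contDiff_Fn_nat k (hg.pdStep i)).smul contDiff_const

theorem contDiff_Fn (hg : Super g) : ContDiff ℝ (⊤ : ℕ∞) (Fn g) :=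
  contDiff_infty.2 fun k => contDiff_Fn_nat k hg

theorem rot_Fn (hg : Super g) (k : Fin 3) : rot k (Fn g) = Fn fun l => rotP k (g l) := by
  funext x
  have hs : ∀ i, HasSum (fun l => evalFun (pderiv i (g l)) x) (pd i (Fn g) x) := fun i => by
    have h1 := (hg.pdStep i).hasSum x
    rw [hasSum_nat_add_iff (f := fun l => evalFun (pderiv i (g l)) x) 1] at h1
    have h0 : pderiv i (g 0) = 0 := by
      rw [totalDegree_eq_zero_iff_eq_C.1 ((totalDegree_zero_iff_isHomogeneous _).2 (hg.hom 0)),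
        pderiv_C]
    rw [pd_Fn hg]
    simpa [h0, evalFun] using h1
  refine ((hg.rotStep k).hasSum x).unique ?_ |>.symm
  have h := ((hs (k + 2)).mul_left (x (k + 1))).sub ((hs (k + 1)).mul_left (x (k + 2)))
  simpa [rot, rotP_apply, evalFun] using h

/-- The series with super-exponential decay form a space of functions. -/
def Anal : Submodule ℝ (Space 3 → ℝ) where
  carrier := {F | ∃ g, Super g ∧ F = Fn g}
  add_mem' := by
    rintro _ _ ⟨g, hg, rfl⟩ ⟨g', hg', rfl⟩
    exact ⟨_, hg.add hg', (Fn_add hg hg').symm⟩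
  zero_mem' := ⟨fun _ => 0, ⟨fun l => isHomogeneous_zero _ _ _, fun l => by simp [lapP],
    fun R _ => ⟨0, fun l => by simp [sphIp, res, evalFun]⟩⟩, by funext x; simp [Fn, evalFun]⟩
  smul_mem' := by
    rintro c _ ⟨g, hg, rfl⟩
    exact ⟨_, hg.const_smul c, (Fn_smul hg c).symm⟩

namespace Anal

variable {F G : Space 3 → ℝ}

theorem rot_mem (hF : F ∈ Anal) (k : Fin 3) : rot k F ∈ Anal := by
  obtain ⟨g, hg, rfl⟩ := hF
  exact ⟨_, hg.rotStep k, rot_Fn hg k⟩

theorem contDiff (hF : F ∈ Anal) : ContDiff ℝ (⊤ : ℕ∞) F := by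
  obtain ⟨g, hg, rfl⟩ := hF
  exact contDiff_Fn hg

theorem differentiable (hF : F ∈ Anal) : Differentiable ℝ F :=
  (contDiff hF).differentiable (by simp)

theorem continuous (hF : F ∈ Anal) : Continuous F := (contDiff hF).continuous

theorem rot_add (hF : F ∈ Anal) (hG : G ∈ Anal) (k : Fin 3) :
    rot k (F + G) = rot k F + rot k G := by
  funext x
  simp only [rot_eq_fderiv, Pi.add_apply, fderiv_add (differentiable hF x) (differentiable hG x),
    add_apply]

theorem rot_smul (hF : F ∈ Anal) (c : ℝ) (k : Fin 3) : rot k (c • F) = c • rot k F := by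
  funext x
  simp only [rot_eq_fderiv, Pi.smul_apply, fderiv_const_smul (differentiable hF x), smul_apply]

/-- The derivative along a great circle, as a series. -/
def circStep (a b : Space 3) (g : ℕ → MvPolynomial (Fin 3) ℝ) (l : ℕ) : MvPolynomial (Fin 3) ℝ :=
  ∑ k, axis a b k • rotP k (g l)

theorem super_circStep {a b : Space 3} {g : ℕ → MvPolynomial (Fin 3) ℝ} (hg : Super g) :
    Super (circStep a b g) := by
  have e : circStep a b g = fun l => axis a b 0 • rotP 0 (g l) + axis a b 1 • rotP 1 (g l) +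
      axis a b 2 • rotP 2 (g l) := funext fun l => by simp [circStep, Fin.sum_univ_three]
  rw [e]
  exact (((hg.rotStep 0).const_smul _).add ((hg.rotStep 1).const_smul _)).add
    ((hg.rotStep 2).const_smul _)

theorem sphIp_circStep_le {a b : Space 3} (h : OnPair a b) {g : ℕ → MvPolynomial (Fin 3) ℝ}
    (hg : Super g) (l : ℕ) :
    sphIp (circStep a b g l) (circStep a b g l) ≤
      32 * ((l : ℝ) + 1) ^ 2 * sphIp (g l) (g l) := by
  have hc : ∀ k, sphIp (axis a b k • rotP k (g l)) (axis a b k • rotP k (g l)) ≤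
      4 * sphIp (rotP k (g l)) (rotP k (g l)) := fun k => by
    rw [sphIp_smul, sphIp_comm, sphIp_smul, ← mul_assoc]
    refine mul_le_mul_of_nonneg_right ?_ (sphIp_self_nonneg _)
    have := mul_le_mul (abs_axis_le h k) (abs_axis_le h k) (abs_nonneg _) zero_le_two
    rw [abs_mul_abs_self] at this
    linarith
  have hs : ∑ k, sphIp (rotP k (g l)) (rotP k (g l)) = (l : ℝ) * (l + 1) * sphIp (g l) (g l) := by
    have h1 : sphIp (∑ j, rotP j (rotP j (g l))) (g l) = -((l : ℝ) * (l + 1)) * sphIp (g l) (g l) := by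
      rw [casimir (hg.hom l) (hg.harm l), neg_mul, ← MvPolynomial.smul_eq_C_mul, ← neg_smul, sphIp_smul]
    rw [sphIp_comm, sphIp_sum] at h1
    have h2 : ∀ j, sphIp (g l) (rotP j (rotP j (g l))) = -sphIp (rotP j (g l)) (rotP j (g l)) :=
      fun j => by rw [sphIp_rotP]; ring
    simp only [h2, Finset.sum_neg_distrib] at h1
    linarith
  simp only [circStep, Fin.sum_univ_three] at hs ⊢
  have h1 := Super.sphIp_add_self_le (axis a b 0 • rotP 0 (g l) + axis a b 1 • rotP 1 (g l))
    (axis a b 2 • rotP 2 (g l))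
  have h2 := Super.sphIp_add_self_le (axis a b 0 • rotP 0 (g l)) (axis a b 1 • rotP 1 (g l))
  have h3 := sphIp_self_nonneg (rotP 2 (g l))
  nlinarith [hc 0, hc 1, hc 2, mul_nonneg (by positivity : (0:ℝ) ≤ l + 1) (sphIp_self_nonneg (g l))]

/-- An analytic function that vanishes near one point of a great circle vanishes on all of it. -/
theorem circ_zero (hF : F ∈ Anal) {a b : Space 3} (h : OnPair a b) {t₀ : ℝ}
    (h0 : ∀ᶠ t in 𝓝 t₀, F (circ a b t) = 0) (t : ℝ) : F (circ a b t) = 0 := by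
  obtain ⟨g, hg, rfl⟩ := hF
  set φ := fun s => Fn g (circ a b s) with hφ
  set G := fun k : ℕ => (circStep a b)^[k] g with hG
  have hGs : ∀ k, Super (G k) := fun k => by
    induction k with
    | zero => exact hg
    | succ k ih => simp only [hG, Function.iterate_succ_apply']; exact super_circStep ih
  have hstep : ∀ k, ∀ s : ℝ, HasDerivAt (fun s => Fn (G k) (circ a b s)) (Fn (G (k + 1)) (circ a b s)) s := by
    intro k s
    refine (hasDerivAt_circ (differentiable_Fn (hGs k)) h s).congr_deriv ?_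
    simp only [rot_Fn (hGs k)]
    have : HasSum (fun l => evalFun (G (k + 1) l) (circ a b s))
        (∑ j, axis a b j * Fn (fun l => rotP j (G k l)) (circ a b s)) := by
      have h1 := hasSum_sum (s := Finset.univ) fun j _ =>
        (((hGs k).rotStep j).hasSum (circ a b s)).mul_left (axis a b j)
      simpa [hG, Function.iterate_succ_apply', circStep, evalFun, map_sum, smul_eval] using h1
    exact this.unique ((hGs (k + 1)).hasSum _)
  have hsize : ∀ k l, sphIp (G k l) (G k l) ≤ (32 * ((l : ℝ) + 1) ^ 2) ^ k * sphIp (g l) (g l) := by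
    intro k l
    induction k with
    | zero => simp [hG]
    | succ k ih =>
      simp only [hG, Function.iterate_succ_apply'] at ih ⊢
      refine (sphIp_circStep_le h (hGs k) l).trans ?_
      exact (mul_le_mul_of_nonneg_left ih (by positivity)).trans (le_of_eq (by ring))
  have hiter : ∀ k, iteratedDeriv k φ = fun s => Fn (G k) (circ a b s) := by
    intro k
    induction k with
    | zero => simp [hφ, hG]
    | succ k ih => rw [iteratedDeriv_succ, ih]; exact funext fun s => (hstep k s).deriv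
  have hsmooth : ContDiff ℝ (⊤ : ℕ∞) φ :=
    (contDiff_Fn hg).comp ((Real.contDiff_cos.smul contDiff_const).add
      (Real.contDiff_sin.smul contDiff_const))
  have hz : ∀ k, iteratedDeriv k φ t₀ = 0 := fun k => by
    rw [Filter.EventuallyEq.iteratedDeriv_eq k (show φ =ᶠ[𝓝 t₀] fun _ => (0 : ℝ) from h0),
      iteratedDeriv_const]
    split_ifs <;> rfl
  set r := |t - t₀| + 1
  have hr : 0 < r := by positivity
  set E := Real.exp (6 * (2 * r)) with hE
  have hE1 : 1 ≤ E := Real.one_le_exp (by positivity)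
  obtain ⟨C, hC⟩ := hg.decay' 3 (R := (2 * E) ^ 2) (one_le_pow₀ (by linarith))
  have hC0 : 0 ≤ C := le_trans (mul_nonneg (mul_nonneg (sphIp_self_nonneg _) (by positivity))
    (by positivity)) (hC 0)
  set M := E * Real.sqrt (supConst * C) * 2
  have hbd : ∀ k s, |iteratedDeriv k φ s| ≤ k.factorial / (2 * r) ^ k * M := by
    intro k s
    rw [hiter]
    have hle : ∀ l, |evalFun (G k l) (circ a b s)| ≤
        k.factorial / (2 * r) ^ k * (E * Real.sqrt (supConst * C) * (1 / 2 : ℝ) ^ l) := by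
      intro l
      refine (abs_evalFun_le ((hGs k).hom l) ((hGs k).harm l) one_pos (norm_circ h s).le).trans ?_
      rw [one_pow, one_mul]
      have h1 : (32 * ((l : ℝ) + 1) ^ 2) ^ k ≤ ((6 * ((l : ℝ) + 1)) ^ k) ^ 2 := by
        rw [← pow_mul, mul_comm k 2, pow_mul]
        exact pow_le_pow_left₀ (by positivity) (by nlinarith [sq_nonneg ((l : ℝ) + 1)]) k
      have h2 : (6 * ((l : ℝ) + 1)) ^ k ≤ k.factorial / (2 * r) ^ k * (E * E ^ l) := by
        have := Real.pow_div_factorial_le_exp (x := 6 * (2 * r) * ((l : ℝ) + 1)) (by positivity) k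
        rw [show Real.exp (6 * (2 * r) * ((l : ℝ) + 1)) = E * E ^ l by
          rw [hE, ← Real.exp_nat_mul, ← Real.exp_add]; congr 1; ring,
          div_le_iff₀ (by positivity)] at this
        rw [div_mul_eq_mul_div, le_div_iff₀ (by positivity)]
        calc (6 * ((l : ℝ) + 1)) ^ k * (2 * r) ^ k = (6 * (2 * r) * ((l : ℝ) + 1)) ^ k := by
              rw [← mul_pow]; ring_nf
          _ ≤ _ := by linarith
      have h3 : supConst * ((l : ℝ) + 1) ^ 3 * sphIp (G k l) (G k l) ≤
          (k.factorial / (2 * r) ^ k * (E * E ^ l)) ^ 2 *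
            (supConst * (sphIp (g l) (g l) * ((l : ℝ) + 1) ^ 3)) := by
        have h4 := (hsize k l).trans (mul_le_mul_of_nonneg_right
          (h1.trans (pow_le_pow_left₀ (by positivity) h2 2)) (sphIp_self_nonneg _))
        have h5 := mul_le_mul_of_nonneg_left h4
          (mul_nonneg supConst_pos.le (by positivity : (0:ℝ) ≤ ((l : ℝ) + 1) ^ 3))
        linarith
      refine (Real.sqrt_le_sqrt h3).trans ?_
      rw [Real.sqrt_mul (sq_nonneg _), Real.sqrt_sq (by positivity), mul_assoc]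
      refine mul_le_mul_of_nonneg_left ?_ (by positivity)
      rw [mul_assoc, mul_assoc]
      refine mul_le_mul_of_nonneg_left ?_ (by positivity)
      have h6 := hC l
      have h7 : (E ^ l) ^ 2 * (supConst * (sphIp (g l) (g l) * ((l : ℝ) + 1) ^ 3)) ≤
          ((1 / 2 : ℝ) ^ l) ^ 2 * (supConst * C) := by
        have h8 := mul_le_mul_of_nonneg_left h6
          (mul_nonneg (sq_nonneg ((1 / 2 : ℝ) ^ l)) supConst_pos.le)
        have e : ((1 / 2 : ℝ) ^ l) ^ 2 * ((2 * E) ^ 2) ^ l = (E ^ l) ^ 2 := by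
          rw [← pow_mul, ← pow_mul, ← pow_mul, mul_comm 2 l, ← mul_pow]; congr 1; ring
        calc (E ^ l) ^ 2 * (supConst * (sphIp (g l) (g l) * ((l : ℝ) + 1) ^ 3))
            = ((1 / 2 : ℝ) ^ l) ^ 2 * supConst *
                (sphIp (g l) (g l) * ((l : ℝ) + 1) ^ 3 * ((2 * E) ^ 2) ^ l) := by rw [← e]; ring
          _ ≤ _ := h8
          _ = _ := by ring
      have h9 := Real.sqrt_le_sqrt h7
      rw [Real.sqrt_mul (sq_nonneg _), Real.sqrt_sq (by positivity), Real.sqrt_mul (sq_nonneg _),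
        Real.sqrt_sq (by positivity)] at h9
      linarith
    have hgeo : HasSum (fun l : ℕ => k.factorial / (2 * r) ^ k *
        (E * Real.sqrt (supConst * C) * (1 / 2 : ℝ) ^ l)) (k.factorial / (2 * r) ^ k * M) := by
      simpa [M, mul_assoc] using
        ((hasSum_geometric_two.mul_left (E * Real.sqrt (supConst * C))).mul_left
          ((k.factorial : ℝ) / (2 * r) ^ k))
    rw [← Real.norm_eq_abs]
    exact tsum_of_norm_bounded hgeo fun l => hle l
  have hest : ∀ m : ℕ, |φ t| ≤ M * (1 / 2 : ℝ) ^ m := by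
    intro m
    by_cases htt : t = t₀
    · rw [show φ t = iteratedDeriv 0 φ t₀ by simp [htt], hz, abs_zero]; positivity
    obtain ⟨ξ, -, hξ⟩ := taylor_mean_remainder_lagrange_iteratedDeriv
      (f := φ) (x₀ := t₀) (x := t) (n := m) (Ne.symm htt)
      (hsmooth.contDiffOn.of_le (by exact_mod_cast le_top))
    have hT : taylorWithinEval φ m (uIcc t₀ t) t₀ t = 0 := by
      rw [taylor_within_apply]
      refine Finset.sum_eq_zero fun k _ => ?_
      rw [uIcc, iteratedDerivWithin_eq_iteratedDeriv (uniqueDiffOn_Icc (min_lt_max.2 (Ne.symm htt)))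
        (hsmooth.contDiffAt.of_le (by exact_mod_cast le_top)) left_mem_uIcc, hz, smul_zero]
    rw [hT, sub_zero] at hξ
    rw [hξ, abs_div, abs_mul, abs_pow, Nat.abs_cast, div_le_iff₀ (by positivity)]
    calc |iteratedDeriv (m + 1) φ ξ| * |t - t₀| ^ (m + 1)
        ≤ (m + 1).factorial / (2 * r) ^ (m + 1) * M * r ^ (m + 1) :=
          mul_le_mul (hbd _ _) (pow_le_pow_left₀ (abs_nonneg _) (by simp [r]) _) (by positivity)
            (by positivity)
      _ = M * (1 / 2 : ℝ) ^ (m + 1) * (m + 1).factorial := by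
          rw [mul_pow, div_pow, one_pow]; field_simp
      _ ≤ M * (1 / 2 : ℝ) ^ m * (m + 1).factorial := by
          refine mul_le_mul_of_nonneg_right (mul_le_mul_of_nonneg_left ?_ (by positivity)) (by positivity)
          exact pow_le_pow_of_le_one (by norm_num) (by norm_num) (Nat.le_succ m)
  have hlim : Tendsto (fun m : ℕ => M * (1 / 2 : ℝ) ^ m) atTop (𝓝 0) := by
    simpa using (tendsto_pow_atTop_nhds_zero_of_lt_one (by norm_num : (0:ℝ) ≤ 1 / 2)
      (by norm_num)).const_mul M
  exact abs_eq_zero.1 (le_antisymm (ge_of_tendsto' hlim hest) (abs_nonneg _))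

end Anal

end

end Vale.Agent.P225.Disproof
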