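import Vale.Agent.P225.Disproof.Galerkin
import Vale.Agent.P225.Assembly

/-!
# P225: great circles and bounds on one level

The space of one level carries a constant kernel diagonal, because it is invariant under the
rotation fields; this bounds the supremum by the mean square. The same file has the orthogonality
to lower degrees and the gradient bound.
-/

namespace Vale.Agent.P225.Disproof

open MvPolynomial MeasureTheory Set Module
open scoped RealInnerProductSpace

noncomputable section

/-- The point at time `t` on the great circle of `a` and `b`. -/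
def circ (a b : Space 3) (t : ℝ) : Space 3 := Real.cos t • a + Real.sin t • b

/-- The axis of the great circle of `a` and `b`. -/
def axis (a b : Space 3) (k : Fin 3) : ℝ := a (k + 1) * b (k + 2) - a (k + 2) * b (k + 1)

/-- An orthonormal pair. -/
def OnPair (a b : Space 3) : Prop := ‖a‖ = 1 ∧ ‖b‖ = 1 ∧ ⟪a, b⟫ = 0

theorem norm_circ {a b : Space 3} (h : OnPair a b) (t : ℝ) : ‖circ a b t‖ = 1 := by
  have h1 : ‖circ a b t‖ ^ 2 = 1 := by
    rw [circ, norm_add_sq_real, norm_smul, norm_smul, real_inner_smul_left, real_inner_smul_right,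
      h.1, h.2.1, h.2.2]
    simp only [mul_one, mul_zero, add_zero, Real.norm_eq_abs, sq_abs]
    exact Real.cos_sq_add_sin_sq t
  nlinarith [norm_nonneg (circ a b t)]

theorem abs_axis_le {a b : Space 3} (h : OnPair a b) (k : Fin 3) : |axis a b k| ≤ 2 := by
  have ha := fun i => (PiLp.norm_apply_le a i).trans h.1.le
  have hb := fun i => (PiLp.norm_apply_le b i).trans h.2.1.le
  simp only [Real.norm_eq_abs] at ha hb
  refine (abs_sub _ _).trans ?_
  rw [abs_mul, abs_mul]
  linarith [mul_le_mul (ha (k + 1)) (hb (k + 2)) (abs_nonneg _) zero_le_one,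
    mul_le_mul (ha (k + 2)) (hb (k + 1)) (abs_nonneg _) zero_le_one]

theorem fderiv_eq_sum_pd {n : ℕ} (F : Space n → ℝ) (x v : Space n) :
    fderiv ℝ F x v = ∑ i, v i * pd i F x := by
  have h := (EuclideanSpace.basisFun (Fin n) ℝ).sum_repr v
  conv_lhs => rw [← h, map_sum]
  refine Finset.sum_congr rfl fun i _ => ?_
  simp [pd]

/-- Differentiation along a great circle is a rotation derivative. -/
theorem hasDerivAt_circ {F : Space 3 → ℝ} (hF : Differentiable ℝ F) {a b : Space 3}
    (h : OnPair a b) (t : ℝ) :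
    HasDerivAt (fun s => F (circ a b s)) (∑ k, axis a b k * rot k F (circ a b t)) t := by
  have hc : HasDerivAt (circ a b) ((-Real.sin t) • a + Real.cos t • b) t :=
    ((Real.hasDerivAt_cos t).smul_const a).add ((Real.hasDerivAt_sin t).smul_const b)
  refine (((hF _).hasFDerivAt.comp_hasDerivAt t hc)).congr_deriv ?_
  rw [fderiv_eq_sum_pd]
  have haa : a 0 ^ 2 + a 1 ^ 2 + a 2 ^ 2 = 1 := by
    have := EuclideanSpace.real_norm_sq_eq a
    rw [h.1, Fin.sum_univ_three] at this; linarith
  have hbb : b 0 ^ 2 + b 1 ^ 2 + b 2 ^ 2 = 1 := by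
    have := EuclideanSpace.real_norm_sq_eq b
    rw [h.2.1, Fin.sum_univ_three] at this; linarith
  have hab : a 0 * b 0 + a 1 * b 1 + a 2 * b 2 = 0 := by
    have := h.2.2
    simp [PiLp.inner_apply, Fin.sum_univ_three] at this; linarith
  simp only [Fin.sum_univ_three, axis, rot, circ, PiLp.add_apply, PiLp.smul_apply, smul_eq_mul,
    show (0 : Fin 3) + 1 = 1 from rfl, show (0 : Fin 3) + 2 = 2 from rfl,
    show (1 : Fin 3) + 1 = 2 from rfl, show (1 : Fin 3) + 2 = 0 from rfl,
    show (2 : Fin 3) + 1 = 0 from rfl, show (2 : Fin 3) + 2 = 1 from rfl]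
  linear_combination
    (-Real.cos t) * (b 0 * pd 0 F (Real.cos t • a + Real.sin t • b) +
      b 1 * pd 1 F (Real.cos t • a + Real.sin t • b) +
      b 2 * pd 2 F (Real.cos t • a + Real.sin t • b)) * haa +
    Real.sin t * (a 0 * pd 0 F (Real.cos t • a + Real.sin t • b) +
      a 1 * pd 1 F (Real.cos t • a + Real.sin t • b) +
      a 2 * pd 2 F (Real.cos t • a + Real.sin t • b)) * hbb +
    (Real.cos t * (a 0 * pd 0 F (Real.cos t • a + Real.sin t • b) +
      a 1 * pd 1 F (Real.cos t • a + Real.sin t • b) +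
      a 2 * pd 2 F (Real.cos t • a + Real.sin t • b)) -
     Real.sin t * (b 0 * pd 0 F (Real.cos t • a + Real.sin t • b) +
      b 1 * pd 1 F (Real.cos t • a + Real.sin t • b) +
      b 2 * pd 2 F (Real.cos t • a + Real.sin t • b))) * hab

/-- Any two points of the sphere lie on a great circle. -/
theorem exists_circ (θ φ : Sph 3) : ∃ b : Space 3, OnPair θ b ∧
    ∃ t ∈ Icc 0 Real.pi, circ θ b t = φ := by
  have hθ : ‖(θ : Space 3)‖ = 1 := norm_eq_of_mem_sphere θ
  have hφ : ‖(φ : Space 3)‖ = 1 := norm_eq_of_mem_sphere φ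
  set c := ⟪(θ : Space 3), (φ : Space 3)⟫ with hc
  set w := (φ : Space 3) - c • (θ : Space 3)
  have hθθ : ⟪(θ : Space 3), (θ : Space 3)⟫ = 1 := by rw [real_inner_self_eq_norm_sq, hθ]; norm_num
  have hθw : ⟪(θ : Space 3), w⟫ = 0 := by
    simp only [w, inner_sub_right, real_inner_smul_right, hθθ]; rw [← hc]; ring
  have hw : ‖w‖ ^ 2 = 1 - c ^ 2 := by
    simp only [w, norm_sub_sq_real, norm_smul, real_inner_smul_right, real_inner_comm (θ : Space 3),
      hθ, hφ, ← hc, Real.norm_eq_abs, mul_one, sq_abs]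
    ring
  have hc1 : -1 ≤ c ∧ c ≤ 1 := by
    refine abs_le.1 ((abs_real_inner_le_norm _ _).trans ?_)
    rw [hθ, hφ, one_mul]
  have hsin : Real.sin (Real.arccos c) = ‖w‖ := by
    rw [Real.sin_arccos, ← hw, Real.sqrt_sq (norm_nonneg _)]
  by_cases hw0 : w = 0
  · obtain ⟨b, hb, hb1⟩ : ∃ b : Space 3, ⟪(θ : Space 3), b⟫ = 0 ∧ b ≠ 0 := by
      by_cases h : (θ : Space 3) 0 = 0 ∧ (θ : Space 3) 1 = 0
      · refine ⟨EuclideanSpace.single 0 1, by simp [h.1, EuclideanSpace.inner_single_right], ?_⟩
        intro h0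
        simpa using congrArg (fun v : Space 3 => v 0) h0
      · refine ⟨WithLp.toLp 2 ![-(θ : Space 3) 1, (θ : Space 3) 0, 0], ?_, ?_⟩
        · simp [PiLp.inner_apply, Fin.sum_univ_three]; ring
        · intro h0
          have e0 := congrArg (fun v : Space 3 => v 0) h0
          have e1 := congrArg (fun v : Space 3 => v 1) h0
          simp at e0 e1
          exact h ⟨e1, e0⟩
    refine ⟨‖b‖⁻¹ • b, ⟨hθ, by rw [norm_smul, norm_inv, norm_norm,
      inv_mul_cancel₀ (norm_ne_zero_iff.2 hb1)], by rw [real_inner_smul_right, hb, mul_zero]⟩,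
      Real.arccos c, ⟨Real.arccos_nonneg c, Real.arccos_le_pi c⟩, ?_⟩
    rw [circ, Real.cos_arccos hc1.1 hc1.2, hsin, hw0, norm_zero, zero_smul, add_zero]
    exact (sub_eq_zero.1 hw0).symm
  · refine ⟨‖w‖⁻¹ • w, ⟨hθ, by rw [norm_smul, norm_inv, norm_norm,
      inv_mul_cancel₀ (norm_ne_zero_iff.2 hw0)], by rw [real_inner_smul_right, hθw, mul_zero]⟩,
      Real.arccos c, ⟨Real.arccos_nonneg c, Real.arccos_le_pi c⟩, ?_⟩
    rw [circ, Real.cos_arccos hc1.1 hc1.2, hsin, smul_smul,
      mul_inv_cancel₀ (norm_ne_zero_iff.2 hw0), one_smul]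
    simp [w]

/-- A function with vanishing rotation derivatives is constant on the sphere. -/
theorem eq_of_rot_eq_zero {F : Space 3 → ℝ} (hF : Differentiable ℝ F)
    (h : ∀ k, ∀ θ : Sph 3, rot k F θ = 0) (θ φ : Sph 3) : F θ = F φ := by
  obtain ⟨b, hb, t, -, ht⟩ := exists_circ θ φ
  have hd : ∀ s, HasDerivAt (fun s => F (circ θ b s)) 0 s := fun s =>
    (hasDerivAt_circ hF hb s).congr_deriv (Finset.sum_eq_zero fun k _ => by
      rw [h k ⟨circ θ b s, by simp [norm_circ hb s]⟩, mul_zero])
  have := is_const_of_deriv_eq_zero (fun s => (hd s).differentiableAt) (fun s => (hd s).deriv) 0 t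
  simpa [circ, ← ht] using this

theorem sphIp_sq_mul (q r : MvPolynomial (Fin 3) ℝ) : sphIp q (sq 3 * r) = sphIp q r := by
  refine integral_congr_ae (Filter.Eventually.of_forall fun θ => ?_)
  have := evalFun_sq_sph θ
  simp only [res, evalFun, map_mul] at this ⊢
  rw [this, one_mul]

theorem sphIp_sum {ι : Type*} (q : MvPolynomial (Fin 3) ℝ) (s : Finset ι)
    (f : ι → MvPolynomial (Fin 3) ℝ) : sphIp q (∑ l ∈ s, f l) = ∑ l ∈ s, sphIp q (f l) := by
  classical
  induction s using Finset.induction_on with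
  | empty => simp [sphIp, res, evalFun]
  | insert a s ha ih =>
    rw [Finset.sum_insert ha, Finset.sum_insert ha, sphIp_comm, sphIp_add, sphIp_comm _ q, ← ih,
      sphIp_comm _ q]

/-- A level is orthogonal to every polynomial of lower degree. -/
theorem sphIp_low {l : ℕ} {q : MvPolynomial (Fin 3) ℝ} (hq : q.IsHomogeneous l) (hql : lapP q = 0)
    {r : MvPolynomial (Fin 3) ℝ} (hr : r.totalDegree < l) : sphIp q r = 0 := by
  have hom : ∀ j < l, ∀ r : MvPolynomial (Fin 3) ℝ, r.IsHomogeneous j → sphIp q r = 0 := by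
    intro j
    induction j using Nat.strong_induction_on with
    | _ j ih =>
      intro hjl r hr
      by_cases hj : j < 2
      · exact sphIp_eq_zero (by omega) hq hql hr (lapP_eq_zero_of_lt hr hj)
      obtain ⟨i, rfl⟩ : ∃ i, j = i + 2 := ⟨j - 2, by omega⟩
      obtain ⟨s, h, hs, hh, hl, rfl⟩ := exists_decomp (n := 3) (by norm_num) i r hr
      rw [sphIp_comm, sphIp_add, sphIp_comm _ q, sphIp_comm _ q, sphIp_sq_mul,
        sphIp_eq_zero (by omega) hq hql hh hl, ih i (by omega) (by omega) s hs, add_zero]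
  rw [← sum_homogeneousComponent r, sphIp_sum]
  exact Finset.sum_eq_zero fun j hj => hom j (by simp at hj; omega) _
    (homogeneousComponent_isHomogeneous j r)

/-- One level inside the Galerkin space. -/
def lvl (l : ℕ) : Submodule ℝ (Gal l) := (homogeneousSubmodule (Fin 3) ℝ l).comap Gal.poly

/-- The number of monomials bounds the dimension of a level. -/
theorem finrank_lvl_le (l : ℕ) : finrank ℝ (lvl l) ≤ (l + 1) ^ 3 := by
  classical
  let T : lvl l →ₗ[ℝ] (Fin 3 → Fin (l + 1)) → ℝ :=
    { toFun := fun p e => coeff (Finsupp.equivFunOnFinite.symm fun i => (e i : ℕ)) p.1.poly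
      map_add' := fun p q => by funext e; simp
      map_smul' := fun r p => by funext e; simp }
  have hT : Function.Injective T := by
    rw [injective_iff_map_eq_zero]
    intro p hp
    refine Subtype.ext (Gal.ext ?_)
    rw [ZeroMemClass.coe_zero, map_zero]
    ext d
    rw [coeff_zero]
    by_contra hd
    have hdeg : ∀ i, d i < l + 1 := fun i => by
      have h1 := le_totalDegree (mem_support_iff.2 hd)
      have h2 : p.1.poly.totalDegree ≤ l := (mem_harmUpTo.1 p.1.mem).1
      have h3 : d i ≤ d.sum fun _ e => e := by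
        rw [Finsupp.sum_fintype _ _ (fun _ => rfl)]
        exact Finset.single_le_sum (fun j _ => Nat.zero_le (d j)) (Finset.mem_univ i)
      omega
    refine hd ?_
    have := congrFun hp fun i => ⟨d i, hdeg i⟩
    simpa [T] using this
  refine (LinearMap.finrank_le_finrank_of_injective hT).trans ?_
  simp

/-- The constant in the supremum bound. -/
def supConst : ℝ := ((sig 3).real univ)⁻¹

theorem area_pos : 0 < (sig 3).real univ := by
  refine ENNReal.toReal_pos (ne_of_gt (IsOpen.measure_pos _ isOpen_univ ⟨?_, trivial⟩))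
    (measure_ne_top _ _)
  exact ⟨EuclideanSpace.single 0 1, by simp⟩

theorem supConst_pos : 0 < supConst := inv_pos.2 area_pos

/-- On one level the supremum is controlled by the mean square. -/
theorem res_sq_le {l : ℕ} {q : MvPolynomial (Fin 3) ℝ} (hq : q.IsHomogeneous l) (hql : lapP q = 0)
    (θ : Sph 3) : res q θ ^ 2 ≤ supConst * (l + 1 : ℝ) ^ 3 * sphIp q q := by
  set e := stdOrthonormalBasis ℝ (lvl l)
  set Y := fun i => (e i).1.poly with hY
  have hexp : ∀ (x : Gal l), x.poly.IsHomogeneous l → ∀ φ : Sph 3,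
      res x.poly φ = ∑ i, ⟪(e i).1, x⟫ * res (Y i) φ := by
    intro x hx φ
    have h1 := congrArg (fun z : lvl l => z.1.poly) (e.sum_repr' ⟨x, hx⟩)
    simp only [Submodule.coe_sum, map_sum, SetLike.val_smul, map_smul, Submodule.coe_inner] at h1
    conv_lhs => rw [← h1]
    simp only [res, evalFun, map_sum, smul_eval, hY]
  set K := fun φ : Space 3 => ∑ i, evalFun (Y i) φ ^ 2
  have hrot : ∀ k, ∀ φ : Sph 3, rot k K φ = 0 := by
    intro k φ
    have hd : ∀ p : MvPolynomial (Fin 3) ℝ, Differentiable ℝ (evalFun p) := fun p =>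
      (contDiff_evalFun p (m := 1)).differentiable one_ne_zero
    have h1 : rot k K φ = ∑ i, 2 * (res (Y i) φ * res (rotP k (Y i)) φ) := by
      rw [rot_eq_fderiv, show fderiv ℝ K (φ : Space 3) = _ from
        fderiv_fun_sum fun i _ => (hd (Y i) _).fun_pow 2, sum_apply]
      refine Finset.sum_congr rfl fun i _ => ?_
      have := congrFun (rot_evalFun k (Y i)) φ
      rw [rot_eq_fderiv] at this
      simp [res, this, fderiv_fun_pow 2 (hd (Y i) _), mul_assoc, pow_one]
    have h2 : ∀ i, res (rotP k (Y i)) φ = ∑ j, ⟪(e j).1, rotG k (e i).1⟫ * res (Y j) φ := fun i => by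
      rw [← poly_rotG]; exact hexp _ (by rw [poly_rotG]; exact rotP_hom k (e i).2) φ
    have hskew : ∀ i j, ⟪(e j).1, rotG k (e i).1⟫ = -⟪(e i).1, rotG k (e j).1⟫ := fun i j => by
      rw [← neg_eq_iff_eq_neg, ← inner_rotG, real_inner_comm]
    rw [h1]
    simp only [h2, Finset.mul_sum]
    set S := ∑ i, ∑ j, 2 * (res (Y i) φ * (⟪(e j).1, rotG k (e i).1⟫ * res (Y j) φ))
    have : S = -S := by
      simp only [S]
      conv_lhs => rw [Finset.sum_comm]
      rw [← Finset.sum_neg_distrib]
      refine Finset.sum_congr rfl fun i _ => ?_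
      rw [← Finset.sum_neg_distrib]
      exact Finset.sum_congr rfl fun j _ => by rw [hskew j i]; ring
    linarith
  have hconst := eq_of_rot_eq_zero
    (Differentiable.fun_sum fun i _ => ((contDiff_evalFun (Y i) (m := 1)).differentiable one_ne_zero).pow 2) hrot
  have hK : ∀ φ : Sph 3, K φ = supConst * finrank ℝ (lvl l) := by
    intro φ
    have h1 : ∫ ψ : Sph 3, K ψ ∂(sig 3) = finrank ℝ (lvl l) := by
      have : ∀ i, ∫ ψ, res (Y i) ψ ^ 2 ∂(sig 3) = 1 := fun i => by
        have hn := e.orthonormal.1 i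
        rw [norm_eq_sqrt_real_inner, Real.sqrt_eq_one, Submodule.coe_inner, inner_gal, sphIp] at hn
        simpa [pow_two] using hn
      simp only [K]
      rw [integral_finsetSum _ fun i _ => integrable_sig (f := fun ψ : Sph 3 => evalFun (Y i) ψ ^ 2)
        (((contDiff_evalFun (Y i) (m := 0)).continuous.comp continuous_subtype_val).pow 2)]
      simp only [res] at this
      simp [this]
    rw [show (fun ψ : Sph 3 => K ψ) = fun _ => K φ from funext fun ψ => hconst ψ φ,
      integral_const, smul_eq_mul] at h1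
    rw [supConst, ← h1, ← mul_assoc, inv_mul_cancel₀ area_pos.ne', one_mul]
  have hmem : q ∈ harmUpTo l := mem_harmUpTo.2 ⟨hq.totalDegree_le, hql⟩
  rw [show res q θ = _ from hexp (Gal.mk q hmem) hq θ]
  refine (Finset.sum_mul_sq_le_sq_mul_sq _ _ _).trans ?_
  have hb : ∑ i, ⟪(e i).1, Gal.mk q hmem⟫ ^ 2 = sphIp q q := by
    have := e.sum_sq_norm_inner_right (⟨Gal.mk q hmem, hq⟩ : lvl l)
    rw [← real_inner_self_eq_norm_sq, Submodule.coe_inner, inner_gal] at this
    simpa [Submodule.coe_inner, Gal.poly_mk, Real.norm_eq_abs, sq_abs] using this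
  rw [hb, show ∑ i, res (Y i) θ ^ 2 = K θ from rfl, hK, mul_comm (sphIp q q)]
  refine mul_le_mul_of_nonneg_right (mul_le_mul_of_nonneg_left ?_ supConst_pos.le)
    (integral_nonneg fun φ => mul_self_nonneg _)
  exact_mod_cast finrank_lvl_le l

/-- Partial derivatives lose at most the degree in mean square. -/
theorem sphIp_pderiv_le {l : ℕ} {q : MvPolynomial (Fin 3) ℝ} (hq : q.IsHomogeneous l)
    (hql : lapP q = 0) (i : Fin 3) :
    sphIp (pderiv i q) (pderiv i q) ≤ 2 * (l + 1 : ℝ) ^ 2 * sphIp q q := by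
  have hpt : ∀ θ : Sph 3, res (pderiv i q) θ * res (pderiv i q) θ ≤
      (∑ k, res (rotP k q) θ * res (rotP k q) θ) + (l : ℝ) ^ 2 * (res q θ * res q θ) := by
    intro θ
    refine (Finset.single_le_sum (f := fun j => res (pderiv j q) θ * res (pderiv j q) θ)
      (fun j _ => mul_self_nonneg _) (Finset.mem_univ i)).trans ?_
    have hE := congrArg (fun r => evalFun r (θ : Space 3)) hq.sum_X_mul_pderiv
    simp [evalFun, Fin.sum_univ_three, nsmul_eq_mul] at hE
    have h1 : (θ : Space 3) 0 ^ 2 + (θ : Space 3) 1 ^ 2 + (θ : Space 3) 2 ^ 2 = 1 := by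
      have := EuclideanSpace.real_norm_sq_eq (θ : Space 3)
      rw [norm_eq_of_mem_sphere, Fin.sum_univ_three] at this; linarith
    simp only [res, evalFun, rotP_apply, map_sub, map_mul, eval_X, Fin.sum_univ_three,
      show (0 : Fin 3) + 1 = 1 from rfl, show (0 : Fin 3) + 2 = 2 from rfl,
      show (1 : Fin 3) + 1 = 2 from rfl, show (1 : Fin 3) + 2 = 0 from rfl,
      show (2 : Fin 3) + 1 = 0 from rfl, show (2 : Fin 3) + 2 = 1 from rfl]
    set d0 := MvPolynomial.eval (fun j => (θ : Space 3) j) (pderiv 0 q)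
    set d1 := MvPolynomial.eval (fun j => (θ : Space 3) j) (pderiv 1 q)
    set d2 := MvPolynomial.eval (fun j => (θ : Space 3) j) (pderiv 2 q)
    set x0 := (θ : Space 3) 0
    set x1 := (θ : Space 3) 1
    set x2 := (θ : Space 3) 2
    have hid : d0 * d0 + d1 * d1 + d2 * d2 =
        (x1 * d2 - x2 * d1) * (x1 * d2 - x2 * d1) + (x2 * d0 - x0 * d2) * (x2 * d0 - x0 * d2) +
          (x0 * d1 - x1 * d0) * (x0 * d1 - x1 * d0) + (x0 * d0 + x1 * d1 + x2 * d2) ^ 2 := by
      linear_combination -(d0 * d0 + d1 * d1 + d2 * d2) * h1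
    rw [show x0 * d0 + x1 * d1 + x2 * d2 = _ from hE, mul_pow] at hid
    linarith
  have hint : ∀ r : MvPolynomial (Fin 3) ℝ, Integrable (fun θ => res r θ * res r θ) (sig 3) :=
    fun r => integrable_sig ((continuous_res r).mul (continuous_res r))
  have hsum : ∑ k, sphIp (rotP k q) (rotP k q) = (l : ℝ) * (l + 1) * sphIp q q := by
    have h1 : sphIp (∑ k, rotP k (rotP k q)) q = -((l : ℝ) * (l + 1)) * sphIp q q := by
      rw [casimir hq hql, neg_mul, ← MvPolynomial.smul_eq_C_mul, ← neg_smul, sphIp_smul]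
    rw [sphIp_comm, sphIp_sum] at h1
    calc ∑ k, sphIp (rotP k q) (rotP k q) = -∑ k, sphIp q (rotP k (rotP k q)) := by
          rw [← Finset.sum_neg_distrib]
          exact Finset.sum_congr rfl fun k _ => sphIp_rotP k q _
      _ = _ := by rw [h1]; ring
  calc sphIp (pderiv i q) (pderiv i q)
      ≤ ∫ θ, (∑ k, res (rotP k q) θ * res (rotP k q) θ) + (l : ℝ) ^ 2 * (res q θ * res q θ) ∂(sig 3) :=
        integral_mono (hint _) ((integrable_finsetSum _ fun k _ => hint _).add ((hint q).const_mul _)) hpt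
    _ = (l : ℝ) * (l + 1) * sphIp q q + (l : ℝ) ^ 2 * sphIp q q := by
        rw [integral_add (integrable_finsetSum _ fun k _ => hint _) ((hint q).const_mul _),
          integral_finsetSum _ fun k _ => hint _, integral_const_mul, ← hsum]
        rfl
    _ ≤ _ := by
        nlinarith [mul_nonneg (by positivity : (0:ℝ) ≤ 3 * l + 2)
          (show 0 ≤ sphIp q q from integral_nonneg fun θ => mul_self_nonneg _)]

end

end Vale.Agent.P225.Disproof
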