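import Mathlib
import Vale.Agent.P084.Full.AlgebraFlow

/-!
# P225: the Dirichlet-to-Neumann Riccati equation and its barrier

For `u'' + c u' = A u` with a symmetric nonnegative `A` on a finite-dimensional space, the regular
solutions satisfy `u' = D u` with `D' + D² + c D = A`. If `A` and `c` vary slowly relative to `A`,
then so does `D`: `-ε (D + 1) ≤ D' ≤ ε (D + 1)`, with constants independent of the dimension.
-/

namespace Vale.Agent.P225.Disproof

open Set Filter Topology
open scoped RealInnerProductSpace NNReal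
open Vale.Agent.P084.Full.AlgebraFlow (retr norm_retr_le retr_eq lipschitz_retr)

noncomputable section

/-- A linear equation with continuous coefficients has a solution on an interval. -/
theorem exists_linear {W : Type*} [NormedAddCommGroup W] [NormedSpace ℝ W] [CompleteSpace W]
    {B : ℝ → W →L[ℝ] W} (hB : Continuous B) {a b : ℝ} (hab : a ≤ b) (z : W) :
    ∃ u : ℝ → W, u a = z ∧ ∀ t ∈ Icc a b, HasDerivWithinAt u (B t (u t)) (Icc a b) t := by
  obtain ⟨K, hK⟩ := isCompact_Icc.exists_bound_of_continuousOn (s := Icc a b) hB.continuousOn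
  have hK0 : 0 ≤ K := (norm_nonneg _).trans (hK a ⟨le_rfl, hab⟩)
  set R := (‖z‖ + 1) * Real.exp (K * (b - a))
  have hR : 0 < R := by positivity
  have h : IsPicardLindelof (fun t x => B t (retr R x)) (⟨a, le_rfl, hab⟩ : Icc a b) z
      (Real.toNNReal (K * R * (b - a))) 0 (Real.toNNReal (K * R)) (Real.toNNReal K * 2) :=
    { lipschitzOnWith := fun t ht => by
        refine (LipschitzWith.comp ?_ (lipschitz_retr hR)).lipschitzOnWith
        exact (B t).lipschitz.weaken (by
          rw [← NNReal.coe_le_coe, Real.coe_toNNReal _ hK0]; exact hK t ht)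
      continuousOn := fun x _ => (hB.clm_apply continuous_const).continuousOn
      norm_le := fun t ht x _ => by
        rw [Real.coe_toNNReal _ (by positivity)]
        exact ((B t).le_opNorm _).trans
          (mul_le_mul (hK t ht) (norm_retr_le hR x) (norm_nonneg _) hK0)
      mul_max_le := by
        have hba : 0 ≤ b - a := sub_nonneg.2 hab
        rw [Real.coe_toNNReal _ (by positivity), Real.coe_toNNReal _ (by positivity)]
        simp [max_eq_left hba] }
  obtain ⟨u, hu0, hu⟩ := h.exists_eq_forall_mem_Icc_hasDerivWithinAt₀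
  have hbd : ∀ t ∈ Icc a b, ‖u t‖ ≤ R := fun t ht => by
    have hg := norm_le_gronwallBound_of_norm_deriv_right_le (δ := ‖z‖) (K := K) (ε := 0)
      (fun s hs => (hu s hs).continuousWithinAt)
      (fun s hs => (hu s (Ico_subset_Icc_self hs)).mono_of_mem_nhdsWithin
        (Icc_mem_nhdsGE_of_mem hs)) (by rw [hu0])
      (fun s hs => by
        rw [add_zero]
        refine ((B s).le_opNorm _).trans (mul_le_mul (hK s (Ico_subset_Icc_self hs)) ?_
          (norm_nonneg _) hK0)
        have h1 : R / max R ‖u s‖ ≤ 1 :=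
          (div_le_one (lt_max_of_lt_left hR)).2 (le_max_left _ _)
        rw [retr, norm_smul, Real.norm_of_nonneg (by positivity)]
        exact mul_le_of_le_one_left (norm_nonneg _) h1) t ht
    rw [gronwallBound_ε0] at hg
    refine hg.trans (mul_le_mul (by linarith) (Real.exp_le_exp.2 ?_) (Real.exp_nonneg _)
      (by positivity))
    exact mul_le_mul_of_nonneg_left (by linarith [ht.2]) hK0
  refine ⟨u, hu0, fun t ht => ?_⟩
  have h1 := hu t ht
  rw [retr_eq hR (hbd t ht)] at h1
  exact h1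

/-- The same with the value prescribed at the right end. -/
theorem exists_linear_back {W : Type*} [NormedAddCommGroup W] [NormedSpace ℝ W] [CompleteSpace W]
    {B : ℝ → W →L[ℝ] W} (hB : Continuous B) {a b : ℝ} (hab : a ≤ b) (z : W) :
    ∃ u : ℝ → W, u b = z ∧ ∀ t ∈ Icc a b, HasDerivWithinAt u (B t (u t)) (Icc a b) t := by
  have hmap : MapsTo (fun x => a + b - x) (Icc a b) (Icc a b) := fun x hx =>
    ⟨by linarith [hx.2], by linarith [hx.1]⟩
  obtain ⟨g, hg0, hg⟩ := exists_linear (B := fun x => -B (a + b - x))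
    ((hB.comp (continuous_const.sub continuous_id)).neg) hab z
  refine ⟨fun x => g (a + b - x), by simp [hg0], fun t ht => ?_⟩
  have hd : HasDerivWithinAt (fun y => a + b - y) (-1) (Icc a b) t :=
    ((hasDerivAt_id t).const_sub (a + b)).hasDerivWithinAt
  refine ((hg (a + b - t) (hmap ht)).scomp t hd hmap).congr_deriv ?_
  simp

/-- A function with nonnegative derivative on an interval is monotone. -/
theorem monotoneOn_Icc {f f' : ℝ → ℝ} {a b : ℝ}
    (hd : ∀ t ∈ Icc a b, HasDerivWithinAt f (f' t) (Icc a b) t) (h : ∀ t ∈ Icc a b, 0 ≤ f' t) :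
    MonotoneOn f (Icc a b) :=
  monotoneOn_of_hasDerivWithinAt_nonneg (convex_Icc a b) (fun t ht => (hd t ht).continuousWithinAt)
    (fun t ht => (hd t (interior_subset ht)).mono interior_subset)
    fun t ht => h t (interior_subset ht)

/-- Grönwall in the form used here: `-k f ≤ f'` makes `exp (∫ k) f` monotone. -/
theorem monotoneOn_exp_mul {f f' k : ℝ → ℝ} {a b : ℝ} (hk : Continuous k)
    (hd : ∀ t ∈ Icc a b, HasDerivWithinAt f (f' t) (Icc a b) t)
    (h : ∀ t ∈ Icc a b, 0 ≤ f' t + k t * f t) :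
    MonotoneOn (fun t => Real.exp (∫ s in a..t, k s) * f t) (Icc a b) := by
  refine monotoneOn_Icc (f' := fun t => Real.exp (∫ s in a..t, k s) * (f' t + k t * f t))
    (fun t ht => ?_) fun t ht => mul_nonneg (Real.exp_nonneg _) (h t ht)
  have h1 := ((hk.integral_hasStrictDerivAt a t).hasDerivAt.exp).hasDerivWithinAt (s := Icc a b)
  exact (h1.mul (hd t ht)).congr_deriv (by ring)

variable {V : Type*} [NormedAddCommGroup V] [InnerProductSpace ℝ V] [FiniteDimensional ℝ V]
  {a b : ℝ}

/-- Nonnegativity is preserved by `G' + M G + G M ≥ 0`. -/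
theorem nonneg_preserved {G G' M : ℝ → V →L[ℝ] V} (hM : ContinuousOn M (Icc a b))
    (hMs : ∀ t ∈ Icc a b, ∀ x y : V, ⟪M t x, y⟫ = ⟪x, M t y⟫)
    (hG : ∀ t ∈ Icc a b, HasDerivWithinAt G (G' t) (Icc a b) t)
    (h : ∀ t ∈ Icc a b, ∀ x : V, 0 ≤ ⟪x, (G' t + M t * G t + G t * M t) x⟫)
    (h0 : ∀ x : V, 0 ≤ ⟪x, G a x⟫) : ∀ t ∈ Icc a b, ∀ x : V, 0 ≤ ⟪x, G t x⟫ := by
  intro t ht x
  have hsub : Icc a t ⊆ Icc a b := Icc_subset_Icc_right ht.2
  set M' := fun s => IccExtend ht.1 ((Icc a t).domRestrict M) s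
  have hM' : Continuous M' := (hM.mono hsub).domRestrict.Icc_extend'
  obtain ⟨u, hu, hu'⟩ := exists_linear_back hM' ht.1 x
  have hd : ∀ s ∈ Icc a t, HasDerivWithinAt (fun s => ⟪u s, G s (u s)⟫)
      ⟪u s, (G' s + M s * G s + G s * M s) (u s)⟫ (Icc a t) s := fun s hs => by
    have h1 : HasDerivWithinAt u (M s (u s)) (Icc a t) s := by
      have h2 := hu' s hs
      rwa [show M' s = M s from IccExtend_of_mem _ _ hs] at h2
    refine (h1.inner ℝ (((hG s (hsub hs)).mono hsub).clm_apply h1)).congr_deriv ?_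
    simp only [add_apply, mul_apply_eq_comp, inner_add_right, hMs s (hsub hs) (u s)]
    ring
  have := monotoneOn_Icc hd (fun s hs => h s (hsub hs) _) ⟨le_rfl, ht.1⟩ ⟨ht.1, le_rfl⟩ ht.1
  simp only [hu] at this
  exact (h0 _).trans this

/-- The Dirichlet-to-Neumann map: existence, symmetry and positivity. -/
theorem exists_dtn (hab : a ≤ b) {A : ℝ → V →L[ℝ] V} {c : ℝ → ℝ} (hA : Continuous A)
    (hc : Continuous c) (hAs : ∀ t, ∀ x y : V, ⟪A t x, y⟫ = ⟪x, A t y⟫)
    (hA0 : ∀ t, ∀ x : V, 0 ≤ ⟪x, A t x⟫) (Λ : V →L[ℝ] V)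
    (hΛs : ∀ x y : V, ⟪Λ x, y⟫ = ⟪x, Λ y⟫) (hΛ0 : ∀ x : V, 0 ≤ ⟪x, Λ x⟫) :
    ∃ D U : ℝ → V →L[ℝ] V, D a = Λ ∧ U a = 1 ∧ ∀ t ∈ Icc a b,
      HasDerivWithinAt D (A t - D t * D t - c t • D t) (Icc a b) t ∧
      HasDerivWithinAt U (D t * U t) (Icc a b) t ∧ IsUnit (U t) ∧
      (∀ x y : V, ⟪D t x, y⟫ = ⟪x, D t y⟫) ∧ ∀ x : V, 0 ≤ ⟪x, D t x⟫ := by
  set W := (V →L[ℝ] V) × (V →L[ℝ] V)
  set B : ℝ → W →L[ℝ] W := fun t =>
    (ContinuousLinearMap.snd ℝ _ _).prod
      (((ContinuousLinearMap.mul ℝ (V →L[ℝ] V)) (A t)).comp (ContinuousLinearMap.fst ℝ _ _) -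
        c t • ContinuousLinearMap.snd ℝ _ _)
  have hB : Continuous B := by
    have hcr : Continuous fun t =>
        ((ContinuousLinearMap.mul ℝ (V →L[ℝ] V)) (A t)).comp
          (ContinuousLinearMap.fst ℝ (V →L[ℝ] V) (V →L[ℝ] V)) -
        c t • ContinuousLinearMap.snd ℝ (V →L[ℝ] V) (V →L[ℝ] V) := by fun_prop
    exact (ContinuousLinearMap.prodₗᵢ ℝ).continuous.comp (continuous_const.prodMk hcr)
  obtain ⟨w, hw0, hw⟩ := exists_linear hB hab ((1, Λ) : W)
  set U := fun t => (w t).1
  set P := fun t => (w t).2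
  have hU : ∀ t ∈ Icc a b, HasDerivWithinAt U (P t) (Icc a b) t := fun t ht => by
    refine HasDerivWithinAt.congr_deriv
      ((ContinuousLinearMap.fst ℝ (V →L[ℝ] V) (V →L[ℝ] V)).hasFDerivAt.comp_hasDerivWithinAt t
        (hw t ht)) ?_
    rfl
  have hP : ∀ t ∈ Icc a b, HasDerivWithinAt P (A t * U t - c t • P t) (Icc a b) t := fun t ht => by
    refine HasDerivWithinAt.congr_deriv
      ((ContinuousLinearMap.snd ℝ (V →L[ℝ] V) (V →L[ℝ] V)).hasFDerivAt.comp_hasDerivWithinAt t
        (hw t ht)) ?_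
    rfl
  have hU0 : U a = 1 := by simp [U, hw0]
  have hP0 : P a = Λ := by simp [P, hw0]
  have hUx : ∀ x, ∀ t ∈ Icc a b,
      HasDerivWithinAt (fun s => U s x) (P t x) (Icc a b) t := fun x t ht => by
    simpa using (hU t ht).clm_apply (hasDerivWithinAt_const t _ x)
  have hPx : ∀ x, ∀ t ∈ Icc a b,
      HasDerivWithinAt (fun s => P s x) (A t (U t x) - c t • P t x) (Icc a b) t := fun x t ht => by
    simpa using (hP t ht).clm_apply (hasDerivWithinAt_const t _ x)
  -- the flux is monotone, so a solution does not vanish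
  have hflux : ∀ x, MonotoneOn (fun t => Real.exp (∫ s in a..t, c s) * ⟪U t x, P t x⟫) (Icc a b) :=
    fun x => monotoneOn_exp_mul hc (fun t ht => (hUx x t ht).inner ℝ (hPx x t ht)) fun t ht => by
      have h1 := hA0 t (U t x)
      have h2 := real_inner_self_nonneg (x := P t x)
      simp only [inner_sub_right, real_inner_smul_right]
      linarith
  have hflux0 : ∀ x, ∀ t ∈ Icc a b, 0 ≤ ⟪U t x, P t x⟫ := fun x t ht => by
    have h1 := hflux x ⟨le_rfl, hab⟩ ht ht.1
    simp only [intervalIntegral.integral_same, Real.exp_zero, one_mul, hU0, hP0,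
      one_apply_eq_self] at h1
    exact (mul_nonneg_iff_of_pos_left (Real.exp_pos _)).1 ((hΛ0 x).trans h1)
  have hinj : ∀ t ∈ Icc a b, ∀ x, U t x = 0 → x = 0 := by
    intro t ht x hx
    have hsub : Icc a t ⊆ Icc a b := Icc_subset_Icc_right ht.2
    have hzero : ∀ s ∈ Icc a t, ⟪U s x, P s x⟫ = 0 := fun s hs => by
      have h1 := hflux x (hsub hs) ht hs.2
      simp only [hx, inner_zero_left, mul_zero] at h1
      exact le_antisymm (nonpos_of_mul_nonpos_right h1 (Real.exp_pos _)) (hflux0 x s (hsub hs))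
    have hP' : ∀ s ∈ Ico a t, P s x = 0 := fun s hs => by
      have hsI := hsub (Ico_subset_Icc_self hs)
      have hd := ((hUx x s hsI).inner ℝ (hPx x s hsI)).mono hsub
      have hd0 : HasDerivWithinAt (fun r => ⟪U r x, P r x⟫) (0 : ℝ) (Icc a t) s :=
        (hasDerivWithinAt_const s _ 0).congr hzero (hzero s (Ico_subset_Icc_self hs))
      have he := (uniqueDiffOn_Icc (hs.1.trans_lt hs.2) s (Ico_subset_Icc_self hs)).eq_deriv _ hd hd0
      have hz := hzero s (Ico_subset_Icc_self hs)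
      simp only [inner_sub_right, real_inner_smul_right, hz, mul_zero, sub_zero] at he
      have h1 := hA0 s (U s x)
      have h2 := real_inner_self_nonneg (x := P s x)
      exact inner_self_eq_zero (𝕜 := ℝ).1 (le_antisymm (by linarith) h2)
    have hconst := constant_of_has_deriv_right_zero (f := fun s => U s x)
      (fun s hs => ((hUx x s (hsub hs)).continuousWithinAt).mono hsub)
      (fun s hs => by
        have h := hUx x s (hsub (Ico_subset_Icc_self hs))
        rw [hP' s hs] at h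
        exact h.mono_of_mem_nhdsWithin (Icc_mem_nhdsGE_of_mem ⟨hs.1, hs.2.trans_le ht.2⟩))
      t ⟨ht.1, le_rfl⟩
    simpa [hx, hU0] using hconst.symm
  have hunit : ∀ t ∈ Icc a b, IsUnit (U t) := fun t ht => by
    have hi : Function.Injective (U t) := (injective_iff_map_eq_zero (U t)).2 (hinj t ht)
    exact ContinuousLinearMap.isUnit_iff_bijective.2
      ⟨hi, (LinearMap.injective_iff_surjective (f := (U t).toLinearMap)).1 hi⟩
  set D := fun t => P t * Ring.inverse (U t)
  have hDU : ∀ t ∈ Icc a b, D t * U t = P t := fun t ht => by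
    simp only [D, mul_assoc, Ring.inverse_mul_cancel _ (hunit t ht), mul_one]
  have hDP : ∀ t ∈ Icc a b, ∀ x, D t (U t x) = P t x := fun t ht x => by
    rw [← mul_apply_eq_comp, hDU t ht]
  have hsurj : ∀ t ∈ Icc a b, Function.Surjective (U t) := fun t ht =>
    (ContinuousLinearMap.isUnit_iff_bijective.1 (hunit t ht)).2
  refine ⟨D, U, ?_, hU0, fun t ht => ⟨?_, ?_, hunit t ht, ?_, ?_⟩⟩
  · simp [D, hU0, hP0]
  · have hi : HasDerivWithinAt (fun s => Ring.inverse (U s))
        (-Ring.inverse (U t) * P t * Ring.inverse (U t)) (Icc a b) t := by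
      have h1 := (hasFDerivAt_ringInverse (hunit t ht).unit).comp_hasDerivWithinAt_of_eq t
        (hU t ht) rfl
      refine h1.congr_deriv ?_
      have e : ((hunit t ht).unit⁻¹ : (V →L[ℝ] V)ˣ) = Ring.inverse (U t) := by
        conv_rhs => rw [← (hunit t ht).unit_spec, Ring.inverse_unit]
      simp [e]
    refine ((hP t ht).mul hi).congr_deriv ?_
    simp only [D, sub_mul, smul_mul_assoc, mul_assoc,
      Ring.mul_inverse_cancel _ (hunit t ht), mul_one, mul_neg, neg_mul]
    abel
  · exact (hU t ht).congr_deriv (hDU t ht).symm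
  · intro x y
    obtain ⟨x, rfl⟩ := hsurj t ht x
    obtain ⟨y, rfl⟩ := hsurj t ht y
    rw [hDP t ht, hDP t ht]
    have hd : ∀ s ∈ Icc a b, HasDerivWithinAt (fun s => ⟪P s x, U s y⟫ - ⟪U s x, P s y⟫)
        (-c s * (⟪P s x, U s y⟫ - ⟪U s x, P s y⟫)) (Icc a b) s := fun s hs => by
      refine (((hPx x s hs).inner ℝ (hUx y s hs)).sub
        ((hUx x s hs).inner ℝ (hPx y s hs))).congr_deriv ?_
      simp only [inner_sub_left, inner_sub_right, real_inner_smul_left, real_inner_smul_right,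
        hAs s (U s x) (U s y)]
      ring
    have h1 := monotoneOn_exp_mul hc hd (fun s _ => le_of_eq (by ring)) ⟨le_rfl, hab⟩ ht ht.1
    have h2 := monotoneOn_exp_mul hc (fun s hs => (hd s hs).neg)
      (fun s _ => le_of_eq (by simp only [Pi.neg_apply]; ring)) ⟨le_rfl, hab⟩ ht ht.1
    simp only [intervalIntegral.integral_same, Real.exp_zero, one_mul, hU0, hP0,
      one_apply_eq_self, hΛs x y, sub_self, neg_zero, Pi.neg_apply, mul_neg, le_neg,
      neg_nonpos] at h1 h2
    have h3 := mul_eq_zero.1 (le_antisymm h2 h1)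
    exact sub_eq_zero.1 (h3.resolve_left (Real.exp_pos _).ne')
  · intro x
    obtain ⟨x, rfl⟩ := hsurj t ht x
    rw [hDP t ht]
    exact hflux0 x t ht

/-- The barrier: the Dirichlet-to-Neumann map varies as slowly as the coefficients. -/
theorem dtn_barrier (hab : a ≤ b) {A A' D : ℝ → V →L[ℝ] V} {c c' : ℝ → ℝ} {ε : ℝ} (hε : 0 ≤ ε)
    (hc : Continuous c) (hc0 : ∀ t ∈ Icc a b, 0 ≤ c t)
    (hA : ∀ t ∈ Icc a b, HasDerivWithinAt A (A' t) (Icc a b) t)
    (hc' : ∀ t ∈ Icc a b, HasDerivWithinAt c (c' t) (Icc a b) t)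
    (hA' : ∀ t ∈ Icc a b, ∀ x : V, |⟪x, A' t x⟫| ≤ ε * ⟪x, A t x⟫)
    (hcε : ∀ t ∈ Icc a b, |c' t| ≤ 2 * ε)
    (hD : ∀ t ∈ Icc a b, HasDerivWithinAt D (A t - D t * D t - c t • D t) (Icc a b) t)
    (hDs : ∀ t ∈ Icc a b, ∀ x y : V, ⟪D t x, y⟫ = ⟪x, D t y⟫)
    (hD0 : ∀ t ∈ Icc a b, ∀ x : V, 0 ≤ ⟪x, D t x⟫)
    (ha : A a = D a * D a + c a • D a) :
    ∀ t ∈ Icc a b, ∀ x : V,
      |⟪x, (A t - D t * D t - c t • D t) x⟫| ≤ ε * (⟪x, D t x⟫ + ‖x‖ ^ 2) := by
  set F := fun t => A t - D t * D t - c t • D t with hF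
  set F' := fun t => A' t - (F t * D t + D t * F t) - (c t • F t + c' t • D t)
  have hF' : ∀ t ∈ Icc a b, HasDerivWithinAt F (F' t) (Icc a b) t := fun t ht =>
    ((hA t ht).sub ((hD t ht).mul (hD t ht))).sub ((hc' t ht).smul (hD t ht))
  set M := fun t => D t + (c t / 2) • (1 : V →L[ℝ] V)
  have hM : ContinuousOn M (Icc a b) := fun t ht => ((hD t ht).continuousWithinAt).add
    (((hc.div_const 2).continuousWithinAt).smul continuousWithinAt_const)
  have hMs : ∀ t ∈ Icc a b, ∀ x y : V, ⟪M t x, y⟫ = ⟪x, M t y⟫ := fun t ht x y => by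
    simp [M, inner_add_left, inner_add_right, real_inner_smul_left, real_inner_smul_right,
      hDs t ht]
  have hF0 : F a = 0 := by simp only [hF, ha]; abel
  have key : ∀ σ : ℝ, |σ| = 1 → ∀ t ∈ Icc a b, ∀ x : V,
      0 ≤ ⟪x, (ε • (D t + 1) - σ • F t) x⟫ := by
    intro σ hσ
    refine nonneg_preserved hM hMs (G' := fun t => ε • F t - σ • F' t)
      (fun t ht => (((hD t ht).add_const (1 : V →L[ℝ] V)).const_smul ε).sub
        ((hF' t ht).const_smul σ)) (fun t ht x => ?_) fun x => ?_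
    · have e : ε • F t - σ • F' t + M t * (ε • (D t + 1) - σ • F t) +
          (ε • (D t + 1) - σ • F t) * M t =
          ε • (A t + D t * D t + (2 : ℝ) • D t + c t • 1) - σ • (A' t - c' t • D t) := by
        simp only [hF, F', M, add_mul, mul_add, sub_mul, mul_sub, one_mul, mul_one,
          smul_mul_assoc, mul_smul_comm]
        module
      rw [e]
      simp only [add_apply, sub_apply, smul_apply, mul_apply_eq_comp, one_apply_eq_self, inner_add_right,
        inner_sub_right, real_inner_smul_right, ← hDs t ht x (D t x)]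
      have h1 : σ * ⟪x, A' t x⟫ ≤ ε * ⟪x, A t x⟫ := by
        refine (le_abs_self _).trans ?_
        rw [abs_mul, hσ, one_mul]
        exact hA' t ht x
      have h2 : -(2 * ε * ⟪x, D t x⟫) ≤ σ * (c' t * ⟪x, D t x⟫) := by
        refine le_trans (neg_le_neg ?_) (neg_abs_le _)
        rw [abs_mul, hσ, one_mul, abs_mul, abs_of_nonneg (hD0 t ht x)]
        exact mul_le_mul_of_nonneg_right (hcε t ht) (hD0 t ht x)
      linarith [mul_nonneg hε (real_inner_self_nonneg (x := D t x)),
        mul_nonneg hε (mul_nonneg (hc0 t ht) (real_inner_self_nonneg (x := x)))]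
    · simp only [hF0, smul_zero, sub_zero, smul_apply, add_apply, one_apply_eq_self,
        real_inner_smul_right, inner_add_right]
      exact mul_nonneg hε (add_nonneg (hD0 a ⟨le_rfl, hab⟩ x) real_inner_self_nonneg)
  intro t ht x
  have h1 := key 1 abs_one t ht x
  have h2 := key (-1) (by norm_num) t ht x
  simp only [one_smul, neg_smul, sub_neg_eq_add, sub_apply, add_apply, smul_apply,
    one_apply_eq_self, inner_add_right, inner_sub_right, real_inner_smul_right,
    real_inner_self_eq_norm_sq] at h1 h2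
  simp only [sub_apply, inner_sub_right, smul_apply, real_inner_smul_right]
  simp only [hF, sub_apply, inner_sub_right, smul_apply, real_inner_smul_right] at h1 h2
  rw [abs_le]
  constructor <;> linarith

end

end Vale.Agent.P225.Disproof
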