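import Vale.Agent.P225.Disproof.Rot
import Vale.Agent.P225.Disproof.Riccati
import Vale.Agent.P225.ODE

/-!
# P225: the Galerkin spaces

`Gal N` is the space of harmonic polynomials of degree at most `N` in three variables with the
inner product of their restrictions to the sphere. `degOp` multiplies each homogeneous part by its
degree and `formOp N b` is the operator of the form `∫ ∑ b i j · rot i p · rot j q`; for the round
coefficients `b i j = δ i j` it is `degOp² + degOp`.
-/

namespace Vale.Agent.P225.Disproof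

open MvPolynomial MeasureTheory Set
open scoped RealInnerProductSpace

noncomputable section

/-- Harmonic polynomials of degree at most `N`. -/
def harmUpTo (N : ℕ) : Submodule ℝ (MvPolynomial (Fin 3) ℝ) :=
  restrictTotalDegree (Fin 3) ℝ N ⊓ LinearMap.ker (lapL 3)

theorem mem_harmUpTo {N : ℕ} {p : MvPolynomial (Fin 3) ℝ} :
    p ∈ harmUpTo N ↔ p.totalDegree ≤ N ∧ lapP p = 0 := by
  rw [harmUpTo, Submodule.mem_inf, mem_restrictTotalDegree, LinearMap.mem_ker]
  rfl

/-- A polynomial on the sphere. -/
def res (p : MvPolynomial (Fin 3) ℝ) (θ : Sph 3) : ℝ := evalFun p (θ : Space 3)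

theorem continuous_res (p : MvPolynomial (Fin 3) ℝ) : Continuous (res p) :=
  (contDiff_evalFun p (m := 0)).continuous.comp continuous_subtype_val

theorem res_add (p q : MvPolynomial (Fin 3) ℝ) (θ : Sph 3) : res (p + q) θ = res p θ + res q θ := by
  simp [res, evalFun]

theorem res_smul (r : ℝ) (p : MvPolynomial (Fin 3) ℝ) (θ : Sph 3) :
    res (r • p) θ = r * res p θ := by simp [res, evalFun]

/-- The inner product of the restrictions to the sphere. -/
def sphIp (p q : MvPolynomial (Fin 3) ℝ) : ℝ := ∫ θ, res p θ * res q θ ∂(sig 3)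

theorem sphIp_comm (p q : MvPolynomial (Fin 3) ℝ) : sphIp p q = sphIp q p := by
  simp only [sphIp, mul_comm]

theorem sphIp_add (p q r : MvPolynomial (Fin 3) ℝ) :
    sphIp (p + q) r = sphIp p r + sphIp q r := by
  simp only [sphIp, res_add, add_mul]
  exact integral_add (integrable_sig ((continuous_res p).mul (continuous_res r)))
    (integrable_sig ((continuous_res q).mul (continuous_res r)))

theorem sphIp_smul (a : ℝ) (p r : MvPolynomial (Fin 3) ℝ) :
    sphIp (a • p) r = a * sphIp p r := by
  simp only [sphIp, res_smul, mul_assoc, integral_const_mul]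

/-- The rotation fields are skew on the sphere. -/
theorem sphIp_rotP (i : Fin 3) (p q : MvPolynomial (Fin 3) ℝ) :
    sphIp (rotP i p) q = -sphIp p (rotP i q) := by
  have h := integral_rot (contDiff_evalFun (p * q) (m := 1)) i
  rw [rot_evalFun] at h
  simp only [Derivation.leibniz, smul_eq_mul, evalFun, map_add, map_mul] at h
  rw [integral_add] at h
  · simp only [sphIp, res, evalFun]
    simp only [mul_comm (MvPolynomial.eval _ q)] at h
    linarith
  · exact integrable_sig ((continuous_res p).mul (continuous_res (rotP i q)))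
  · exact integrable_sig ((continuous_res q).mul (continuous_res (rotP i p)))

/-- Homogeneous harmonic polynomials of different degrees are orthogonal on the sphere. -/
theorem sphIp_eq_zero {i j : ℕ} (hij : i ≠ j) {p q : MvPolynomial (Fin 3) ℝ}
    (hp : p.IsHomogeneous i) (hpl : lapP p = 0) (hq : q.IsHomogeneous j) (hql : lapP q = 0) :
    sphIp p q = 0 := by
  have hc : ∀ {l : ℕ} {u : MvPolynomial (Fin 3) ℝ} (v : MvPolynomial (Fin 3) ℝ),
      u.IsHomogeneous l → lapP u = 0 →
      sphIp (∑ k, rotP k (rotP k u)) v = -((l : ℝ) * (l + 1)) * sphIp u v :=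
    fun v hu hul => by
      rw [casimir hu hul, neg_mul, ← MvPolynomial.smul_eq_C_mul, ← neg_smul, sphIp_smul]
  have h1 := hc q hp hpl
  have h2 := hc p hq hql
  have hsum : ∀ u v : MvPolynomial (Fin 3) ℝ, sphIp (∑ k, rotP k (rotP k u)) v =
      -∑ k, sphIp (rotP k u) (rotP k v) := fun u v => by
    simp only [Fin.sum_univ_three, sphIp_add, sphIp_rotP _ (rotP _ u) v]
    ring
  rw [hsum] at h1 h2
  simp only [fun k => sphIp_comm (rotP k q) (rotP k p), sphIp_comm q p] at h2
  have h3 : ((i : ℝ) * (i + 1) - j * (j + 1)) * sphIp p q = 0 := by linarith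
  refine (mul_eq_zero.1 h3).resolve_left ?_
  rcases Nat.lt_or_gt_of_ne hij with h | h
  · have : (i : ℝ) < j := Nat.cast_lt.2 h
    nlinarith
  · have : (j : ℝ) < i := Nat.cast_lt.2 h
    nlinarith

theorem component_mem {N : ℕ} {p : MvPolynomial (Fin 3) ℝ} (hp : p ∈ harmUpTo N) (l : ℕ) :
    homogeneousComponent l p ∈ harmUpTo N := by
  obtain ⟨h1, h2⟩ := mem_harmUpTo.1 hp
  refine mem_harmUpTo.2 ⟨?_, lapP_homogeneousComponent l p h2⟩
  rcases le_or_gt l N with hl | hl
  · exact (homogeneousComponent_isHomogeneous l p).totalDegree_le.trans hl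
  · rw [homogeneousComponent_eq_zero l p (by omega)]
    simp

theorem sum_components {N : ℕ} {p : MvPolynomial (Fin 3) ℝ} (hp : p.totalDegree ≤ N) :
    ∑ l ∈ Finset.range (N + 1), homogeneousComponent l p = p := by
  conv_rhs => rw [← sum_homogeneousComponent p]
  exact (Finset.sum_subset (Finset.range_mono (by omega)) fun l _ hl =>
    homogeneousComponent_eq_zero l p (by simp at hl; omega)).symm

/-- Expansion of the inner product in homogeneous parts. -/
theorem sphIp_components {N : ℕ} {p q : MvPolynomial (Fin 3) ℝ} (hp : p ∈ harmUpTo N)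
    (hq : q ∈ harmUpTo N) : sphIp p q =
      ∑ l ∈ Finset.range (N + 1), sphIp (homogeneousComponent l p) (homogeneousComponent l q) := by
  obtain ⟨hp1, hp2⟩ := mem_harmUpTo.1 hp
  obtain ⟨hq1, hq2⟩ := mem_harmUpTo.1 hq
  have hlin : ∀ (s : Finset ℕ) (f : ℕ → MvPolynomial (Fin 3) ℝ) r,
      sphIp (∑ l ∈ s, f l) r = ∑ l ∈ s, sphIp (f l) r := fun s f r => by
    induction s using Finset.induction_on with
    | empty => simp [sphIp, res, evalFun]
    | insert a s ha ih => rw [Finset.sum_insert ha, Finset.sum_insert ha, sphIp_add, ih]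
  conv_lhs => rw [← sum_components hp1, hlin]
  refine Finset.sum_congr rfl fun l hl => ?_
  conv_lhs => rw [sphIp_comm, ← sum_components hq1, hlin]
  rw [Finset.sum_eq_single l, sphIp_comm]
  · exact fun m _ hm => sphIp_eq_zero hm (homogeneousComponent_isHomogeneous m q)
      (lapP_homogeneousComponent m q hq2) (homogeneousComponent_isHomogeneous l p)
      (lapP_homogeneousComponent l p hp2)
  · exact fun h => absurd hl h

/-- A harmonic polynomial vanishing on the sphere vanishes. -/
theorem eq_zero_of_sphIp {N : ℕ} {p : MvPolynomial (Fin 3) ℝ} (hp : p ∈ harmUpTo N)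
    (h : sphIp p p = 0) : p = 0 := by
  rw [sphIp_components hp hp, Finset.sum_eq_zero_iff_of_nonneg fun l _ =>
    integral_nonneg fun θ => mul_self_nonneg _] at h
  rw [← sum_components (mem_harmUpTo.1 hp).1]
  refine Finset.sum_eq_zero fun l hl => ?_
  set q := homogeneousComponent l p
  have hs : ∀ θ, res q θ = 0 := fun θ => by
    have h0 : (fun θ => res q θ * res q θ) = 0 :=
      ((continuous_res q).mul (continuous_res q)).ae_eq_iff_eq (sig 3) continuous_const |>.1
        ((integral_eq_zero_iff_of_nonneg (fun θ => mul_self_nonneg (res q θ))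
          (integrable_sig ((continuous_res q).mul (continuous_res q)))).1 (h l hl))
    exact mul_self_eq_zero.1 (congrFun h0 θ)
  refine evalFun_injective q fun x => ?_
  have hne : ∀ y : Space 3, y ≠ 0 → evalFun q y = 0 := fun y hy => by
    have e := evalFun_smul_point (homogeneousComponent_isHomogeneous l p) ‖y‖ (‖y‖⁻¹ • y)
    rw [smul_smul, mul_inv_cancel₀ (norm_ne_zero_iff.2 hy), one_smul] at e
    have hy1 : evalFun q (‖y‖⁻¹ • y) = 0 := hs ⟨‖y‖⁻¹ • y, by simp [norm_smul, hy]⟩
    rw [e, hy1, mul_zero]
  by_cases hx : x = 0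
  · have hc : Continuous fun t : ℝ => evalFun q (t • EuclideanSpace.single (0 : Fin 3) (1 : ℝ)) :=
      (contDiff_evalFun q (m := 0)).continuous.comp (continuous_id.smul continuous_const)
    have heq : (fun t : ℝ => evalFun q (t • EuclideanSpace.single (0 : Fin 3) (1 : ℝ))) = 0 :=
      hc.ext_on (dense_compl_singleton (0 : ℝ)) continuous_const fun t ht =>
        hne _ (smul_ne_zero ht (by simp))
    simpa [hx] using congrFun heq 0
  · exact hne x hx

/-- The Galerkin space. -/
def Gal (N : ℕ) : Type := ↥(harmUpTo N)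

instance (N : ℕ) : AddCommGroup (Gal N) := inferInstanceAs (AddCommGroup ↥(harmUpTo N))

instance (N : ℕ) : Module ℝ (Gal N) := inferInstanceAs (Module ℝ ↥(harmUpTo N))

instance (N : ℕ) : FiniteDimensional ℝ (Gal N) :=
  Submodule.finiteDimensional_of_le (inf_le_left :
    harmUpTo N ≤ restrictTotalDegree (Fin 3) ℝ N)

/-- The polynomial of an element. -/
def Gal.poly {N : ℕ} : Gal N →ₗ[ℝ] MvPolynomial (Fin 3) ℝ := (harmUpTo N).subtype

theorem Gal.mem {N : ℕ} (p : Gal N) : p.poly ∈ harmUpTo N := Subtype.prop _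

theorem Gal.ext {N : ℕ} {p q : Gal N} (h : p.poly = q.poly) : p = q := Subtype.ext h

/-- An element from a polynomial. -/
def Gal.mk {N : ℕ} (p : MvPolynomial (Fin 3) ℝ) (h : p ∈ harmUpTo N) : Gal N := ⟨p, h⟩

theorem Gal.poly_mk {N : ℕ} (p : MvPolynomial (Fin 3) ℝ) (h : p ∈ harmUpTo N) :
    (Gal.mk p h).poly = p := rfl

/-- The inner product axioms. -/
def galCore (N : ℕ) : InnerProductSpace.Core ℝ (Gal N) where
  inner p q := sphIp p.poly q.poly
  conj_inner_symm p q := by simp [sphIp_comm]
  re_inner_nonneg p := integral_nonneg fun θ => mul_self_nonneg _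
  add_left p q r := by simp only [map_add, sphIp_add]
  smul_left p q r := by simp only [map_smul, sphIp_smul]; simp
  definite p h := Gal.ext (by rw [eq_zero_of_sphIp p.mem h, map_zero])

instance (N : ℕ) : NormedAddCommGroup (Gal N) :=
  @InnerProductSpace.Core.toNormedAddCommGroup ℝ _ _ _ _ (galCore N)

instance (N : ℕ) : InnerProductSpace ℝ (Gal N) := InnerProductSpace.ofCore (galCore N).toCore

theorem inner_gal {N : ℕ} (p q : Gal N) : ⟪p, q⟫ = sphIp p.poly q.poly := rfl

theorem rotP_mem {N : ℕ} (i : Fin 3) {p : MvPolynomial (Fin 3) ℝ} (hp : p ∈ harmUpTo N) :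
    rotP i p ∈ harmUpTo N := by
  obtain ⟨h1, h2⟩ := mem_harmUpTo.1 hp
  refine mem_harmUpTo.2 ⟨?_, by rw [lapP_rotP, h2, map_zero]⟩
  rw [← sum_components h1, map_sum]
  refine (totalDegree_finset_sum _ _).trans (Finset.sup_le fun l hl => ?_)
  exact (rotP_hom i (homogeneousComponent_isHomogeneous l p)).totalDegree_le.trans
    (Finset.mem_range_succ_iff.1 hl)

/-- A rotation on the Galerkin space. -/
def rotG {N : ℕ} (i : Fin 3) : Gal N →L[ℝ] Gal N :=
  LinearMap.toContinuousLinearMap
    { toFun := fun p => Gal.mk (rotP i p.poly) (rotP_mem i p.mem)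
      map_add' := fun p q => Gal.ext (by simp [Gal.poly_mk, map_add])
      map_smul' := fun r p => Gal.ext (by simp [Gal.poly_mk, map_smul]) }

theorem poly_rotG {N : ℕ} (i : Fin 3) (p : Gal N) : (rotG i p).poly = rotP i p.poly := rfl

theorem inner_rotG {N : ℕ} (i : Fin 3) (p q : Gal N) : ⟪rotG i p, q⟫ = -⟪p, rotG i q⟫ :=
  sphIp_rotP i _ _

/-- The form with coefficients `b`. -/
def bForm (b : Sph 3 → Fin 3 → Fin 3 → ℝ) (p q : MvPolynomial (Fin 3) ℝ) : ℝ :=
  ∫ θ, ∑ i, ∑ j, b θ i j * res (rotP i p) θ * res (rotP j q) θ ∂(sig 3)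

/-- The operator of the form, in an orthonormal basis. -/
def formOp (N : ℕ) (b : Sph 3 → Fin 3 → Fin 3 → ℝ) : Gal N →L[ℝ] Gal N :=
  ∑ k : Fin (Module.finrank ℝ (Gal N)), ∑ l : Fin (Module.finrank ℝ (Gal N)),
    bForm b (stdOrthonormalBasis ℝ (Gal N) k).poly (stdOrthonormalBasis ℝ (Gal N) l).poly •
      (innerSL ℝ (stdOrthonormalBasis ℝ (Gal N) k)).smulRight (stdOrthonormalBasis ℝ (Gal N) l)

variable {b : Sph 3 → Fin 3 → Fin 3 → ℝ}

theorem bForm_add (hb : Continuous b) (p q r : MvPolynomial (Fin 3) ℝ) :
    bForm b (p + q) r = bForm b p r + bForm b q r := by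
  have hb' : ∀ i j, Continuous fun θ => b θ i j := fun i j =>
    (continuous_apply j).comp ((continuous_apply i).comp hb)
  have hi : ∀ u : MvPolynomial (Fin 3) ℝ, Integrable (fun θ => ∑ i, ∑ j,
      b θ i j * res (rotP i u) θ * res (rotP j r) θ) (sig 3) := fun u =>
    integrable_sig (continuous_finsetSum _ fun i _ => continuous_finsetSum _ fun j _ =>
      ((hb' i j).mul (continuous_res _)).mul (continuous_res _))
  rw [bForm, bForm, bForm, ← integral_add (hi p) (hi q)]
  congr 1
  funext θ
  simp only [map_add, res_add, mul_add, add_mul, Finset.sum_add_distrib]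

theorem bForm_smul (a : ℝ) (p r : MvPolynomial (Fin 3) ℝ) :
    bForm b (a • p) r = a * bForm b p r := by
  rw [bForm, bForm, ← integral_const_mul]
  congr 1
  funext θ
  simp only [Derivation.map_smul, res_smul, Finset.mul_sum]
  exact Finset.sum_congr rfl fun i _ => Finset.sum_congr rfl fun j _ => by ring

theorem bForm_comm (hs : ∀ θ i j, b θ i j = b θ j i) (p q : MvPolynomial (Fin 3) ℝ) :
    bForm b p q = bForm b q p := by
  rw [bForm, bForm]
  congr 1
  funext θ
  rw [Finset.sum_comm]
  exact Finset.sum_congr rfl fun i _ => Finset.sum_congr rfl fun j _ => by rw [hs θ j i]; ring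

/-- The form and its operator agree. -/
theorem inner_formOp (hb : Continuous b) (hs : ∀ θ i j, b θ i j = b θ j i) {N : ℕ}
    (p q : Gal N) : ⟪formOp N b p, q⟫ = bForm b p.poly q.poly := by
  set e := stdOrthonormalBasis ℝ (Gal N)
  have hsum : ∀ (v : MvPolynomial (Fin 3) ℝ) (w : Gal N),
      bForm b w.poly v = ∑ k, ⟪e k, w⟫ * bForm b (e k).poly v := fun v w => by
    have hL : ∀ s : Finset (Fin (Module.finrank ℝ (Gal N))),
        bForm b (∑ k ∈ s, ⟪e k, w⟫ • e k).poly v = ∑ k ∈ s, ⟪e k, w⟫ * bForm b (e k).poly v := by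
      intro s
      induction s using Finset.induction_on with
      | empty => simp [bForm, res, evalFun]
      | insert a s ha ih =>
        rw [Finset.sum_insert ha, Finset.sum_insert ha, map_add, map_smul, bForm_add hb, bForm_smul,
          ih]
    rw [← hL, e.sum_repr' w]
  calc ⟪formOp N b p, q⟫ = ∑ k, ∑ l, bForm b (e k).poly (e l).poly * (⟪e k, p⟫ * ⟪e l, q⟫) := by
        simp only [formOp, sum_apply, smul_apply, ContinuousLinearMap.smulRight_apply,
          innerSL_apply_apply, sum_inner, real_inner_smul_left]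
        rfl
    _ = ∑ k, ⟪e k, p⟫ * bForm b (e k).poly q.poly := by
        refine Finset.sum_congr rfl fun k _ => ?_
        rw [bForm_comm hs (e k).poly q.poly, hsum (e k).poly q, Finset.mul_sum]
        exact Finset.sum_congr rfl fun l _ => by rw [bForm_comm hs (e l).poly]; ring
    _ = bForm b p.poly q.poly := (hsum q.poly p).symm

/-- Multiplication of each homogeneous part by its degree. -/
def degOp (N : ℕ) : Gal N →L[ℝ] Gal N :=
  LinearMap.toContinuousLinearMap
    { toFun := fun p => ∑ l ∈ Finset.range (N + 1),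
        (l : ℝ) • Gal.mk (homogeneousComponent l p.poly) (component_mem p.mem l)
      map_add' := fun p q => by
        rw [← Finset.sum_add_distrib]
        exact Finset.sum_congr rfl fun l _ => by
          rw [← smul_add]; congr 1; exact Gal.ext (by simp [Gal.poly_mk, map_add])
      map_smul' := fun r p => by
        rw [Finset.smul_sum]
        exact Finset.sum_congr rfl fun l _ => by
          rw [RingHom.id_apply, smul_comm r]; congr 1
          exact Gal.ext (by simp [Gal.poly_mk, map_smul]) }

/-- The homogeneous part of an element. -/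
def part {N : ℕ} (l : ℕ) (p : Gal N) : Gal N :=
  Gal.mk (homogeneousComponent l p.poly) (component_mem p.mem l)

theorem inner_part {N : ℕ} {l : ℕ} (p q : Gal N) : ⟪part l p, q⟫ = ⟪part l p, part l q⟫ := by
  rw [inner_gal, inner_gal, sphIp_components (part l p).mem q.mem]
  rcases le_or_gt l N with hl | hl
  · rw [Finset.sum_eq_single l]
    · simp [part, Gal.poly_mk, homogeneousComponent_of_mem (homogeneousComponent_isHomogeneous l _)]
    · intro m _ hm
      simp [part, Gal.poly_mk, homogeneousComponent_of_mem (homogeneousComponent_isHomogeneous l _),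
        hm, sphIp, res, evalFun]
    · exact fun h => absurd (Finset.mem_range_succ_iff.2 hl) h
  · have hz : (part l p).poly = 0 := homogeneousComponent_eq_zero l _
      (lt_of_le_of_lt (mem_harmUpTo.1 p.mem).1 hl)
    simp [hz, sphIp, res, evalFun]

theorem sum_part {N : ℕ} (p : Gal N) : ∑ l ∈ Finset.range (N + 1), part l p = p :=
  Gal.ext (by rw [map_sum]; exact sum_components (mem_harmUpTo.1 p.mem).1)

theorem inner_degOp {N : ℕ} (p q : Gal N) :
    ⟪degOp N p, q⟫ = ∑ l ∈ Finset.range (N + 1), (l : ℝ) * ⟪part l p, part l q⟫ := by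
  show ⟪∑ l ∈ Finset.range (N + 1), (l : ℝ) • part l p, q⟫ = _
  rw [sum_inner]
  exact Finset.sum_congr rfl fun l _ => by rw [real_inner_smul_left, inner_part]

theorem degOp_symm {N : ℕ} (p q : Gal N) : ⟪degOp N p, q⟫ = ⟪p, degOp N q⟫ := by
  rw [inner_degOp, real_inner_comm, inner_degOp]
  simp only [real_inner_comm (part _ q)]

theorem degOp_nonneg {N : ℕ} (p : Gal N) : 0 ≤ ⟪p, degOp N p⟫ := by
  rw [real_inner_comm, inner_degOp]
  exact Finset.sum_nonneg fun l _ => mul_nonneg (Nat.cast_nonneg l) real_inner_self_nonneg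

/-- The round coefficients. -/
def roundB : Sph 3 → Fin 3 → Fin 3 → ℝ := fun _ i j => if i = j then 1 else 0

/-- The round form is `l (l + 1)` in degree `l`. -/
theorem bForm_round {N : ℕ} (p q : Gal N) :
    bForm roundB p.poly q.poly =
      ∑ l ∈ Finset.range (N + 1), (l : ℝ) * (l + 1) * ⟪part l p, part l q⟫ := by
  have h1 : bForm roundB p.poly q.poly = ∑ i, ⟪rotG i p, rotG i q⟫ := by
    rw [bForm]
    simp only [roundB, ite_mul, one_mul, zero_mul, Finset.sum_ite_eq, Finset.mem_univ, if_true]
    rw [integral_finsetSum _ fun i _ => ?_]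
    · rfl
    · exact integrable_sig ((continuous_res _).mul (continuous_res _))
  rw [h1]
  have h2 : ∀ l, ∀ i, rotG i (part l p) = part l (rotG i p) := fun l i => Gal.ext (by
    simp only [poly_rotG, part, Gal.poly_mk]
    conv_rhs => rw [← sum_components (mem_harmUpTo.1 p.mem).1, map_sum, map_sum]
    rcases le_or_gt l N with hl | hl
    · rw [Finset.sum_eq_single l]
      · rw [homogeneousComponent_of_mem (rotP_hom i (homogeneousComponent_isHomogeneous l _))]
        simp
      · intro m _ hm
        rw [homogeneousComponent_of_mem (rotP_hom i (homogeneousComponent_isHomogeneous m _)),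
          if_neg (Ne.symm hm)]
      · exact fun h => absurd (Finset.mem_range_succ_iff.2 hl) h
    · rw [homogeneousComponent_eq_zero l _ (lt_of_le_of_lt (mem_harmUpTo.1 p.mem).1 hl), map_zero]
      refine (Finset.sum_eq_zero fun m hm => ?_).symm
      rw [homogeneousComponent_of_mem (rotP_hom i (homogeneousComponent_isHomogeneous m _)),
        if_neg (by have := Finset.mem_range_succ_iff.1 hm; omega)])
  have h3 : ∀ l, ∑ i, ⟪rotG i (part l p), rotG i q⟫ = (l : ℝ) * (l + 1) * ⟪part l p, q⟫ := by
    intro l
    have e : ∑ i, rotG i (rotG i (part l p)) = -((l : ℝ) * (l + 1)) • part l p := Gal.ext (by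
      simp only [map_sum, poly_rotG, map_smul, part, Gal.poly_mk]
      rw [casimir (homogeneousComponent_isHomogeneous l _)
        (lapP_homogeneousComponent l _ (mem_harmUpTo.1 p.mem).2), smul_eq_C_mul, map_neg])
    calc ∑ i, ⟪rotG i (part l p), rotG i q⟫ = -⟪∑ i, rotG i (rotG i (part l p)), q⟫ := by
          rw [sum_inner, ← Finset.sum_neg_distrib]
          exact Finset.sum_congr rfl fun i _ => by rw [inner_rotG i (rotG i (part l p)) q, neg_neg]
      _ = _ := by rw [e, real_inner_smul_left]; ring
  calc ∑ i, ⟪rotG i p, rotG i q⟫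
      = ∑ i, ∑ l ∈ Finset.range (N + 1), ⟪rotG i (part l p), rotG i q⟫ := by
        refine Finset.sum_congr rfl fun i _ => ?_
        rw [← sum_inner, ← map_sum, sum_part]
    _ = ∑ l ∈ Finset.range (N + 1), (l : ℝ) * (l + 1) * ⟪part l p, part l q⟫ := by
        rw [Finset.sum_comm]
        exact Finset.sum_congr rfl fun l _ => by rw [h3, inner_part]

theorem part_part {N : ℕ} (m l : ℕ) (p : Gal N) : part m (part l p) = if m = l then part l p else 0 :=
  Gal.ext (by
    simp only [part, Gal.poly_mk]
    rw [homogeneousComponent_of_mem (homogeneousComponent_isHomogeneous l _)]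
    split_ifs <;> simp [part, Gal.poly_mk])

/-- The initial condition of the Riccati equation. -/
theorem formOp_round (N : ℕ) : formOp N roundB = degOp N * degOp N + degOp N := by
  refine ContinuousLinearMap.ext fun p => ext_inner_right ℝ fun q => ?_
  rw [inner_formOp (b := roundB) (by exact continuous_const) (fun θ i j => by simp [roundB, eq_comm]),
    bForm_round,
    add_apply, mul_apply_eq_comp, inner_add_left, degOp_symm (degOp N p) q, inner_degOp,
    inner_degOp, ← Finset.sum_add_distrib]
  refine Finset.sum_congr rfl fun l hl => ?_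
  have e : part l (degOp N q) = (l : ℝ) • part l q := by
    show part l (∑ m ∈ Finset.range (N + 1), (m : ℝ) • part m q) = _
    refine Gal.ext ?_
    show homogeneousComponent l (∑ m ∈ Finset.range (N + 1), (m : ℝ) • part m q).poly = _
    simp only [map_sum, map_smul]
    rw [Finset.sum_eq_single l]
    · exact congrArg (fun r : Gal N => (l : ℝ) • r.poly) ((part_part l l q).trans (if_pos rfl))
    · intro m _ hm
      have h0 : part l (part m q) = 0 := (part_part l m q).trans (if_neg (Ne.symm hm))
      rw [show homogeneousComponent l (part m q).poly = (part l (part m q)).poly from rfl, h0]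
      simp
    · exact fun h => absurd hl h
  rw [e, real_inner_smul_right]
  ring

end

end Vale.Agent.P225.Disproof
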