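import Vale.Agent.P225.Disproof.GalerkinGap

/-!
# P225: pencil frames as frames of low planes of the Galerkin trace map

`galOf N` carries a vector of `L2S` to the Galerkin space, independently of the weight; the
constant and the images of a frame of the top space of the pencil span a low plane.
-/

namespace Vale.Agent.P225.Disproof

open MvPolynomial MeasureTheory Set Filter Topology
open scoped RealInnerProductSpace

noncomputable section

/-- The Galerkin representative of `resolv x`. -/
def galOf (N : ℕ) : L2S →L[ℝ] Gal N :=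
  (ContinuousLinearMap.adjoint (LinearMap.toContinuousLinearMap (galH N))).comp resolv

theorem inner_galOf (N : ℕ) (x : L2S) (v : Gal N) :
    ⟪galOf N x, v⟫ = ⟪resolv x, galH N v⟫ := by
  rw [galOf, ContinuousLinearMap.comp_apply, ContinuousLinearMap.adjoint_inner_left]
  rfl

theorem lev_galOf {N l : ℕ} (hl : l ≤ N) (x : L2S) :
    lev l (galH N (galOf N x)) = resCoef l • lev l x := by
  rw [← lev_resolv]
  set d := lev l (galH N (galOf N x)) - lev l (resolv x) with hd
  have hdm : d ∈ levSpace l := Submodule.sub_mem _ (lev_mem _ _) (lev_mem _ _)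
  obtain ⟨q, hq, hql, hqd⟩ := mem_levSpace.1 hdm
  set v : Gal N := Gal.mk q (mem_harmUpTo.2 ⟨hq.totalDegree_le.trans hl, hql⟩)
  have hv : galH N v = d := hqd
  have h0 : ⟪d, d⟫ = 0 := by
    conv_lhs => arg 2; rw [hd]
    rw [inner_sub_left, inner_lev, inner_lev,
      show lev l d = d from Submodule.starProjection_eq_self_iff.2 hdm]
    conv_lhs => rw [← hv]
    rw [inner_galH, inner_galOf, sub_self]
  exact sub_eq_zero.1 (inner_self_eq_zero.1 h0)

theorem stiffVec_galOf (N : ℕ) (x : L2S) : stiffVec N (galOf N x) = cutLev N x := by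
  rw [stiffVec_apply, cutLev, sum_apply, Finset.sum_range_succ', resCoef_zero, inv_zero, zero_smul,
    add_zero]
  refine Finset.sum_congr rfl fun m hm => ?_
  rw [lev_galOf (Finset.mem_range.1 hm), smul_smul, inv_mul_cancel₀ (fun h0 => by
    simpa [h0] using resCoef_sq (Nat.succ_ne_zero m)), one_smul]

/-- The constant one. -/
def galOne (N : ℕ) : Gal N := Gal.mk 1 (mem_harmUpTo.2 ⟨by simp, by simp [lapP]⟩)

theorem stiffVec_galOne (N : ℕ) : stiffVec N (galOne N) = 0 := by
  rw [← norm_eq_zero, ← pow_eq_zero_iff two_ne_zero, norm_stiffVec_sq, real_inner_comm,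
    inner_stiffOp, Finset.sum_eq_zero fun i _ => ?_]
  rw [show rotG i (galOne N) = 0 from Gal.ext (by simp [galOne, poly_rotG, Gal.poly_mk]), map_zero,
    inner_zero_left]

/-- The frame of a low plane from a frame of the top space. -/
def galFrame (N : ℕ) {j : ℕ} (e : Fin j → L2S) : Fin (j + 1) → Gal N :=
  Fin.cons (galOne N) fun i => galOf N (e i)

theorem continuous_galFrame {X : Type*} [TopologicalSpace X] (N : ℕ) {j : ℕ}
    {e : X → Fin j → L2S} (he : Continuous e) : Continuous fun x => galFrame N (e x) :=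
  continuous_pi fun i => Fin.cases (by simpa [galFrame] using continuous_const)
    (fun k => by
      simpa [galFrame, Function.comp_def] using (galOf N).continuous.comp ((continuous_apply k).comp he)) i

/-- The frame from a frame of the top space is independent and low for the trace data. -/
theorem galFrame_spec {N : ℕ} {a b ε : ℝ} {P : TraceData (Gal N) a b ε} {t : ℝ}
    {ν ω w : C(Sph 3, ℝ)} (hK : P.K t = stiffOp N ω) (hG : P.G t = massOp N ν)
    (hw : ∀ θ, 0 < w θ) {j : ℕ} (hj : 1 ≤ j) {δ : ℝ} (hδ0 : 0 ≤ δ) (hδ1 : δ ≤ 1)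
    (hδf : δ < nu (pencil w) (j - 1)) (hN : 2 * ‖w‖ / ((N : ℝ) + 1) ≤ δ)
    (hω : ∀ θ, |ω θ - 1| ≤ δ / 4) (hν : ∀ θ, |ν θ - w θ| ≤ δ / 4 * w θ) {e : Fin j → L2S}
    (he : LinearIndependent ℝ e) (heT : ∀ i, e i ∈ topSpace (pencil w) j) :
    LinearIndependent ℝ (galFrame N e) ∧
      ∀ u ∈ Submodule.span ℝ (Set.range (galFrame N e)),
        ⟪u, P.K t u⟫ ≤ (1 + δ) / (nu (pencil w) (j - 1) - δ) * P.nrm t u := by
  set f := nu (pencil w) (j - 1)
  have hT := goodOp_pencil hw
  have ht := tot_pos hw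
  have hfd : 0 < f - δ := sub_pos.2 hδf
  have hlow : ∀ x ∈ topSpace (pencil w) j,
      (f - δ) * ‖x‖ ^ 2 ≤ ⟪pencil w (cutLev N x), cutLev N x⟫ := fun x hx => by
    have h1 := hT.le_form hj hx
    have h2 := pencil_cut hw N x
    have h3 := mul_le_mul_of_nonneg_right hN (sq_nonneg ‖x‖)
    rw [sub_mul]; linarith
  have hone0 : galOne N ≠ 0 := fun h => by
    have := congrArg Gal.poly h
    simp [galOne, Gal.poly_mk] at this
  have hrepr : ∀ u ∈ Submodule.span ℝ (Set.range (galFrame N e)),
      ∃ x ∈ topSpace (pencil w) j, stiffVec N u = cutLev N x := by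
    intro u hu
    induction hu using Submodule.span_induction with
    | mem u hu =>
      obtain ⟨i, rfl⟩ := hu
      refine Fin.cases ?_ (fun k => ?_) i
      · exact ⟨0, Submodule.zero_mem _, by simp [galFrame, stiffVec_galOne]⟩
      · exact ⟨e k, heT k, by simp [galFrame, stiffVec_galOf]⟩
    | zero => exact ⟨0, Submodule.zero_mem _, by simp⟩
    | add u v _ _ hu hv =>
      obtain ⟨x, hx, hxu⟩ := hu
      obtain ⟨y, hy, hyv⟩ := hv
      exact ⟨x + y, Submodule.add_mem _ hx hy, by simp [hxu, hyv]⟩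
    | smul r u _ hu =>
      obtain ⟨x, hx, hxu⟩ := hu
      exact ⟨r • x, Submodule.smul_mem _ r hx, by simp [hxu]⟩
  refine ⟨?_, fun u hu => ?_⟩
  · rw [Fintype.linearIndependent_iff]
    intro c hc
    rw [Fin.sum_univ_succ] at hc
    simp only [galFrame, Fin.cons_zero, Fin.cons_succ] at hc
    have h1 := congrArg (stiffVec N) hc
    simp only [map_add, map_smul, map_sum, stiffVec_galOne, smul_zero, zero_add, stiffVec_galOf,
      map_zero] at h1
    have hx : ∑ i : Fin j, c i.succ • e i ∈ topSpace (pencil w) j :=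
      Submodule.sum_mem _ fun i _ => Submodule.smul_mem _ _ (heT i)
    have h2 := hlow _ hx
    rw [show cutLev N (∑ i : Fin j, c i.succ • e i) = 0 by simpa [map_sum] using h1, map_zero,
      inner_zero_left] at h2
    have h3 : ∑ i : Fin j, c i.succ • e i = 0 := norm_eq_zero.1 (pow_eq_zero_iff two_ne_zero |>.1
      (le_antisymm (nonpos_of_mul_nonpos_right h2 hfd) (sq_nonneg _)))
    have h4 := (Fintype.linearIndependent_iff.1 he) (fun i => c i.succ) h3
    refine Fin.cases ?_ h4
    simp only [h4, zero_smul, Finset.sum_const_zero, add_zero] at hc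
    exact (smul_eq_zero.1 hc).resolve_right hone0
  · obtain ⟨x, hx, hxu⟩ := hrepr u hu
    obtain ⟨c, hc⟩ := resolv_stiffVec u
    have h1 := hlow x hx
    rw [← hxu] at h1
    have h2 : ‖stiffVec N u‖ ^ 2 ≤ ‖x‖ ^ 2 := by
      rw [hxu]
      exact pow_le_pow_left₀ (norm_nonneg _) (norm_cutLev_le N x) 2
    have h3 := pencil_form_le ht (stiffVec N u) c
    rw [← hc, ← mass_galH] at h3
    have h4 := (mul_le_mul_of_nonneg_left h2 hfd.le).trans (h1.trans h3)
    rw [norm_stiffVec_sq] at h4
    have h5 := (abs_le.1 (weight_bound (stiffOp N) (fun v hv => stiffOp_nonneg hv)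
      (v := ω - 1) (w := 1) (ε := δ / 4) (fun θ => by simpa using hω θ) u)).2
    have h6 := (abs_le.1 (weight_bound (massOp N) (fun v hv => massOp_nonneg hv)
      (v := ν - w) (w := w) (ε := δ / 4) (fun θ => by simpa using hν θ) u)).1
    simp only [map_sub, sub_apply, inner_sub_right] at h5 h6
    rw [TraceData.nrm, hK, hG, div_mul_eq_mul_div, le_div_iff₀ hfd]
    set A := ⟪u, stiffOp N 1 u⟫
    set M := ⟪u, massOp N w u⟫
    have hwp : 0 ≤ M := massOp_nonneg (fun θ => (hw θ).le) u
    have h7 := mul_le_mul_of_nonneg_left h4 (by linarith : (0 : ℝ) ≤ 1 + δ / 4)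
    have h8 := mul_le_mul_of_nonneg_right (show ⟪u, stiffOp N ω u⟫ ≤ (1 + δ / 4) * A by linarith)
      hfd.le
    have h9 := mul_le_mul_of_nonneg_left
      (show (1 - δ / 4) * M ≤ ⟪u, massOp N ν u⟫ by linarith) (by linarith : (0 : ℝ) ≤ 1 + δ)
    have h10 : (1 + δ / 4) * M ≤ (1 + δ) * (1 - δ / 4) * M :=
      mul_le_mul_of_nonneg_right (by nlinarith) hwp
    linarith

end

end Vale.Agent.P225.Disproof
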