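import Vale.Agent.P225.Disproof.MassTrace

/-!
# P225: continuity of trace maps and flows in parameters
-/

namespace Vale.Agent.P225.Disproof

open Set Filter Topology
open scoped RealInnerProductSpace

noncomputable section

variable {W : Type*} [NormedAddCommGroup W] [NormedSpace ℝ W] {X : Type*} [TopologicalSpace X]
  {a b : ℝ}

/-- Solutions of a linear equation are continuous in time and parameters jointly. -/
theorem continuous_linear_flow (hab : a ≤ b) {A : X → Icc a b → W →L[ℝ] W}
    (hA : Continuous fun p : X × Icc a b => A p.1 p.2) {u : X → ℝ → W}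
    (hz : Continuous fun x => u x a)
    (hu : ∀ x (t : Icc a b), HasDerivWithinAt (u x) (A x t (u x t)) (Icc a b) t) :
    Continuous fun p : X × Icc a b => u p.1 p.2 := by
  set A' : X → C(Icc a b, W →L[ℝ] W) := fun x =>
    (ContinuousMap.curry ⟨fun p : X × Icc a b => A p.1 p.2, hA⟩) x
  have hA' : Continuous A' := (ContinuousMap.curry _).continuous
  have hc : ∀ x, ContinuousOn (u x) (Icc a b) := fun x t ht =>
    (hu x ⟨t, ht⟩).continuousWithinAt
  set F : X → C(Icc a b, W) := fun x => ⟨fun t => u x t, (hc x).domRestrict⟩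
  suffices hF : Continuous F from
    continuous_eval.comp ((hF.comp continuous_fst).prodMk continuous_snd)
  refine continuous_iff_continuousAt.2 fun x₀ => ?_
  set K := ‖A' x₀‖ + 1 with hKdef
  have hK : 0 < K := by positivity
  set R := ‖F x₀‖
  have hlim : Tendsto (fun x => ‖u x a - u x₀ a‖ * Real.exp (K * (b - a)) +
      dist (A' x) (A' x₀) * R / K * (Real.exp (K * (b - a)) - 1)) (𝓝 x₀) (𝓝 0) := by
    have h1 : Continuous fun x => ‖u x a - u x₀ a‖ * Real.exp (K * (b - a)) +
        dist (A' x) (A' x₀) * R / K * (Real.exp (K * (b - a)) - 1) := by fun_prop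
    simpa using h1.tendsto x₀
  have hev : ∀ᶠ x in 𝓝 x₀, dist (A' x) (A' x₀) < 1 :=
    Metric.tendsto_nhds.1 (hA'.tendsto x₀) 1 one_pos
  refine tendsto_iff_dist_tendsto_zero.2 (squeeze_zero' (Eventually.of_forall fun _ => dist_nonneg)
    (hev.mono fun x hx => ?_) hlim)
  have hexp : 1 ≤ Real.exp (K * (b - a)) := Real.one_le_exp (mul_nonneg hK.le (sub_nonneg.2 hab))
  refine (ContinuousMap.dist_le (add_nonneg (mul_nonneg (norm_nonneg _) (Real.exp_nonneg _))
    (mul_nonneg (by positivity) (sub_nonneg.2 hexp)))).2 fun t => ?_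
  have hg := norm_le_gronwallBound_of_norm_deriv_right_le (δ := ‖u x a - u x₀ a‖) (K := K)
    (ε := dist (A' x) (A' x₀) * R) (f := fun s => u x s - u x₀ s)
    (f' := fun s => if h : s ∈ Icc a b then A x ⟨s, h⟩ (u x s) - A x₀ ⟨s, h⟩ (u x₀ s) else 0)
    ((hc x).sub (hc x₀))
    (fun s hs => by
      rw [dif_pos (Ico_subset_Icc_self hs)]
      exact ((hu x ⟨s, Ico_subset_Icc_self hs⟩).sub
        (hu x₀ ⟨s, Ico_subset_Icc_self hs⟩)).mono_of_mem_nhdsWithin (Icc_mem_nhdsGE_of_mem hs))
    le_rfl
    (fun s hs => by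
      have hs' := Ico_subset_Icc_self hs
      rw [dif_pos hs']
      have e : A x ⟨s, hs'⟩ (u x s) - A x₀ ⟨s, hs'⟩ (u x₀ s) =
          A x ⟨s, hs'⟩ (u x s - u x₀ s) + (A x ⟨s, hs'⟩ - A x₀ ⟨s, hs'⟩) (u x₀ s) := by
        simp only [map_sub, sub_apply]; abel
      rw [e]
      refine (norm_add_le _ _).trans (add_le_add (((A x ⟨s, hs'⟩).le_opNorm _).trans ?_)
        ((ContinuousLinearMap.le_opNorm _ _).trans ?_))
      · refine mul_le_mul_of_nonneg_right ?_ (norm_nonneg _)
        have h1 := (A' x₀).norm_coe_le_norm ⟨s, hs'⟩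
        have h2 := (dist_eq_norm (A x ⟨s, hs'⟩) (A x₀ ⟨s, hs'⟩)).symm.trans_le
          ((A' x).dist_apply_le_dist (g := A' x₀) ⟨s, hs'⟩)
        have h3 := norm_le_norm_add_norm_sub' (A x ⟨s, hs'⟩) (A x₀ ⟨s, hs'⟩)
        simp only [A', ContinuousMap.curry_apply, ContinuousMap.coe_mk] at h1
        linarith
      · exact mul_le_mul ((dist_eq_norm _ _).symm.trans_le
          ((A' x).dist_apply_le_dist (g := A' x₀) ⟨s, hs'⟩))
          ((F x₀).norm_coe_le_norm ⟨s, hs'⟩) (norm_nonneg _) dist_nonneg)
    t t.2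
  rw [gronwallBound_of_K_ne_0 hK.ne'] at hg
  rw [dist_eq_norm]
  refine hg.trans (add_le_add ?_ ?_)
  · gcongr; exact t.2.2
  · refine mul_le_mul_of_nonneg_left ?_ (by positivity)
    gcongr; exact t.2.2

/-- The same with the value prescribed at the right end. -/
theorem continuous_linear_flow_back (hab : a ≤ b) {A : X → Icc a b → W →L[ℝ] W}
    (hA : Continuous fun p : X × Icc a b => A p.1 p.2) {u : X → ℝ → W}
    (hz : Continuous fun x => u x b)
    (hu : ∀ x (t : Icc a b), HasDerivWithinAt (u x) (A x t (u x t)) (Icc a b) t) :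
    Continuous fun p : X × Icc a b => u p.1 p.2 := by
  have hmap : MapsTo (fun s => a + b - s) (Icc a b) (Icc a b) := fun s hs =>
    ⟨by linarith [hs.2], by linarith [hs.1]⟩
  set R : Icc a b → Icc a b := fun t => ⟨a + b - t, hmap t.2⟩
  have hR : Continuous R := by fun_prop
  have h := continuous_linear_flow hab (A := fun x t => -A x (R t))
    (u := fun x s => u x (a + b - s))
    (hA.comp (continuous_fst.prodMk (hR.comp continuous_snd))).neg (by simpa using hz)
    fun x t => by
      have hd : HasDerivWithinAt (fun y => a + b - y) (-1) (Icc a b) t :=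
        ((hasDerivAt_id (t : ℝ)).const_sub (a + b)).hasDerivWithinAt
      refine ((hu x (R t)).scomp (t : ℝ) hd hmap).congr_deriv ?_
      simp [R]
  have h2 := h.comp (continuous_fst.prodMk (hR.comp continuous_snd))
  simpa [R, Function.comp_def] using h2

variable {V : Type*} [NormedAddCommGroup V] [InnerProductSpace ℝ V] [FiniteDimensional ℝ V]
  {ε : ℝ} (P : X → TraceData V a b ε)

namespace TraceData

theorem continuous_inverse (hG : Continuous fun p : X × Icc a b => (P p.1).G p.2) :
    Continuous fun p : X × Icc a b => Ring.inverse ((P p.1).G p.2) :=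
  continuous_iff_continuousAt.2 fun p =>
    (hasFDerivAt_ringInverse (𝕜 := ℝ)
      (isUnit_of_coercive (P p.1).hm ((P p.1).coercive p.2 p.2.2)).unit).continuousAt.comp_of_eq
        hG.continuousAt
        (isUnit_of_coercive (P p.1).hm ((P p.1).coercive p.2 p.2.2)).unit_spec.symm

/-- The trace map is continuous in time and parameters jointly. -/
theorem continuous_B (hab : a ≤ b) (hK : Continuous fun p : X × Icc a b => (P p.1).K p.2)
    (hG : Continuous fun p : X × Icc a b => (P p.1).G p.2) (h0 : Continuous fun x => (P x).B a) :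
    Continuous fun p : X × Icc a b => (P p.1).B p.2 := by
  have hex : ∀ x, ∃ U : ℝ → V →L[ℝ] V, U a = 1 ∧
      ∀ t ∈ Icc a b, HasDerivWithinAt U ((P x).gen t * U t) (Icc a b) t := fun x => by
    obtain ⟨U, hU, hU'⟩ := exists_linear (B := fun s => (ContinuousLinearMap.mul ℝ (V →L[ℝ] V))
      (IccExtend hab ((Icc a b).domRestrict (P x).gen) s))
      ((ContinuousLinearMap.mul ℝ (V →L[ℝ] V)).continuous.comp
        continuousOn_gen.domRestrict.Icc_extend') hab 1
    refine ⟨U, hU, fun t ht => ?_⟩
    have h := hU' t ht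
    rwa [show IccExtend hab ((Icc a b).domRestrict (P x).gen) t = (P x).gen t from
      IccExtend_of_mem _ _ ht] at h
  choose U hU hU' using hex
  have hinj : ∀ x, ∀ t ∈ Icc a b, IsUnit (U x t) := fun x t ht => by
    have hi : Function.Injective (U x t) := (injective_iff_map_eq_zero (U x t)).2 fun v hv => by
      have hsub : Icc a t ⊆ Icc a b := Icc_subset_Icc_right ht.2
      have hs : (P x).IsSol a t (fun s => U x s v) := fun s hs => by
        have h := ((hU' x s (hsub hs)).mono hsub).clm_apply (hasDerivWithinAt_const s _ v)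
        simpa [gen_apply] using h
      have h := rate_floor (P := P x) le_rfl ht.2 ht.1 hs
      simp only [hv, hU, one_apply_eq_self, nrm, map_zero, inner_zero_right] at h
      have hc := (P x).coercive a ⟨le_rfl, hab⟩ v
      have h2 := nonpos_of_mul_nonpos_right h (Real.exp_pos _)
      exact norm_eq_zero.1 (pow_eq_zero_iff two_ne_zero |>.1
        (le_antisymm (nonpos_of_mul_nonpos_right (hc.trans h2) (P x).hm) (sq_nonneg _)))
    exact ContinuousLinearMap.isUnit_iff_bijective.2
      ⟨hi, (LinearMap.injective_iff_surjective (f := (U x t).toLinearMap)).1 hi⟩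
  set L : X → Icc a b → ((V →L[ℝ] V) × (V →L[ℝ] V)) →L[ℝ] (V →L[ℝ] V) × (V →L[ℝ] V) := fun x t =>
    (((ContinuousLinearMap.mul ℝ (V →L[ℝ] V)) (Ring.inverse ((P x).G t))).comp
      (ContinuousLinearMap.snd ℝ _ _)).prod
      (((ContinuousLinearMap.mul ℝ (V →L[ℝ] V)) ((P x).K t)).comp (ContinuousLinearMap.fst ℝ _ _) -
        ContinuousLinearMap.snd ℝ _ _)
  have hL : Continuous fun p : X × Icc a b => L p.1 p.2 := by
    have hJ := continuous_inverse P hG
    have h1 : Continuous fun p : X × Icc a b =>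
        ((ContinuousLinearMap.mul ℝ (V →L[ℝ] V)) (Ring.inverse ((P p.1).G p.2))).comp
          (ContinuousLinearMap.snd ℝ (V →L[ℝ] V) (V →L[ℝ] V)) := by fun_prop
    have h2 : Continuous fun p : X × Icc a b =>
        ((ContinuousLinearMap.mul ℝ (V →L[ℝ] V)) ((P p.1).K p.2)).comp
          (ContinuousLinearMap.fst ℝ (V →L[ℝ] V) (V →L[ℝ] V)) -
          ContinuousLinearMap.snd ℝ (V →L[ℝ] V) (V →L[ℝ] V) := by fun_prop
    exact (ContinuousLinearMap.prodₗᵢ ℝ).continuous.comp (h1.prodMk h2)
  set w := fun x s => (U x s, (P x).B s * U x s)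
  have hw := continuous_linear_flow hab hL (u := w)
    (by simp only [w, hU, mul_one]; exact continuous_const.prodMk h0) fun x t => by
      refine ((hU' x t t.2).prodMk (((P x).derivB t t.2).mul (hU' x t t.2))).congr_deriv ?_
      simp [L, w, gen, sub_mul, mul_assoc]
  have e : (fun p : X × Icc a b => (P p.1).B p.2) =
      fun p : X × Icc a b => (w p.1 p.2).2 * Ring.inverse (w p.1 p.2).1 := funext fun p => by
    simp only [w, mul_assoc, Ring.mul_inverse_cancel _ (hinj p.1 p.2 p.2.2), mul_one]
  rw [e]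
  refine hw.snd.mul (continuous_iff_continuousAt.2 fun p => ?_)
  exact (hasFDerivAt_ringInverse (𝕜 := ℝ) (hinj p.1 p.2 p.2.2).unit).continuousAt.comp_of_eq
    hw.fst.continuousAt (hinj p.1 p.2 p.2.2).unit_spec.symm

theorem continuous_gen (hab : a ≤ b) (hK : Continuous fun p : X × Icc a b => (P p.1).K p.2)
    (hG : Continuous fun p : X × Icc a b => (P p.1).G p.2) (h0 : Continuous fun x => (P x).B a) :
    Continuous fun p : X × Icc a b => (P p.1).gen p.2 :=
  (continuous_inverse P hG).mul (continuous_B P hab hK hG h0)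

variable {s₁ s₂ : ℝ}

private theorem continuous_sub (h₁ : a ≤ s₁) (h₂ : s₂ ≤ b) {E : Type*} [TopologicalSpace E]
    {f : X → ℝ → E} (hf : Continuous fun p : X × Icc a b => f p.1 p.2) :
    Continuous fun p : X × Icc s₁ s₂ => f p.1 p.2 :=
  hf.comp (continuous_fst.prodMk ((continuous_inclusion (Icc_subset_Icc h₁ h₂)).comp continuous_snd))

/-- Solutions depend continuously on time and parameters jointly. -/
theorem continuous_sol (h₁ : a ≤ s₁) (h₂ : s₂ ≤ b) (h : s₁ ≤ s₂)
    (hB : Continuous fun p : X × Icc a b => (P p.1).gen p.2) {u : X → ℝ → V}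
    (hu : ∀ x, (P x).IsSol s₁ s₂ (u x))
    (hz : (Continuous fun x => u x s₁) ∨ Continuous fun x => u x s₂) :
    Continuous fun p : X × Icc s₁ s₂ => u p.1 p.2 := by
  have hd : ∀ x (t : Icc s₁ s₂),
      HasDerivWithinAt (u x) ((P x).gen t (u x t)) (Icc s₁ s₂) t := fun x t => by
    rw [gen_apply]; exact hu x t t.2
  have hA := continuous_sub (f := fun x => (P x).gen) h₁ h₂ hB
  rcases hz with hz | hz
  · exact continuous_linear_flow h hA hz hd
  · exact continuous_linear_flow_back h hA hz hd

/-- Dual solutions depend continuously on time and parameters jointly. -/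
theorem continuous_dual (h₁ : a ≤ s₁) (h₂ : s₂ ≤ b) (h : s₁ ≤ s₂)
    (hB : Continuous fun p : X × Icc a b => (P p.1).gen p.2)
    (hG : Continuous fun p : X × Icc a b => (P p.1).G p.2)
    (hG' : Continuous fun p : X × Icc a b => (P p.1).G' p.2) {z : X → ℝ → V}
    (hz : ∀ x, (P x).IsDual s₁ s₂ (z x))
    (h0 : (Continuous fun x => z x s₁) ∨ Continuous fun x => z x s₂) :
    Continuous fun p : X × Icc s₁ s₂ => z p.1 p.2 := by
  set A := fun x t => -(P x).gen t - Ring.inverse ((P x).G t) * (P x).G' t with hA'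
  have hd : ∀ x (t : Icc s₁ s₂),
      HasDerivWithinAt (z x) (A x t (z x t)) (Icc s₁ s₂) t := fun x t => by
    simp only [hA', sub_apply, neg_apply, mul_apply_eq_comp, gen_apply]
    exact hz x t t.2
  have hA := continuous_sub (f := A) h₁ h₂ (hB.neg.sub ((continuous_inverse P hG).mul hG'))
  rcases h0 with h0 | h0
  · exact continuous_linear_flow h hA h0 hd
  · exact continuous_linear_flow_back h hA h0 hd

end TraceData

end

end Vale.Agent.P225.Disproof
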