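import Vale.Agent.P225.Disproof.MassCount
import Vale.Agent.P225.Disproof.MassCont

/-!
# P225: cones and rates at a slowly varying level

The level `μ` is a function of time. A gap of width `g` keeps the cones invariant as long as
`|μ'|` and `ε` are small against `g ^ 2`; the surplus makes the cones strict.
-/

namespace Vale.Agent.P225.Disproof

open Set Filter Topology
open scoped RealInnerProductSpace

noncomputable section

/-- A surplus in the Grönwall inequality accumulates. -/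
theorem exp_mul_add_le {f f' k : ℝ → ℝ} {s₁ s₂ d : ℝ} (hk : Continuous k) (h : s₁ ≤ s₂)
    (hd : ∀ t ∈ Icc s₁ s₂, HasDerivWithinAt f (f' t) (Icc s₁ s₂) t)
    (hs : ∀ t ∈ Icc s₁ s₂, d ≤ Real.exp (∫ r in s₁..t, k r) * (f' t + k t * f t)) :
    f s₁ + d * (s₂ - s₁) ≤ Real.exp (∫ r in s₁..s₂, k r) * f s₂ := by
  have hm := monotoneOn_Icc
    (f := fun t => Real.exp (∫ r in s₁..t, k r) * f t - d * (t - s₁))
    (f' := fun t => Real.exp (∫ r in s₁..t, k r) * (f' t + k t * f t) - d)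
    (fun t ht => by
      have h1 := ((hk.integral_hasStrictDerivAt s₁ t).hasDerivAt.exp).hasDerivWithinAt
        (s := Icc s₁ s₂)
      have h2 := (((hasDerivAt_id t).sub_const s₁).const_mul d).hasDerivWithinAt (s := Icc s₁ s₂)
      exact ((h1.mul (hd t ht)).sub h2).congr_deriv (by simp; ring))
    (fun t ht => sub_nonneg.2 (hs t ht)) ⟨le_rfl, h⟩ ⟨h, le_rfl⟩ h
  simp only [intervalIntegral.integral_same, Real.exp_zero, one_mul, sub_self, mul_zero,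
    sub_zero] at hm
  linarith

/-- The Grönwall inequality between two times. -/
theorem exp_mul_le {f f' k : ℝ → ℝ} {s₁ s₂ : ℝ} (hk : Continuous k) (h : s₁ ≤ s₂)
    (hd : ∀ t ∈ Icc s₁ s₂, HasDerivWithinAt f (f' t) (Icc s₁ s₂) t)
    (hs : ∀ t ∈ Icc s₁ s₂, 0 ≤ f' t + k t * f t) :
    f s₁ ≤ Real.exp (∫ r in s₁..s₂, k r) * f s₂ := by
  simpa using exp_mul_add_le (d := 0) hk h hd
    fun t ht => mul_nonneg (Real.exp_nonneg _) (hs t ht)

variable {V : Type*} [NormedAddCommGroup V] [InnerProductSpace ℝ V] [FiniteDimensional ℝ V]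

namespace TraceData

variable {a b ε : ℝ} {P : TraceData V a b ε} {s₁ s₂ : ℝ}

/-- A gap with the planes on both sides, the lower one of dimension `l`. -/
def Split (P : TraceData V a b ε) (t μ g : ℝ) (l : ℕ) : Prop :=
  P.Gap t μ g ∧ ∃ S S' : Submodule ℝ V, IsCompl S S' ∧ Module.finrank ℝ S = l ∧
    (∀ x ∈ S, P.eng t x ≤ (μ - g) * P.nrm t x) ∧
    (∀ x ∈ S', (μ + g) * P.nrm t x ≤ P.eng t x) ∧
    ∀ x ∈ S, ∀ y ∈ S', ⟪x, P.G t y⟫ = 0 ∧ ⟪x, P.B t y⟫ = 0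

theorem eq_zero_of_nrm_le {t : ℝ} (ht : t ∈ Icc a b) {x : V} (h : P.nrm t x ≤ 0) : x = 0 :=
  norm_eq_zero.1 (pow_eq_zero_iff two_ne_zero |>.1 (le_antisymm
    (nonpos_of_mul_nonpos_right ((P.coercive t ht x).trans h) P.hm) (sq_nonneg _)))

/-- The velocity of the dual flow pairs with `B` and `G` as follows. -/
theorem dual_ineq (hab : a < b) {t : ℝ} (ht : t ∈ Icc a b) (x : V) {μ g : ℝ} (hμ : 0 ≤ μ)
    (hgap : P.Gap t μ g) :
    ((2 - ε) * g ^ 2 - ε * (2 * μ + 2)) * P.nrm t x ≤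
      -(⟪x, (P.K t - P.B t - P.B t * Ring.inverse (P.G t) * P.B t) x⟫ +
          2 * ⟪-P.vel t x - Ring.inverse (P.G t) (P.G' t x), P.B t x⟫ -
          μ * (⟪x, P.G' t x⟫ + 2 * ⟪-P.vel t x - Ring.inverse (P.G t) (P.G' t x), P.G t x⟫)) +
        (2 * μ - ε) * -(P.eng t x - μ * P.nrm t x) := by
  set y := P.vel t x with hy
  set r := Ring.inverse (P.G t) (P.G' t x) with hr
  have hGr : P.G t r = P.G' t x := apply_inverse (isUnit_of_coercive P.hm (P.coercive t ht)) _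
  have e1 : ⟪-y - r, P.B t x⟫ = -P.nrm t y - ⟪y, P.G' t x⟫ := by
    rw [nrm, inner_sub_left, inner_neg_left, G_vel ht, ← G_vel ht x, ← P.symG t ht r,
      ← hy, hGr, real_inner_comm y]
  have e2 : ⟪-y - r, P.G t x⟫ = -P.eng t x - ⟪x, P.G' t x⟫ := by
    rw [inner_sub_left, inner_neg_left, hy, eng_eq_inner_vel (P := P) ht, ← P.symG t ht r, hGr,
      real_inner_comm x]
  have e3 : ⟪y - μ • x, P.G' t x⟫ = ⟪y, P.G' t x⟫ - μ * ⟪x, P.G' t x⟫ := by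
    rw [inner_sub_left, real_inner_smul_left]
  have hm' := (abs_le.1 (abs_inner_G' (P := P) ht (symG' hab ht) (y - μ • x) x)).1
  have hq : P.nrm t (y - μ • x) = P.nrm t y - 2 * μ * P.eng t x + μ * μ * P.nrm t x := by
    rw [hy]; exact nrm_vel_sub ht μ x
  have h1 := mul_le_mul_of_nonneg_left (hgap x) (by linarith [P.hε1] : 0 ≤ 2 - ε)
  rw [← hy] at h1
  have h2 := (abs_le.1 (P.boundB t ht x)).2
  have h3 := mul_le_mul_of_nonneg_left (abs_le.1 (P.boundG t ht x)).1 hμ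
  rw [hq] at h1 hm'
  rw [e3] at hm'
  rw [e1, e2]
  simp only [nrm, eng] at h1 h2 h3 hm' ⊢
  linarith

/-- Derivative inequality for the dual cone at a moving level, with surplus. -/
theorem exists_deriv_dual_cone (hab : a < b) (h₁ : a ≤ s₁) (h₂ : s₂ ≤ b) {z : ℝ → V}
    (hz : P.IsDual s₁ s₂ z) {μ : ℝ → ℝ} {μ' g δ : ℝ} {t : ℝ} (ht : t ∈ Icc s₁ s₂)
    (hμ : 0 ≤ μ t) (hdμ : HasDerivWithinAt μ μ' (Icc s₁ s₂) t)
    (hgε : ε * (2 * μ t + 2) + |μ'| + δ ≤ (2 - ε) * g ^ 2) (hgap : P.Gap t (μ t) g) :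
    ∃ d, HasDerivWithinAt (fun s => -(P.eng s (z s) - μ s * P.nrm s (z s))) d (Icc s₁ s₂) t ∧
      δ * P.nrm t (z t) ≤ d + (2 * μ t - ε) * -(P.eng t (z t) - μ t * P.nrm t (z t)) := by
  have hs : t ∈ Icc a b := Icc_subset_Icc h₁ h₂ ht
  refine ⟨_, ((deriv_eng (P := P) h₁ h₂ hz ht).sub
    (hdμ.mul (deriv_nrm (P := P) h₁ h₂ hz ht))).neg, ?_⟩
  have h1 := dual_ineq hab hs (z t) hμ hgap
  have h2 := mul_le_mul_of_nonneg_right hgε (nrm_nonneg (P := P) hs (z t))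
  have h3 := mul_le_mul_of_nonneg_right (neg_abs_le μ') (nrm_nonneg (P := P) hs (z t))
  linarith

/-- The cone at a moving level is invariant backwards along the flow. -/
theorem low_backward (h₁ : a ≤ s₁) (h₂ : s₂ ≤ b) (h : s₁ ≤ s₂) {u : ℝ → V}
    (hu : P.IsSol s₁ s₂ u) {μ μ' : ℝ → ℝ} {g : ℝ} (hcμ : Continuous μ)
    (hμ : ∀ t ∈ Icc s₁ s₂, 0 ≤ μ t)
    (hdμ : ∀ t ∈ Icc s₁ s₂, HasDerivWithinAt μ (μ' t) (Icc s₁ s₂) t)
    (hgε : ∀ t ∈ Icc s₁ s₂, ε * (2 * μ t + 1) + |μ' t| ≤ 2 * g ^ 2)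
    (hgap : ∀ t ∈ Icc s₁ s₂, P.Gap t (μ t) g)
    (hlow : P.eng s₂ (u s₂) ≤ μ s₂ * P.nrm s₂ (u s₂)) :
    P.eng s₁ (u s₁) ≤ μ s₁ * P.nrm s₁ (u s₁) := by
  have hm := exp_mul_le (k := fun t => -(2 * μ t - ε)) (by fun_prop) h
    (fun t ht => (deriv_eng (P := P) h₁ h₂ hu ht).sub
      ((hdμ t ht).mul (deriv_nrm (P := P) h₁ h₂ hu ht)))
    fun t ht => ?_
  · simp only [Pi.sub_apply, Pi.mul_apply] at hm
    have h2 := mul_nonpos_of_nonneg_of_nonpos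
      (Real.exp_nonneg (∫ r in s₁..s₂, -(2 * μ r - ε))) (sub_nonpos.2 hlow)
    linarith
  have hs : t ∈ Icc a b := Icc_subset_Icc h₁ h₂ ht
  have h1 := hgap t ht (u t)
  rw [nrm_vel_sub hs] at h1
  have h2 := (abs_le.1 (P.boundB t hs (u t))).1
  have h3 := mul_le_mul_of_nonneg_left ((le_abs_self _).trans (P.boundG t hs (u t))) (hμ t ht)
  have h4 := mul_le_mul_of_nonneg_right (hgε t ht) (nrm_nonneg (P := P) hs (u t))
  have h5 : ⟪P.vel t (u t), P.B t (u t)⟫ = P.nrm t (P.vel t (u t)) := by rw [nrm, G_vel hs]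
  have h6 := eng_eq_inner_vel (P := P) hs (u t)
  have h7 := mul_le_mul_of_nonneg_right (le_abs_self (μ' t)) (nrm_nonneg (P := P) hs (u t))
  simp only [Pi.sub_apply, Pi.mul_apply, h5, h6]
  simp only [nrm, eng] at h1 h2 h3 h4 h7 ⊢
  linarith

/-- The high cone at a moving level is invariant forwards along the flow. -/
theorem high_forward (h₁ : a ≤ s₁) (h₂ : s₂ ≤ b) (h : s₁ ≤ s₂) {u : ℝ → V}
    (hu : P.IsSol s₁ s₂ u) {μ μ' : ℝ → ℝ} {g : ℝ} (hcμ : Continuous μ)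
    (hμ : ∀ t ∈ Icc s₁ s₂, 0 ≤ μ t)
    (hdμ : ∀ t ∈ Icc s₁ s₂, HasDerivWithinAt μ (μ' t) (Icc s₁ s₂) t)
    (hgε : ∀ t ∈ Icc s₁ s₂, ε * (2 * μ t + 1) + |μ' t| ≤ 2 * g ^ 2)
    (hgap : ∀ t ∈ Icc s₁ s₂, P.Gap t (μ t) g)
    (hhigh : μ s₁ * P.nrm s₁ (u s₁) ≤ P.eng s₁ (u s₁)) :
    μ s₂ * P.nrm s₂ (u s₂) ≤ P.eng s₂ (u s₂) := by
  have hm := exp_mul_le (k := fun t => -(2 * μ t - ε)) (by fun_prop) h
    (fun t ht => (deriv_eng (P := P) h₁ h₂ hu ht).sub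
      ((hdμ t ht).mul (deriv_nrm (P := P) h₁ h₂ hu ht)))
    fun t ht => ?_
  · simp only [Pi.sub_apply, Pi.mul_apply] at hm
    have h2 := (mul_nonneg_iff_of_pos_left (Real.exp_pos _)).1 ((sub_nonneg.2 hhigh).trans hm)
    linarith
  have hs : t ∈ Icc a b := Icc_subset_Icc h₁ h₂ ht
  have h1 := hgap t ht (u t)
  rw [nrm_vel_sub hs] at h1
  have h2 := (abs_le.1 (P.boundB t hs (u t))).1
  have h3 := mul_le_mul_of_nonneg_left ((le_abs_self _).trans (P.boundG t hs (u t))) (hμ t ht)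
  have h4 := mul_le_mul_of_nonneg_right (hgε t ht) (nrm_nonneg (P := P) hs (u t))
  have h5 : ⟪P.vel t (u t), P.B t (u t)⟫ = P.nrm t (P.vel t (u t)) := by rw [nrm, G_vel hs]
  have h6 := eng_eq_inner_vel (P := P) hs (u t)
  have h7 := mul_le_mul_of_nonneg_right (le_abs_self (μ' t)) (nrm_nonneg (P := P) hs (u t))
  simp only [Pi.sub_apply, Pi.mul_apply, h5, h6]
  simp only [nrm, eng] at h1 h2 h3 h4 h7 ⊢
  linarith

/-- Upper rate inside the low cone at a moving level. -/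
theorem rate_upper_level (h₁ : a ≤ s₁) (h₂ : s₂ ≤ b) (h : s₁ ≤ s₂) {u : ℝ → V}
    (hu : P.IsSol s₁ s₂ u) {μ : ℝ → ℝ} (hcμ : Continuous μ)
    (hc : ∀ t ∈ Icc s₁ s₂, P.eng t (u t) ≤ μ t * P.nrm t (u t)) :
    P.nrm s₂ (u s₂) ≤ Real.exp (∫ r in s₁..s₂, (2 * μ r + ε)) * P.nrm s₁ (u s₁) := by
  have hm := exp_mul_le (f := fun t => -P.nrm t (u t)) (k := fun t => -(2 * μ t + ε))
    (by fun_prop) h (fun t ht => (deriv_nrm (P := P) h₁ h₂ hu ht).neg) fun t ht => ?_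
  · simp only [intervalIntegral.integral_neg, Real.exp_neg, mul_neg, neg_le_neg_iff] at hm
    rwa [inv_mul_le_iff₀ (Real.exp_pos _)] at hm
  have hs : t ∈ Icc a b := Icc_subset_Icc h₁ h₂ ht
  have h2 := (le_abs_self _).trans (P.boundG t hs (u t))
  have h3 := hc t ht
  rw [eng_eq_inner_vel (P := P) hs]
  simp only [nrm] at h2 h3 ⊢
  linarith

/-- Lower rate inside the high cone at a moving level. -/
theorem rate_lower_level (h₁ : a ≤ s₁) (h₂ : s₂ ≤ b) (h : s₁ ≤ s₂) {u : ℝ → V}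
    (hu : P.IsSol s₁ s₂ u) {μ : ℝ → ℝ} (hcμ : Continuous μ)
    (hc : ∀ t ∈ Icc s₁ s₂, μ t * P.nrm t (u t) ≤ P.eng t (u t)) :
    Real.exp (∫ r in s₁..s₂, (2 * μ r - ε)) * P.nrm s₁ (u s₁) ≤ P.nrm s₂ (u s₂) := by
  have hm := exp_mul_le (f := fun t => P.nrm t (u t)) (k := fun t => -(2 * μ t - ε))
    (by fun_prop) h (fun t ht => deriv_nrm (P := P) h₁ h₂ hu ht) fun t ht => ?_
  · simp only [intervalIntegral.integral_neg, Real.exp_neg] at hm
    rwa [le_inv_mul_iff₀ (Real.exp_pos _)] at hm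
  have hs : t ∈ Icc a b := Icc_subset_Icc h₁ h₂ ht
  have h2 := (abs_le.1 (P.boundG t hs (u t))).1
  have h3 := hc t ht
  rw [eng_eq_inner_vel (P := P) hs]
  simp only [nrm] at h2 h3 ⊢
  linarith

theorem IsSol.mono {t₁ t₂ : ℝ} {u : ℝ → V} (hu : P.IsSol s₁ s₂ u) (h₁ : s₁ ≤ t₁) (h₂ : t₂ ≤ s₂) :
    P.IsSol t₁ t₂ u := fun t ht =>
  (hu t (Icc_subset_Icc h₁ h₂ ht)).mono (Icc_subset_Icc h₁ h₂)

theorem IsDual.mono {t₁ t₂ : ℝ} {z : ℝ → V} (hz : P.IsDual s₁ s₂ z) (h₁ : s₁ ≤ t₁)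
    (h₂ : t₂ ≤ s₂) : P.IsDual t₁ t₂ z := fun t ht =>
  (hz t (Icc_subset_Icc h₁ h₂ ht)).mono (Icc_subset_Icc h₁ h₂)

theorem IsSol.sub {u v : ℝ → V} (hu : P.IsSol s₁ s₂ u) (hv : P.IsSol s₁ s₂ v) :
    P.IsSol s₁ s₂ fun t => u t - v t := fun t ht => by
  rw [vel, map_sub, map_sub]
  exact (hu t ht).sub (hv t ht)

theorem sqrt_nrm_sub_le {t : ℝ} (ht : t ∈ Icc a b) (x y : V) :
    Real.sqrt (P.nrm t x) ≤ Real.sqrt (P.nrm t (x - y)) + Real.sqrt (P.nrm t y) := by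
  set p := x - y with hp
  have hA := nrm_nonneg (P := P) ht p
  have hB := nrm_nonneg (P := P) ht y
  have hcs : ⟪p, P.G t y⟫ ≤ Real.sqrt (P.nrm t p) * Real.sqrt (P.nrm t y) := by
    rw [← Real.sqrt_mul hA]
    exact (le_abs_self _).trans (Real.abs_le_sqrt (inner_sq_le ht p y))
  have e : P.nrm t x = P.nrm t p + 2 * ⟪p, P.G t y⟫ + P.nrm t y := by
    rw [show x = p + y by rw [hp]; abel]
    simp only [nrm, map_add, inner_add_left, inner_add_right]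
    rw [show ⟪y, P.G t p⟫ = ⟪p, P.G t y⟫ by rw [← P.symG t ht, real_inner_comm]]
    ring
  refine Real.sqrt_le_iff.2 ⟨by positivity, ?_⟩
  rw [e, add_sq, Real.sq_sqrt hA, Real.sq_sqrt hB]
  linarith

/-- Separation: if `u` is low and `w` is high with `w` orthogonal to `u - w` at the end of a
window, then `u - w` carries a definite part of `u`. -/
theorem separation (h₁ : a ≤ s₁) (h₂ : s₂ ≤ b) (h : s₁ ≤ s₂) {u w : ℝ → V}
    (hu : P.IsSol s₁ s₂ u) (hw : P.IsSol s₁ s₂ w) {μ ν : ℝ → ℝ} (hcμ : Continuous μ)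
    (hcν : Continuous ν) {d Λ : ℝ} (hd : ∀ t ∈ Icc s₁ s₂, μ t + d ≤ ν t)
    (hΛ : ∀ t ∈ Icc s₁ s₂, 2 * μ t + ε ≤ Λ)
    (hlow : ∀ t ∈ Icc s₁ s₂, P.eng t (u t) ≤ μ t * P.nrm t (u t))
    (hhigh : ∀ t ∈ Icc s₁ s₂, ν t * P.nrm t (w t) ≤ P.eng t (w t))
    (horth : ⟪u s₂ - w s₂, P.G s₂ (w s₂)⟫ = 0) :
    (1 - Real.exp (-(d - ε) * (s₂ - s₁))) * Real.exp (-(Λ + ε) / 2 * (s₂ - s₁)) *
      Real.sqrt (P.nrm s₂ (u s₂)) ≤ Real.sqrt (P.nrm s₂ (u s₂ - w s₂)) := by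
  have hs1 : s₁ ∈ Icc a b := ⟨h₁, h.trans h₂⟩
  have hs2 : s₂ ∈ Icc a b := ⟨h₁.trans h, h₂⟩
  set τ := s₂ - s₁ with hτ
  set A := ∫ r in s₁..s₂, (2 * μ r + ε) with hA
  set W := ∫ r in s₁..s₂, (2 * ν r - ε) with hW
  have hWA : A + (2 * d - 2 * ε) * τ ≤ W := by
    have h1 : ∫ r in s₁..s₂, ((2 * μ r + ε) + (2 * d - 2 * ε)) ≤ W :=
      intervalIntegral.integral_mono_on h (Continuous.intervalIntegrable (by fun_prop) _ _)
        (Continuous.intervalIntegrable (by fun_prop) _ _) fun r hr => by linarith [hd r hr]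
    rw [intervalIntegral.integral_add (Continuous.intervalIntegrable (by fun_prop) _ _)
      (Continuous.intervalIntegrable (by fun_prop) _ _), intervalIntegral.integral_const,
      smul_eq_mul] at h1
    rw [hA, hτ, mul_comm (2 * d - 2 * ε)]
    exact h1
  have hAΛ : A ≤ Λ * τ := by
    have h1 : A ≤ ∫ _r in s₁..s₂, Λ :=
      intervalIntegral.integral_mono_on h (Continuous.intervalIntegrable (by fun_prop) _ _)
        intervalIntegrable_const hΛ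
    rwa [intervalIntegral.integral_const, smul_eq_mul, ← hτ, mul_comm] at h1
  have hU := rate_upper_level h₁ h₂ h hu hcμ hlow
  have hV := rate_lower_level h₁ h₂ h hw hcν hhigh
  have hD := rate_floor h₁ h₂ h (hu.sub hw)
  have hsplit : P.nrm s₂ (w s₂) ≤ P.nrm s₂ (u s₂) := by
    have e : P.nrm s₂ (u s₂) = P.nrm s₂ (u s₂ - w s₂) + 2 * ⟪u s₂ - w s₂, P.G s₂ (w s₂)⟫ +
        P.nrm s₂ (w s₂) := by
      conv_lhs => rw [show u s₂ = (u s₂ - w s₂) + w s₂ by abel]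
      simp only [nrm, map_add, inner_add_left, inner_add_right]
      rw [show ⟪w s₂, P.G s₂ (u s₂ - w s₂)⟫ = ⟪u s₂ - w s₂, P.G s₂ (w s₂)⟫ by
        rw [← P.symG s₂ hs2, real_inner_comm]]
      ring
    rw [horth] at e
    linarith [nrm_nonneg (P := P) hs2 (u s₂ - w s₂)]
  set X := Real.sqrt (P.nrm s₂ (u s₂))
  have hu1 : Real.exp (-A / 2) * X ≤ Real.sqrt (P.nrm s₁ (u s₁)) := by
    have h1 := Real.sqrt_le_sqrt hU
    rw [Real.sqrt_mul (Real.exp_nonneg _), ← Real.exp_half] at h1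
    rw [neg_div, Real.exp_neg, inv_mul_le_iff₀ (Real.exp_pos _)]
    exact h1
  have hw1 : Real.sqrt (P.nrm s₁ (w s₁)) ≤ Real.exp (-W / 2) * X := by
    have h1 := Real.sqrt_le_sqrt (hV.trans hsplit)
    rw [Real.sqrt_mul (Real.exp_nonneg _), ← Real.exp_half] at h1
    rw [neg_div, Real.exp_neg, le_inv_mul_iff₀ (Real.exp_pos _)]
    exact h1
  have hd1 : Real.sqrt (P.nrm s₁ (u s₁ - w s₁)) ≤
      Real.exp (ε * τ / 2) * Real.sqrt (P.nrm s₂ (u s₂ - w s₂)) := by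
    have h1 := Real.sqrt_le_sqrt hD
    rw [Real.sqrt_mul (Real.exp_nonneg _), ← Real.exp_half, ← hτ, show -ε * τ / 2 = -(ε * τ / 2) by ring,
      Real.exp_neg, inv_mul_le_iff₀ (Real.exp_pos _)] at h1
    exact h1
  have h4 := sqrt_nrm_sub_le (P := P) hs1 (u s₁) (w s₁)
  have h5 : Real.exp (-W / 2) ≤ Real.exp (-A / 2) * Real.exp (-(d - ε) * τ) := by
    rw [← Real.exp_add]
    exact Real.exp_le_exp.2 (by linarith)
  have h6 : (Real.exp (-A / 2) * (1 - Real.exp (-(d - ε) * τ))) * X ≤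
      Real.exp (ε * τ / 2) * Real.sqrt (P.nrm s₂ (u s₂ - w s₂)) := by
    have := mul_le_mul_of_nonneg_right h5 (Real.sqrt_nonneg (P.nrm s₂ (u s₂)))
    linarith
  rcases le_or_gt (1 - Real.exp (-(d - ε) * τ)) 0 with h7 | h7
  · exact (mul_nonpos_of_nonpos_of_nonneg (mul_nonpos_of_nonpos_of_nonneg h7 (Real.exp_nonneg _))
      (Real.sqrt_nonneg _)).trans (Real.sqrt_nonneg _)
  · refine le_of_mul_le_mul_left (le_trans ?_ h6) (Real.exp_pos (ε * τ / 2))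
    have h8 : Real.exp (ε * τ / 2) * Real.exp (-(Λ + ε) / 2 * τ) ≤ Real.exp (-A / 2) := by
      rw [← Real.exp_add]
      exact Real.exp_le_exp.2 (by linarith)
    have h9 := mul_le_mul_of_nonneg_right (mul_le_mul_of_nonneg_left h8 h7.le) (Real.sqrt_nonneg (P.nrm s₂ (u s₂)))
    linarith

end TraceData

end

end Vale.Agent.P225.Disproof
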