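import Vale.Agent.P225.Disproof.DualFlow
import Mathlib.Topology.Separation.Hausdorff

/-!
# P225: spectral projections of the trace map, continuous in parameters, and coordinate maps
-/

namespace Vale.Agent.P225.Disproof

open Set Filter Topology
open scoped RealInnerProductSpace

noncomputable section

variable {V : Type*} [NormedAddCommGroup V] [InnerProductSpace ℝ V] [FiniteDimensional ℝ V]

/-- The spectral projection of the pencil `(B, G)` below the gap at `μ` of width `g`. -/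
structure IsSpecProj (G B : V →L[ℝ] V) (μ g : ℝ) (Q : V →L[ℝ] V) : Prop where
  idem : ∀ x, Q (Q x) = Q x
  symG : ∀ x y, ⟪Q x, G y⟫ = ⟪x, G (Q y)⟫
  symB : ∀ x y, ⟪Q x, B y⟫ = ⟪x, B (Q y)⟫
  low : ∀ x, ⟪Q x, B (Q x)⟫ ≤ (μ - g) * ⟪Q x, G (Q x)⟫
  high : ∀ x, (μ + g) * ⟪x - Q x, G (x - Q x)⟫ ≤ ⟪x - Q x, B (x - Q x)⟫

omit [FiniteDimensional ℝ V] in
theorem isClosed_isSpecProj (g : ℝ) :
    IsClosed {w : (V →L[ℝ] V) × (V →L[ℝ] V) × ℝ × (V →L[ℝ] V) |
      IsSpecProj w.1 w.2.1 w.2.2.1 g w.2.2.2} := by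
  have e : {w : (V →L[ℝ] V) × (V →L[ℝ] V) × ℝ × (V →L[ℝ] V) |
      IsSpecProj w.1 w.2.1 w.2.2.1 g w.2.2.2} =
      {w | ∀ x, w.2.2.2 (w.2.2.2 x) = w.2.2.2 x} ∩
      ({w | ∀ x y, ⟪w.2.2.2 x, w.1 y⟫ = ⟪x, w.1 (w.2.2.2 y)⟫} ∩
      ({w | ∀ x y, ⟪w.2.2.2 x, w.2.1 y⟫ = ⟪x, w.2.1 (w.2.2.2 y)⟫} ∩
      ({w | ∀ x, ⟪w.2.2.2 x, w.2.1 (w.2.2.2 x)⟫ ≤
          (w.2.2.1 - g) * ⟪w.2.2.2 x, w.1 (w.2.2.2 x)⟫} ∩
      {w | ∀ x, (w.2.2.1 + g) * ⟪x - w.2.2.2 x, w.1 (x - w.2.2.2 x)⟫ ≤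
          ⟪x - w.2.2.2 x, w.2.1 (x - w.2.2.2 x)⟫}))) := by
    ext w
    exact ⟨fun h => ⟨h.idem, h.symG, h.symB, h.low, h.high⟩,
      fun ⟨h1, h2, h3, h4, h5⟩ => ⟨h1, h2, h3, h4, h5⟩⟩
  rw [e]
  simp only [Set.ofPred_forall]
  exact (isClosed_iInter fun x => isClosed_eq (by fun_prop) (by fun_prop)).inter
    ((isClosed_iInter fun x => isClosed_iInter fun y => isClosed_eq (by fun_prop) (by fun_prop)).inter
    ((isClosed_iInter fun x => isClosed_iInter fun y => isClosed_eq (by fun_prop) (by fun_prop)).inter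
    ((isClosed_iInter fun x => isClosed_le (by fun_prop) (by fun_prop)).inter
    (isClosed_iInter fun x => isClosed_le (by fun_prop) (by fun_prop)))))

namespace TraceData

variable {a b ε : ℝ} {P : TraceData V a b ε} {t μ g μ₂ g₂ : ℝ} {Q Q₂ : V →L[ℝ] V}

theorem exists_specProj {l : ℕ} (ht : t ∈ Icc a b) (h : P.Split t μ g l) :
    ∃ Q, IsSpecProj (P.G t) (P.B t) μ g Q ∧
      Module.finrank ℝ (LinearMap.range (Q : V →ₗ[ℝ] V)) = l := by
  obtain ⟨-, S, S', hc, hl, hlow, hhigh, horth⟩ := h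
  set Q : V →L[ℝ] V := LinearMap.toContinuousLinearMap (S.projection S' hc)
  have hQ1 : ∀ x, Q x ∈ S := fun x => Submodule.projection_apply_mem hc x
  have hQ2 : ∀ x, x - Q x ∈ S' := fun x => Submodule.sub_projection_mem hc x
  have hQS : ∀ x ∈ S, Q x = x := fun x hx => Submodule.projection_apply_of_mem_left hc hx
  refine ⟨Q, ⟨fun x => hQS _ (hQ1 x), fun x y => ?_, fun x y => ?_, fun x => hlow _ (hQ1 x),
    fun x => hhigh _ (hQ2 x)⟩, ?_⟩
  · have h1 := (horth _ (hQ1 x) _ (hQ2 y)).1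
    have h2 := (horth _ (hQ1 y) _ (hQ2 x)).1
    rw [← P.symG t ht, real_inner_comm, inner_sub_left, sub_eq_zero] at h2
    rw [map_sub, inner_sub_right, sub_eq_zero] at h1
    rw [h1, h2]
  · have h1 := (horth _ (hQ1 x) _ (hQ2 y)).2
    have h2 := (horth _ (hQ1 y) _ (hQ2 x)).2
    rw [← P.symB t ht, real_inner_comm, inner_sub_left, sub_eq_zero] at h2
    rw [map_sub, inner_sub_right, sub_eq_zero] at h1
    rw [h1, h2]
  · rw [show LinearMap.range (Q : V →ₗ[ℝ] V) = S from Submodule.range_projection hc, hl]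

theorem specProj_vel (ht : t ∈ Icc a b) (hQ : IsSpecProj (P.G t) (P.B t) μ g Q) (x : V) :
    Q (P.vel t x) = P.vel t (Q x) := by
  have h : ∀ y, ⟪Q (P.vel t x) - P.vel t (Q x), P.G t y⟫ = 0 := fun y => by
    rw [inner_sub_left, hQ.symG, ← P.symG t ht _ (Q y), G_vel ht, P.symB t ht, ← hQ.symB,
      ← P.symG t ht (P.vel t (Q x)), G_vel ht, P.symB t ht, sub_self]
  exact sub_eq_zero.1 (eq_zero_of_nrm_le (P := P) ht (h _).le)

theorem sub_high_vel (ht : t ∈ Icc a b) (hμ : 0 ≤ μ + g)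
    (hQ : IsSpecProj (P.G t) (P.B t) μ g Q) {q : V} (hq : Q q = 0) :
    (μ + g) ^ 2 * P.nrm t q ≤ P.nrm t (P.vel t q) := by
  have h := hQ.high q
  rw [hq, sub_zero] at h
  have hc := inner_sq_le (P := P) ht (P.vel t q) q
  rw [eng_eq_inner_vel ht] at hc
  have h2 := pow_le_pow_left₀ (mul_nonneg hμ (nrm_nonneg (P := P) ht q)) h 2
  simp only [eng, nrm] at hc h2 ⊢
  rcases (nrm_nonneg (P := P) ht q).eq_or_lt with h0 | h0
  · simp only [nrm] at h0
    rw [← h0, mul_zero]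
    exact nrm_nonneg ht _
  · simp only [nrm] at h0
    refine le_of_mul_le_mul_right ?_ h0
    linarith

theorem low_vel (ht : t ∈ Icc a b) (hμ : 0 ≤ μ - g)
    (hQ : IsSpecProj (P.G t) (P.B t) μ g Q) (x : V) :
    P.nrm t (P.vel t (Q x)) ≤ (μ - g) ^ 2 * P.nrm t (Q x) := by
  set y := P.vel t (Q x) with hy
  have hyQ : Q y = y := by rw [hy, specProj_vel ht hQ, hQ.idem]
  have h := eng_sq_le (P := P) ht y (Q x)
  rw [show ⟪y, P.B t (Q x)⟫ = P.nrm t y by rw [hy, nrm, G_vel ht]] at h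
  have hy2 : P.eng t y ≤ (μ - g) * P.nrm t y := by
    have := hQ.low y
    rwa [hyQ] at this
  have h2 := h.trans (mul_le_mul hy2 (hQ.low x) (P.nonnegB t ht _)
    (mul_nonneg hμ (nrm_nonneg ht _)))
  rcases (nrm_nonneg (P := P) ht y).eq_or_lt with h0 | h0
  · rw [← h0]; exact mul_nonneg (sq_nonneg _) (nrm_nonneg ht _)
  · refine le_of_mul_le_mul_left ?_ h0
    simp only [nrm] at h2 ⊢
    linarith

/-- A low range lies in a range of a higher gap. -/
theorem specProj_le (ht : t ∈ Icc a b) (hμ : 0 ≤ μ - g) (hlt : μ - g < μ₂ + g₂)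
    (hQ : IsSpecProj (P.G t) (P.B t) μ g Q) (hQ₂ : IsSpecProj (P.G t) (P.B t) μ₂ g₂ Q₂) (x : V) :
    Q₂ (Q x) = Q x := by
  set p := Q x
  set q := p - Q₂ p with hq
  set D := P.vel t
  have hqz : ∀ k : ℕ, Q₂ (D^[k] q) = 0 ∧ D^[k] q = D^[k] p - Q₂ (D^[k] p) := fun k => by
    induction k with
    | zero => simp [hq, map_sub, hQ₂.idem]
    | succ k ih =>
      rw [Function.iterate_succ_apply', Function.iterate_succ_apply']
      refine ⟨by rw [specProj_vel ht hQ₂, ih.1]; simp [vel], ?_⟩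
      rw [ih.2]
      simp only [D]
      rw [specProj_vel ht hQ₂]
      simp [vel, map_sub]
  have hpQ : ∀ k : ℕ, Q (D^[k] p) = D^[k] p := fun k => by
    induction k with
    | zero => exact hQ.idem x
    | succ k ih => rw [Function.iterate_succ_apply', specProj_vel ht hQ, ih]
  have hsplit : ∀ y, P.nrm t (y - Q₂ y) ≤ P.nrm t y := fun y => by
    have h0 : ⟪Q₂ y, P.G t (y - Q₂ y)⟫ = 0 := by
      rw [hQ₂.symG, map_sub, hQ₂.idem, sub_self, map_zero, inner_zero_right]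
    have h0' : ⟪y - Q₂ y, P.G t (Q₂ y)⟫ = 0 := by rw [← P.symG t ht, real_inner_comm]; exact h0
    have e : P.nrm t y = P.nrm t (y - Q₂ y) + P.nrm t (Q₂ y) := by
      conv_lhs => rw [show y = (y - Q₂ y) + Q₂ y by abel]
      simp only [nrm, map_add, inner_add_left, inner_add_right, h0, h0']
      ring
    linarith [nrm_nonneg (P := P) ht (Q₂ y)]
  have hup : ∀ k : ℕ, P.nrm t (D^[k] p) ≤ ((μ - g) ^ 2) ^ k * P.nrm t p := fun k => by
    induction k with
    | zero => simp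
    | succ k ih =>
      rw [Function.iterate_succ_apply', pow_succ', mul_assoc, ← hpQ k]
      refine (low_vel ht hμ hQ _).trans (mul_le_mul_of_nonneg_left ?_ (sq_nonneg _))
      rw [hpQ k]
      exact ih
  have hdown : ∀ k : ℕ, ((μ₂ + g₂) ^ 2) ^ k * P.nrm t q ≤ P.nrm t (D^[k] q) := fun k => by
    induction k with
    | zero => simp
    | succ k ih =>
      rw [Function.iterate_succ_apply', pow_succ', mul_assoc]
      exact (mul_le_mul_of_nonneg_left ih (sq_nonneg _)).trans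
        (sub_high_vel ht (by linarith) hQ₂ (hqz k).1)
  have hkey : ∀ k : ℕ, ((μ₂ + g₂) ^ 2) ^ k * P.nrm t q ≤ ((μ - g) ^ 2) ^ k * P.nrm t p :=
    fun k => (hdown k).trans (((hqz k).2 ▸ hsplit (D^[k] p) :
      P.nrm t (D^[k] q) ≤ P.nrm t (D^[k] p)).trans (hup k))
  refine (sub_eq_zero.1 (?_ : q = 0)).symm
  refine eq_zero_of_nrm_le (P := P) ht ?_
  have hR : 0 < (μ₂ + g₂) ^ 2 := pow_pos (by linarith) 2
  have hr : (μ - g) ^ 2 / (μ₂ + g₂) ^ 2 < 1 :=
    (div_lt_one hR).2 (pow_lt_pow_left₀ hlt hμ two_ne_zero)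
  have hlim : Tendsto (fun k : ℕ => ((μ - g) ^ 2 / (μ₂ + g₂) ^ 2) ^ k * P.nrm t p) atTop (𝓝 0) := by
    simpa using (tendsto_pow_atTop_nhds_zero_of_lt_one (by positivity) hr).mul_const (P.nrm t p)
  refine ge_of_tendsto' hlim fun k => ?_
  rw [div_pow, div_mul_eq_mul_div, le_div_iff₀ (pow_pos hR k), mul_comm (P.nrm t q)]
  exact hkey k

theorem specProj_unique (ht : t ∈ Icc a b) (hg : 0 < g) (hμ : g ≤ μ)
    (hQ : IsSpecProj (P.G t) (P.B t) μ g Q) (hQ₂ : IsSpecProj (P.G t) (P.B t) μ g Q₂) : Q = Q₂ := by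
  refine ContinuousLinearMap.ext fun x => ?_
  have h1 := specProj_le ht (sub_nonneg.2 hμ) (by linarith) hQ hQ₂
  have h2 := specProj_le ht (sub_nonneg.2 hμ) (by linarith) hQ₂ hQ
  have h : ∀ y, ⟪Q x - Q₂ x, P.G t y⟫ = 0 := fun y => by
    rw [inner_sub_left, sub_eq_zero]
    calc ⟪Q x, P.G t y⟫ = ⟪Q₂ (Q x), P.G t y⟫ := by rw [h1]
      _ = ⟪x, P.G t (Q (Q₂ y))⟫ := by rw [hQ₂.symG, hQ.symG]
      _ = ⟪Q₂ x, P.G t y⟫ := by rw [h2, ← hQ₂.symG]
  exact sub_eq_zero.1 (eq_zero_of_nrm_le (P := P) ht (h _).le)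

/-- The spectral projection depends continuously on parameters. -/
theorem continuous_specProj {X : Type*} [TopologicalSpace X] {P : X → TraceData V a b ε}
    {τ : X → Icc a b} {μ : X → ℝ} (hG : Continuous fun x => (P x).G (τ x))
    (hB : Continuous fun x => (P x).B (τ x)) (hμc : Continuous μ) {g : ℝ} (hg : 0 < g)
    (hμ : ∀ x, g ≤ μ x) {Q : X → V →L[ℝ] V}
    (hQ : ∀ x, IsSpecProj ((P x).G (τ x)) ((P x).B (τ x)) (μ x) g (Q x)) : Continuous Q := by
  refine continuous_iff_continuousAt.2 fun x₀ => ?_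
  set m := (P x₀).m
  have hm : 0 < m := (P x₀).hm
  set C := ‖(P x₀).G (τ x₀)‖ + 1
  have hev : ∀ᶠ x in 𝓝 x₀, ‖Q x‖ ≤ Real.sqrt (2 * C / m) := by
    filter_upwards [Metric.tendsto_nhds.1 (hG.tendsto x₀) (min 1 (m / 2))
      (lt_min one_pos (half_pos hm))] with x hx
    rw [dist_eq_norm] at hx
    refine ContinuousLinearMap.opNorm_le_bound _ (Real.sqrt_nonneg _) fun v => ?_
    set D := (P x).G (τ x) - (P x₀).G (τ x₀) with hD
    have hDv : ∀ w : V, |⟪w, D w⟫| ≤ min 1 (m / 2) * ‖w‖ ^ 2 := fun w => by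
      refine (abs_real_inner_le_norm _ _).trans ?_
      refine (mul_le_mul_of_nonneg_left (D.le_opNorm w) (norm_nonneg _)).trans ?_
      have := mul_le_mul_of_nonneg_right hx.le (sq_nonneg ‖w‖)
      linarith
    have hlo : m / 2 * ‖Q x v‖ ^ 2 ≤ (P x).nrm (τ x) (Q x v) := by
      have h1 := (P x₀).coercive _ (τ x₀).2 (Q x v)
      have h2 := (abs_le.1 (hDv (Q x v))).1
      have h3 := mul_le_mul_of_nonneg_right (min_le_right (1 : ℝ) (m / 2)) (sq_nonneg ‖Q x v‖)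
      simp only [hD, sub_apply, inner_sub_right] at h2
      simp only [nrm]
      linarith
    have hhi : (P x).nrm (τ x) v ≤ C * ‖v‖ ^ 2 := by
      have h1 : ⟪v, (P x₀).G (τ x₀) v⟫ ≤ ‖(P x₀).G (τ x₀)‖ * ‖v‖ ^ 2 :=
        (real_inner_le_norm _ _).trans ((mul_le_mul_of_nonneg_left
          (((P x₀).G (τ x₀)).le_opNorm v) (norm_nonneg v)).trans (le_of_eq (by ring)))
      have h2 := (abs_le.1 (hDv v)).2
      have h3 := mul_le_mul_of_nonneg_right (min_le_left (1 : ℝ) (m / 2)) (sq_nonneg ‖v‖)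
      simp only [hD, sub_apply, inner_sub_right] at h2
      simp only [nrm, C]
      linarith
    have hmid : (P x).nrm (τ x) (Q x v) ≤ (P x).nrm (τ x) v := by
      have h1 := inner_sq_le (P := P x) (τ x).2 (Q x v) v
      have e : ⟪Q x v, (P x).G (τ x) v⟫ = (P x).nrm (τ x) (Q x v) := by
        rw [nrm, (hQ x).symG, (hQ x).symG v, (hQ x).idem]
      rw [e] at h1
      rcases (nrm_nonneg (P := P x) (τ x).2 (Q x v)).eq_or_lt with h0 | h0
      · rw [← h0]; exact nrm_nonneg (τ x).2 _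
      · refine le_of_mul_le_mul_left ?_ h0
        linarith [pow_two ((P x).nrm (τ x) (Q x v))]
    have h4 : ‖Q x v‖ ^ 2 ≤ 2 * C / m * ‖v‖ ^ 2 := by
      rw [div_mul_eq_mul_div, le_div_iff₀ hm]
      linarith
    have h5 := Real.sqrt_le_sqrt h4
    rwa [Real.sqrt_sq (norm_nonneg _), Real.sqrt_mul' _ (sq_nonneg _),
      Real.sqrt_sq (norm_nonneg _)] at h5
  refine (isCompact_closedBall (0 : V →L[ℝ] V)
    (Real.sqrt (2 * C / m))).tendsto_nhds_of_unique_mapClusterPt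
    (hev.mono fun x hx => by simpa using hx) fun R _ hR => ?_
  refine specProj_unique (P := P x₀) (τ x₀).2 hg (hμ x₀) ?_ (hQ x₀)
  rw [MapClusterPt, ClusterPt] at hR
  set F : X → (V →L[ℝ] V) × (V →L[ℝ] V) × ℝ × (V →L[ℝ] V) :=
    fun x => ((P x).G (τ x), (P x).B (τ x), μ x, Q x)
  obtain ⟨U, hU, hUR⟩ := mapClusterPt_iff_ultrafilter.1
    (by rwa [MapClusterPt, ClusterPt] : MapClusterPt R (𝓝 x₀) Q)
  have hlim : Tendsto F U (𝓝 ((P x₀).G (τ x₀), (P x₀).B (τ x₀), μ x₀, R)) :=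
    ((hG.tendsto x₀).mono_left hU).prodMk_nhds
      (((hB.tendsto x₀).mono_left hU).prodMk_nhds (((hμc.tendsto x₀).mono_left hU).prodMk_nhds hUR))
  exact (isClosed_isSpecProj g).mem_of_tendsto hlim (Eventually.of_forall fun x => hQ x)

variable {E : Type*} [NormedAddCommGroup E] [InnerProductSpace ℝ E]

/-- Coordinates on the orbit space given by a frame `f` of a low plane of the pencil. -/
def coordMap {l : ℕ} (G Q : V →L[ℝ] V) (f : Fin l → V) (U : E →L[ℝ] V) :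
    E →L[ℝ] EuclideanSpace ℝ (Fin l) :=
  ((EuclideanSpace.equiv (Fin l) ℝ).symm : (Fin l → ℝ) →L[ℝ] EuclideanSpace ℝ (Fin l)).comp
    (ContinuousLinearMap.pi fun i => (innerSL ℝ (f i)).comp (G.comp (Q.comp U)))

omit [FiniteDimensional ℝ V] in
theorem coordMap_apply {l : ℕ} (G Q : V →L[ℝ] V) (f : Fin l → V) (U : E →L[ℝ] V) (x : E)
    (i : Fin l) : coordMap G Q f U x i = ⟪f i, G (Q (U x))⟫ := rfl

omit [FiniteDimensional ℝ V] in
theorem continuous_coordMap {X : Type*} [TopologicalSpace X] [FiniteDimensional ℝ E] {l : ℕ}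
    {G Q : X → V →L[ℝ] V} {f : X → Fin l → V} {U : X → E →L[ℝ] V} (hG : Continuous G)
    (hQ : Continuous Q) (hf : Continuous f) (hU : Continuous U) :
    Continuous fun x => coordMap (G x) (Q x) (f x) (U x) := by
  refine continuous_clm_apply.2 fun v => ?_
  refine (EuclideanSpace.equiv (Fin l) ℝ).symm.continuous.comp (continuous_pi fun i => ?_)
  exact ((continuous_apply i).comp hf).inner
    (hG.clm_apply (hQ.clm_apply (hU.clm_apply continuous_const)))

/-- A vector low for the pencil is not in the high plane of the trace map. -/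
theorem pencil_low_disjoint (ht : t ∈ Icc a b) (hg : 0 ≤ g) (hgμ : g ≤ μ) {α : ℝ}
    (hα : α < (μ - g) ^ 2 + (1 - ε) * (μ - g) - ε)
    (hQ : IsSpecProj (P.G t) (P.B t) μ g Q) {x : V} (hx : ⟪x, P.K t x⟫ ≤ α * P.nrm t x)
    (hQx : Q x = 0) : x = 0 := by
  refine eq_zero_of_nrm_le (P := P) ht (le_of_not_gt fun hn => ?_)
  have h1 := sub_high_vel ht (by linarith) hQ hQx
  have h2 := hQ.high x
  rw [hQx, sub_zero] at h2
  have h3 := (abs_le.1 (P.boundB t ht x)).1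
  have e : ⟪x, (P.B t * Ring.inverse (P.G t) * P.B t) x⟫ = P.nrm t (P.vel t x) := by
    rw [nrm, G_vel ht, mul_apply_eq_comp, mul_apply_eq_comp, ← P.symB t ht, real_inner_comm]
    rfl
  rw [sub_apply, sub_apply, inner_sub_right, inner_sub_right, e] at h3
  have h4 := mul_le_mul_of_nonneg_left h2 (sub_nonneg.2 P.hε1)
  have h5 : (μ - g) ^ 2 + (1 - ε) * (μ - g) - ε ≤ (μ + g) ^ 2 + (1 - ε) * (μ + g) - ε := by
    nlinarith [mul_nonneg hg (sub_nonneg.2 hgμ), mul_nonneg hg (sub_nonneg.2 P.hε1)]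
  have h6 := mul_lt_mul_of_pos_right (hα.trans_le h5) hn
  simp only [nrm] at h1 h3 h4 h6 hx hn ⊢
  linarith

/-- The kernel of the coordinates is the high plane. -/
theorem coordMap_eq_zero_iff (ht : t ∈ Icc a b) (hg : 0 ≤ g) (hgμ : g ≤ μ) {α : ℝ}
    (hα : α < (μ - g) ^ 2 + (1 - ε) * (μ - g) - ε)
    (hQ : IsSpecProj (P.G t) (P.B t) μ g Q) {l : ℕ}
    (hl : Module.finrank ℝ (LinearMap.range (Q : V →ₗ[ℝ] V)) = l) {f : Fin l → V}
    (hf : LinearIndependent ℝ f)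
    (hfK : ∀ x ∈ Submodule.span ℝ (Set.range f), ⟪x, P.K t x⟫ ≤ α * P.nrm t x)
    (U : E →L[ℝ] V) (x : E) : coordMap (P.G t) Q f U x = 0 ↔ Q (U x) = 0 := by
  refine ⟨fun h => ?_, fun h => PiLp.ext fun i => by
    rw [coordMap_apply, h, map_zero, inner_zero_right]; rfl⟩
  have hspan : Submodule.span ℝ (Set.range fun i => Q (f i)) = LinearMap.range (Q : V →ₗ[ℝ] V) := by
    refine Submodule.eq_of_le_of_finrank_le (Submodule.span_le.2 ?_) ?_
    · rintro _ ⟨i, rfl⟩; exact ⟨f i, rfl⟩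
    · rw [hl, finrank_span_eq_card, Fintype.card_fin]
      refine hf.map (f := (Q : V →ₗ[ℝ] V)) (disjoint_iff.2 ((Submodule.eq_bot_iff _).2 ?_))
      intro v hv
      exact pencil_low_disjoint ht hg hgμ hα hQ (hfK v hv.1) hv.2
  have h0 : ∀ v ∈ LinearMap.range (Q : V →ₗ[ℝ] V), ⟪v, P.G t (Q (U x))⟫ = 0 := by
    rw [← hspan]
    intro v hv
    induction hv using Submodule.span_induction with
    | mem v hv =>
      obtain ⟨i, rfl⟩ := hv
      have h1 := congrArg (fun w : EuclideanSpace ℝ (Fin l) => w i) h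
      simp only [coordMap_apply] at h1
      rw [hQ.symG, hQ.idem]
      exact h1
    | zero => simp
    | add u v _ _ hu hv => rw [inner_add_left, hu, hv, add_zero]
    | smul r u _ hu => rw [real_inner_smul_left, hu, mul_zero]
  exact eq_zero_of_nrm_le (P := P) ht (h0 _ ⟨U x, rfl⟩).le

/-- A vector with vanishing coordinates is high. -/
theorem high_of_specProj_eq_zero (hQ : IsSpecProj (P.G t) (P.B t) μ g Q) {x : V} (hx : Q x = 0) :
    (μ + g) * P.nrm t x ≤ P.eng t x := by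
  have h := hQ.high x
  rwa [hx, sub_zero] at h

/-- The high planes are nested. -/
theorem specProj_ker_le (ht : t ∈ Icc a b) (hμ : 0 ≤ μ - g) (hlt : μ - g < μ₂ + g₂)
    (hQ : IsSpecProj (P.G t) (P.B t) μ g Q) (hQ₂ : IsSpecProj (P.G t) (P.B t) μ₂ g₂ Q₂) {x : V}
    (hx : Q₂ x = 0) : Q x = 0 := by
  refine eq_zero_of_nrm_le (P := P) ht (le_of_eq ?_)
  have h := specProj_le ht hμ hlt hQ hQ₂
  rw [nrm, hQ.symG, hQ.idem, ← h x, ← hQ₂.symG, hx, inner_zero_left]

/-- The forms of a family of dual systems are continuous in time and parameters jointly. -/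
theorem continuous_dualSys {F : Type*} [NormedAddCommGroup F] [InnerProductSpace ℝ F]
    [FiniteDimensional ℝ F] {X : Type*} [TopologicalSpace X] {P : X → TraceData V a b ε}
    {U : X → ℝ → F →L[ℝ] V} {ν ν' : X → ℝ → ℝ} {g top : X → ℝ}
    (hs : ∀ x, DualStart (P x) (U x) (ν x) (ν' x) (g x) (top x))
    (hU : Continuous fun p : X × Icc a b => U p.1 p.2)
    (hG : Continuous fun p : X × Icc a b => (P p.1).G p.2)
    (hB : Continuous fun p : X × Icc a b => (P p.1).B p.2) :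
    (Continuous fun p : X × Icc a b => ((hs p.1).dualSys).N p.2) ∧
      Continuous fun p : X × Icc a b => ((hs p.1).dualSys).En p.2 := by
  have hA := (ContinuousLinearMap.adjoint (𝕜 := ℝ) (E := F) (F := V)).continuous.comp hU
  exact ⟨hA.clm_comp (hG.clm_comp hU), hA.clm_comp (hB.clm_comp hU)⟩

end TraceData

end

end Vale.Agent.P225.Disproof
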