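import Vale.Agent.P225.Disproof.PencilTransfer
import Vale.Agent.P225.Disproof.MassLevel
import Vale.Agent.P225.Disproof.SpecProj

/-!
# P225: an open gap of the pencil gives a split of the Galerkin trace map
-/

namespace Vale.Agent.P225.Disproof

open MeasureTheory Set Filter Topology
open scoped RealInnerProductSpace

noncomputable section

variable {N : ℕ} {a b ε : ℝ}

/-- The Galerkin split below an open gap of the pencil of a nearby frozen weight: the level `j` of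
the pencil gives planes of dimension `j + 1`, the constants included. -/
theorem split_of_pencil {P : TraceData (Gal N) a b ε} {t : ℝ} (ht : t ∈ Icc a b)
    {ν ω w : C(Sph 3, ℝ)} (hK : P.K t = stiffOp N ω) (hG : P.G t = massOp N ν)
    (hw : ∀ θ, 0 < w θ) {j : ℕ} (hj : 1 ≤ j) (hgapw : 0 < nu (pencil w) j) {μ g δ : ℝ}
    (hδ0 : 0 ≤ δ) (hδ1 : δ ≤ 1) (hδf : δ < nu (pencil w) (j - 1))
    (hN : 2 * ‖w‖ / ((N : ℝ) + 1) ≤ δ) (hω : ∀ θ, |ω θ - 1| ≤ δ / 4)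
    (hν : ∀ θ, |ν θ - w θ| ≤ δ / 4 * w θ) (hg : 0 < g) (hgμ : g ≤ μ)
    (hα : (1 + δ) / (nu (pencil w) (j - 1) - δ) < (μ - g) ^ 2 + (1 - ε) * (μ - g) - ε)
    (hβ : (μ + g) ^ 2 + (1 + ε) * (μ + g) + ε < (1 - δ) / nu (pencil w) j) :
    P.Split t μ g (j + 1) ∧ ∃ Wlo : Submodule ℝ (Gal N), j + 1 ≤ Module.finrank ℝ Wlo ∧
      ∀ u ∈ Wlo, ⟪u, P.K t u⟫ ≤ (1 + δ) / (nu (pencil w) (j - 1) - δ) * P.nrm t u := by
  set f := nu (pencil w) (j - 1)
  set h := nu (pencil w) j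
  obtain ⟨Wlo, Whi, hlo, hhi, hlo', hhi'⟩ := exists_trial_planes hw hj (lt_of_le_of_lt hN hδf)
  have hωb : ∀ u : Gal N, |⟪u, stiffOp N (ω - 1) u⟫| ≤ δ / 4 * ⟪u, stiffOp N 1 u⟫ := fun u =>
    weight_bound (stiffOp N) (fun v hv => stiffOp_nonneg hv) (fun θ => by simpa using hω θ) u
  have hνb : ∀ u : Gal N, |⟪u, massOp N (ν - w) u⟫| ≤ δ / 4 * ⟪u, massOp N w u⟫ := fun u =>
    weight_bound (massOp N) (fun v hv => massOp_nonneg hv) (fun θ => by simpa using hν θ) u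
  have hfd : 0 < f - δ := sub_pos.2 hδf
  have hf2 : (f - 2 * ‖w‖ / ((N : ℝ) + 1))⁻¹ ≤ (f - δ)⁻¹ :=
    inv_anti₀ hfd (by linarith)
  have hlow : ∀ u ∈ Wlo, ⟪u, P.K t u⟫ ≤ (1 + δ) / (f - δ) * P.nrm t u := fun u hu => by
    have h1 := (abs_le.1 (hωb u)).2
    have h2 := (abs_le.1 (hνb u)).1
    have hwp : 0 ≤ ⟪u, massOp N w u⟫ := massOp_nonneg (fun θ => (hw θ).le) u
    have h3 := (hlo' u hu).trans (mul_le_mul_of_nonneg_right hf2 hwp)
    rw [TraceData.nrm, hK, hG]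
    simp only [map_sub, sub_apply, inner_sub_right] at h1 h2
    set A := ⟪u, stiffOp N 1 u⟫
    set M := ⟪u, massOp N w u⟫
    have h4 : A * (f - δ) ≤ M := by rwa [← le_div_iff₀ hfd, div_eq_inv_mul]
    rw [div_mul_eq_mul_div, le_div_iff₀ hfd]
    have h5 := mul_le_mul_of_nonneg_left h4 (by linarith : (0 : ℝ) ≤ 1 + δ / 4)
    have h6 := mul_le_mul_of_nonneg_right (show ⟪u, stiffOp N ω u⟫ ≤ (1 + δ / 4) * A by linarith)
      hfd.le
    have h7 := mul_le_mul_of_nonneg_left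
      (show (1 - δ / 4) * M ≤ ⟪u, massOp N ν u⟫ by linarith) (by linarith : (0 : ℝ) ≤ 1 + δ)
    have h8 : (1 + δ / 4) * M ≤ (1 + δ) * (1 - δ / 4) * M :=
      mul_le_mul_of_nonneg_right (by nlinarith) hwp
    linarith
  have hhigh : ∀ u ∈ Whi, (1 - δ) / h * P.nrm t u ≤ ⟪u, P.K t u⟫ := fun u hu => by
    have h1 := (abs_le.1 (hωb u)).1
    have h2 := (abs_le.1 (hνb u)).2
    have hwp : 0 ≤ ⟪u, massOp N w u⟫ := massOp_nonneg (fun θ => (hw θ).le) u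
    have h3 := hhi' u hu
    rw [TraceData.nrm, hK, hG]
    simp only [map_sub, sub_apply, inner_sub_right] at h1 h2
    set A := ⟪u, stiffOp N 1 u⟫
    set M := ⟪u, massOp N w u⟫
    have h4 : M ≤ A * h := by
      rw [inv_mul_eq_div, div_le_iff₀ hgapw] at h3; exact h3
    rw [div_mul_eq_mul_div, div_le_iff₀ hgapw]
    have h5 := mul_le_mul_of_nonneg_left (show ⟪u, massOp N ν u⟫ ≤ (1 + δ / 4) * M by linarith)
      (by linarith : (0 : ℝ) ≤ 1 - δ)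
    have h6 := mul_le_mul_of_nonneg_right (show (1 - δ / 4) * A ≤ ⟪u, stiffOp N ω u⟫ by linarith)
      hgapw.le
    have h7 : (1 - δ) * (1 + δ / 4) * M ≤ (1 - δ / 4) * M :=
      mul_le_mul_of_nonneg_right (by nlinarith) hwp
    have h8 := mul_le_mul_of_nonneg_left h4 (by linarith : (0 : ℝ) ≤ 1 - δ / 4)
    linarith
  exact ⟨TraceData.exists_split (P := P) ht hg hgμ hlo hlow hhi hhigh hα hβ, Wlo, hlo, hlow⟩

end

end Vale.Agent.P225.Disproof
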