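import Vale.Agent.P225.Disproof.GalerkinSob

/-!
# P225: sup bounds from the reproducing kernel

The sum of the squares of an orthonormal basis of a rotation invariant space is constant on the
sphere. Hence a harmonic polynomial of degree `l` is bounded on the sphere by `(l + 1)` times its
norm, up to the area of the sphere.
-/

namespace Vale.Agent.P225.Disproof

open MvPolynomial MeasureTheory Set
open scoped RealInnerProductSpace

noncomputable section

/-- A homogeneous polynomial killed by all rotations is constant on the sphere. -/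
theorem const_of_rotP_eq_zero {l : ℕ} {P : MvPolynomial (Fin 3) ℝ} (hP : P.IsHomogeneous (2 * l))
    (h : ∀ i, rotP i P = 0) (θ η : Sph 3) : res P θ = res P η := by
  have hjk : ∀ j k, (X j : MvPolynomial (Fin 3) ℝ) * pderiv k P = X k * pderiv j P := by
    have h' : ∀ i, (X (i + 1) : MvPolynomial (Fin 3) ℝ) * pderiv (i + 2) P =
        X (i + 2) * pderiv (i + 1) P := fun i => sub_eq_zero.1 (h i)
    have a := h' 0
    have b := h' 1
    have c := h' 2
    simp only [show (0 : Fin 3) + 1 = 1 from rfl, show (0 : Fin 3) + 2 = 2 from rfl,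
      show (1 : Fin 3) + 1 = 2 from rfl, show (1 : Fin 3) + 2 = 0 from rfl,
      show (2 : Fin 3) + 1 = 0 from rfl, show (2 : Fin 3) + 2 = 1 from rfl] at a b c
    intro j k
    match j, k with
    | 0, 0 => rfl
    | 1, 1 => rfl
    | 2, 2 => rfl
    | 1, 2 => exact a
    | 2, 1 => exact a.symm
    | 2, 0 => exact b
    | 0, 2 => exact b.symm
    | 0, 1 => exact c
    | 1, 0 => exact c.symm
  have hsq : ∀ k, sq 3 * pderiv k P = (2 * l : MvPolynomial (Fin 3) ℝ) * X k * P := fun k => by
    have hE := IsHomogeneous.sum_X_mul_pderiv hP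
    rw [nsmul_eq_mul] at hE
    calc sq 3 * pderiv k P = ∑ i, X i * (X i * pderiv k P) := by
          rw [sq, Finset.sum_mul]; exact Finset.sum_congr rfl fun i _ => by ring
      _ = X k * ∑ i, X i * pderiv i P := by
          rw [Finset.mul_sum]; exact Finset.sum_congr rfl fun i _ => by rw [hjk i k]; ring
      _ = _ := by rw [hE]; push_cast; ring
  have hQ : ∀ k, pderiv k P * sq 3 ^ l - P * pderiv k (sq 3 ^ l) = 0 := fun k => by
    rcases Nat.eq_zero_or_pos l with hl | hl
    · subst hl
      have h0 : pderiv k P = 0 :=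
        (mul_eq_zero.1 ((hsq k).trans (by simp))).resolve_left (sq_ne_zero (by omega))
      simp [h0]
    · rw [Derivation.leibniz_pow, pderiv_sq, smul_eq_mul, nsmul_eq_mul]
      obtain ⟨j, rfl⟩ := Nat.exists_eq_succ_of_ne_zero hl.ne'
      simp only [Nat.succ_eq_add_one, Nat.add_sub_cancel]
      have e := hsq k
      push_cast at e ⊢
      linear_combination (sq 3 ^ j) * e
  set s : Set (Space 3) := {0}ᶜ
  set g : Space 3 → ℝ := fun x => evalFun P x / evalFun (sq 3 ^ l) x
  have hne : ∀ x ∈ s, evalFun (sq 3 ^ l) x ≠ 0 := fun x hx => by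
    have e : evalFun (sq 3 ^ l) x = (‖x‖ ^ 2) ^ l := by
      rw [EuclideanSpace.real_norm_sq_eq]
      simp [evalFun, sq, pow_two]
    rw [e]
    exact pow_ne_zero _ (pow_ne_zero _ (norm_ne_zero_iff.2 hx))
  have hd : DifferentiableOn ℝ g s := fun x hx => by
    simp only [g, div_eq_mul_inv]
    exact ((hasFDerivAt_evalFun P x).differentiableAt.mul
      ((hasFDerivAt_evalFun (sq 3 ^ l) x).differentiableAt.inv (hne x hx))).differentiableWithinAt
  have hf : s.EqOn (fderiv ℝ g) 0 := fun x hx => by
    refine ContinuousLinearMap.ext_on (R₁ := ℝ)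
      (s := Set.range (EuclideanSpace.basisFun (Fin 3) ℝ)) ?_ ?_
    · have htop : Submodule.span ℝ (Set.range (EuclideanSpace.basisFun (Fin 3) ℝ)) = ⊤ := by
        rw [← OrthonormalBasis.coe_toBasis]
        exact (EuclideanSpace.basisFun (Fin 3) ℝ).toBasis.span_eq
      rw [htop]
      exact dense_univ
    · rintro _ ⟨k, rfl⟩
      have h1 := (contDiff_evalFun P (m := 1)).differentiable (by simp) x |>.hasFDerivAt
      have h2 := (contDiff_evalFun (sq 3 ^ l) (m := 1)).differentiable (by simp) x |>.hasFDerivAt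
      have h3 := congrArg (fun p => evalFun p x) (hQ k)
      simp only [evalFun, map_sub, map_mul, map_zero] at h3
      have e1 : fderiv ℝ (evalFun P) x (EuclideanSpace.single k (1 : ℝ)) =
          evalFun (pderiv k P) x := congrFun (pd_evalFun k P) x
      have e2 : fderiv ℝ (evalFun (sq 3 ^ l)) x (EuclideanSpace.single k (1 : ℝ)) =
          evalFun (pderiv k (sq 3 ^ l)) x := congrFun (pd_evalFun k (sq 3 ^ l)) x
      simp only [EuclideanSpace.basisFun_apply]
      have hg' : g = fun y => evalFun P y * (evalFun (sq 3 ^ l) y)⁻¹ := by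
        funext y; exact div_eq_mul_inv _ _
      have h4 := (hasDerivAt_inv (hne x hx)).comp_hasFDerivAt x h2
      rw [hg', show fderiv ℝ (fun y => evalFun P y * (evalFun (sq 3 ^ l) y)⁻¹) x = _ from
        (h1.mul h4).fderiv]
      simp only [smul_apply, add_apply, e1, e2, Pi.zero_apply, zero_apply, smul_eq_mul,
        Function.comp_apply]
      have h5 := hne x hx
      simp only [evalFun] at h5 ⊢
      field_simp
      linarith
  have hg : ∀ θ : Sph 3, g θ = res P θ := fun θ => by
    have h1 : evalFun (sq 3) (θ : Space 3) = 1 := by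
      have h := EuclideanSpace.real_norm_sq_eq (θ : Space 3)
      rw [norm_eq_of_mem_sphere, one_pow] at h
      simpa [evalFun, sq, map_sum, ← pow_two] using h.symm
    simp only [g, res]
    rw [show evalFun (sq 3 ^ l) (θ : Space 3) = evalFun (sq 3) (θ : Space 3) ^ l from map_pow _ _ _,
      h1, one_pow, div_one]
  have hmem : ∀ θ : Sph 3, (θ : Space 3) ∈ s := fun θ h0 => by
    have := norm_eq_of_mem_sphere θ
    rw [Set.mem_singleton_iff.1 h0, norm_zero] at this
    norm_num at this
  have hc : IsPreconnected s := by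
    refine (isConnected_compl_singleton_of_one_lt_rank ?_ 0).isPreconnected
    rw [← Module.finrank_eq_rank, finrank_euclideanSpace, Fintype.card_fin]
    norm_num
  rw [← hg θ, ← hg η]
  exact isOpen_compl_singleton.is_const_of_fderiv_eq_zero hc hd hf (hmem θ) (hmem η)

/-- The elements which are homogeneous of degree `l`. -/
def level (N l : ℕ) : Submodule ℝ (Gal N) where
  carrier := {p | p.poly.IsHomogeneous l}
  zero_mem' := by simpa using isHomogeneous_zero (Fin 3) ℝ l
  add_mem' := fun {p q} hp hq => by simpa using IsHomogeneous.add hp hq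
  smul_mem' := fun r p hp => by
    show (r • p).poly.IsHomogeneous l
    rw [map_smul]
    exact (homogeneousSubmodule (Fin 3) ℝ l).smul_mem r hp

theorem part_mem_level {N : ℕ} (l : ℕ) (p : Gal N) : part l p ∈ level N l :=
  homogeneousComponent_isHomogeneous l p.poly

theorem finrank_level_le (N l : ℕ) : Module.finrank ℝ (level N l) ≤ (l + 1) ^ 2 := by
  set f : level N l →ₗ[ℝ] (Fin (l + 1) × Fin (l + 1) → ℝ) :=
    LinearMap.pi fun q => (lcoeff ℝ (Finsupp.equivFunOnFinite.symm
      ![(q.1 : ℕ), (q.2 : ℕ), l - q.1 - q.2])).comp (Gal.poly.comp (level N l).subtype)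
  have hf : Function.Injective f := by
    rw [injective_iff_map_eq_zero]
    intro p hp
    refine Subtype.ext (Gal.ext ?_)
    show p.1.poly = (0 : Gal N).poly
    rw [map_zero]
    refine MvPolynomial.ext _ _ fun d => ?_
    rw [coeff_zero]
    by_contra hd
    have hdeg : d 0 + d 1 + d 2 = l := by
      have h2 : p.1.poly.IsHomogeneous l := p.2
      have := h2 hd
      rwa [Finsupp.weight_apply, Finsupp.sum_fintype _ _ (by simp), Fin.sum_univ_three,
        Pi.one_apply, Pi.one_apply, Pi.one_apply, smul_eq_mul, smul_eq_mul, smul_eq_mul, mul_one,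
        mul_one, mul_one] at this
    have h1 := congrFun hp (⟨d 0, by omega⟩, ⟨d 1, by omega⟩)
    refine hd ?_
    have e : (Finsupp.equivFunOnFinite.symm ![d 0, d 1, l - d 0 - d 1] : Fin 3 →₀ ℕ) = d := by
      ext j
      fin_cases j <;> simp
      omega
    simp only [f, LinearMap.pi_apply, LinearMap.comp_apply, lcoeff_apply, e] at h1
    exact h1
  refine (LinearMap.finrank_le_finrank_of_injective hf).trans ?_
  simp [pow_two]

/-- The area of the sphere. -/
def area : ℝ := ∫ _θ, (1 : ℝ) ∂(sig 3)

/-- The sup bound in a single degree. -/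
theorem area_mul_res_sq_le {N : ℕ} {l : ℕ} {p : Gal N} (hp : p ∈ level N l) (θ : Sph 3) :
    area * res p.poly θ ^ 2 ≤ (l + 1 : ℝ) ^ 2 * ‖p‖ ^ 2 := by
  set e := stdOrthonormalBasis ℝ (level N l)
  set P : MvPolynomial (Fin 3) ℝ := ∑ k, (e k).1.poly * (e k).1.poly
  have hP : P.IsHomogeneous (2 * l) := IsHomogeneous.sum _ _ _ fun k _ => by
    rw [two_mul]; exact IsHomogeneous.mul (e k).2 (e k).2
  have hZ : ∀ i, rotP i P = 0 := fun i => by
    have hm : ∀ k, rotG i (e k).1 ∈ level N l := fun k => rotP_hom i (e k).2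
    set A := fun k j => ⟪(e j).1, rotG i (e k).1⟫
    have hexp : ∀ k, rotP i (e k).1.poly = ∑ j, A k j • (e j).1.poly := fun k => by
      have h := congrArg Subtype.val (e.sum_repr' ⟨rotG i (e k).1, hm k⟩)
      rw [Submodule.coe_sum] at h
      rw [← poly_rotG]
      conv_lhs => rw [show rotG i (e k).1 = _ from h.symm, map_sum]
      exact Finset.sum_congr rfl fun j _ => by rw [Submodule.coe_smul, map_smul]; rfl
    have hA : ∀ k j, A j k = -A k j := fun k j => by
      simp only [A]
      rw [← neg_eq_iff_eq_neg, ← inner_rotG, real_inner_comm]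
    have h0 : rotP i P = ∑ k, ∑ j, A k j • ((2 : ℝ) • ((e k).1.poly * (e j).1.poly)) := by
      simp only [P, map_sum]
      refine Finset.sum_congr rfl fun k _ => ?_
      rw [Derivation.leibniz, hexp, smul_eq_mul, ← two_nsmul, Finset.mul_sum, Finset.smul_sum]
      refine Finset.sum_congr rfl fun j _ => ?_
      rw [mul_smul_comm, ← Nat.cast_smul_eq_nsmul ℝ, smul_comm]
      norm_num
    have h1 : rotP i P = -rotP i P := by
      conv_lhs => rw [h0, Finset.sum_comm]
      rw [h0, ← Finset.sum_neg_distrib]
      refine Finset.sum_congr rfl fun k _ => ?_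
      rw [← Finset.sum_neg_distrib]
      exact Finset.sum_congr rfl fun j _ => by rw [hA k j, neg_smul, mul_comm (e j).1.poly]
    have h2 : (2 : ℝ) • rotP i P = 0 := by
      rw [two_smul]
      exact eq_neg_iff_add_eq_zero.1 h1
    exact (smul_eq_zero.1 h2).resolve_left two_ne_zero
  have hc : ∀ η, res P η = res P θ := fun η => const_of_rotP_eq_zero hP hZ η θ
  have hres : ∀ η, res P η = ∑ k, res (e k).1.poly η * res (e k).1.poly η := fun η => by
    simp [P, res, evalFun]
  have hint : ∫ η, res P η ∂(sig 3) = (Module.finrank ℝ (level N l) : ℝ) := by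
    simp only [hres]
    rw [integral_finsetSum _ fun k _ => ?_]
    swap
    · exact integrable_sig ((continuous_res _).mul (continuous_res _))
    have h1 : ∀ k, ∫ η, res (e k).1.poly η * res (e k).1.poly η ∂(sig 3) = 1 := fun k => by
      have := e.orthonormal.1 k
      rw [Submodule.coe_norm] at this
      rw [show (∫ η, res (e k).1.poly η * res (e k).1.poly η ∂(sig 3)) =
        ⟪(e k).1, (e k).1⟫ from rfl, real_inner_self_eq_norm_sq, this, one_pow]
    simp [h1]
  have harea : area * res P θ = (Module.finrank ℝ (level N l) : ℝ) := by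
    rw [← hint, area, ← integral_mul_const]
    exact integral_congr_ae (Filter.Eventually.of_forall fun η => by simp [hc η])
  have hcs : res p.poly θ ^ 2 ≤ res P θ * ‖p‖ ^ 2 := by
    set q : level N l := ⟨p, hp⟩
    have h1 : res p.poly θ = ∑ k, ⟪e k, q⟫ * res (e k).1.poly θ := by
      have h := congrArg Subtype.val (e.sum_repr' q)
      rw [Submodule.coe_sum] at h
      conv_lhs => rw [show p = q.1 from rfl, ← h]
      simp [res, evalFun, MvPolynomial.smul_eval]
    have h2 : ‖p‖ ^ 2 = ∑ k, ⟪e k, q⟫ ^ 2 := by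
      rw [show ‖p‖ = ‖q‖ from rfl, ← real_inner_self_eq_norm_sq, ← e.sum_inner_mul_inner q q]
      exact Finset.sum_congr rfl fun k _ => by rw [real_inner_comm q (e k)]; ring
    rw [h1, hres, h2, mul_comm]
    refine (Finset.sum_mul_sq_le_sq_mul_sq _ _ _).trans (le_of_eq ?_)
    congr 1
    exact Finset.sum_congr rfl fun k _ => by ring
  have ha : 0 ≤ area := integral_nonneg fun _ => zero_le_one
  calc area * res p.poly θ ^ 2 ≤ area * (res P θ * ‖p‖ ^ 2) := mul_le_mul_of_nonneg_left hcs ha
    _ = (Module.finrank ℝ (level N l) : ℝ) * ‖p‖ ^ 2 := by rw [← mul_assoc, harea]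
    _ ≤ _ := mul_le_mul_of_nonneg_right (by exact_mod_cast finrank_level_le N l) (sq_nonneg _)

end

end Vale.Agent.P225.Disproof
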