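import Mathlib.Analysis.SpecialFunctions.Sqrt
import Mathlib.Topology.Compactness.Compact
import Mathlib.Topology.MetricSpace.Basic

/-!
# P225: uniform levels inside an open gap

From the two pencil values next to a gap on a compact family to a continuous level `mu` with
margins `g` (gap), `eps` (time dependence) and `eta` (truncation and lapse).
-/

namespace Vale.Agent.P225.Disproof

open Set Filter Topology

noncomputable section

/-- The level between `1 / f` and `1 / h`, as a root of `x ^ 2 + x`. -/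
def midLevel (f h : ℝ) : ℝ := (√(1 + 2 * (1 / f + 1 / h)) - 1) / 2

theorem midLevel_spec {f h : ℝ} (hh : 0 < h) (hhf : h < f) :
    0 < midLevel f h ∧ 1 / f < midLevel f h ^ 2 + midLevel f h ∧
      midLevel f h ^ 2 + midLevel f h < 1 / h := by
  have hf : 0 < f := hh.trans hhf
  have h1 : 1 / f < 1 / h := one_div_lt_one_div_of_lt hh hhf
  have h2 : 0 < 1 / f := one_div_pos.2 hf
  have h3 : 1 < √(1 + 2 * (1 / f + 1 / h)) := by
    rw [Real.lt_sqrt (by norm_num)]
    linarith
  have h4 := Real.sq_sqrt (show 0 ≤ 1 + 2 * (1 / f + 1 / h) by linarith)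
  refine ⟨by rw [midLevel]; linarith, ?_, ?_⟩ <;> rw [midLevel] <;> nlinarith

/-- Uniform margins for the level on a compact family. -/
theorem exists_level_margins {Q : Type*} [TopologicalSpace Q] [CompactSpace Q] {f h : Q → ℝ}
    (hf : Continuous f) (hh : Continuous h) (hpos : ∀ q, 0 < h q) (hgap : ∀ q, h q < f q) :
    Continuous (fun q => midLevel (f q) (h q)) ∧
    ∃ δ > (0 : ℝ), ∀ q, δ ≤ midLevel (f q) (h q) ∧ δ < f q ∧
      ∀ g ∈ Icc (0 : ℝ) δ, ∀ ε ∈ Icc (0 : ℝ) δ, ∀ η ∈ Icc (0 : ℝ) δ,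
        (1 + η) / (f q - η) <
            (midLevel (f q) (h q) - g) ^ 2 + (1 - ε) * (midLevel (f q) (h q) - g) - ε ∧
          (midLevel (f q) (h q) + g) ^ 2 + (1 + ε) * (midLevel (f q) (h q) + g) + ε <
            (1 - η) / h q := by
  have hfpos : ∀ q, 0 < f q := fun q => (hpos q).trans (hgap q)
  have hμ : Continuous fun q => midLevel (f q) (h q) := by
    simp only [midLevel, one_div]
    exact (((continuous_const.add (continuous_const.mul
      ((hf.inv₀ fun q => (hfpos q).ne').add (hh.inv₀ fun q => (hpos q).ne')))).sqrt).sub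
        continuous_const).div_const _
  refine ⟨hμ, ?_⟩
  set m := fun q => midLevel (f q) (h q) with hm
  have key : ∀ q : Q, q ∈ (univ : Set Q) → ∀ᶠ w : (ℝ × ℝ × ℝ) × Q in 𝓝 ((0 : ℝ × ℝ × ℝ), q),
      w.1.1 < m w.2 ∧ w.1.2.2 < f w.2 ∧
        (1 + w.1.2.2) / (f w.2 - w.1.2.2) <
            (m w.2 - w.1.1) ^ 2 + (1 - w.1.2.1) * (m w.2 - w.1.1) - w.1.2.1 ∧
          (m w.2 + w.1.1) ^ 2 + (1 + w.1.2.1) * (m w.2 + w.1.1) + w.1.2.1 <
            (1 - w.1.2.2) / h w.2 := by
    intro q _
    obtain ⟨hμ0, hμ1, hμ2⟩ := midLevel_spec (hpos q) (hgap q)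
    have hmc : Continuous fun w : (ℝ × ℝ × ℝ) × Q => m w.2 := hμ.comp continuous_snd
    have hfc : Continuous fun w : (ℝ × ℝ × ℝ) × Q => f w.2 := hf.comp continuous_snd
    refine ((continuous_fst.fst.continuousAt).eventually_lt hmc.continuousAt ?_).and
      (((continuous_fst.snd.snd.continuousAt).eventually_lt hfc.continuousAt ?_).and
      ((ContinuousAt.eventually_lt ?_ ?_ ?_).and (ContinuousAt.eventually_lt ?_ ?_ ?_)))
    · simpa [hm] using hμ0
    · simpa using hfpos q
    · exact (continuous_const.add continuous_fst.snd.snd).continuousAt.div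
        (hfc.sub continuous_fst.snd.snd).continuousAt (by simpa using (hfpos q).ne')
    · fun_prop
    · simpa [hm] using hμ1
    · fun_prop
    · exact (continuous_const.sub continuous_fst.snd.snd).continuousAt.div
        (hh.comp continuous_snd).continuousAt (by simpa using (hpos q).ne')
    · simpa [hm] using hμ2
  have h1 := (isCompact_univ (X := Q)).eventually_forall_of_forall_eventually
    (P := fun (w : ℝ × ℝ × ℝ) q => w.1 < m q ∧ w.2.2 < f q ∧
        (1 + w.2.2) / (f q - w.2.2) < (m q - w.1) ^ 2 + (1 - w.2.1) * (m q - w.1) - w.2.1 ∧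
          (m q + w.1) ^ 2 + (1 + w.2.1) * (m q + w.1) + w.2.1 < (1 - w.2.2) / h q) key
  obtain ⟨r, hr, hr'⟩ := Metric.eventually_nhds_iff.1 h1
  refine ⟨r / 2, half_pos hr, fun q => ?_⟩
  have hball : ∀ g ε η : ℝ, |g| ≤ r / 2 → |ε| ≤ r / 2 → |η| ≤ r / 2 →
      dist ((g, ε, η) : ℝ × ℝ × ℝ) 0 < r := fun g ε η a b c => by
    simp only [Prod.dist_eq, Real.dist_eq, Prod.fst_zero, Prod.snd_zero, sub_zero]
    exact max_lt (by linarith) (max_lt (by linarith) (by linarith))
  have h0 := hr' (hball (r / 2) 0 (r / 2) (by rw [abs_of_pos (half_pos hr)])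
    (by simpa using (half_pos hr).le) (by rw [abs_of_pos (half_pos hr)])) q (mem_univ q)
  refine ⟨h0.1.le, h0.2.1, fun g hg ε hε η hη => ?_⟩
  have h2 := hr' (hball g ε η (by rw [abs_of_nonneg hg.1]; exact hg.2)
    (by rw [abs_of_nonneg hε.1]; exact hε.2) (by rw [abs_of_nonneg hη.1]; exact hη.2)) q (mem_univ q)
  exact h2.2.2

end

end Vale.Agent.P225.Disproof
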