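import Vale.Agent.P225.Disproof.GalerkinFrame
import Vale.Agent.P225.Disproof.GapLevel
import Vale.Agent.P225.Disproof.PencilCluster
import Mathlib.Analysis.Calculus.BumpFunction.SmoothApprox
import Mathlib.Analysis.SpecialFunctions.SmoothTransition
import Mathlib.Topology.TietzeExtension

/-!
# P225: smooth levels along compact families with an open gap

`GoodLevel w j m g δ` is a numerical condition on a level `m` at the weight `w`. It gives the split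
of every Galerkin trace map with close weights, it is convex in `m` and monotone in `g`, `δ`.
-/

namespace Vale.Agent.P225.Disproof

open MeasureTheory Set Filter Topology
open scoped RealInnerProductSpace

noncomputable section

/-- The level `m` separates the eigenvalues next to gap `j` of the pencil at `w`. -/
def GoodLevel (w : C(Sph 3, ℝ)) (j : ℕ) (m g δ : ℝ) : Prop :=
  0 < g ∧ g ≤ m ∧ 0 < δ ∧ δ ≤ 1 ∧ δ < nu (pencil w) (j - 1) ∧
    (1 + δ) / (nu (pencil w) (j - 1) - δ) < (m - g) ^ 2 + (1 - δ) * (m - g) - δ ∧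
    (m + g) ^ 2 + (1 + δ) * (m + g) + δ < (1 - δ) / nu (pencil w) j

theorem phiLow_mono {δ δ' x y : ℝ} (hδ : δ' ≤ δ) (hδ1 : δ ≤ 1) (hx : 0 ≤ x) (hxy : x ≤ y) :
    x ^ 2 + (1 - δ) * x - δ ≤ y ^ 2 + (1 - δ') * y - δ' := by
  have h1 := pow_le_pow_left₀ hx hxy 2
  have h2 : (1 - δ) * x ≤ (1 - δ') * y :=
    mul_le_mul (by linarith) hxy hx (by linarith)
  linarith

theorem phiHigh_mono {δ δ' x y : ℝ} (hδ : δ' ≤ δ) (hδ0 : 0 ≤ δ') (hx : 0 ≤ x) (hxy : x ≤ y) :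
    x ^ 2 + (1 + δ') * x + δ' ≤ y ^ 2 + (1 + δ) * y + δ := by
  have h1 := pow_le_pow_left₀ hx hxy 2
  have h2 : (1 + δ') * x ≤ (1 + δ) * y := mul_le_mul (by linarith) hxy hx (by linarith)
  linarith

namespace GoodLevel

variable {w : C(Sph 3, ℝ)} {j : ℕ} {m m' g g' δ δ' : ℝ}

/-- Smaller constants. -/
theorem mono (h : GoodLevel w j m g δ) (hw : ∀ θ, 0 < w θ) (hg : 0 < g') (hgg : g' ≤ g)
    (hδ : 0 < δ') (hδδ : δ' ≤ δ) : GoodLevel w j m g' δ' := by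
  obtain ⟨h1, h2, h3, h4, h5, h6, h7⟩ := h
  refine ⟨hg, by linarith, hδ, by linarith, by linarith, lt_of_le_of_lt ?_ (h6.trans_le
    (phiLow_mono hδδ h4 (by linarith) (by linarith))),
    lt_of_lt_of_le ((phiHigh_mono hδδ hδ.le (by linarith) (by linarith)).trans_lt h7) ?_⟩
  · exact div_le_div₀ (by linarith) (by linarith) (sub_pos.2 h5) (by linarith)
  · exact div_le_div_of_nonneg_right (by linarith) ((goodOp_pencil hw).nu_pos j).le

/-- Convexity in the level. -/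
theorem convex (h : GoodLevel w j m g δ) (h' : GoodLevel w j m' g δ) {c : ℝ}
    (hc : c ∈ Icc (0 : ℝ) 1) : GoodLevel w j (c * m + (1 - c) * m') g δ := by
  wlog hmm : m ≤ m' generalizing m m' c
  · have h1 := this h' h (c := 1 - c) ⟨by linarith [hc.2], by linarith [hc.1]⟩ (le_of_not_ge hmm)
    rw [sub_sub_cancel] at h1
    rwa [add_comm] at h1
  obtain ⟨h1, h2, h3, h4, h5, h6, -⟩ := h
  obtain ⟨-, -, -, -, -, -, k7⟩ := h'
  have ha := mul_le_mul_of_nonneg_left hmm hc.1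
  have hb := mul_le_mul_of_nonneg_left hmm (sub_nonneg.2 hc.2)
  refine ⟨h1, by linarith, h3, h4, h5, h6.trans_le (phiLow_mono le_rfl h4 (by linarith) (by linarith)),
    (phiHigh_mono le_rfl h3.le (by linarith) (by linarith)).trans_lt k7⟩

variable {N : ℕ} {a b ε : ℝ} {P : TraceData (Gal N) a b ε} {t : ℝ} {ν ω : C(Sph 3, ℝ)}

/-- A good level splits every close Galerkin trace map. -/
theorem split (h : GoodLevel w j m g δ) (hw : ∀ θ, 0 < w θ) (hj : 1 ≤ j) (ht : t ∈ Icc a b)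
    (hK : P.K t = stiffOp N ω) (hG : P.G t = massOp N ν) (hε : ε ≤ δ)
    (hN : 2 * ‖w‖ / ((N : ℝ) + 1) ≤ δ) (hω : ∀ θ, |ω θ - 1| ≤ δ / 4)
    (hν : ∀ θ, |ν θ - w θ| ≤ δ / 4 * w θ) : P.Split t m g (j + 1) := by
  obtain ⟨h1, h2, h3, h4, h5, h6, h7⟩ := h
  exact (split_of_pencil ht hK hG hw hj ((goodOp_pencil hw).nu_pos j) h3.le h4 h5 hN hω hν h1 h2
    (h6.trans_le (phiLow_mono hε h4 (by linarith) le_rfl))
    ((phiHigh_mono hε P.hε (by linarith) le_rfl).trans_lt h7)).1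

/-- The frame of the top space of the pencil gives coordinates with high kernel. -/
theorem frame (h : GoodLevel w j m g δ) (hw : ∀ θ, 0 < w θ) (hj : 1 ≤ j)
    (hK : P.K t = stiffOp N ω) (hG : P.G t = massOp N ν) (hε : ε ≤ δ)
    (hN : 2 * ‖w‖ / ((N : ℝ) + 1) ≤ δ) (hω : ∀ θ, |ω θ - 1| ≤ δ / 4)
    (hν : ∀ θ, |ν θ - w θ| ≤ δ / 4 * w θ) {e : Fin j → L2S} (he : LinearIndependent ℝ e)
    (heT : ∀ i, e i ∈ topSpace (pencil w) j) :
    ∃ α, α < (m - g) ^ 2 + (1 - ε) * (m - g) - ε ∧ LinearIndependent ℝ (galFrame N e) ∧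
      ∀ u ∈ Submodule.span ℝ (Set.range (galFrame N e)), ⟪u, P.K t u⟫ ≤ α * P.nrm t u := by
  obtain ⟨-, h2, h3, h4, h5, h6, -⟩ := h
  exact ⟨_, h6.trans_le (phiLow_mono hε h4 (by linarith) le_rfl),
    galFrame_spec hK hG hw hj h3.le h4 h5 hN hω hν he heT⟩

end GoodLevel

/-- Two splits of different dimensions have separated levels. -/
theorem TraceData.Split.level_lt {V : Type*} [NormedAddCommGroup V] [InnerProductSpace ℝ V]
    [FiniteDimensional ℝ V] {a b ε : ℝ} {P : TraceData V a b ε} {t μ g μ' g' : ℝ} {l l' : ℕ}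
    (ht : t ∈ Icc a b) (h : P.Split t μ g l) (h' : P.Split t μ' g' l') (hl : l < l') :
    μ + g ≤ μ' - g' := by
  obtain ⟨-, S, S', hc, hS, -, hhigh, -⟩ := h
  obtain ⟨-, T, T', -, hT, hlow, -, -⟩ := h'
  obtain ⟨x, hx, hx0⟩ : ∃ x ∈ S' ⊓ T, x ≠ 0 := by
    refine (Submodule.ne_bot_iff _).1 fun hbot => ?_
    have h1 := Submodule.finrank_sup_add_finrank_inf_eq S' T
    rw [hbot, finrank_bot] at h1
    have h2 := Submodule.finrank_le (S' ⊔ T)
    have h3 := Submodule.finrank_add_eq_of_isCompl hc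
    omega
  have h1 := (hhigh x hx.1).trans (hlow x hx.2)
  by_contra hlt
  push Not at hlt
  exact hx0 (TraceData.eq_zero_of_nrm_le (P := P) ht
    (by nlinarith [TraceData.nrm_nonneg (P := P) ht x]))

variable {Z : Type*} [NormedAddCommGroup Z] [NormedSpace ℝ Z] [FiniteDimensional ℝ Z]
  {Q : Set Z} {j : ℕ} {w : Z → C(Sph 3, ℝ)}

/-- Uniform margins and a smooth good level on a compact family with an open gap. -/
theorem exists_smooth_level (hQ : IsCompact Q) (hwc : ContinuousOn w Q)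
    (hw : ∀ q ∈ Q, ∀ θ, 0 < w q θ) (hgap : ∀ q ∈ Q, Gap (pencil (w q)) j) :
    ∃ δ > (0 : ℝ), ∃ g > (0 : ℝ), ∃ (L0 : ℕ) (μ : Z → ℝ) (top C : ℝ),
      ContDiff ℝ (⊤ : ℕ∞) μ ∧ ∀ q ∈ Q, GoodLevel (w q) j (μ q) g δ ∧ μ q ≤ top ∧
        ‖fderiv ℝ μ q‖ ≤ C ∧ ∀ N, L0 ≤ N → 2 * ‖w q‖ / ((N : ℝ) + 1) ≤ δ := by
  have : CompactSpace Q := isCompact_iff_compactSpace.1 hQ
  have hnu : ∀ i, Continuous fun q : Q => nu (pencil (w q)) i := fun i => (continuous_nu i).comp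
    (continuous_iff_continuousAt.2 fun q => ContinuousAt.comp (f := Q.domRestrict w) (g := pencil)
      (continuousAt_pencil (tot_pos (hw q q.2)).ne') hwc.domRestrict.continuousAt)
  obtain ⟨hμc, δ₀, hδ₀, hδ⟩ := exists_level_margins (hnu (j - 1)) (hnu j)
    (fun q => (goodOp_pencil (hw q q.2)).nu_pos j) (fun q => (hgap q q.2).2)
  obtain ⟨F, hF⟩ := ContinuousMap.exists_restrict_eq hQ.isClosed
    (⟨fun q : Q => midLevel (nu (pencil (w q)) (j - 1)) (nu (pencil (w q)) j), hμc⟩ : C(Q, ℝ))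
  set g := δ₀ / 3
  obtain ⟨μ, hμ, hμF, -⟩ := F.continuous.exists_contDiff_approx (⊤ : ℕ∞) continuous_const
    (fun _ => (by positivity : (0 : ℝ) < g))
  set δ := min δ₀ 1
  have hδp : 0 < δ := lt_min hδ₀ one_pos
  obtain ⟨top, htop⟩ := hQ.exists_bound_of_continuousOn hμ.continuous.continuousOn
  obtain ⟨C, hC⟩ := hQ.exists_bound_of_continuousOn
    (hμ.continuous_fderiv (by simp)).continuousOn
  obtain ⟨W, hW⟩ := hQ.exists_bound_of_continuousOn hwc
  obtain ⟨L0, hL0⟩ := exists_nat_ge (2 * W / δ)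
  refine ⟨δ, hδp, g, by positivity, L0, μ, top, C, hμ, fun q hq => ⟨?_,
    (le_abs_self _).trans (htop q hq), hC q hq, fun N hN => ?_⟩⟩
  · obtain ⟨h1, h2, h3⟩ := hδ ⟨q, hq⟩
    obtain ⟨h4, h5⟩ := h3 δ₀ ⟨hδ₀.le, le_rfl⟩ δ ⟨hδp.le, min_le_left _ _⟩ δ
      ⟨hδp.le, min_le_left _ _⟩
    have hd := hμF q
    rw [Real.dist_eq, show F q = midLevel (nu (pencil (w q)) (j - 1)) (nu (pencil (w q)) j) from
      DFunLike.congr_fun hF ⟨q, hq⟩, abs_lt] at hd
    have hg3 : g + g + g = δ₀ := by simp only [g]; ring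
    refine ⟨by positivity, ?_, hδp, min_le_right _ _, (min_le_left _ _).trans_lt h2,
      h4.trans_le (phiLow_mono le_rfl (min_le_right _ _) ?_ ?_),
      (phiHigh_mono le_rfl hδp.le ?_ ?_).trans_lt h5⟩
    all_goals simp only at h1 ⊢
    all_goals linarith
  · have h1 : (L0 : ℝ) ≤ N := by exact_mod_cast hN
    rw [div_le_iff₀ (by positivity)]
    rw [div_le_iff₀ hδp] at hL0
    have h2 := mul_le_mul_of_nonneg_left h1 hδp.le
    linarith [hW q hq]

/-- A switch which is one on the support of the loops and zero near the ends of a slot. -/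
def slotSwitch (x : ℝ) : ℝ :=
  Real.smoothTransition (8 * x - 1) * Real.smoothTransition (8 * (3 / 4 - x))

theorem slotSwitch_mem (x : ℝ) : slotSwitch x ∈ Icc (0 : ℝ) 1 :=
  ⟨mul_nonneg (Real.smoothTransition.nonneg _) (Real.smoothTransition.nonneg _),
    mul_le_one₀ (Real.smoothTransition.le_one _) (Real.smoothTransition.nonneg _)
      (Real.smoothTransition.le_one _)⟩

theorem slotSwitch_one {x : ℝ} (hx : x ∈ Icc (1 / 4 : ℝ) (1 / 2)) : slotSwitch x = 1 := by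
  rw [slotSwitch, Real.smoothTransition.one_of_one_le (by linarith [hx.1]),
    Real.smoothTransition.one_of_one_le (by linarith [hx.2]), one_mul]

theorem slotSwitch_zero {x : ℝ} (hx : x ≤ 1 / 8 ∨ 3 / 4 ≤ x) : slotSwitch x = 0 := by
  rcases hx with hx | hx
  · rw [slotSwitch, Real.smoothTransition.zero_of_nonpos (by linarith), zero_mul]
  · rw [slotSwitch, Real.smoothTransition.zero_of_nonpos (x := 8 * (3 / 4 - x)) (by linarith),
      mul_zero]

theorem contDiff_slotSwitch {n : ℕ∞} : ContDiff ℝ n slotSwitch :=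
  (Real.smoothTransition.contDiff.comp ((contDiff_const.mul contDiff_id).sub contDiff_const)).mul
    (Real.smoothTransition.contDiff.comp (contDiff_const.mul (contDiff_const.sub contDiff_id)))

/-- The level in a slot, equal to the rest level `μr` near both ends. -/
def slotLevel (μ : ℝ × ℝ × ℝ → ℝ) (μr : ℝ → ℝ) (q : ℝ × ℝ × ℝ) : ℝ :=
  slotSwitch q.2.2 * μ q + (1 - slotSwitch q.2.2) * μr q.1

/-- Gluing a loop level to the rest level: coordinates `(scale, parameter, slot time)`. -/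
theorem slotLevel_spec {w : ℝ × ℝ × ℝ → C(Sph 3, ℝ)} {j : ℕ} {μ : ℝ × ℝ × ℝ → ℝ} {μr : ℝ → ℝ}
    {g δ : ℝ} {c0 c1 : ℝ} (hμ : ContDiff ℝ (⊤ : ℕ∞) μ) (hμr : ContDiff ℝ (⊤ : ℕ∞) μr)
    (hout : ∀ c u x, x ∉ Icc (1 / 4 : ℝ) (1 / 2) → w (c, u, x) = w (c, 0, 0))
    (hgood : ∀ q ∈ Icc c0 c1 ×ˢ Icc (0 : ℝ) 1 ×ˢ Icc (0 : ℝ) 1, GoodLevel (w q) j (μ q) g δ)
    (hrest : ∀ c ∈ Icc c0 c1, GoodLevel (w (c, 0, 0)) j (μr c) g δ) :
    ContDiff ℝ (⊤ : ℕ∞) (slotLevel μ μr) ∧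
      (∀ c u x, x ≤ 1 / 8 ∨ 3 / 4 ≤ x → slotLevel μ μr (c, u, x) = μr c) ∧
      (∀ q ∈ Icc c0 c1 ×ˢ Icc (0 : ℝ) 1 ×ˢ Icc (0 : ℝ) 1,
        GoodLevel (w q) j (slotLevel μ μr q) g δ) ∧
      ∃ C, ∀ q ∈ Icc c0 c1 ×ˢ Icc (0 : ℝ) 1 ×ˢ Icc (0 : ℝ) 1,
        ‖fderiv ℝ (slotLevel μ μr) q‖ ≤ C := by
  have hχ : ContDiff ℝ (⊤ : ℕ∞) fun q : ℝ × ℝ × ℝ => slotSwitch q.2.2 :=
    contDiff_slotSwitch.comp (contDiff_snd.comp contDiff_snd)
  have hcd : ContDiff ℝ (⊤ : ℕ∞) (slotLevel μ μr) :=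
    (hχ.mul hμ).add ((contDiff_const.sub hχ).mul (hμr.comp contDiff_fst))
  refine ⟨hcd, fun c u x hx => ?_, fun q hq => ?_,
    (isCompact_Icc.prod (isCompact_Icc.prod isCompact_Icc)).exists_bound_of_continuousOn
      (hcd.continuous_fderiv (by simp)).continuousOn⟩
  · simp [slotLevel, slotSwitch_zero hx]
  · obtain ⟨c, u, x⟩ := q
    by_cases hx : x ∈ Icc (1 / 4 : ℝ) (1 / 2)
    · simp only [slotLevel, slotSwitch_one hx, one_mul, sub_self, zero_mul, add_zero]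
      exact hgood _ hq
    · have h1 := hgood _ hq
      rw [hout c u x hx] at h1 ⊢
      exact h1.convex (hrest c hq.1) (slotSwitch_mem _)

omit [FiniteDimensional ℝ Z] in
/-- The speed of a level along a curve. -/
theorem hasDerivWithinAt_level {μ : Z → ℝ} (hμ : ContDiff ℝ (⊤ : ℕ∞) μ) {q : ℝ → Z} {q' : Z}
    {s : Set ℝ} {t C : ℝ} (hq : HasDerivWithinAt q q' s t) (hC : ‖fderiv ℝ μ (q t)‖ ≤ C) :
    ∃ d, HasDerivWithinAt (fun r => μ (q r)) d s t ∧ |d| ≤ C * ‖q'‖ :=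
  ⟨_, ((hμ.differentiable (by simp)) (q t)).hasFDerivAt.comp_hasDerivWithinAt t hq,
    ((fderiv ℝ μ (q t)).le_opNorm q').trans (mul_le_mul_of_nonneg_right hC (norm_nonneg _))⟩

end

end Vale.Agent.P225.Disproof
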