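import Mathlib.Analysis.Calculus.ContDiff.Operations
import Mathlib.Analysis.Calculus.IteratedDeriv.Lemmas
import Mathlib.Topology.Algebra.InfiniteSum.Basic

/-!
# P225: gluing loops into one curve of shapes

Loops supported in disjoint time slots, moving away to infinity, added to a rest point.
-/

namespace Vale.Agent.P225.Disproof

open Set Filter Topology

noncomputable section

variable {X : Type*} [NormedAddCommGroup X] [NormedSpace ℝ X]

/-- Disjoint time slots going to infinity, with the deviations carried by them. -/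
structure Slots (X : Type*) [NormedAddCommGroup X] [NormedSpace ℝ X] where
  start : ℕ → ℝ
  len : ℕ → ℝ
  dev : ℕ → ℝ → X
  len_pos : ∀ n, 0 < len n
  next : ∀ n, start n + len n ≤ start (n + 1)
  tendsto : Tendsto start atTop atTop
  supp : ∀ n t, t ∉ Icc (start n + len n / 4) (start n + len n / 2) → dev n t = 0

namespace Slots

variable (S : Slots X)

/-- The sum of all deviations. -/
def total (t : ℝ) : X := ∑' n, S.dev n t

theorem start_strictMono : StrictMono S.start :=
  strictMono_nat_of_lt_succ fun n => by linarith [S.next n, S.len_pos n]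

theorem start_add_le {m n : ℕ} (h : m < n) : S.start m + S.len m ≤ S.start n :=
  (S.next m).trans (S.start_strictMono.monotone h)

theorem eq_zero_of_mem {n m : ℕ} (h : m ≠ n) {t : ℝ}
    (ht : t ∈ Ioo (S.start n) (S.start n + S.len n)) : S.dev m t = 0 := by
  refine S.supp m t fun hm => ?_
  rcases lt_or_gt_of_ne h with h1 | h1
  · linarith [S.start_add_le h1, hm.2, ht.1, S.len_pos m]
  · linarith [S.start_add_le h1, hm.1, ht.2, S.len_pos m]

/-- Inside a slot only its own deviation acts. -/
theorem total_eq_dev {n : ℕ} {t : ℝ} (ht : t ∈ Ioo (S.start n) (S.start n + S.len n)) :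
    S.total t = S.dev n t :=
  tsum_eq_single n fun _ hm => S.eq_zero_of_mem hm ht

theorem total_eq_dev_nhds {n : ℕ} {t : ℝ} (ht : t ∈ Ioo (S.start n) (S.start n + S.len n)) :
    S.total =ᶠ[𝓝 t] S.dev n :=
  Filter.eventuallyEq_of_mem (isOpen_Ioo.mem_nhds ht) fun _ hs => S.total_eq_dev hs

/-- Outside all the supports the sum vanishes. -/
theorem total_eq_zero {t : ℝ}
    (ht : ∀ n, t ∉ Icc (S.start n + S.len n / 4) (S.start n + S.len n / 2)) : S.total t = 0 := by
  simp [total, fun n => S.supp n t (ht n)]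

theorem total_eq_zero_nhds {t : ℝ}
    (ht : ∀ n, t ∉ Icc (S.start n + S.len n / 4) (S.start n + S.len n / 2)) :
    S.total =ᶠ[𝓝 t] fun _ => 0 := by
  obtain ⟨N, hN⟩ := (S.tendsto.eventually (eventually_gt_atTop (t + 1))).exists_forall_of_atTop
  have hopen : ∀ n ∈ Finset.range N,
      ∀ᶠ s in 𝓝 t, s ∉ Icc (S.start n + S.len n / 4) (S.start n + S.len n / 2) := fun n _ =>
    isClosed_Icc.isOpen_compl.mem_nhds (ht n)
  filter_upwards [(eventually_all_finset (Finset.range N)).2 hopen,
    eventually_lt_nhds (show t < t + 1 by linarith)] with s h1 h2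
  refine S.total_eq_zero fun n hn => ?_
  rcases lt_or_ge n N with h | h
  · exact h1 n (Finset.mem_range.2 h) hn
  · linarith [hN n h, hn.1, S.len_pos n]

theorem total_zero_before {t : ℝ} (ht : t ≤ S.start 0) : S.total t = 0 :=
  S.total_eq_zero fun n hn => by
    linarith [hn.1, S.len_pos n, S.start_strictMono.monotone n.zero_le]

/-- The dichotomy at every time. -/
theorem total_cases (t : ℝ) :
    (∃ n, t ∈ Ioo (S.start n) (S.start n + S.len n) ∧ S.total =ᶠ[𝓝 t] S.dev n) ∨
      S.total =ᶠ[𝓝 t] fun _ => 0 := by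
  by_cases h : ∃ n, t ∈ Icc (S.start n + S.len n / 4) (S.start n + S.len n / 2)
  · obtain ⟨n, hn⟩ := h
    have ht : t ∈ Ioo (S.start n) (S.start n + S.len n) :=
      ⟨by linarith [hn.1, S.len_pos n], by linarith [hn.2, S.len_pos n]⟩
    exact Or.inl ⟨n, ht, S.total_eq_dev_nhds ht⟩
  · exact Or.inr (S.total_eq_zero_nhds fun n hn => h ⟨n, hn⟩)

theorem contDiff_total {m : WithTop ℕ∞} (h : ∀ n, ContDiff ℝ m (S.dev n)) :
    ContDiff ℝ m S.total := by
  refine contDiff_iff_contDiffAt.2 fun t => ?_
  rcases S.total_cases t with ⟨n, -, hn⟩ | hn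
  · exact (h n).contDiffAt.congr_of_eventuallyEq hn
  · exact contDiffAt_const.congr_of_eventuallyEq hn

/-- Derivative bounds pass to the sum, with the bound of the slot. -/
theorem iteratedDeriv_total_bound {m : ℕ} {B : ℕ → ℝ} {q : ℝ → ℝ}
    (h : ∀ n t, ‖iteratedDeriv m (S.dev n) t‖ ≤ B n) (hB : ∀ n, ∀ t ∈ Icc (S.start n)
      (S.start n + S.len n), B n ≤ q t) (hq : ∀ t, 0 ≤ q t) (t : ℝ) :
    ‖iteratedDeriv m S.total t‖ ≤ q t := by
  rcases S.total_cases t with ⟨n, hn, heq⟩ | heq
  · rw [heq.iteratedDeriv_eq m]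
    exact (h n t).trans (hB n t (Ioo_subset_Icc_self hn))
  · rw [heq.iteratedDeriv_eq m]
    simpa [iteratedDeriv_const] using hq t

end Slots

end

end Vale.Agent.P225.Disproof
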