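import Vale.Agent.P225.Disproof.Recursion
import Vale.Agent.P225.Disproof.BlockBudget
import Vale.Agent.P225.Disproof.Mix.Start

/-!
# P225: parameters with a good bound up to a horizon

Given half blocks that can reverse any low flag, rests with all gaps open and dependence on the
past only, some parameters make every dual orbit lose at most `K * exp (26 (t - t1))` up to the
horizon.
-/

namespace Vale.Agent.P225.Disproof

open Set Module
open scoped RealInnerProductSpace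

noncomputable section

variable {E : Type*} [NormedAddCommGroup E] [InnerProductSpace ℝ E] [FiniteDimensional ℝ E]
  {a b ε : ℝ}

theorem Sched.t1_le_hstart (C : Sched) (h : ℕ) : C.t1 ≤ C.hstart h := by
  simpa [Sched.hstart] using C.hstart_mono (Nat.zero_le h)

theorem Sched.ck_P_bounds (C : Sched) (h : ℕ) :
    C.hstart h ≤ C.ck h C.P ∧ C.ck h C.P ≤ C.hstart (h + 1) :=
  C.ck_mem (Nat.le_succ _)

/-- Parameters for `n` pairs of half blocks with the bound. -/
theorem exists_horizon (C : Sched) {n lo M : ℕ} {S : (ℕ → ℝ) → DualSys E a b ε} {lev : ℕ → ℝ}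
    {c T B top R η K : ℝ} (hM : finrank ℝ E = M) (hlo : lo ≤ M) (ha : a ≤ C.t1)
    (hb : C.pairStart n ≤ b)
    (hag : ∀ h, C.hstart h ≤ b → ∀ s s' : ℕ → ℝ, (∀ m < h * C.P, s m = s' m) →
      AgreeUpTo (S s) (S s') (C.hstart h))
    (hinit : ∀ s ∈ paramCube, ∀ l, lo ≤ l → l ≤ M → ∃ W : Submodule ℝ E,
      finrank ℝ W = l ∧ ∀ x ∈ W, x ≠ 0 → (S s).cone (lev l) C.t1 x < 0)
    (hhalf : ∀ h, C.hstart (h + 1) ≤ b → ∀ s ∈ paramCube, ∀ F : ℕ → Submodule ℝ E,
      (∀ l, lo ≤ l → l ≤ M → finrank ℝ (F l) = l) → (∀ l, lo ≤ l → l < M → F l ≤ F (l + 1)) →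
      (∀ l, lo ≤ l → l ≤ M → ∀ x ∈ F l, x ≠ 0 → (S s).cone (lev l) (C.hstart h) x < 0) →
      ∃ u ∈ Icc (0 : Fin C.P → ℝ) 1, ∃ W H : ℕ → Submodule ℝ E,
        Half (S (merge C.P h s u)) lev lo M c T (C.hstart h) (C.ck h C.P) (C.hstart (h + 1))
          F W H)
    (hrest : ∀ h, C.hstart (h + 1) ≤ b → ∀ s ∈ paramCube,
      RestHyp (S s) lev lo M c T (C.ck h C.P) (C.hstart (h + 1)))
    (hc : 0 < c) (hT : 0 ≤ T) (hcB : c ≤ B) (htopB : top ≤ B) (htop0 : 0 ≤ top)
    (hStop : ∀ s ∈ paramCube, |(S s).top| ≤ top) (hεc : ε ≤ c) (hε1 : ε ≤ 1 / 2)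
    (hR : 0 ≤ R) (htau : 1 ≤ C.tau0)
    (hlev : ∀ l, lo ≤ l → l ≤ M → 0 ≤ lev l ∧ lev l ≤ B)
    (hmono : ∀ l, lo ≤ l → l < M → lev l ≤ lev (l + 1))
    (hpair : ∀ l, lo < l → l ≤ M → lev (M + lo + 1 - l) + lev l + ε + η ≤ 2 * R)
    (hbot : 2 * lev lo + ε + η ≤ 2 * R)
    (hkap : ∀ d : ℝ, 1 ≤ d → forgetTime top c T B d + 2 * T ≤ C.kap * d ∧
      Real.log (40 * B ^ 2 / c ^ 2) + 2 * ((top + 1) * (2 * d + 3 * T + forgetTime top c T B d)) ≤
        η * (2 * (1 + C.kap) * d))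
    (hK : ∀ i : ℕ, (2 * ((i : ℝ) + 1) * Real.exp ((top + 1) * C.pairLen i) + 1) ^ (M - lo) *
      Real.exp (R * (C.pairStart i - C.t1)) * Real.exp ((top + 1) * C.pairLen i) ≤
        K * Real.exp (26 * (C.pairStart i - C.t1))) :
    ∃ s ∈ paramCube, ∀ x : E, ∀ t ∈ Icc C.t1 (C.pairStart n),
      (S s).nrm C.t1 x ≤ K ^ 2 * Real.exp (2 * 26 * (t - C.t1)) * (S s).nrm t x := by
  have hP1 : (1 : ℝ) ≤ C.P := by exact_mod_cast C.hP
  have hbpair : ∀ i < n, C.hstart (2 * i + 1 + 1) ≤ b := fun i hi =>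
    le_trans (C.hstart_mono (show 2 * i + 1 + 1 ≤ 2 * n by omega)) hb
  have hbhalf : ∀ i < n, C.hstart (2 * i + 1) ≤ b := fun i hi =>
    le_trans (C.hstart_mono (show 2 * i + 1 ≤ 2 * i + 1 + 1 by omega)) (hbpair i hi)
  have haI : ∀ h, a ≤ C.hstart h := fun h => ha.trans (C.t1_le_hstart h)
  -- the flag
  have hzero : (0 : ℕ → ℝ) ∈ paramCube := fun m => by simp
  have ht1 : C.t1 ∈ Icc a b := ⟨ha, le_trans (C.t1_le_pairStart n) hb⟩
  obtain ⟨F, hFd, hFm, hF0⟩ := exists_flag (S 0) ht1 hlo hmono (hinit 0 hzero)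
  have hh0 : C.hstart 0 = C.t1 := by simp [Sched.hstart]
  -- the properties of the recursion
  let Low : ℕ → (ℕ → ℝ) → Prop := fun i s => C.hstart (2 * i) ≤ b →
    ∀ l, lo ≤ l → l ≤ M → ∀ x ∈ F l, x ≠ 0 → (S s).cone (lev l) (C.hstart (2 * i)) x < 0
  let PA : ℕ → (ℕ → ℝ) → (ℕ → Submodule ℝ E) → Prop := fun i s W => C.hstart (2 * i + 1) ≤ b →
    ∃ H, Half (S s) lev lo M c T (C.hstart (2 * i)) (C.ck (2 * i) C.P) (C.hstart (2 * i + 1)) F W H
  let PB : ℕ → (ℕ → ℝ) → (ℕ → Submodule ℝ E) → Prop := fun i s W =>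
    C.hstart (2 * i + 1 + 1) ≤ b → ∃ W' H,
      Half (S s) lev lo M c T (C.hstart (2 * i + 1)) (C.ck (2 * i + 1) C.P)
        (C.hstart (2 * i + 1 + 1)) W W' H
  have htau : ∀ h, 1 ≤ C.P * C.tau h := fun h =>
    one_le_mul_of_one_le_of_one_le hP1 (htau.trans (C.tau0_le_tau h))
  -- a pair as a block
  have hblock : ∀ i < n, ∀ s ∈ paramCube, ∀ W, PA i s W → PB i s W →
      ∃ G' HA HB, Block (S s) lev lo M c T B (C.hstart (2 * i)) (C.ck (2 * i) C.P)
        (C.hstart (2 * i + 1)) (C.ck (2 * i + 1) C.P)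
        (C.ck (2 * i + 1) C.P + T + forgetTime top c T B (C.P * C.tau (2 * i)))
        (C.hstart (2 * i + 1 + 1)) F W G' HA HB := by
    intro i hi s hs W hA hB
    obtain ⟨HA, hHA⟩ := hA (hbhalf i hi)
    obtain ⟨G', HB, hHB⟩ := hB (hbpair i hi)
    set d := (C.P : ℝ) * C.tau (2 * i)
    have hd : 1 ≤ d := htau (2 * i)
    obtain ⟨k1, -⟩ := hkap d hd
    have hY := forgetTime_nonneg htop0 hc hcB hT (show 0 ≤ d by linarith) (B := B)
    have e : C.tau (2 * i + 1) = C.tau (2 * i) := by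
      simp [Sched.tau, show (2 * i + 1) / 2 = i by omega]
    have r1 := C.ck_rest (2 * i)
    have r2 := C.ck_rest (2 * i + 1)
    rw [C.ck_last] at r1 r2
    rw [e] at r2
    have hd' : C.kap * d = C.kap * C.P * C.tau (2 * i) := by simp only [d]; ring
    have m1 : C.ck (2 * i + 1) C.P = C.hstart (2 * i + 1) + d := by
      rw [C.ck_mid le_rfl, e]
    refine ⟨G', HA, HB, hHA, hHB, hrest _ (hbhalf i hi) s hs, hrest _ (hbpair i hi) s hs, hc, hT,
      hcB, (le_abs_self _).trans ((hStop s hs).trans htopB), fun l h1 h2 => ?_, hlo, haI _,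
      hbpair i hi, (C.ck_P_bounds _).1, by linarith, (C.ck_P_bounds _).1, by linarith,
      by linarith, ?_⟩
    · rw [abs_of_nonneg (hlev l h1 h2).1]; exact (hlev l h1 h2).2
    · refine le_trans (le_of_eq ?_) (forget_le (d := d) (top := top) (top' := (S s).top) hc hcB hT
        (by linarith) ((le_abs_self _).trans (hStop s hs)) htop0 hεc hε1)
      rw [show C.ck (2 * i + 1) C.P + T - (C.hstart (2 * i + 1) - T) = d + 2 * T by linarith,
        show C.ck (2 * i + 1) C.P + T + forgetTime top c T B d - (C.ck (2 * i + 1) C.P + T) =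
          forgetTime top c T B d by ring]
  obtain ⟨s, hs, hgood⟩ := exists_pairs (P := C.P) Low PA PB n
    (fun i s s' heq hl hb' l h1 h2 x hx hx0 => by
      rw [← (hag _ hb' s s' heq).cone_eq ⟨haI _, le_rfl⟩]
      exact hl hb' l h1 h2 x hx hx0)
    (fun i s s' W heq hp hb' => by
      obtain ⟨H, hH⟩ := hp hb'
      exact ⟨H, hH.congr (hag _ hb' s s' heq) (haI _) (C.ck_P_bounds _).1 (C.ck_P_bounds _).2 hT⟩)
    (fun i s s' W heq hp hb' => by
      obtain ⟨W', H, hH⟩ := hp hb'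
      exact ⟨W', H,
        hH.congr (hag _ hb' s s' heq) (haI _) (C.ck_P_bounds _).1 (C.ck_P_bounds _).2 hT⟩)
    (fun i hi s hs hl => by
      obtain ⟨u, hu, W, H, hH⟩ := hhalf (2 * i) (hbhalf i hi) s hs F hFd hFm
        (hl (le_trans (C.hstart_mono (Nat.le_succ _)) (hbhalf i hi)))
      exact ⟨u, hu, W, fun _ => ⟨H, hH⟩⟩)
    (fun i hi s hs W hp => by
      obtain ⟨H, hH⟩ := hp (hbhalf i hi)
      obtain ⟨u, hu, W', H', hH'⟩ :=
        hhalf (2 * i + 1) (hbpair i hi) s hs W hH.W_dim hH.W_mono hH.W_end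
      exact ⟨u, hu, fun _ => ⟨W', H', hH'⟩⟩)
    (fun s _ _ l h1 h2 x hx hx0 => by
      have h := hag 0 (by rw [hh0]; exact ht1.2) 0 s (fun m hm => absurd hm (by omega))
      rw [show C.hstart (2 * 0) = C.hstart 0 from rfl, ← h.cone_eq ⟨haI _, le_rfl⟩, hh0]
      exact hF0 l h1 h2 x hx hx0)
    (fun i hi s hs W hA hB _ l h1 h2 x hx hx0 => by
      obtain ⟨G', HA, HB, hbl⟩ := hblock i hi s hs W hA hB
      rw [show 2 * (i + 1) = 2 * i + 1 + 1 by ring]
      exact hbl.flag_end h1 h2 hx hx0)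
  refine ⟨s, hs, fun x t ht => growth_of_pairs (C := C) (A := top + 1) hR
    (by linarith [hStop s hs]) hK hM hlo (hFd M hlo le_rfl) ha hb
    (fun l h1 h2 => ?_) (fun i hi y hy => ?_) (fun i hi l h1 h2 y hy => ?_) x ht⟩
  · have := hFm (l - 1) (by omega) (by omega)
    rwa [show l - 1 + 1 = l by omega] at this
  all_goals
    obtain ⟨-, W, hA, hB⟩ := hgood i hi
    obtain ⟨G', HA, HB, hbl⟩ := hblock i hi s hs W hA hB
    set d := (C.P : ℝ) * C.tau (2 * i)
    have hd : 1 ≤ d := htau (2 * i)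
    obtain ⟨-, k2⟩ := hkap d hd
    have hY := forgetTime_nonneg htop0 hc hcB hT (show 0 ≤ d by linarith) (B := B)
    have e : C.tau (2 * i + 1) = C.tau (2 * i) := by
      simp [Sched.tau, show (2 * i + 1) / 2 = i by omega]
    have r1 := C.ck_rest (2 * i)
    have r2 := C.ck_rest (2 * i + 1)
    rw [C.ck_last] at r1 r2
    rw [e] at r2
    have hd' : C.kap * d = C.kap * C.P * C.tau (2 * i) := by simp only [d]; ring
    have m0 : C.ck (2 * i) C.P = C.hstart (2 * i) + d := C.ck_mid le_rfl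
    have m1 : C.ck (2 * i + 1) C.P = C.hstart (2 * i + 1) + d := by rw [C.ck_mid le_rfl, e]
    have hstop := (le_abs_self _).trans (hStop s hs)
    have hend : C.pairStart (i + 1) = C.hstart (2 * i + 1 + 1) := by
      rw [Sched.pairStart, show 2 * (i + 1) = 2 * i + 1 + 1 by ring]
    rw [hend, Sched.pairStart]
  · have hlog : 0 ≤ Real.log (40 * B ^ 2 / c ^ 2) := Real.log_nonneg (by
      rw [mul_div_assoc]
      linarith [(one_le_div (pow_pos hc 2)).2 (pow_le_pow_left₀ hc.le hcB 2)])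
    refine (hbl.base hy).trans (mul_le_mul_of_nonneg_right (Real.exp_le_exp.2 ?_)
      (DualSys.nrm_nonneg ⟨haI _, hbpair i hi⟩ y))
    have h3 := baseExp_le (R := R) (η := η) (lev0 := lev lo) (top' := (S s).top) hT
      (show 0 ≤ d by linarith) hY C.hkap (S s).hε (by linarith) m0 (by linarith) m1 (by linarith)
      hstop htop0 (hlev lo le_rfl hlo).1 hbot (t2 := C.hstart (2 * i + 1 + 1))
      (tm := C.hstart (2 * i + 1)) (t0 := C.hstart (2 * i))
    linarith
  · refine hbl.seg_budget h1 h2 ?_ ?_ hy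
    · have := hFm (l - 1) (by omega) (by omega)
      rwa [show l - 1 + 1 = l by omega] at this
    · have h3 := blockExp_le (R := R) (η := η) (lev := lev) (lo := lo) (M := M) (l := l)
        (top' := (S s).top) hT (show 0 ≤ d by linarith) hY C.hkap (S s).hε (by linarith) m0
        (by linarith) m1 (by linarith) hstop (hlev l h1.le h2).1
        (hlev _ (by omega) (by omega)).1 (hpair l h1 h2) (t2 := C.hstart (2 * i + 1 + 1))
        (tm := C.hstart (2 * i + 1)) (t0 := C.hstart (2 * i))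
      linarith

end

end Vale.Agent.P225.Disproof
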