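import Vale.Agent.P225.Disproof.LimitEqn

/-!
# P225: uniform smoothness of Galerkin solutions

A family of solutions on `(-1, 1)` bounded in mean square has all time derivatives bounded in all
rotational norms on smaller intervals, uniformly in the truncation. The time derivatives are
bounded by testing the differentiated equations against themselves with a cutoff, the rotational
norms then follow pointwise in time from the elliptic estimate.
-/

namespace Vale.Agent.P225.Disproof

open MeasureTheory Set Filter Topology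
open scoped RealInnerProductSpace ContDiff

noncomputable section

theorem cacc_scalar {c X A χ χ' V V' F G0 r1 ρ P KV GW gv fv E : ℝ} (hc : 0 < c) (hX : 0 ≤ X)
    (_hA : 0 ≤ A) (hχ0 : 0 ≤ χ) (hχ : χ ≤ X) (hχ' : |χ'| ≤ X) (hV : 0 ≤ V) (_hV' : 0 ≤ V')
    (hF : 0 ≤ F) (hr1 : r1 ^ 2 ≤ 3 * ρ) (hP : |P| ≤ (A * V' + F) * V) (hKV : c * ρ ≤ KV)
    (hGW : c * V' ^ 2 ≤ GW) (hgv : |gv| ≤ G0 * r1) (hfv : |fv| ≤ F * V')
    (hE : E = 2 * χ * χ' * P + χ ^ 2 * (KV + gv - P + (GW + fv))) :
    c / 2 * χ ^ 2 * (V' ^ 2 + ρ) ≤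
      E + (9 * X ^ 2 * A ^ 2 / c + 2 * X ^ 2 + 2 * X ^ 2 / c) * (V ^ 2 + F ^ 2 + G0 ^ 2) := by
  obtain ⟨h1, h2⟩ := abs_le.1 hχ'
  have hPb : |(2 * χ * χ' - χ ^ 2) * P| ≤ 3 * X * χ * ((A * V' + F) * V) := by
    rw [abs_mul]
    refine mul_le_mul ?_ hP (abs_nonneg _) (by positivity)
    refine abs_le.2 ⟨?_, ?_⟩
    · linarith [mul_le_mul_of_nonneg_left h1 hχ0, mul_le_mul_of_nonneg_left hχ hχ0]
    · linarith [mul_le_mul_of_nonneg_left h2 hχ0, sq_nonneg χ, mul_nonneg hX hχ0]
  have y1 : 3 * X * χ * (A * V' * V) ≤ c / 4 * (χ * V') ^ 2 + 9 * X ^ 2 * A ^ 2 / c * V ^ 2 := by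
    rw [div_mul_eq_mul_div _ c, ← sub_nonneg]
    have e : c / 4 * (χ * V') ^ 2 + 9 * X ^ 2 * A ^ 2 * V ^ 2 / c - 3 * X * χ * (A * V' * V) =
        (c * (χ * V') - 6 * X * A * V) ^ 2 / (4 * c) := by field_simp; ring
    rw [e]; positivity
  have y2 : 3 * X * χ * (F * V) ≤ 3 * X ^ 2 / 2 * (F ^ 2 + V ^ 2) := by
    have a1 : 3 * X * χ * (F * V) ≤ 3 * X * X * (F * V) := by gcongr
    have a2 := mul_nonneg (sq_nonneg X) (sq_nonneg (F - V))
    linarith
  have y3 : χ ^ 2 * (G0 * r1) ≤ c / 2 * χ ^ 2 * ρ + 2 * X ^ 2 / c * G0 ^ 2 := by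
    have a1 : χ ^ 2 * (G0 * r1) ≤ c / 6 * χ ^ 2 * r1 ^ 2 + 3 / (2 * c) * χ ^ 2 * G0 ^ 2 := by
      rw [← sub_nonneg]
      have e : c / 6 * χ ^ 2 * r1 ^ 2 + 3 / (2 * c) * χ ^ 2 * G0 ^ 2 - χ ^ 2 * (G0 * r1) =
          χ ^ 2 * (c * r1 - 3 * G0) ^ 2 / (6 * c) := by field_simp; ring
      rw [e]; positivity
    have a2 : c / 6 * χ ^ 2 * r1 ^ 2 ≤ c / 6 * χ ^ 2 * (3 * ρ) := by gcongr
    have a3 : 3 / (2 * c) * χ ^ 2 * G0 ^ 2 ≤ 3 / (2 * c) * X ^ 2 * G0 ^ 2 := by gcongr
    have a4 : 0 ≤ X ^ 2 * G0 ^ 2 / (2 * c) := by positivity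
    have e : 2 * X ^ 2 / c * G0 ^ 2 = 3 / (2 * c) * X ^ 2 * G0 ^ 2 + X ^ 2 * G0 ^ 2 / (2 * c) := by
      field_simp; ring
    linarith
  have y4 : χ ^ 2 * (F * V') ≤ c / 4 * (χ * V') ^ 2 + 2 * X ^ 2 / c * F ^ 2 := by
    have a1 : χ ^ 2 * (F * V') ≤ c / 4 * (χ * V') ^ 2 + χ ^ 2 * F ^ 2 / c := by
      rw [← sub_nonneg]
      have e : c / 4 * (χ * V') ^ 2 + χ ^ 2 * F ^ 2 / c - χ ^ 2 * (F * V') =
          χ ^ 2 * (c * V' - 2 * F) ^ 2 / (4 * c) := by field_simp; ring
      rw [e]; positivity
    have a2 : χ ^ 2 * F ^ 2 / c ≤ X ^ 2 * F ^ 2 / c := by gcongr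
    have a3 : 0 ≤ X ^ 2 * F ^ 2 / c := by positivity
    have e : 2 * X ^ 2 / c * F ^ 2 = X ^ 2 * F ^ 2 / c + X ^ 2 * F ^ 2 / c := by field_simp; ring
    linarith
  have h3 := (abs_le.1 hPb).1
  have h4 := mul_le_mul_of_nonneg_left (abs_le.1 hgv).1 (sq_nonneg χ)
  have h5 := mul_le_mul_of_nonneg_left (abs_le.1 hfv).1 (sq_nonneg χ)
  have h6 := mul_le_mul_of_nonneg_left hKV (sq_nonneg χ)
  have h7 := mul_le_mul_of_nonneg_left hGW (sq_nonneg χ)
  have k1 : 0 ≤ 9 * X ^ 2 * A ^ 2 / c * (F ^ 2 + G0 ^ 2) := by positivity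
  have k2 : 0 ≤ X ^ 2 * (V ^ 2 + F ^ 2 + G0 ^ 2) := by positivity
  have k2' : 0 ≤ X ^ 2 * G0 ^ 2 := by positivity
  have k2'' : 0 ≤ X ^ 2 * (V ^ 2 + F ^ 2) := by positivity
  have k3 : 0 ≤ 2 * X ^ 2 / c * V ^ 2 := by positivity
  subst hE
  linarith

variable {ι : Type*} {L : ι → ℕ} {w ν : ι → ℝ → Space 3 → ℝ} {c : ℝ}
  {u : ∀ i, ℝ → Gal (L i)}

/-- The quantity controlled at step `j`. -/
def energy (u : ∀ i, ℝ → Gal (L i)) (i : ι) (j : ℕ) (t : ℝ) : ℝ :=
  ∑ k ∈ Finset.range (j + 1), ‖iteratedDeriv k (u i) t‖ ^ 2 +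
    ∑ k ∈ Finset.range j, rot1 (iteratedDeriv k (u i) t) ^ 2

theorem energy_nonneg (u : ∀ i, ℝ → Gal (L i)) (i : ι) (j : ℕ) (t : ℝ) : 0 ≤ energy u i j t :=
  add_nonneg (Finset.sum_nonneg fun _ _ => sq_nonneg _) (Finset.sum_nonneg fun _ _ => sq_nonneg _)

theorem energy_succ (u : ∀ i, ℝ → Gal (L i)) (i : ι) (j : ℕ) (t : ℝ) :
    energy u i (j + 1) t = energy u i j t + (‖iteratedDeriv (j + 1) (u i) t‖ ^ 2 +
      rot1 (iteratedDeriv j (u i) t) ^ 2) := by
  simp only [energy, Finset.sum_range_succ _ (j + 1), Finset.sum_range_succ _ j]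
  ring

theorem sq_le_energy (u : ∀ i, ℝ → Gal (L i)) (i : ι) {j k : ℕ} (h : k ≤ j) (t : ℝ) :
    ‖iteratedDeriv k (u i) t‖ ^ 2 ≤ energy u i j t :=
  le_add_of_le_of_nonneg
    (Finset.single_le_sum (f := fun k => ‖iteratedDeriv k (u i) t‖ ^ 2)
      (fun _ _ => sq_nonneg _) (Finset.mem_range.2 (Nat.lt_succ_of_le h)))
    (Finset.sum_nonneg fun _ _ => sq_nonneg _)

theorem continuous_rot1 {N : ℕ} : Continuous fun p : Gal N => rot1 p :=
  continuous_finsetSum _ fun i _ => (rotG i).continuous.norm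

theorem GalFam.continuousOn_energy {s : Set ℝ} (H : GalFam L w ν c s u) (i : ι) (j : ℕ) :
    ContinuousOn (energy u i j) s := fun t ht => by
  refine ContinuousAt.continuousWithinAt ?_
  refine ContinuousAt.add ?_ ?_ <;>
    refine tendsto_finsetSum _ fun k _ => ?_
  · exact ((H.continuousAt_iteratedDeriv i k ht).norm).pow 2
  · exact (continuous_rot1.continuousAt.comp (H.continuousAt_iteratedDeriv i k ht)).pow 2

/-- All time derivatives, in mean square on smaller intervals. -/
theorem GalFam.exists_energy_bound (H : GalFam L w ν c (Ioo (-1) 1) u)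
    (hu : ∀ i, ∀ t ∈ Ioo (-1 : ℝ) 1, ‖u i t‖ ≤ 1) :
    ∀ (j : ℕ) (r : ℝ), 0 < r → r < 1 → ∃ C, 0 ≤ C ∧ ∀ i, ∫ t in (-r)..r, energy u i j t ≤ C := by
  intro j
  induction j with
  | zero =>
    intro r hr0 hr1
    refine ⟨2, by norm_num, fun i => ?_⟩
    have hsub : Icc (-r) r ⊆ Ioo (-1) 1 := Icc_subset_Ioo (by linarith) hr1
    calc ∫ t in (-r)..r, energy u i 0 t
        ≤ ∫ _t in (-r)..r, (1 : ℝ) := by
          refine intervalIntegral.integral_mono_on (by linarith)
            (((H.continuousOn_energy i 0).mono hsub).intervalIntegrable_of_Icc (by linarith))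
            intervalIntegrable_const fun t ht => ?_
          simp only [energy, zero_add, Finset.range_one, Finset.sum_singleton, Finset.range_zero,
            Finset.sum_empty, add_zero, iteratedDeriv_zero]
          exact pow_le_one₀ (norm_nonneg _) (hu i t (hsub ht))
      _ ≤ 2 := by simp; linarith
  | succ j ih =>
    intro r hr0 hr1
    obtain ⟨r', hr', hr'1⟩ := exists_between hr1
    have hr'0 : 0 < r' := hr0.trans hr'
    obtain ⟨C, hC0, hC⟩ := ih r' hr'0 hr'1
    obtain ⟨f, g, hf, hg, hQ⟩ := H.exists_eqn j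
    obtain ⟨Cw, hCw0, hCw⟩ := H.wgtw.norm_le
    obtain ⟨Cf, hCf0, hCf⟩ := hf.bound_sob_mass 0
    obtain ⟨Cg, hCg0, hCg⟩ := hg.bound_pair
    set d := r' ^ 2 - r ^ 2
    have hd : 0 < d := sub_pos.2 (by gcongr)
    set X := (r' ^ 2 + 2 * r') / d
    have hX : 0 ≤ X := by positivity
    set K := (9 * X ^ 2 * Cw ^ 2 / c + 2 * X ^ 2 + 2 * X ^ 2 / c) *
      (1 + Cf ^ 2 * (j + 1) + Cg ^ 2 * j)
    have hK : 0 ≤ K := by have := H.cpos; positivity
    refine ⟨C + (1 + 3) * (K * C / (c / 2)), by have := H.cpos; positivity, fun i => ?_⟩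
    have hsub : Icc (-r') r' ⊆ Ioo (-1) 1 := Icc_subset_Ioo (by linarith) hr'1
    have hsub' : Icc (-r) r ⊆ Icc (-r') r' := Icc_subset_Icc (by linarith) hr'.le
    set v := iteratedDeriv j (u i) with hv
    set v' := iteratedDeriv (j + 1) (u i) with hv'
    set Q := fun t => massOp (L i) (sphC (w i t)) (v' t) + f i t with hQdef
    set χ := fun t : ℝ => (r' ^ 2 - t ^ 2) / d with hχdef
    set χ' := fun t : ℝ => -(2 * t) / d with hχ'def
    set E' := fun t => 2 * χ t * χ' t * ⟪Q t, v t⟫ + χ t ^ 2 *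
      (⟪stiffOp (L i) (sphC (ν i t)) (v t), v t⟫ + ⟪g i t, v t⟫ - ⟪Q t, v t⟫ +
        (⟪massOp (L i) (sphC (w i t)) (v' t), v' t⟫ + ⟪f i t, v' t⟫)) with hE'def
    have hχd : ∀ t, HasDerivAt χ (χ' t) t := fun t => by
      have := ((hasDerivAt_pow 2 t).const_sub (r' ^ 2)).div_const d
      simpa [χ, χ'] using this
    have hE : ∀ t ∈ Ioo (-1 : ℝ) 1, HasDerivAt (fun t => χ t ^ 2 * ⟪Q t, v t⟫) (E' t) t := by
      intro t ht
      have h1 := ((hχd t).fun_pow 2).mul
        ((hQ i t ht).inner ℝ (H.hasDerivAt_iteratedDeriv i j ht))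
      refine h1.congr_deriv ?_
      simp only [E', Q, v, v', inner_add_left, inner_sub_left]
      push_cast
      ring
    have hcont : ContinuousOn E' (Icc (-r') r') := by
      intro t ht
      refine ContinuousAt.continuousWithinAt ?_
      have ht' := hsub ht
      have c0 : ContinuousAt χ t := (hχd t).continuousAt
      have c0' : ContinuousAt χ' t := by simp only [χ']; fun_prop
      have cv : ContinuousAt v t := H.continuousAt_iteratedDeriv i j ht'
      have cv' : ContinuousAt v' t := H.continuousAt_iteratedDeriv i (j + 1) ht'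
      obtain ⟨g', -, hgd⟩ := hg.deriv H
      obtain ⟨f', -, hfd⟩ := hf.deriv H
      have cQ : ContinuousAt Q t := (hQ i t ht').continuousAt
      have cG : ContinuousAt (fun t => massOp (L i) (sphC (w i t)) (v' t)) t :=
        ((hasDerivAt_op (massOp (L i)) H.wgtw i t).continuousAt).clm_apply cv'
      have cK : ContinuousAt (fun t => stiffOp (L i) (sphC (ν i t)) (v t)) t :=
        ((hasDerivAt_op (stiffOp (L i)) H.wgtν i t).continuousAt).clm_apply cv
      exact ((c0.const_mul 2).mul c0').mul (cQ.inner cv) |>.add ((c0.pow 2).mul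
        ((((cK.inner cv).add ((hgd i t ht').continuousAt.inner cv)).sub (cQ.inner cv)).add
          ((cG.inner cv').add ((hfd i t ht').continuousAt.inner cv'))))
    have hint : ∫ t in (-r')..r', E' t = 0 := by
      rw [intervalIntegral.integral_eq_sub_of_hasDerivAt (f := fun t => χ t ^ 2 * ⟪Q t, v t⟫)
        (fun t ht => hE t (hsub (by rwa [uIcc_of_le (by linarith)] at ht)))
        (hcont.intervalIntegrable_of_Icc (by linarith))]
      simp [χ]
    have hpt : ∀ t ∈ Icc (-r') r',
        c / 2 * χ t ^ 2 * (‖v' t‖ ^ 2 + ∑ k, ‖rotG k (v t)‖ ^ 2) ≤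
          E' t + K * energy u i j t := by
      intro t ht
      have ht2 : t ^ 2 ≤ r' ^ 2 := sq_le_sq.2 (by rw [abs_of_pos hr'0]; exact abs_le.2 ht)
      have hfn : ‖f i t‖ ≤ Cf * ∑ k ∈ Finset.range (j + 1), ‖iteratedDeriv k (u i) t‖ := hCf i t
      have h := cacc_scalar (c := c) (X := X) (A := Cw) (χ := χ t) (χ' := χ' t) (V := ‖v t‖)
        (V' := ‖v' t‖) (F := ‖f i t‖)
        (G0 := Cg * ∑ k ∈ Finset.range j, rot1 (iteratedDeriv k (u i) t)) (r1 := rot1 (v t))
        (ρ := ∑ k, ‖rotG k (v t)‖ ^ 2) (P := ⟪Q t, v t⟫) (E := E' t) H.cpos hX hCw0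
        (div_nonneg (by linarith) hd.le) ?_ ?_ (norm_nonneg _) (norm_nonneg _) (norm_nonneg _)
        (rot1_sq_le _) ?_ (H.stiffCoercive i t _) ((H.massCoercive i t (v' t)).trans_eq
          (real_inner_comm _ _)) (hCg i t (v t)) (abs_real_inner_le_norm _ _) rfl
      · refine h.trans (add_le_add le_rfl ?_)
        simp only [K]
        rw [mul_assoc _ _ (energy u i j t)]
        have := H.cpos
        refine mul_le_mul_of_nonneg_left ?_ ?_
        swap
        · positivity
        have a1 : ‖v t‖ ^ 2 ≤ energy u i j t := sq_le_energy u i le_rfl t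
        have a2 : ‖f i t‖ ^ 2 ≤ Cf ^ 2 * (j + 1) * energy u i j t := by
          refine (pow_le_pow_left₀ (norm_nonneg _) hfn 2).trans ?_
          rw [mul_pow, mul_assoc]
          refine mul_le_mul_of_nonneg_left ?_ (sq_nonneg _)
          refine (sq_sum_le_card_mul_sum_sq).trans ?_
          rw [Finset.card_range]
          push_cast
          refine mul_le_mul_of_nonneg_left ?_ (by positivity)
          exact le_add_of_nonneg_right (Finset.sum_nonneg fun _ _ => sq_nonneg _)
        have a3 : (Cg * ∑ k ∈ Finset.range j, rot1 (iteratedDeriv k (u i) t)) ^ 2 ≤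
            Cg ^ 2 * j * energy u i j t := by
          rw [mul_pow, mul_assoc]
          refine mul_le_mul_of_nonneg_left ?_ (sq_nonneg _)
          refine (sq_sum_le_card_mul_sum_sq).trans ?_
          rw [Finset.card_range]
          refine mul_le_mul_of_nonneg_left ?_ (by positivity)
          exact le_add_of_nonneg_left (Finset.sum_nonneg fun _ _ => sq_nonneg _)
        linarith
      · simp only [χ, X]
        gcongr
        linarith [sq_nonneg t]
      · simp only [χ', X]
        rw [abs_div, abs_neg, abs_of_pos hd, abs_mul, abs_two]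
        gcongr
        linarith [abs_le.2 ht, sq_nonneg r']
      · refine (abs_real_inner_le_norm _ _).trans (mul_le_mul_of_nonneg_right ?_ (norm_nonneg _))
        refine (norm_add_le _ _).trans (add_le_add ?_ le_rfl)
        exact (norm_massOp_le _ _).trans (mul_le_mul_of_nonneg_right (hCw i t) (norm_nonneg _))
    have ce : ContinuousOn (energy u i j) (Icc (-r') r') := (H.continuousOn_energy i j).mono hsub
    have cT : ContinuousOn (fun t => ‖v' t‖ ^ 2 + ∑ k, ‖rotG k (v t)‖ ^ 2) (Ioo (-1) 1) :=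
      fun t ht => by
        refine ContinuousAt.continuousWithinAt (ContinuousAt.add ?_ ?_)
        · exact (H.continuousAt_iteratedDeriv i (j + 1) ht).norm.pow 2
        · exact tendsto_finsetSum _ fun k _ =>
            (((rotG k).continuous.continuousAt.comp (H.continuousAt_iteratedDeriv i j ht)).norm).pow 2
    have cχ : Continuous χ := by simp only [χ]; fun_prop
    have I1 : ∫ t in (-r')..r', c / 2 * χ t ^ 2 * (‖v' t‖ ^ 2 + ∑ k, ‖rotG k (v t)‖ ^ 2) ≤ K * C := by
      calc _ ≤ ∫ t in (-r')..r', E' t + K * energy u i j t :=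
            intervalIntegral.integral_mono_on (by linarith)
              (((continuousOn_const.mul (cχ.continuousOn.pow 2)).mul
                (cT.mono hsub)).intervalIntegrable_of_Icc (by linarith))
              ((hcont.add (continuousOn_const.mul ce)).intervalIntegrable_of_Icc (by linarith)) hpt
        _ = K * ∫ t in (-r')..r', energy u i j t := by
            rw [intervalIntegral.integral_add (g := fun t => K * energy u i j t)
              (hcont.intervalIntegrable_of_Icc (by linarith))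
              ((continuousOn_const.mul ce).intervalIntegrable_of_Icc (by linarith)), hint,
              intervalIntegral.integral_const_mul, zero_add]
        _ ≤ K * C := mul_le_mul_of_nonneg_left (hC i) hK
    have I2 : ∫ t in (-r)..r, c / 2 * (‖v' t‖ ^ 2 + ∑ k, ‖rotG k (v t)‖ ^ 2) ≤ K * C := by
      refine le_trans ?_ I1
      calc _ ≤ ∫ t in (-r)..r, c / 2 * χ t ^ 2 * (‖v' t‖ ^ 2 + ∑ k, ‖rotG k (v t)‖ ^ 2) := by
            refine intervalIntegral.integral_mono_on (by linarith)
              ((continuousOn_const.mul (cT.mono (hsub'.trans hsub))).intervalIntegrable_of_Icc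
                (by linarith))
              (((continuousOn_const.mul (cχ.continuousOn.pow 2)).mul
                (cT.mono (hsub'.trans hsub))).intervalIntegrable_of_Icc (by linarith))
              fun t ht => mul_le_mul_of_nonneg_right ?_ (by positivity)
            refine le_mul_of_one_le_right (by have := H.cpos; positivity) (one_le_pow₀ ?_)
            simp only [χ, d]
            rw [le_div_iff₀ hd, one_mul]
            have : t ^ 2 ≤ r ^ 2 := sq_le_sq.2 (by rw [abs_of_pos hr0]; exact abs_le.2 ht)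
            linarith
        _ ≤ _ := by
            refine intervalIntegral.integral_mono_interval (by linarith) (by linarith) hr'.le
              (Eventually.of_forall fun t => ?_)
              (((continuousOn_const.mul (cχ.continuousOn.pow 2)).mul
                (cT.mono hsub)).intervalIntegrable_of_Icc (by linarith))
            have := H.cpos
            positivity
    rw [intervalIntegral.integral_const_mul] at I2
    have hc2 : 0 < c / 2 := by have := H.cpos; positivity
    have I3 := (le_div_iff₀ hc2).2 ((mul_comm _ _).le.trans I2)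
    calc ∫ t in (-r)..r, energy u i (j + 1) t
        ≤ ∫ t in (-r)..r, energy u i j t + (1 + 3) * (‖v' t‖ ^ 2 + ∑ k, ‖rotG k (v t)‖ ^ 2) := by
          refine intervalIntegral.integral_mono_on (by linarith)
            (((H.continuousOn_energy i (j + 1)).mono (hsub'.trans hsub)).intervalIntegrable_of_Icc
              (by linarith))
            (((ce.mono hsub').add (continuousOn_const.mul
              (cT.mono (hsub'.trans hsub)))).intervalIntegrable_of_Icc (by linarith)) fun t _ => ?_
          rw [energy_succ]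
          have := rot1_sq_le (v t)
          have : 0 ≤ ∑ k, ‖rotG k (v t)‖ ^ 2 := Finset.sum_nonneg fun _ _ => sq_nonneg _
          have := sq_nonneg ‖v' t‖
          linarith
      _ = (∫ t in (-r)..r, energy u i j t) +
            (1 + 3) * ∫ t in (-r)..r, (‖v' t‖ ^ 2 + ∑ k, ‖rotG k (v t)‖ ^ 2) := by
          rw [intervalIntegral.integral_add
            (g := fun t => (1 + 3) * (‖v' t‖ ^ 2 + ∑ k, ‖rotG k (v t)‖ ^ 2))
            ((ce.mono hsub').intervalIntegrable_of_Icc (by linarith))
            ((continuousOn_const.mul (cT.mono (hsub'.trans hsub))).intervalIntegrable_of_Icc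
              (by linarith)), intervalIntegral.integral_const_mul]
      _ ≤ _ := by
          refine add_le_add (le_trans ?_ (hC i)) (mul_le_mul_of_nonneg_left I3 (by norm_num))
          exact intervalIntegral.integral_mono_interval (by linarith) (by linarith) hr'.le
            (Eventually.of_forall fun t => energy_nonneg u i j t)
            (ce.intervalIntegrable_of_Icc (by linarith))

/-- All time derivatives, pointwise in mean square. -/
theorem GalFam.exists_norm_bound (H : GalFam L w ν c (Ioo (-1) 1) u)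
    (hu : ∀ i, ∀ t ∈ Ioo (-1 : ℝ) 1, ‖u i t‖ ≤ 1) (j : ℕ) (r : ℝ) (hr0 : 0 < r) (hr1 : r < 1) :
    ∃ C, 0 ≤ C ∧ ∀ i, ∀ t ∈ Icc (-r) r, ‖iteratedDeriv j (u i) t‖ ≤ C := by
  obtain ⟨C, hC0, hC⟩ := H.exists_energy_bound hu (j + 1) r hr0 hr1
  refine ⟨1 + C / (2 * r) + C, by positivity, fun i t ht => ?_⟩
  have hsub : Icc (-r) r ⊆ Ioo (-1) 1 := Icc_subset_Ioo (by linarith) hr1
  set h := fun s => ‖iteratedDeriv j (u i) s‖ ^ 2
  set e := energy u i (j + 1)
  have ce : ContinuousOn e (Icc (-r) r) := (H.continuousOn_energy i (j + 1)).mono hsub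
  have hie : IntervalIntegrable e volume (-r) r := ce.intervalIntegrable_of_Icc (by linarith)
  have ch : ContinuousOn h (Icc (-r) r) := fun s hs =>
    ((H.continuousAt_iteratedDeriv i j (hsub hs)).norm.pow 2).continuousWithinAt
  obtain ⟨s, hs, hmin⟩ := isCompact_Icc.exists_isMinOn ⟨0, by constructor <;> linarith⟩ ch
  have h1 : h s * (2 * r) ≤ C := by
    calc h s * (2 * r) = ∫ _x in (-r)..r, h s := by simp; ring
      _ ≤ ∫ x in (-r)..r, e x := intervalIntegral.integral_mono_on (by linarith)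
          intervalIntegrable_const hie fun x hx => (hmin hx).trans (sq_le_energy u i (by omega) x)
      _ ≤ C := hC i
  have huIcc : uIcc s t ⊆ Icc (-r) r := uIcc_subset_Icc hs ht
  have hd : ∀ x ∈ uIcc s t, HasDerivAt h
      (2 * ⟪iteratedDeriv j (u i) x, iteratedDeriv (j + 1) (u i) x⟫) x := fun x hx =>
    (H.hasDerivAt_iteratedDeriv i j (hsub (huIcc hx))).norm_sq
  have hdc : ContinuousOn
      (fun x => 2 * ⟪iteratedDeriv j (u i) x, iteratedDeriv (j + 1) (u i) x⟫) (uIcc s t) :=
    fun x hx => (((H.continuousAt_iteratedDeriv i j (hsub (huIcc hx))).inner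
      (H.continuousAt_iteratedDeriv i (j + 1) (hsub (huIcc hx)))).const_mul 2).continuousWithinAt
  have h2 : |h t - h s| ≤ C := by
    rw [← intervalIntegral.integral_eq_sub_of_hasDerivAt hd hdc.intervalIntegrable]
    refine le_trans ?_ ((le_abs_self _).trans (le_of_eq (abs_of_nonneg
      (intervalIntegral.integral_nonneg (a := -r) (b := r) (μ := volume) (by linarith)
        fun x _ => energy_nonneg u i (j + 1) x)))) |>.trans (hC i)
    rw [← Real.norm_eq_abs]
    refine (intervalIntegral.norm_integral_le_integral_norm_uIoc).trans ?_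
    rw [intervalIntegral.integral_of_le (by linarith : -r ≤ r)]
    calc ∫ x in uIoc s t, ‖2 * ⟪iteratedDeriv j (u i) x, iteratedDeriv (j + 1) (u i) x⟫‖
        ≤ ∫ x in uIoc s t, e x := by
          refine setIntegral_mono_on (hdc.norm.integrableOn_compact isCompact_uIcc |>.mono_set
            uIoc_subset_uIcc) (((ce.mono huIcc).integrableOn_compact isCompact_uIcc).mono_set
            uIoc_subset_uIcc) measurableSet_uIoc fun x _ => ?_
          rw [Real.norm_eq_abs, abs_mul, abs_two]
          refine (mul_le_mul_of_nonneg_left (abs_real_inner_le_norm _ _) zero_le_two).trans ?_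
          rw [← mul_assoc]
          refine (two_mul_le_add_sq _ _).trans ?_
          simp only [e, energy]
          refine le_add_of_le_of_nonneg ?_ (Finset.sum_nonneg fun _ _ => sq_nonneg _)
          rw [Finset.sum_range_succ _ (j + 1), Finset.sum_range_succ]
          have := Finset.sum_nonneg
            (fun k (_ : k ∈ Finset.range j) => sq_nonneg ‖iteratedDeriv k (u i) x‖)
          linarith
      _ ≤ ∫ x in Ioc (-r) r, e x := by
          refine setIntegral_mono_set ((ce.integrableOn_Icc).mono_set Ioc_subset_Icc_self)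
            (Eventually.of_forall fun x => energy_nonneg u i (j + 1) x) ?_
          exact (Ioc_subset_Ioc (le_min hs.1 ht.1) (max_le hs.2 ht.2)).eventuallyLE
  have h3 : h t ≤ C / (2 * r) + C := by
    have := (le_div_iff₀ (by positivity : (0 : ℝ) < 2 * r)).2 h1
    have := (abs_le.1 h2).2
    linarith
  have h4 : ‖iteratedDeriv j (u i) t‖ ≤ 1 + h t := by
    have h5 := sq_nonneg (‖iteratedDeriv j (u i) t‖ - 1)
    have h6 := norm_nonneg (iteratedDeriv j (u i) t)
    have h7 : (‖iteratedDeriv j (u i) t‖ - 1) ^ 2 = h t - 2 * ‖iteratedDeriv j (u i) t‖ + 1 := by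
      simp only [h]; ring
    linarith
  linarith

/-- All time derivatives in all rotational norms. -/
theorem GalFam.exists_sob_bound (H : GalFam L w ν c (Ioo (-1) 1) u)
    (hu : ∀ i, ∀ t ∈ Ioo (-1 : ℝ) 1, ‖u i t‖ ≤ 1) :
    ∀ (m j : ℕ) (r : ℝ), 0 < r → r < 1 →
      ∃ C, 0 ≤ C ∧ ∀ i, ∀ t ∈ Icc (-r) r, sob m (iteratedDeriv j (u i) t) ≤ C := by
  intro m
  induction m using Nat.strong_induction_on with
  | _ m ihm =>
    intro j r hr0 hr1
    match m, ihm with
    | 0, _ => exact H.exists_norm_bound hu j r hr0 hr1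
    | 1, _ =>
      induction j using Nat.strong_induction_on with
      | _ j ihj =>
        obtain ⟨R, g, hR, hg, heq⟩ := H.exists_stiff_eq j
        obtain ⟨CR, hCR0, hCR⟩ := hR.bound_sob_mass 0
        obtain ⟨Cg, hCg0, hCg⟩ := hg.bound_pair
        choose B hB0 hB using fun k => H.exists_norm_bound hu k r hr0 hr1
        choose D hD0 hD using fun k (hk : k < j) => ihj k hk
        set b := CR * ∑ k ∈ Finset.range (j + 3), B k
        set G0 := Cg * ∑ k ∈ (Finset.range j).attach, D k.1 (Finset.mem_range.1 k.2)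
        have hb : 0 ≤ b := mul_nonneg hCR0 (Finset.sum_nonneg fun k _ => hB0 k)
        have hG0 : 0 ≤ G0 := mul_nonneg hCg0 (Finset.sum_nonneg fun k _ => hD0 _ _)
        have hc := H.cpos
        refine ⟨B j + (1 + 6 * (b * B j) / c + 9 * G0 ^ 2 / c ^ 2),
          add_nonneg (hB0 j) (by have := hB0 j; positivity), fun i t ht => ?_⟩
        have ht' : t ∈ Ioo (-1 : ℝ) 1 := Icc_subset_Ioo (by linarith) hr1 ht
        set v := iteratedDeriv j (u i) t
        rw [sob_one]
        refine add_le_add (hB j i t ht) ?_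
        have h1 := H.stiffCoercive i t v
        rw [heq i t ht', inner_sub_left] at h1
        have hRb : ‖R i t‖ ≤ b := (hCR i t).trans (mul_le_mul_of_nonneg_left
          (Finset.sum_le_sum fun k _ => hB k i t ht) hCR0)
        have h2 : ⟪R i t, v⟫ ≤ b * B j := (real_inner_le_norm _ _).trans
          (mul_le_mul hRb (hB j i t ht) (norm_nonneg _) hb)
        have h3 : |⟪g i t, v⟫| ≤ G0 * rot1 v := by
          refine (hCg i t v).trans (mul_le_mul_of_nonneg_right ?_ (rot1_nonneg v))
          refine mul_le_mul_of_nonneg_left ?_ hCg0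
          rw [← Finset.sum_attach]
          refine Finset.sum_le_sum fun k _ => ?_
          have := hD k.1 (Finset.mem_range.1 k.2) i t ht
          rw [sob_one] at this
          linarith [norm_nonneg (iteratedDeriv k.1 (u i) t)]
        have h4 := (abs_le.1 h3).1
        have h5 := mul_le_mul_of_nonneg_left (rot1_sq_le v) (by positivity : 0 ≤ c / 3)
        have h6 : c / 3 * rot1 v ^ 2 ≤ b * B j + G0 * rot1 v := by linarith
        have h7 : G0 * rot1 v ≤ c / 6 * rot1 v ^ 2 + 3 * G0 ^ 2 / (2 * c) := by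
          rw [← sub_nonneg]
          have e : c / 6 * rot1 v ^ 2 + 3 * G0 ^ 2 / (2 * c) - G0 * rot1 v =
              (c * rot1 v - 3 * G0) ^ 2 / (6 * c) := by field_simp; ring
          rw [e]; positivity
        have h8 : rot1 v ^ 2 ≤ 6 * (b * B j) / c + 9 * G0 ^ 2 / c ^ 2 := by
          have h9 : c / 6 * rot1 v ^ 2 ≤ c / 6 * (6 * (b * B j) / c + 9 * G0 ^ 2 / c ^ 2) := by
            have e : c / 6 * (6 * (b * B j) / c + 9 * G0 ^ 2 / c ^ 2) =
                b * B j + 3 * G0 ^ 2 / (2 * c) := by field_simp; ring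
            linarith
          exact le_of_mul_le_mul_left h9 (by positivity)
        have := sq_nonneg (rot1 v - 1)
        have h10 : (rot1 v - 1) ^ 2 = rot1 v ^ 2 - 2 * rot1 v + 1 := by ring
        have := rot1_nonneg v
        linarith
    | m + 2, ihm =>
      induction j using Nat.strong_induction_on with
      | _ j ihj =>
        obtain ⟨R, g, hR, hg, heq⟩ := H.exists_stiff_eq j
        obtain ⟨CR, hCR0, hCR⟩ := hR.bound_sob_mass m
        obtain ⟨Cg, hCg0, hCg⟩ := hg.bound_sob_stiff m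
        obtain ⟨CE, hCE0, hCE⟩ := H.wgtν.exists_elliptic (L := L) H.cpos H.lowν m
        choose B hB0 hB using fun k => ihm m (by omega) k r hr0 hr1
        obtain ⟨B1, hB10, hB1⟩ := ihm (m + 1) (by omega) j r hr0 hr1
        choose D hD0 hD using fun k (hk : k < j) => ihj k hk
        refine ⟨CE * ((CR * ∑ k ∈ Finset.range (j + 3), B k) +
          (Cg * ∑ k ∈ (Finset.range j).attach, D k.1 (Finset.mem_range.1 k.2)) + B1),
          mul_nonneg hCE0 (add_nonneg (add_nonneg (mul_nonneg hCR0 (Finset.sum_nonneg fun k _ => hB0 k))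
            (mul_nonneg hCg0 (Finset.sum_nonneg fun k _ => hD0 _ _))) hB10), fun i t ht => ?_⟩
        refine (hCE i t _).trans (mul_le_mul_of_nonneg_left (add_le_add ?_ (hB1 i t ht)) hCE0)
        rw [heq i t (Icc_subset_Ioo (by linarith) hr1 ht)]
        refine (sob_sub_le m _ _).trans (add_le_add ?_ ?_)
        · exact (hCR i t).trans (mul_le_mul_of_nonneg_left
            (Finset.sum_le_sum fun k _ => hB k i t ht) hCR0)
        · refine (hCg i t).trans (mul_le_mul_of_nonneg_left ?_ hCg0)
          rw [← Finset.sum_attach]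
          exact Finset.sum_le_sum fun k _ => hD k.1 (Finset.mem_range.1 k.2) i t ht

end

end Vale.Agent.P225.Disproof
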