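import Vale.Agent.P225.Disproof.LimitWeights

/-!
# P225: ellipticity of the stiffness operators in the rotational norms

The commutator of a rotation with a stiffness operator is the stiffness operator of the rotated
weight, so `sob (m + 2) p ≤ C (sob m (K p) + sob (m + 1) p)` follows by induction on `m` from the
coercivity of the form. The constants do not depend on the truncation.
-/

namespace Vale.Agent.P225.Disproof

open MvPolynomial MeasureTheory Set
open scoped RealInnerProductSpace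

noncomputable section

variable {N : ℕ}

/-- The sum of the norms of the three rotations. -/
def rot1 (p : Gal N) : ℝ := ∑ i, ‖rotG i p‖

theorem rot1_nonneg (p : Gal N) : 0 ≤ rot1 p := Finset.sum_nonneg fun _ _ => norm_nonneg _

theorem norm_rotG_le_rot1 (i : Fin 3) (p : Gal N) : ‖rotG i p‖ ≤ rot1 p :=
  Finset.single_le_sum (f := fun i => ‖rotG i p‖) (fun _ _ => norm_nonneg _) (Finset.mem_univ i)

theorem sob_one (p : Gal N) : sob 1 p = ‖p‖ + rot1 p := rfl

theorem rot1_sq_le (p : Gal N) : rot1 p ^ 2 ≤ 3 * ∑ i, ‖rotG i p‖ ^ 2 := by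
  simpa [rot1] using sq_sum_le_card_mul_sum_sq (s := (Finset.univ : Finset (Fin 3)))
    (f := fun i => ‖rotG i p‖)

theorem stiffOp_coercive {c : ℝ} {w : C(Sph 3, ℝ)} (hw : ∀ θ, c ≤ w θ) (p : Gal N) :
    c * ∑ i, ‖rotG i p‖ ^ 2 ≤ ⟪stiffOp N w p, p⟫ := by
  rw [inner_stiffOp, Finset.mul_sum]
  exact Finset.sum_le_sum fun i _ => by rw [real_inner_comm]; exact massOp_coercive hw _

theorem abs_inner_stiffOp_le (w : C(Sph 3, ℝ)) (p q : Gal N) :
    |⟪stiffOp N w p, q⟫| ≤ ‖w‖ * rot1 p * rot1 q := by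
  rw [inner_stiffOp, rot1, rot1, Finset.mul_sum]
  refine (Finset.abs_sum_le_sum_abs _ _).trans (Finset.sum_le_sum fun i _ => ?_)
  refine (abs_real_inner_le_norm _ _).trans ?_
  refine mul_le_mul ((norm_massOp_le w _).trans ?_) le_rfl (norm_nonneg _)
    (mul_nonneg (norm_nonneg _) (rot1_nonneg p))
  exact mul_le_mul_of_nonneg_left (norm_rotG_le_rot1 i p) (norm_nonneg _)

theorem rotG_comm_one (i : Fin 3) (p : Gal N) :
    rotG i (rotG (i + 1) p) = rotG (i + 1) (rotG i p) - rotG (i + 2) p := by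
  refine Gal.ext ?_
  have h := rotP_commutator i (i + 1) p.poly
  simp only [poly_rotG, map_sub]
  rw [sub_eq_iff_eq_add] at h
  rw [h]
  fin_cases i <;> simp +decide [Fin.sum_univ_three, eps] <;> ring

theorem rotG_comm_two (i : Fin 3) (p : Gal N) :
    rotG i (rotG (i + 2) p) = rotG (i + 2) (rotG i p) + rotG (i + 1) p := by
  refine Gal.ext ?_
  have h := rotP_commutator i (i + 2) p.poly
  simp only [poly_rotG, map_add]
  rw [sub_eq_iff_eq_add] at h
  rw [h]
  fin_cases i <;> simp +decide [Fin.sum_univ_three, eps] <;> ring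

theorem sum_fin_three_shift {M : Type*} [AddCommMonoid M] (f : Fin 3 → M) (i : Fin 3) :
    ∑ j, f j = f i + f (i + 1) + f (i + 2) := by
  rw [Fin.sum_univ_three]
  fin_cases i <;> simp <;> abel

/-- A rotation commutes with a stiffness operator up to the rotated weight. -/
theorem rotG_stiffOp {i : Fin 3} {w w' : C(Sph 3, ℝ)} (h : IsRot i w w') (p : Gal N) :
    rotG i (stiffOp N w p) = stiffOp N w (rotG i p) + stiffOp N w' p := by
  simp only [stiffOp_apply, map_neg, sum_fin_three_shift _ i, map_add]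
  have e1 : rotG i (rotG (i + 1) p) = rotG (i + 1) (rotG i p) - rotG (i + 2) p := rotG_comm_one i p
  have e2 : rotG i (rotG (i + 2) p) = rotG (i + 2) (rotG i p) + rotG (i + 1) p := rotG_comm_two i p
  have a0 := congrArg (rotG i) (rotG_massOp h (rotG i p))
  have a1 := congrArg (rotG (i + 1)) (rotG_massOp h (rotG (i + 1) p))
  have a2 := congrArg (rotG (i + 2)) (rotG_massOp h (rotG (i + 2) p))
  have b1 := rotG_comm_one i (massOp N w (rotG (i + 1) p))
  have b2 := rotG_comm_two i (massOp N w (rotG (i + 2) p))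
  simp only [map_add, e1, e2, map_sub] at a0 a1 a2
  rw [a0, b1, b2, a1, a2]
  abel

variable {ι : Type*} {L : ι → ℕ}

theorem Wgt.exists_stiff_pair {w : ι → ℝ → Space 3 → ℝ} (h : Wgt w) :
    ∃ C, 0 ≤ C ∧ ∀ i t, ∀ p q : Gal (L i),
      |⟪stiffOp (L i) (sphC (w i t)) p, q⟫| ≤ C * rot1 p * rot1 q := by
  obtain ⟨C, hC0, hC⟩ := h.norm_le
  refine ⟨C, hC0, fun i t p q => (abs_inner_stiffOp_le _ p q).trans ?_⟩
  exact mul_le_mul_of_nonneg_right (mul_le_mul_of_nonneg_right (hC i t) (rot1_nonneg p))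
    (rot1_nonneg q)

theorem Wgt.exists_sob_stiff {w : ι → ℝ → Space 3 → ℝ} (h : Wgt w) (m : ℕ) :
    ∃ C, 0 ≤ C ∧ ∀ i t, ∀ p : Gal (L i),
      sob m (stiffOp (L i) (sphC (w i t)) p) ≤ C * sob (m + 2) p := by
  obtain ⟨C, hC0, hC⟩ := h.rotBd (m + 1)
  exact ⟨3 * (4 ^ (m + 1) * C), by positivity, fun i t p => sob_stiffOp_le (hC i t) p⟩

theorem Wgt.exists_sob_mass {w : ι → ℝ → Space 3 → ℝ} (h : Wgt w) (m : ℕ) :
    ∃ C, 0 ≤ C ∧ ∀ i t, ∀ p : Gal (L i),
      sob m (massOp (L i) (sphC (w i t)) p) ≤ C * sob m p := by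
  obtain ⟨C, hC0, hC⟩ := h.rotBd m
  exact ⟨4 ^ m * C, by positivity, fun i t p => sob_massOp_le (hC i t) p⟩

/-- The elliptic estimate. -/
theorem Wgt.exists_elliptic {w : ι → ℝ → Space 3 → ℝ} (h : Wgt w) {c : ℝ} (hc : 0 < c)
    (hlow : ∀ i t, ∀ θ : Sph 3, c ≤ w i t θ) :
    ∀ m : ℕ, ∃ C, 0 ≤ C ∧ ∀ i t, ∀ p : Gal (L i),
      sob (m + 2) p ≤ C * (sob m (stiffOp (L i) (sphC (w i t)) p) + sob (m + 1) p) := by
  have hrot : ∀ i t j, IsRot j (sphC (w i t)) (sphC (drW j (w i) t)) := fun i t j =>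
    isRot_sphC (((h.1 i).contDiff_slice t).of_le (by simp)) j
  intro m
  induction m with
  | zero =>
    choose D hD0 hD using fun j => (h.dr j).exists_stiff_pair (L := L)
    set S := ∑ j, D j
    have hS0 : 0 ≤ S := Finset.sum_nonneg fun j _ => hD0 j
    refine ⟨4 + 9 * (1 + S) / c, by positivity, fun i t p => ?_⟩
    set K := stiffOp (L i) (sphC (w i t)) with hK
    have hq : ∀ j, rot1 (rotG j p) ≤ 3 / c * (‖K p‖ + S * rot1 p) := fun j => by
      set q := rotG j p with hqdef
      have h1 := stiffOp_coercive (N := L i) (c := c) (w := sphC (w i t))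
        (fun θ => by rw [sphC_apply ((h.1 i).continuous t)]; exact hlow i t θ) q
      have h2 : K q = rotG j (K p) - stiffOp (L i) (sphC (drW j (w i) t)) p := by
        rw [hK, rotG_stiffOp (hrot i t j), hqdef]; abel
      rw [← hK, h2, inner_sub_left, inner_rotG] at h1
      have h3 : |⟪K p, rotG j q⟫| ≤ ‖K p‖ * rot1 q :=
        (abs_real_inner_le_norm _ _).trans
          (mul_le_mul_of_nonneg_left (norm_rotG_le_rot1 j q) (norm_nonneg _))
      have h4 := hD j i t p q
      have h5 : D j * rot1 p * rot1 q ≤ S * rot1 p * rot1 q :=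
        mul_le_mul_of_nonneg_right (mul_le_mul_of_nonneg_right
          (Finset.single_le_sum (f := D) (fun j _ => hD0 j) (Finset.mem_univ j)) (rot1_nonneg p))
          (rot1_nonneg q)
      have h6 := rot1_sq_le q
      have h7 : c / 3 * rot1 q * rot1 q ≤ (‖K p‖ + S * rot1 p) * rot1 q := by
        have h8 := (abs_le.1 h3).1
        have h9 := (abs_le.1 h4).1
        have h10 : c / 3 * rot1 q * rot1 q ≤ c * ∑ i, ‖rotG i q‖ ^ 2 := by
          have := mul_le_mul_of_nonneg_left h6 (by positivity : 0 ≤ c / 3)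
          linarith [this]
        linarith
      rcases (rot1_nonneg q).eq_or_lt with h0 | h0
      · rw [← h0]
        exact mul_nonneg (by positivity) (add_nonneg (norm_nonneg _) (mul_nonneg hS0 (rot1_nonneg p)))
      · have := le_of_mul_le_mul_right h7 h0
        rw [div_mul_eq_mul_div, le_div_iff₀ hc]
        linarith
    have hs : sob 2 p = sob 1 p + ∑ j, (‖rotG j p‖ + rot1 (rotG j p)) := rfl
    rw [hs, Finset.sum_add_distrib]
    have h1 := Finset.sum_le_sum fun j (_ : j ∈ (Finset.univ : Finset (Fin 3))) => hq j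
    simp only [Finset.sum_const, Finset.card_univ, Fintype.card_fin, nsmul_eq_mul] at h1
    rw [show ∑ j, ‖rotG j p‖ = rot1 p from rfl]
    have hA : sob 0 (K p) = ‖K p‖ := rfl
    rw [hA, zero_add, sob_one]
    have e : (4 + 9 * (1 + S) / c) * (‖K p‖ + (‖p‖ + rot1 p)) =
        4 * (‖K p‖ + (‖p‖ + rot1 p)) + ((9 / c) * ‖K p‖ + (9 / c) * S * rot1 p) +
          (9 / c) * (S * ‖K p‖ + ‖p‖ + rot1 p + S * ‖p‖) := by ring
    rw [e]
    have hKn := norm_nonneg (K p)
    have hpn := norm_nonneg p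
    have hrn := rot1_nonneg p
    have : 0 ≤ (9 / c) * (S * ‖K p‖ + ‖p‖ + rot1 p + S * ‖p‖) := by positivity
    push_cast at h1
    have e2 : 3 * (3 / c * (‖K p‖ + S * rot1 p)) = 9 / c * ‖K p‖ + 9 / c * S * rot1 p := by ring
    linarith
  | succ m ih =>
    obtain ⟨C, hC0, hC⟩ := ih
    choose D hD0 hD using fun j => (h.dr j).exists_sob_stiff (L := L) m
    set S := ∑ j, D j
    have hS0 : 0 ≤ S := Finset.sum_nonneg fun j _ => hD0 j
    refine ⟨1 + 6 * C + 3 * C * S, by positivity, fun i t p => ?_⟩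
    set K := stiffOp (L i) (sphC (w i t)) with hK
    have hq : ∀ j, sob (m + 2) (rotG j p) ≤
        C * (sob (m + 1) (K p) + (1 + S) * sob (m + 2) p) := fun j => by
      refine (hC i t (rotG j p)).trans (mul_le_mul_of_nonneg_left ?_ hC0)
      have h2 : K (rotG j p) = rotG j (K p) - stiffOp (L i) (sphC (drW j (w i) t)) p := by
        rw [hK, rotG_stiffOp (hrot i t j)]; abel
      rw [← hK, h2]
      have a := sob_sub_le m (rotG j (K p)) (stiffOp (L i) (sphC (drW j (w i) t)) p)
      have b := sob_rotG_le m j (K p)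
      have c' := sob_rotG_le (m + 1) j p
      have d := (hD j i t p).trans (mul_le_mul_of_nonneg_right
        (Finset.single_le_sum (f := D) (fun j _ => hD0 j) (Finset.mem_univ j)) (sob_nonneg _ p))
      linarith
    rw [sob_succ]
    have h1 := Finset.sum_le_sum fun j (_ : j ∈ (Finset.univ : Finset (Fin 3))) => hq j
    simp only [Finset.sum_const, Finset.card_univ, Fintype.card_fin, nsmul_eq_mul] at h1
    have hA := sob_nonneg (m + 1) (K p)
    have hB := sob_nonneg (m + 1 + 1) p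
    push_cast at h1
    have : 0 ≤ (1 + 3 * C + 3 * C * S) * sob (m + 1) (K p) := by positivity
    have : 0 ≤ 3 * C * sob (m + 1 + 1) p := by positivity
    linarith

end

end Vale.Agent.P225.Disproof
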