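import Vale.Agent.P225.Disproof.WeightsWgt
import Vale.Agent.P225.Disproof.CtrlSolutions
import Vale.Agent.P225.Disproof.Select

/-!
# P225: a convergent family of horizons

Solutions up to every horizon, with constants independent of the horizon, give along a subsequence
of parameters everything the limit theorem asks for.
-/

namespace Vale.Agent.P225.Disproof

open MeasureTheory Set Filter Topology Met3
open scoped RealInnerProductSpace ContDiff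

noncomputable section

/-- A sequence of truncated systems with solutions and convergent weights. -/
structure LimitFamily (M : ℕ) (d : ℝ) (winf νinf : ℝ → Space 3 → ℝ) where
  L : ℕ → ℕ
  T : ℕ → ℝ
  w : ℕ → ℝ → Space 3 → ℝ
  nu : ℕ → ℝ → Space 3 → ℝ
  u : ∀ k, Fin M → ℝ → Gal (L k)
  c : ℝ
  Cst : ℝ
  κ : ℝ
  t1 : ℝ
  L_tendsto : Tendsto L atTop atTop
  T_tendsto : Tendsto T atTop atTop
  wgtw : Wgt w
  wgtν : Wgt nu
  smw : SmW winf
  smν : SmW νinf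
  cpos : 0 < c
  loww : ∀ k t, ∀ θ : Sph 3, c ≤ w k t θ
  lowν : ∀ k t, ∀ θ : Sph 3, c ≤ nu k t θ
  round : ∀ k, ∀ t ≤ 0, ∀ θ : Sph 3, w k t θ = 1 ∧ nu k t θ = 1
  limw : ∀ t (θ : Sph 3), Tendsto (fun k => w k t θ) atTop (𝓝 (winf t θ))
  limdw : ∀ t (θ : Sph 3), Tendsto (fun k => dtW (w k) t θ) atTop (𝓝 (dtW winf t θ))
  limν : ∀ t (θ : Sph 3), Tendsto (fun k => nu k t θ) atTop (𝓝 (νinf t θ))
  limdν : ∀ t i (θ : Sph 3), Tendsto (fun k => rot i (nu k t) θ) atTop (𝓝 (rot i (νinf t) θ))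
  sol : ∀ k m, IsGalSol (L k) (w k) (nu k) (Iio (T k)) (u k m)
  early : ∀ k m, ∀ t ≤ 0, HasDerivAt (u k m) (degOp (L k) (u k m t)) t
  Cpos : 0 < Cst
  bdd : ∀ k m, ∀ t < T k, ‖u k m t‖ ≤ Cst * Real.exp (d * max t 0)
  κpos : 0 < κ
  gram : ∀ k, ∀ z : Fin M → ℝ, κ * ∑ i, z i ^ 2 ≤ ‖∑ i, z i • u k i t1‖ ^ 2

variable {D : ℕ}

/-- An upper bound of the mass weight. -/
theorem massC_le {C : Ctrl (Gal D)} {B : ℝ} (hB : PathBd C.loops C.one C.p0 B) {a : ℝ → ℝ}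
    (ha : ∀ t, 0 ≤ a t ∧ a t ≤ 1) {s : ℕ → ℝ} (hs : ∀ n, s n ∈ Icc (0 : ℝ) 1) {t : ℝ}
    (hν : ∀ θ : Sph 3, 1 / 2 ≤ nuF a (C.rho s) t (θ : Space 3)) (θ : Sph 3) :
    massC a (C.rho s) t θ ≤ 6 * ‖sphFn D‖ * B + 1 := by
  rw [(massC_apply hν θ).1, massF, safeInv_eq (hν θ), gfn_sph]
  have h1 : |res (C.rho s t).poly θ| ≤ ‖sphFn D‖ * (3 * B) :=
    (abs_res_le _ θ).trans (mul_le_mul_of_nonneg_left (Ctrl.norm_rho_le hB hs t)
      (ContinuousLinearMap.opNorm_nonneg _))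
  have h2 : a t ^ 2 ≤ 1 := pow_le_one₀ (ha t).1 (ha t).2
  have h3 : (nuF a (C.rho s) t (θ : Space 3))⁻¹ ≤ 2 := by
    rw [show (2 : ℝ) = (1 / 2)⁻¹ by norm_num]
    exact inv_anti₀ (by norm_num) (hν θ)
  have h4 : 0 ≤ (nuF a (C.rho s) t (θ : Space 3))⁻¹ := inv_nonneg.2 (by linarith [hν θ])
  have h5 : 0 ≤ ‖sphFn D‖ * (3 * B) := le_trans (abs_nonneg _) h1
  calc a t ^ 2 * res (C.rho s t).poly θ * (nuF a (C.rho s) t (θ : Space 3))⁻¹
      ≤ ‖sphFn D‖ * (3 * B) * (nuF a (C.rho s) t (θ : Space 3))⁻¹ :=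
        mul_le_mul_of_nonneg_right ((mul_le_mul_of_nonneg_left
          ((le_abs_self _).trans h1) (sq_nonneg _)).trans
            (mul_le_of_le_one_left h5 h2)) h4
    _ ≤ ‖sphFn D‖ * (3 * B) * 2 := mul_le_mul_of_nonneg_left h3 h5
    _ ≤ 6 * ‖sphFn D‖ * B + 1 := by linarith

/-- Solutions up to every horizon give a limit family. -/
theorem exists_limitFamily {C : Ctrl (Gal D)} {c0 A : ℝ} {a : ℝ → ℝ}
    (hC : ShapeOK C.loops C.one C.p0 c0) (hP : Ctrl.ProfileRate C.sch A a) {amin : ℝ}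
    (hamin : 0 < amin) (ham : ∀ t, amin ≤ a t) (hbd : ∀ m, ∃ B, ∀ t, |iteratedDeriv m a t| ≤ B)
    (hν : ∀ s : ℕ → ℝ, (∀ n, s n ∈ Icc (0 : ℝ) 1) → ∀ t (θ : Sph 3),
      1 / 2 ≤ nuF a (C.rho s) t (θ : Space 3) ∧ nuF a (C.rho s) t (θ : Space 3) ≤ 3 / 2)
    {M : ℕ} {Cst κ d : ℝ} (hCst : 0 < Cst) (hκ : 0 < κ)
    (hsol : ∀ k : ℕ, ∃ s : paramCube, ∃ N, k ≤ N ∧ ∃ H : ℝ, (k : ℝ) < H ∧
      ∃ u : Fin M → ℝ → Gal N,
        (∀ m, IsGalSol N (massF a (C.rho s)) (nuF a (C.rho s)) (Iio H) (u m)) ∧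
        (∀ m, ∀ t ≤ 0, deriv (u m) t = degOp N (u m t)) ∧
        (∀ m, ∀ t ≤ H, ‖u m t‖ ≤ Cst * Real.exp (d * max t 0)) ∧
        ∀ z : Fin M → ℝ, κ * ∑ i, z i ^ 2 ≤ ‖∑ i, z i • u i C.sch.t1‖ ^ 2) :
    ∃ s : paramCube,
      Nonempty (LimitFamily M d (massF a (C.rho s)) (nuF a (C.rho s))) := by
  choose s N hN H hH u hsolu hearly hbdd hgram using hsol
  obtain ⟨t, ht, φ, hφ, hlim⟩ := exists_params_limit (s := fun k => (s k : ℕ → ℝ)) fun k => (s k).2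
  have hpt : ∀ n, Tendsto (fun k => (s (φ k) : ℕ → ℝ) n) atTop (𝓝 (t n)) := fun n =>
    (tendsto_pi_nhds.1 hlim) n
  obtain ⟨hw, hnu⟩ := Ctrl.wgt_weights (C := C) hP.smooth hbd
  refine ⟨⟨t, ht⟩, ⟨{
    L := fun k => N (φ k)
    T := fun k => H (φ k)
    w := fun k => massF a (C.rho (s (φ k) : ℕ → ℝ))
    nu := fun k => nuF a (C.rho (s (φ k) : ℕ → ℝ))
    u := fun k => u (φ k)
    c := min (amin ^ 2 * c0 * (2 / 3)) (1 / 2)
    Cst := Cst, κ := κ, t1 := C.sch.t1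
    L_tendsto := tendsto_atTop_mono (fun k => (hφ.id_le k).trans (hN (φ k))) tendsto_id
    T_tendsto := tendsto_atTop_mono (fun k => le_trans (by exact_mod_cast hφ.id_le k) (hH (φ k)).le)
      tendsto_natCast_atTop_atTop
    wgtw := hw.comp fun k => (⟨(s (φ k) : ℕ → ℝ), (s (φ k)).2⟩ : Par)
    wgtν := hnu.comp fun k => (⟨(s (φ k) : ℕ → ℝ), (s (φ k)).2⟩ : Par)
    smw := contDiff_massF hP.smooth (C.contDiff_rho t)
    smν := contDiff_nuF hP.smooth (C.contDiff_rho t)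
    cpos := lt_min (by have := hC.c0_pos; positivity) (by norm_num)
    loww := fun k t θ => (Ctrl.weights_low hC hamin ham (s (φ k)).2 (hν _ (s (φ k)).2 t θ)).1
    lowν := fun k t θ => (Ctrl.weights_low hC hamin ham (s (φ k)).2 (hν _ (s (φ k)).2 t θ)).2
    round := fun k t ht θ => Ctrl.weights_round hC hP _ ht θ
    limw := fun r θ => (tendsto_weights C hpt r _).1
    limdw := fun r θ => tendsto_deriv_massF C hP.smooth hpt
      (fun k y φ' => (hν _ (s (φ k)).2 y φ').1) (fun y φ' => (hν t ht y φ').1) r θ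
    limν := fun r θ => (tendsto_weights C hpt r _).2.2.1
    limdν := fun r i θ => (tendsto_weights C hpt r _).2.2.2 i
    sol := fun k => hsolu (φ k)
    early := fun k m r hr => by
      have h0 : r < H (φ k) :=
        lt_of_le_of_lt (hr.trans (Nat.cast_nonneg (α := ℝ) (φ k))) (hH (φ k))
      rw [← hearly (φ k) m r hr]
      exact (hsolu (φ k) m r h0).1
    Cpos := hCst
    bdd := fun k m r hr => hbdd (φ k) m r hr.le
    κpos := hκ
    gram := fun k => hgram (φ k) }⟩⟩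

end

end Vale.Agent.P225.Disproof
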