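import Vale.Agent.P225.Disproof.MetricLift
import Vale.Agent.P225.Disproof.EigenSup
import Vale.Agent.P225.Disproof.GalerkinSob

/-!
# P225: lifts of curves, supremum bounds, smooth limits

The lift of a curve in a Galerkin space is differentiated by one time derivative and three
rotations. A family of functions closed under differentiation which converges uniformly on compact
sets has smooth limits.
-/

namespace Vale.Agent.P225.Disproof

open MvPolynomial MeasureTheory Set Filter Topology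
open scoped RealInnerProductSpace ContDiff

noncomputable section

/-- The coefficient forms: `0` for time, `i + 1` for the rotation `i`. -/
def polC (j : Fin 4) (x : Space 3) : Space 3 →L[ℝ] ℝ :=
  (‖x‖ ^ 2)⁻¹ • Fin.cases (innerSL ℝ x)
    (fun i => x (i + 1) • (EuclideanSpace.proj (i + 2) : Space 3 →L[ℝ] ℝ) -
      x (i + 2) • (EuclideanSpace.proj (i + 1) : Space 3 →L[ℝ] ℝ)) j

theorem contDiffOn_polC (j : Fin 4) : ContDiffOn ℝ ∞ (polC j) {0}ᶜ := by
  refine ContDiffOn.smul (fun x hx =>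
    ((contDiff_norm_sq ℝ).contDiffAt.inv (pow_ne_zero 2 (norm_ne_zero_iff.2 hx))).contDiffWithinAt) ?_
  refine ContDiff.contDiffOn ?_
  induction j using Fin.cases with
  | zero => exact (innerSL ℝ : Space 3 →L[ℝ] Space 3 →L[ℝ] ℝ).contDiff
  | succ i =>
    exact (((EuclideanSpace.proj (i + 1) : Space 3 →L[ℝ] ℝ).contDiff).smul contDiff_const).sub
      (((EuclideanSpace.proj (i + 2) : Space 3 →L[ℝ] ℝ).contDiff).smul contDiff_const)

/-- The tangential derivative in terms of the rotations. -/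
theorem sum_cross_rot (f : Space 3 → ℝ) {x : Space 3} (hx : x ≠ 0) (v : Space 3) :
    ∑ i, polC i.succ x v * rot i f (‖x‖⁻¹ • x) =
      fderiv ℝ f (‖x‖⁻¹ • x) (‖x‖⁻¹ • (v - (Met3.ip x v / ‖x‖ ^ 2) • x)) := by
  have h := norm_ne_zero_iff.2 hx
  rw [fderiv_eq_sum_pd]
  simp +decide [polC, rot, Met3.ip, Fin.sum_univ_three]
  field_simp
  rw [EuclideanSpace.real_norm_sq_eq, Fin.sum_univ_three]
  ring

theorem polC_zero (x v : Space 3) : polC 0 x v = Met3.ip x v / ‖x‖ ^ 2 := by
  simp [polC, Met3.ip, PiLp.inner_apply, div_eq_inv_mul, mul_comm]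

/-- The function of a curve. -/
def curveLift {N : ℕ} (c : ℝ → Gal N) (x : Space 3) : ℝ :=
  evalFun (c (Real.log ‖x‖)).poly (‖x‖⁻¹ • x)

theorem hasFDerivAt_log_norm {x : Space 3} (hx : x ≠ 0) :
    HasFDerivAt (fun y : Space 3 => Real.log ‖y‖) (polC 0 x) x := by
  have h2 : ‖x‖ ^ 2 ≠ 0 := pow_ne_zero 2 (norm_ne_zero_iff.2 hx)
  have h := (((hasStrictFDerivAt_norm_sq x).hasFDerivAt).log h2).const_mul (1 / 2 : ℝ)
  refine (h.congr_of_eventuallyEq (Eventually.of_forall fun y => ?_)).congr_fderiv ?_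
  · simp [Real.log_pow]
  · ext v
    simp [polC]
    ring

/-- The derivative of the lift of a curve. -/
theorem hasFDerivAt_curveLift {N : ℕ} {c : ℝ → Gal N} {c' : Gal N} {x : Space 3} (hx : x ≠ 0)
    (hc : HasDerivAt c c' (Real.log ‖x‖)) :
    HasFDerivAt (curveLift c) (evalFun c'.poly (‖x‖⁻¹ • x) • polC 0 x +
      ∑ i : Fin 3, evalFun (rotG i (c (Real.log ‖x‖))).poly (‖x‖⁻¹ • x) • polC i.succ x) x := by
  set e := stdOrthonormalBasis ℝ (Gal N)
  have hev : ∀ (p : Gal N) (y : Space 3),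
      evalFun p.poly y = ∑ k, ⟪e k, p⟫ * evalFun (e k).poly y := fun p y => by
    conv_lhs => rw [← e.sum_repr' p]
    simp only [map_sum, map_smul, evalFun, MvPolynomial.smul_eval]
  have hq : ∀ q : MvPolynomial (Fin 3) ℝ, HasFDerivAt (fun y => evalFun q (‖y‖⁻¹ • y))
      (∑ i : Fin 3, evalFun (rotP i q) (‖x‖⁻¹ • x) • polC i.succ x) x := fun q => by
    obtain ⟨Lq, hL, hLv⟩ := Met3.hasFDerivAt_lift (P := fun _ y => evalFun q y)
      ((contDiff_evalFun q).comp contDiff_snd) hx
    refine (show HasFDerivAt (fun y => evalFun q (‖y‖⁻¹ • y)) Lq x from hL).congr_fderiv ?_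
    ext v
    rw [hLv, ← sum_cross_rot _ hx]
    simp [rot_evalFun, mul_comm]
  have hfun : curveLift c = fun y => ∑ k, ⟪e k, c (Real.log ‖y‖)⟫ *
      evalFun (e k).poly (‖y‖⁻¹ • y) := funext fun y => hev _ _
  rw [hfun]
  have hk : ∀ k, HasFDerivAt (fun y : Space 3 => ⟪e k, c (Real.log ‖y‖)⟫) (⟪e k, c'⟫ • polC 0 x) x :=
    fun k => by
      have h1 : HasDerivAt (fun t => ⟪e k, c t⟫) ⟪e k, c'⟫ (Real.log ‖x‖) :=
        (innerSL ℝ (e k)).hasFDerivAt.comp_hasDerivAt _ hc
      exact h1.comp_hasFDerivAt (f := fun y : Space 3 => Real.log ‖y‖) x (hasFDerivAt_log_norm hx)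
  refine (HasFDerivAt.fun_sum fun k _ => (hk k).mul (hq (e k).poly)).congr_fderiv ?_
  ext v
  simp only [sum_apply, add_apply, smul_apply, smul_eq_mul]
  have hr : ∀ i, evalFun (rotG i (c (Real.log ‖x‖))).poly (‖x‖⁻¹ • x) =
      ∑ k, ⟪e k, c (Real.log ‖x‖)⟫ * evalFun (rotP i (e k).poly) (‖x‖⁻¹ • x) := fun i => by
    conv_lhs => rw [← e.sum_repr' (c (Real.log ‖x‖))]
    simp only [map_sum, map_smul, evalFun, MvPolynomial.smul_eval, poly_rotG]
  rw [hev c', Finset.sum_add_distrib, Finset.sum_mul]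
  simp only [hr, Finset.sum_mul, Finset.mul_sum]
  rw [Finset.sum_comm (γ := Fin 3) (α := Fin (Module.finrank ℝ (Gal N))), add_comm]
  exact congrArg₂ (· + ·) (Finset.sum_congr rfl fun k _ => by ring)
    (Finset.sum_congr rfl fun i _ => Finset.sum_congr rfl fun k _ => by ring)

/-- A harmonic homogeneous polynomial on a ball. -/
theorem abs_evalFun_ball_le {l : ℕ} {q : MvPolynomial (Fin 3) ℝ} (hq : q.IsHomogeneous l)
    (hql : lapP q = 0) {x : Space 3} {ρ : ℝ} (hx : ‖x‖ ≤ ρ) :
    |evalFun q x| ≤ ρ ^ l * ((1 + supConst) * (l + 1 : ℝ) ^ 2 * Real.sqrt (sphIp q q)) := by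
  obtain ⟨θ, hθ⟩ : ∃ θ : Sph 3, x = ‖x‖ • (θ : Space 3) := by
    rcases eq_or_ne x 0 with h | h
    · exact ⟨⟨EuclideanSpace.single 0 1, by simp⟩, by simp [h]⟩
    · refine ⟨⟨‖x‖⁻¹ • x, by simp [Met3.norm_inv_smul h]⟩, ?_⟩
      rw [smul_smul, mul_inv_cancel₀ (norm_ne_zero_iff.2 h), one_smul]
  rw [hθ, evalFun_smul_point hq, abs_mul, abs_pow, abs_norm]
  have hs : |res q θ| ≤ (1 + supConst) * (l + 1 : ℝ) ^ 2 * Real.sqrt (sphIp q q) := by
    have hnn : 0 ≤ sphIp q q := integral_nonneg fun _ => mul_self_nonneg _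
    have hS := supConst_pos
    refine abs_le_of_sq_le_sq ?_ (by positivity)
    rw [mul_pow, Real.sq_sqrt hnn]
    refine (res_sq_le hq hql θ).trans (mul_le_mul_of_nonneg_right ?_ hnn)
    rw [mul_pow, ← pow_mul]
    refine mul_le_mul ?_ (pow_le_pow_right₀ (by linarith [(Nat.cast_nonneg l : (0:ℝ) ≤ l)]) (by norm_num))
      (by positivity) (sq_nonneg _)
    linarith [sq_nonneg supConst]
  exact mul_le_mul (pow_le_pow_left₀ (norm_nonneg _) hx l) hs (abs_nonneg _)
    (pow_nonneg ((norm_nonneg x).trans hx) l)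

/-- Iterated partial derivatives. -/
def pdl : List (Fin 3) → MvPolynomial (Fin 3) ℝ → MvPolynomial (Fin 3) ℝ
  | [], p => p
  | i :: a, p => pderiv i (pdl a p)

theorem pdl_add : ∀ (a : List (Fin 3)) (p q : MvPolynomial (Fin 3) ℝ),
    pdl a (p + q) = pdl a p + pdl a q
  | [], _, _ => rfl
  | i :: a, p, q => by rw [pdl, pdl_add a p q, map_add]; rfl

theorem pdl_zero : ∀ a : List (Fin 3), pdl a 0 = 0
  | [] => rfl
  | i :: a => by rw [pdl, pdl_zero a, map_zero]

theorem pdl_sum {α : Type*} (a : List (Fin 3)) (s : Finset α) (f : α → MvPolynomial (Fin 3) ℝ) :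
    pdl a (∑ k ∈ s, f k) = ∑ k ∈ s, pdl a (f k) := by
  classical
  induction s using Finset.induction_on with
  | empty => simp [pdl_zero]
  | insert k s hk ih => rw [Finset.sum_insert hk, Finset.sum_insert hk, pdl_add, ih]

theorem pdl_props : ∀ (a : List (Fin 3)) {l : ℕ} {q : MvPolynomial (Fin 3) ℝ},
    q.IsHomogeneous l → lapP q = 0 →
      (pdl a q).IsHomogeneous (l - a.length) ∧ lapP (pdl a q) = 0 ∧
      sphIp (pdl a q) (pdl a q) ≤ (2 * (l + 1 : ℝ) ^ 2) ^ a.length * sphIp q q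
  | [], l, q, h, hl => ⟨by simpa [pdl] using h, hl, by simp [pdl]⟩
  | i :: a, l, q, h, hl => by
    obtain ⟨h1, h2, h3⟩ := pdl_props a h hl
    refine ⟨?_, ?_, ?_⟩
    · simpa [pdl, Nat.sub_sub] using h1.pderiv (i := i)
    · have e : ∀ j, pderiv j (pderiv j (pderiv i (pdl a q))) =
          pderiv i (pderiv j (pderiv j (pdl a q))) := fun j => by
        rw [pderiv_comm' j i, pderiv_comm' j i]
      simp only [pdl, lapP] at h2 ⊢
      simp only [e, ← map_sum, h2, map_zero]
    · refine (sphIp_pderiv_le h1 h2 i).trans ?_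
      rw [List.length_cons, pow_succ' _ a.length, mul_assoc _ _ (sphIp q q)]
      refine mul_le_mul ?_ h3 (integral_nonneg fun _ => mul_self_nonneg _) (by positivity)
      have : ((l - a.length : ℕ) : ℝ) ≤ l := by exact_mod_cast Nat.sub_le _ _
      gcongr

theorem sphIp_poly {N : ℕ} (p : Gal N) : sphIp p.poly p.poly = ‖p‖ ^ 2 := by
  rw [← inner_gal, real_inner_self_eq_norm_sq]

/-- All partial derivatives on a smaller ball are bounded by the mean square on the sphere. -/
theorem exists_pdl_bound (a : List (Fin 3)) {ρ : ℝ} (hρ0 : 0 < ρ) (hρ : ρ < 1) :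
    ∃ C, 0 ≤ C ∧ ∀ (N : ℕ) (p : Gal N), ∀ x : Space 3, ‖x‖ ≤ ρ →
      |evalFun (pdl a p.poly) x| ≤ C * ‖p‖ := by
  set n := a.length
  set g : ℕ → ℝ := fun l => ρ⁻¹ ^ n * (1 + supConst) * 2 ^ n * (((l : ℝ) + 1) ^ (2 + 2 * n) * ρ ^ l)
  have hg : Summable g := by
    refine Summable.mul_left _ ?_
    have h := summable_pow_mul_geometric_of_norm_lt_one (R := ℝ) (2 + 2 * n)
      (by rwa [Real.norm_of_nonneg hρ0.le] : ‖ρ‖ < 1)
    have h2 : Summable fun l : ℕ => ((l + 1 : ℕ) : ℝ) ^ (2 + 2 * n) * ρ ^ (l + 1) :=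
      (summable_nat_add_iff 1).2 h
    refine (h2.mul_right ρ⁻¹).congr fun l => ?_
    push_cast
    rw [pow_succ ρ l]
    field_simp
  have hS := supConst_pos
  refine ⟨∑' l, g l, tsum_nonneg fun l => by positivity, fun N p x hx => ?_⟩
  have hb : ∀ l, |evalFun (pdl a (homogeneousComponent l p.poly)) x| ≤ g l * ‖p‖ := fun l => by
    obtain ⟨h1, h2, h3⟩ := pdl_props a (homogeneousComponent_isHomogeneous l p.poly)
      (lapP_homogeneousComponent l _ (mem_harmUpTo.1 p.mem).2)
    refine (abs_evalFun_ball_le h1 h2 hx).trans ?_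
    have hl : ((l - n : ℕ) : ℝ) ≤ l := by exact_mod_cast Nat.sub_le _ _
    have e1 : ρ ^ (l - n) ≤ ρ⁻¹ ^ n * ρ ^ l := by
      rw [inv_pow, inv_mul_eq_div, le_div_iff₀ (pow_pos hρ0 n), ← pow_add]
      exact pow_le_pow_of_le_one hρ0.le hρ.le (by omega)
    have e2 : Real.sqrt (sphIp (pdl a (homogeneousComponent l p.poly))
        (pdl a (homogeneousComponent l p.poly))) ≤ 2 ^ n * ((l : ℝ) + 1) ^ (2 * n) * ‖p‖ := by
      rw [Real.sqrt_le_left (by positivity)]
      refine h3.trans ?_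
      have e3 : sphIp (homogeneousComponent l p.poly) (homogeneousComponent l p.poly) ≤ ‖p‖ ^ 2 := by
        have h4 := sphIp_poly (part l p)
        rw [show (part l p).poly = homogeneousComponent l p.poly from rfl] at h4
        rw [h4]
        exact pow_le_pow_left₀ (norm_nonneg _) (norm_part_le l p) 2
      rw [mul_pow, mul_pow]
      refine mul_le_mul ?_ e3 (integral_nonneg fun _ => mul_self_nonneg _) (by positivity)
      rw [mul_pow, ← pow_mul, ← pow_mul, ← pow_mul]
      refine mul_le_mul (pow_le_pow_right₀ one_le_two (by omega))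
        (pow_le_pow_right₀ (by linarith [(Nat.cast_nonneg l : (0:ℝ) ≤ l)]) (by omega))
        (by positivity) (by positivity)
    have e4 : ((((l - n : ℕ)) : ℝ) + 1) ^ 2 ≤ ((l : ℝ) + 1) ^ 2 := by gcongr
    calc _ ≤ (ρ⁻¹ ^ n * ρ ^ l) * ((1 + supConst) * ((l : ℝ) + 1) ^ 2 *
          (2 ^ n * ((l : ℝ) + 1) ^ (2 * n) * ‖p‖)) := by
          refine mul_le_mul e1 (mul_le_mul (mul_le_mul_of_nonneg_left e4 (by positivity)) e2
            (Real.sqrt_nonneg _) (by positivity)) (by positivity) (by positivity)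
      _ = g l * ‖p‖ := by simp only [g, pow_add]; ring
  conv_lhs => rw [← sum_components (mem_harmUpTo.1 p.mem).1, pdl_sum]
  rw [show evalFun (∑ l ∈ Finset.range (N + 1), pdl a (homogeneousComponent l p.poly)) x =
    ∑ l ∈ Finset.range (N + 1), evalFun (pdl a (homogeneousComponent l p.poly)) x by
      simp [evalFun, map_sum]]
  refine (Finset.abs_sum_le_sum_abs _ _).trans ((Finset.sum_le_sum fun l _ => hb l).trans ?_)
  rw [← Finset.sum_mul]
  exact mul_le_mul_of_nonneg_right (hg.sum_le_tsum _ fun l _ => by positivity) (norm_nonneg p)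

/-- The supremum on the sphere is controlled by three rotations. -/
theorem exists_res_sob_bound :
    ∃ C, 0 ≤ C ∧ ∀ (N : ℕ) (p : Gal N) (θ : Sph 3), |res p.poly θ| ≤ C * sob 4 p := by
  have hS := supConst_pos
  set g : ℕ → ℝ := fun l => (1 + supConst) * 16 * (1 / ((l : ℝ) + 1) ^ 2)
  have hg : Summable g := by
    refine Summable.mul_left _ ?_
    have := (summable_nat_add_iff (f := fun l : ℕ => 1 / (l : ℝ) ^ 2) 1).2
      (Real.summable_one_div_nat_pow.2 one_lt_two)
    simpa using this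
  refine ⟨∑' l, g l, tsum_nonneg fun l => by positivity, fun N p θ => ?_⟩
  have hb : ∀ l, |evalFun (homogeneousComponent l p.poly) (θ : Space 3)| ≤ g l * sob 4 p := fun l => by
    refine (abs_evalFun_ball_le (homogeneousComponent_isHomogeneous l p.poly)
      (lapP_homogeneousComponent l _ (mem_harmUpTo.1 p.mem).2)
      (norm_eq_of_mem_sphere θ).le).trans ?_
    rw [one_pow, one_mul, show homogeneousComponent l p.poly = (part l p).poly from rfl, sphIp_poly,
      Real.sqrt_sq (norm_nonneg _)]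
    have h4 : ((l : ℝ) + 1) ^ 4 * ‖part l p‖ ≤ 16 * sob 4 p := by
      rcases Nat.eq_zero_or_pos l with rfl | hl
      · have := (norm_part_le 0 p).trans (norm_le_sob 4 p)
        have := sob_nonneg 4 p
        norm_num
        linarith
      · have h1 : (1 : ℝ) ≤ l := by exact_mod_cast hl
        calc ((l : ℝ) + 1) ^ 4 * ‖part l p‖ ≤ (2 * (l : ℝ)) ^ 4 * ‖part l p‖ := by
              gcongr; linarith
          _ = 16 * ((l : ℝ) ^ 4 * ‖part l p‖) := by ring
          _ ≤ _ := by gcongr; exact pow_mul_part_le l 4 p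
    simp only [g]
    rw [mul_assoc, mul_assoc ((1 + supConst) * 16), mul_assoc (1 + supConst)]
    refine mul_le_mul_of_nonneg_left ?_ (by positivity)
    have h6 : ((l : ℝ) + 1) ^ 2 * ‖part l p‖ =
        (1 / ((l : ℝ) + 1) ^ 2) * (((l : ℝ) + 1) ^ 4 * ‖part l p‖) := by field_simp
    rw [h6]
    calc _ ≤ (1 / ((l : ℝ) + 1) ^ 2) * (16 * sob 4 p) := by gcongr
      _ = _ := by ring
  conv_lhs => rw [res, ← sum_components (mem_harmUpTo.1 p.mem).1]
  rw [show evalFun (∑ l ∈ Finset.range (N + 1), homogeneousComponent l p.poly) (θ : Space 3) =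
    ∑ l ∈ Finset.range (N + 1), evalFun (homogeneousComponent l p.poly) (θ : Space 3) by
      simp [evalFun, map_sum]]
  refine (Finset.abs_sum_le_sum_abs _ _).trans ((Finset.sum_le_sum fun l _ => hb l).trans ?_)
  rw [← Finset.sum_mul]
  exact mul_le_mul_of_nonneg_right (hg.sum_le_tsum _ fun l _ => by positivity) (sob_nonneg 4 p)

/-- Limits of a family closed under differentiation are smooth. -/
theorem smooth_limit {κ : Type*} {n : ℕ} {Ω : Set (Space 3)} (hΩ : IsOpen Ω) (next : κ → Fin n → κ)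
    (C : Fin n → Space 3 → Space 3 →L[ℝ] ℝ) (hC : ∀ j, ContDiffOn ℝ ∞ (C j) Ω)
    (F : ℕ → κ → Space 3 → ℝ) (G : κ → Space 3 → ℝ)
    (hd : ∀ a, ∀ K, IsCompact K → K ⊆ Ω → ∀ᶠ k in atTop, ∀ x ∈ K,
      HasFDerivAt (F k a) (∑ j, F k (next a j) x • C j x) x)
    (hF : ∀ a, ∀ K, IsCompact K → K ⊆ Ω → TendstoUniformlyOn (fun k => F k a) (G a) atTop K) :
    (∀ a, ContDiffOn ℝ ∞ (G a) Ω) ∧
      ∀ a, ∀ x ∈ Ω, HasFDerivAt (G a) (∑ j, G (next a j) x • C j x) x := by
  have hG : ∀ a, ∀ x ∈ Ω, HasFDerivAt (G a) (∑ j, G (next a j) x • C j x) x := by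
    intro a x hx
    obtain ⟨r, hr, hK⟩ := Metric.nhds_basis_closedBall.mem_iff.1 (hΩ.mem_nhds hx)
    have hc : IsCompact (Metric.closedBall x r) := isCompact_closedBall x r
    choose Mj hMj using fun j => hc.exists_bound_of_continuousOn ((hC j).continuousOn.mono hK)
    refine hasFDerivAt_of_tendstoUniformlyOnFilter (l := atTop) (f := fun k => F k a)
      (f' := fun k y => ∑ j, F k (next a j) y • C j y)
      (g' := fun y => ∑ j, G (next a j) y • C j y) ?_ ?_ ?_
    · suffices h : TendstoUniformlyOn (fun k y => ∑ j, F k (next a j) y • C j y)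
          (fun y => ∑ j, G (next a j) y • C j y) atTop (Metric.closedBall x r) from
        (h.tendstoUniformlyOnFilter).mono_right
          (le_principal_iff.2 (Metric.closedBall_mem_nhds x hr))
      rw [Metric.tendstoUniformlyOn_iff]
      intro ε hε
      set S := ∑ j, |Mj j| with hSdef
      have hev : ∀ᶠ k in atTop, ∀ j, ∀ y ∈ Metric.closedBall x r,
          dist (G (next a j) y) (F k (next a j) y) < ε / (S + 1) :=
        eventually_all.2 fun j =>
          Metric.tendstoUniformlyOn_iff.1 (hF (next a j) _ hc hK) _ (by positivity)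
      filter_upwards [hev] with k hk y hy
      rw [dist_eq_norm, ← Finset.sum_sub_distrib]
      refine lt_of_le_of_lt (norm_sum_le _ _) ?_
      calc ∑ j, ‖G (next a j) y • C j y - F k (next a j) y • C j y‖
          ≤ ∑ j, ε / (S + 1) * |Mj j| := Finset.sum_le_sum fun j _ => by
            rw [show G (next a j) y • C j y - F k (next a j) y • C j y =
              (G (next a j) y - F k (next a j) y) • C j y from (sub_smul _ _ _).symm, norm_smul]
            refine mul_le_mul ?_ ((hMj j y hy).trans (le_abs_self _)) (norm_nonneg _) (by positivity)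
            have := (hk j y hy).le
            rwa [Real.dist_eq, ← Real.norm_eq_abs] at this
        _ = ε / (S + 1) * S := by rw [hSdef, Finset.mul_sum]
        _ < ε := by
          rw [div_mul_eq_mul_div, div_lt_iff₀ (by positivity)]
          nlinarith
    · exact ((hd a _ hc hK).prod_mk (Metric.closedBall_mem_nhds x hr)).mono fun p hp =>
        hp.1 p.2 hp.2
    · filter_upwards [Metric.closedBall_mem_nhds x hr] with y hy
      exact (hF a _ hc hK).tendsto_at hy
  refine ⟨?_, hG⟩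
  suffices h : ∀ (m : ℕ) a, ContDiffOn ℝ m (G a) Ω from fun a => contDiffOn_infty.2 fun m => h m a
  intro m
  induction m with
  | zero => exact fun a => contDiffOn_zero.2 fun x hx => (hG a x hx).continuousAt.continuousWithinAt
  | succ m ih =>
    intro a
    rw [show ((m + 1 : ℕ) : WithTop ℕ∞) = (m : WithTop ℕ∞) + 1 by norm_cast,
      contDiffOn_succ_iff_fderiv_of_isOpen hΩ]
    refine ⟨fun x hx => (hG a x hx).differentiableAt.differentiableWithinAt, by simp, ?_⟩
    refine ContDiffOn.congr (f := fun x => ∑ j, G (next a j) x • C j x) ?_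
      fun x hx => (hG a x hx).fderiv
    exact ContDiffOn.sum fun j _ => (ih (next a j)).smul ((hC j).of_le (mod_cast le_top))

end

end Vale.Agent.P225.Disproof
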