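import Vale.Agent.P225.Disproof.MassSlowPlane

/-!
# P225: cones and rates at any level of the pencil

`TraceData` bundles the trace map on an interval with its bounds. For every `μ` at which the
trace map has a gap, the cone `⟪u, B u⟫ ≤ μ ⟪u, G u⟫` is invariant backwards along the flow
`G u' = B u`, and the corresponding cone of `z = G⁻¹ w` is invariant forwards along the dual flow
`w' = -B G⁻¹ w`. Inside the cones the weighted norm grows or decays at the rate `μ` up to `ε`.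
-/

namespace Vale.Agent.P225.Disproof

open Set Filter Topology
open scoped RealInnerProductSpace

noncomputable section

variable {V : Type*} [NormedAddCommGroup V] [InnerProductSpace ℝ V] [FiniteDimensional ℝ V]

/-- The trace map on an interval with its bounds. -/
structure TraceData (V : Type*) [NormedAddCommGroup V] [InnerProductSpace ℝ V]
    [FiniteDimensional ℝ V] (a b ε : ℝ) where
  K : ℝ → V →L[ℝ] V
  G : ℝ → V →L[ℝ] V
  G' : ℝ → V →L[ℝ] V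
  B : ℝ → V →L[ℝ] V
  m : ℝ
  hm : 0 < m
  hε : 0 ≤ ε
  hε1 : ε ≤ 1
  symG : ∀ t ∈ Icc a b, ∀ x y : V, ⟪G t x, y⟫ = ⟪x, G t y⟫
  symB : ∀ t ∈ Icc a b, ∀ x y : V, ⟪B t x, y⟫ = ⟪x, B t y⟫
  nonnegB : ∀ t ∈ Icc a b, ∀ x : V, 0 ≤ ⟪x, B t x⟫
  coercive : ∀ t ∈ Icc a b, ∀ x : V, m * ‖x‖ ^ 2 ≤ ⟪x, G t x⟫
  derivG : ∀ t ∈ Icc a b, HasDerivWithinAt G (G' t) (Icc a b) t
  boundG : ∀ t ∈ Icc a b, ∀ x : V, |⟪x, G' t x⟫| ≤ ε * ⟪x, G t x⟫
  derivB : ∀ t ∈ Icc a b,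
    HasDerivWithinAt B (K t - B t - B t * Ring.inverse (G t) * B t) (Icc a b) t
  boundB : ∀ t ∈ Icc a b, ∀ x : V, |⟪x, (K t - B t - B t * Ring.inverse (G t) * B t) x⟫| ≤
    ε * (⟪x, B t x⟫ + ⟪x, G t x⟫)

namespace TraceData

variable {a b ε : ℝ} (P : TraceData V a b ε)

/-- The weighted square norm. -/
def nrm (t : ℝ) (x : V) : ℝ := ⟪x, P.G t x⟫

/-- The energy of the trace. -/
def eng (t : ℝ) (x : V) : ℝ := ⟪x, P.B t x⟫

/-- The velocity `G⁻¹ B x`. -/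
def vel (t : ℝ) (x : V) : V := Ring.inverse (P.G t) (P.B t x)

/-- A gap of the trace map at the level `μ`. -/
def Gap (t μ g : ℝ) : Prop :=
  ∀ x : V, g ^ 2 * P.nrm t x ≤ P.nrm t (P.vel t x - μ • x)

/-- A solution of the flow on a subinterval. -/
def IsSol (s₁ s₂ : ℝ) (u : ℝ → V) : Prop :=
  ∀ t ∈ Icc s₁ s₂, HasDerivWithinAt u (P.vel t (u t)) (Icc s₁ s₂) t

/-- A solution of the dual flow, written for `z = G⁻¹ w`. -/
def IsDual (s₁ s₂ : ℝ) (z : ℝ → V) : Prop :=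
  ∀ t ∈ Icc s₁ s₂, HasDerivWithinAt z
    (-P.vel t (z t) - Ring.inverse (P.G t) (P.G' t (z t))) (Icc s₁ s₂) t

variable {P} {s₁ s₂ : ℝ}

theorem G_vel {t : ℝ} (ht : t ∈ Icc a b) (x : V) : P.G t (P.vel t x) = P.B t x :=
  apply_inverse (isUnit_of_coercive P.hm (P.coercive t ht)) _

theorem nrm_nonneg {t : ℝ} (ht : t ∈ Icc a b) (x : V) : 0 ≤ P.nrm t x :=
  (mul_nonneg P.hm.le (sq_nonneg _)).trans (P.coercive t ht x)

theorem eng_eq_inner_vel {t : ℝ} (ht : t ∈ Icc a b) (x : V) :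
    ⟪P.vel t x, P.G t x⟫ = P.eng t x := by
  rw [eng, ← P.symG t ht, G_vel ht, real_inner_comm]

theorem nrm_vel_sub {t : ℝ} (ht : t ∈ Icc a b) (μ : ℝ) (x : V) :
    P.nrm t (P.vel t x - μ • x) =
      P.nrm t (P.vel t x) - 2 * μ * P.eng t x + μ * μ * P.nrm t x := by
  simp only [nrm, map_sub, map_smul, inner_sub_left, inner_sub_right, real_inner_smul_left,
    real_inner_smul_right]
  rw [eng_eq_inner_vel ht, G_vel ht, eng]
  ring

/-- Two-sided bound for the mixed term. -/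
theorem abs_inner_G' {t : ℝ} (ht : t ∈ Icc a b) (hs : ∀ x y : V, ⟪P.G' t x, y⟫ = ⟪x, P.G' t y⟫)
    (x y : V) : |2 * ⟪x, P.G' t y⟫| ≤ ε * (P.nrm t x + P.nrm t y) := by
  have h1 := abs_le.1 (P.boundG t ht (x + y))
  have h2 := abs_le.1 (P.boundG t ht (x - y))
  have e1 : ⟪y, P.G' t x⟫ = ⟪x, P.G' t y⟫ := by rw [← hs, real_inner_comm]
  have e2 : ⟪y, P.G t x⟫ = ⟪x, P.G t y⟫ := by rw [← P.symG t ht, real_inner_comm]
  simp only [map_add, map_sub, inner_add_left, inner_add_right, inner_sub_left, inner_sub_right,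
    e1, e2] at h1 h2
  rw [nrm, nrm, abs_le]
  constructor <;> linarith

/-- The derivative of `G` is symmetric. -/
theorem symG' {t : ℝ} (hab : a < b) (ht : t ∈ Icc a b) (x y : V) :
    ⟪P.G' t x, y⟫ = ⟪x, P.G' t y⟫ := by
  have h1 : HasDerivWithinAt (fun s => ⟪P.G s x, y⟫) ⟪P.G' t x, y⟫ (Icc a b) t := by
    simpa using (((P.derivG t ht).clm_apply (hasDerivWithinAt_const t _ x)).inner ℝ
      (hasDerivWithinAt_const t _ y))
  have h2 : HasDerivWithinAt (fun s => ⟪x, P.G s y⟫) ⟪x, P.G' t y⟫ (Icc a b) t := by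
    simpa using ((hasDerivWithinAt_const t _ x).inner ℝ
      ((P.derivG t ht).clm_apply (hasDerivWithinAt_const t _ y)))
  exact (uniqueDiffOn_Icc hab t ht).eq_deriv _ h1
    (h2.congr (fun s hs => P.symG s hs x y) (P.symG t ht x y))

theorem deriv_nrm (h₁ : a ≤ s₁) (h₂ : s₂ ≤ b) {u u' : ℝ → V}
    (hu : ∀ t ∈ Icc s₁ s₂, HasDerivWithinAt u (u' t) (Icc s₁ s₂) t) {t : ℝ}
    (ht : t ∈ Icc s₁ s₂) :
    HasDerivWithinAt (fun s => P.nrm s (u s))
      (⟪u t, P.G' t (u t)⟫ + 2 * ⟪u' t, P.G t (u t)⟫) (Icc s₁ s₂) t := by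
  have hsub : Icc s₁ s₂ ⊆ Icc a b := Icc_subset_Icc h₁ h₂
  refine ((hu t ht).inner ℝ (((P.derivG t (hsub ht)).mono hsub).clm_apply (hu t ht))).congr_deriv ?_
  rw [inner_add_right, ← P.symG t (hsub ht) (u t) (u' t), real_inner_comm (u' t)]
  ring

theorem deriv_eng (h₁ : a ≤ s₁) (h₂ : s₂ ≤ b) {u u' : ℝ → V}
    (hu : ∀ t ∈ Icc s₁ s₂, HasDerivWithinAt u (u' t) (Icc s₁ s₂) t) {t : ℝ}
    (ht : t ∈ Icc s₁ s₂) :
    HasDerivWithinAt (fun s => P.eng s (u s))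
      (⟪u t, (P.K t - P.B t - P.B t * Ring.inverse (P.G t) * P.B t) (u t)⟫ +
        2 * ⟪u' t, P.B t (u t)⟫) (Icc s₁ s₂) t := by
  have hsub : Icc s₁ s₂ ⊆ Icc a b := Icc_subset_Icc h₁ h₂
  refine ((hu t ht).inner ℝ (((P.derivB t (hsub ht)).mono hsub).clm_apply (hu t ht))).congr_deriv ?_
  rw [inner_add_right, ← P.symB t (hsub ht) (u t) (u' t), real_inner_comm (u' t)]
  ring

/-- The cone at a gap is invariant backwards along the flow. -/
theorem cone_mono (h₁ : a ≤ s₁) (h₂ : s₂ ≤ b) {u : ℝ → V} (hu : P.IsSol s₁ s₂ u) {μ g : ℝ}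
    (hμ : 0 ≤ μ) (hgε : ε * (2 * μ + 1) ≤ 2 * g ^ 2)
    (hgap : ∀ t ∈ Icc s₁ s₂, P.Gap t μ g) :
    MonotoneOn (fun t => Real.exp (∫ _s in s₁..t, -(2 * μ - ε)) *
      (P.eng t (u t) - μ * P.nrm t (u t))) (Icc s₁ s₂) := by
  refine monotoneOn_exp_mul continuous_const
    (fun t ht => (deriv_eng h₁ h₂ hu ht).sub ((deriv_nrm h₁ h₂ hu ht).const_mul μ))
    fun t ht => ?_
  have hs : t ∈ Icc a b := Icc_subset_Icc h₁ h₂ ht
  have h1 := hgap t ht (u t)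
  rw [nrm_vel_sub hs] at h1
  have h2 := (abs_le.1 (P.boundB t hs (u t))).1
  have h3 := mul_le_mul_of_nonneg_left ((le_abs_self _).trans (P.boundG t hs (u t))) hμ
  have h4 := mul_le_mul_of_nonneg_right hgε (nrm_nonneg (P := P) hs (u t))
  have h5 : ⟪P.vel t (u t), P.B t (u t)⟫ = P.nrm t (P.vel t (u t)) := by rw [nrm, G_vel hs]
  have h6 := eng_eq_inner_vel (P := P) hs (u t)
  simp only [h5, h6]
  simp only [nrm, eng] at h1 h2 h3 h4 ⊢
  linarith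

/-- The dual cone at a gap is invariant forwards along the dual flow. -/
theorem dual_cone_anti (hab : a < b) (h₁ : a ≤ s₁) (h₂ : s₂ ≤ b) {z : ℝ → V}
    (hz : P.IsDual s₁ s₂ z) {μ g : ℝ} (hμ : 0 ≤ μ) (hgε : ε * (2 * μ + 2) ≤ (2 - ε) * g ^ 2)
    (hgap : ∀ t ∈ Icc s₁ s₂, P.Gap t μ g) :
    MonotoneOn (fun t => Real.exp (∫ _s in s₁..t, (2 * μ - ε)) *
      -(P.eng t (z t) - μ * P.nrm t (z t))) (Icc s₁ s₂) := by
  refine monotoneOn_exp_mul continuous_const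
    (fun t ht => ((deriv_eng h₁ h₂ hz ht).sub ((deriv_nrm h₁ h₂ hz ht).const_mul μ)).neg)
    fun t ht => ?_
  have hs : t ∈ Icc a b := Icc_subset_Icc h₁ h₂ ht
  set x := z t
  set y := P.vel t x with hy
  set r := Ring.inverse (P.G t) (P.G' t x) with hr
  have hGr : P.G t r = P.G' t x := apply_inverse (isUnit_of_coercive P.hm (P.coercive t hs)) _
  have e1 : ⟪-y - r, P.B t x⟫ = -P.nrm t y - ⟪y, P.G' t x⟫ := by
    rw [nrm, inner_sub_left, inner_neg_left, G_vel hs, ← G_vel hs x, ← P.symG t hs r,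
      ← hy, hGr, real_inner_comm y]
  have e2 : ⟪-y - r, P.G t x⟫ = -P.eng t x - ⟪x, P.G' t x⟫ := by
    rw [inner_sub_left, inner_neg_left, hy, eng_eq_inner_vel (P := P) hs, ← P.symG t hs r, hGr,
      real_inner_comm x]
  have e3 : ⟪y - μ • x, P.G' t x⟫ = ⟪y, P.G' t x⟫ - μ * ⟪x, P.G' t x⟫ := by
    rw [inner_sub_left, real_inner_smul_left]
  have hm' := (abs_le.1 (abs_inner_G' (P := P) hs (symG' hab hs) (y - μ • x) x)).1
  have hq : P.nrm t (y - μ • x) = P.nrm t y - 2 * μ * P.eng t x + μ * μ * P.nrm t x := by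
    rw [hy]; exact nrm_vel_sub hs μ x
  have h1 := mul_le_mul_of_nonneg_left (hgap t ht x)
    (by linarith [P.hε1] : 0 ≤ 2 - ε)
  rw [← hy] at h1
  have h2 := (abs_le.1 (P.boundB t hs x)).2
  have h3 := mul_le_mul_of_nonneg_left (abs_le.1 (P.boundG t hs x)).1 hμ
  have h4 := mul_le_mul_of_nonneg_right hgε (nrm_nonneg (P := P) hs x)
  rw [hq] at h1 hm'
  rw [e3] at hm'
  rw [e1, e2]
  simp only [nrm, eng] at h1 h2 h3 h4 hm' ⊢
  linarith

/-- Upper rate inside the low cone. -/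
theorem rate_upper (h₁ : a ≤ s₁) (h₂ : s₂ ≤ b) (h : s₁ ≤ s₂) {u : ℝ → V}
    (hu : P.IsSol s₁ s₂ u) {μ : ℝ}
    (hc : ∀ t ∈ Icc s₁ s₂, P.eng t (u t) ≤ μ * P.nrm t (u t)) :
    P.nrm s₂ (u s₂) ≤ Real.exp ((2 * μ + ε) * (s₂ - s₁)) * P.nrm s₁ (u s₁) := by
  have h1 := monotoneOn_exp_mul (k := fun _ => -(2 * μ + ε)) continuous_const
    (fun t ht => (deriv_nrm (P := P) h₁ h₂ hu ht).neg) (fun t ht => ?_)
    ⟨le_rfl, h⟩ ⟨h, le_rfl⟩ h
  · simp only [intervalIntegral.integral_same, Real.exp_zero, one_mul, Pi.neg_apply,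
      intervalIntegral.integral_const, smul_eq_mul, mul_neg, neg_le_neg_iff, Real.exp_neg] at h1
    rw [inv_mul_le_iff₀ (Real.exp_pos _), mul_comm (s₂ - s₁)] at h1
    exact h1
  · have hs : t ∈ Icc a b := Icc_subset_Icc h₁ h₂ ht
    have h2 := (le_abs_self _).trans (P.boundG t hs (u t))
    have h3 := hc t ht
    rw [eng_eq_inner_vel (P := P) hs]
    simp only [Pi.neg_apply, nrm] at h2 h3 ⊢
    linarith

/-- Lower rate inside the high cone; `μ = 0` gives the lower bound valid for every solution. -/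
theorem rate_lower (h₁ : a ≤ s₁) (h₂ : s₂ ≤ b) (h : s₁ ≤ s₂) {u : ℝ → V}
    (hu : P.IsSol s₁ s₂ u) {μ : ℝ}
    (hc : ∀ t ∈ Icc s₁ s₂, μ * P.nrm t (u t) ≤ P.eng t (u t)) :
    Real.exp ((2 * μ - ε) * (s₂ - s₁)) * P.nrm s₁ (u s₁) ≤ P.nrm s₂ (u s₂) := by
  have h1 := monotoneOn_exp_mul (k := fun _ => -(2 * μ - ε)) continuous_const
    (fun t ht => deriv_nrm (P := P) h₁ h₂ hu ht) (fun t ht => ?_)
    ⟨le_rfl, h⟩ ⟨h, le_rfl⟩ h
  · simp only [intervalIntegral.integral_same, Real.exp_zero, one_mul,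
      intervalIntegral.integral_const, smul_eq_mul, mul_neg, Real.exp_neg] at h1
    rw [le_inv_mul_iff₀ (Real.exp_pos _), mul_comm (s₂ - s₁)] at h1
    exact h1
  · have hs : t ∈ Icc a b := Icc_subset_Icc h₁ h₂ ht
    have h2 := (abs_le.1 (P.boundG t hs (u t))).1
    have h3 := hc t ht
    rw [eng_eq_inner_vel (P := P) hs]
    simp only [nrm] at h2 h3 ⊢
    linarith

/-- The two flows are dual for the weighted pairing. -/
theorem pairing_const (hab : a < b) (h₁ : a ≤ s₁) (h₂ : s₂ ≤ b) {u z : ℝ → V}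
    (hu : P.IsSol s₁ s₂ u) (hz : P.IsDual s₁ s₂ z) {t : ℝ} (ht : t ∈ Icc s₁ s₂) :
    ⟪u t, P.G t (z t)⟫ = ⟪u s₁, P.G s₁ (z s₁)⟫ := by
  have hsub : Icc s₁ s₂ ⊆ Icc a b := Icc_subset_Icc h₁ h₂
  have hd : ∀ s ∈ Icc s₁ s₂,
      HasDerivWithinAt (fun r => ⟪u r, P.G r (z r)⟫) 0 (Icc s₁ s₂) s := fun s hs => by
    refine ((hu s hs).inner ℝ (((P.derivG s (hsub hs)).mono hsub).clm_apply (hz s hs))).congr_deriv ?_
    have hG : P.G s (Ring.inverse (P.G s) (P.G' s (z s))) = P.G' s (z s) :=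
      apply_inverse (isUnit_of_coercive P.hm (P.coercive s (hsub hs))) _
    simp only [map_sub, map_neg, G_vel (hsub hs), hG, inner_add_right, inner_sub_right,
      inner_neg_right, ← P.symG s (hsub hs), ← P.symB s (hsub hs)]
    ring
  exact constant_of_has_deriv_right_zero (fun s hs => (hd s hs).continuousWithinAt)
    (fun s hs => (hd s (Ico_subset_Icc_self hs)).mono_of_mem_nhdsWithin (Icc_mem_nhdsGE_of_mem hs))
    t ht

end TraceData

end

end Vale.Agent.P225.Disproof
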