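import Vale.Agent.P225.Disproof.MassTrace

/-!
# P225: the dimension of the slow planes, and the energy flux
-/

namespace Vale.Agent.P225.Disproof

open Set Filter Topology
open scoped RealInnerProductSpace

noncomputable section

variable {V : Type*} [NormedAddCommGroup V] [InnerProductSpace ℝ V] [FiniteDimensional ℝ V]

namespace TraceData

variable {a b ε : ℝ} {P : TraceData V a b ε}

/-- Cauchy-Schwarz for the energy. -/
theorem eng_sq_le {t : ℝ} (ht : t ∈ Icc a b) (x y : V) :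
    ⟪x, P.B t y⟫ ^ 2 ≤ P.eng t x * P.eng t y := by
  have hq : ∀ r : ℝ, 0 ≤ P.eng t y * (r * r) + 2 * ⟪x, P.B t y⟫ * r + P.eng t x := fun r => by
    have h := P.nonnegB t ht (x + r • y)
    have e : ⟪y, P.B t x⟫ = ⟪x, P.B t y⟫ := by rw [← P.symB t ht, real_inner_comm]
    simp only [eng, map_add, map_smul, inner_add_left, inner_add_right, real_inner_smul_left,
      real_inner_smul_right, e] at h ⊢
    linarith
  have h := discrim_le_zero hq
  rw [discrim] at h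
  linarith

/-- On an invariant low plane the velocity is bounded by the level. -/
theorem nrm_vel_le {t r : ℝ} (ht : t ∈ Icc a b) (hr : 0 ≤ r) {S S' : Submodule ℝ V}
    (hS : IsCompl S S') (hlow : ∀ x ∈ S, P.eng t x ≤ r * P.nrm t x)
    (horth : ∀ x ∈ S, ∀ y ∈ S', ⟪x, P.G t y⟫ = 0 ∧ ⟪x, P.B t y⟫ = 0) {x : V} (hx : x ∈ S) :
    P.nrm t (P.vel t x) ≤ r ^ 2 * P.nrm t x := by
  obtain ⟨v₁, h₁, v₂, h₂, hv⟩ := Submodule.mem_sup.1
    (hS.sup_eq_top ▸ Submodule.mem_top (x := P.vel t x))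
  have hz : v₂ = 0 := by
    have e : ⟪P.vel t x, P.G t v₂⟫ = ⟪x, P.B t v₂⟫ := by
      rw [← P.symG t ht, G_vel ht, ← P.symB t ht]
    rw [← hv, inner_add_left, (horth v₁ h₁ v₂ h₂).1, (horth x hx v₂ h₂).2, zero_add] at e
    exact norm_eq_zero.1 (pow_eq_zero_iff two_ne_zero |>.1 (le_antisymm
      (nonpos_of_mul_nonpos_right ((P.coercive t ht v₂).trans e.le) P.hm) (sq_nonneg _)))
  have hvS : P.vel t x ∈ S := by rw [← hv, hz, add_zero]; exact h₁
  set n := P.nrm t (P.vel t x) with hn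
  have h := eng_sq_le (P := P) ht (P.vel t x) x
  rw [show ⟪P.vel t x, P.B t x⟫ = n by rw [hn, nrm, G_vel ht]] at h
  have h2 : n * n ≤ r ^ 2 * P.nrm t x * n := by
    have := h.trans (mul_le_mul (hlow _ hvS) (hlow _ hx) (P.nonnegB t ht x)
      (mul_nonneg hr (nrm_nonneg ht _)))
    linarith
  rcases (nrm_nonneg (P := P) ht (P.vel t x)).eq_or_lt with h0 | h0
  · rw [hn, ← h0]; exact mul_nonneg (sq_nonneg _) (nrm_nonneg ht _)
  · exact le_of_mul_le_mul_right h2 h0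

/-- A gap of the pencil gives the gap of the trace map and planes of exact dimension. -/
theorem exists_split {t : ℝ} (ht : t ∈ Icc a b) {M : ℕ} {μ g α β : ℝ} (hg : 0 < g) (hgμ : g ≤ μ)
    {Wlo Whi : Submodule ℝ V} (hlo : M ≤ Module.finrank ℝ Wlo)
    (hlo' : ∀ x ∈ Wlo, ⟪x, P.K t x⟫ ≤ α * P.nrm t x)
    (hhi : Module.finrank ℝ V ≤ M + Module.finrank ℝ Whi)
    (hhi' : ∀ x ∈ Whi, β * P.nrm t x ≤ ⟪x, P.K t x⟫)
    (hα : α < (μ - g) ^ 2 + (1 - ε) * (μ - g) - ε)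
    (hβ : (μ + g) ^ 2 + (1 + ε) * (μ + g) + ε < β) :
    P.Gap t μ g ∧ ∃ S S' : Submodule ℝ V, IsCompl S S' ∧ Module.finrank ℝ S = M ∧
      (∀ x ∈ S, P.eng t x ≤ (μ - g) * P.nrm t x) ∧
      (∀ x ∈ S', (μ + g) * P.nrm t x ≤ P.eng t x) ∧
      ∀ x ∈ S, ∀ y ∈ S', ⟪x, P.G t y⟫ = 0 ∧ ⟪x, P.B t y⟫ = 0 := by
  have hpos : ∀ x : V, P.nrm t x ≤ 0 → x = 0 := fun x hx =>
    norm_eq_zero.1 (pow_eq_zero_iff two_ne_zero |>.1 (le_antisymm
      (nonpos_of_mul_nonpos_right ((P.coercive t ht x).trans hx) P.hm) (sq_nonneg _)))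
  obtain ⟨S₀, hS₀, hS₀', hgap⟩ := mass_gap P.hm (P.coercive t ht) (P.symG t ht) (P.symB t ht)
    (P.nonnegB t ht) P.hε P.hε1 (P.boundB t ht) hg hgμ hlo hlo' hhi hhi' hα hβ
  obtain ⟨S, S', hc, hl, hh, ho⟩ := spectral_split (P := P) (μ := μ) (g := g) ht hgap
  refine ⟨hgap, S, S', hc, le_antisymm ?_ ?_, hl, hh, ho⟩
  · have hd : Disjoint S Whi := disjoint_iff.2 <| (Submodule.eq_bot_iff _).2 fun x ⟨hx, hx'⟩ => by
      refine hpos x ?_
      have h1 := nrm_vel_le ht (sub_nonneg.2 hgμ) hc hl ho hx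
      have h2 := (abs_le.1 (P.boundB t ht x)).2
      have h3 := hl x hx
      have h4 := hhi' x hx'
      have e : ⟪x, (P.B t * Ring.inverse (P.G t) * P.B t) x⟫ = P.nrm t (P.vel t x) := by
        rw [nrm, G_vel ht, mul_apply_eq_comp, mul_apply_eq_comp, ← P.symB t ht, real_inner_comm]
        rfl
      rw [sub_apply, sub_apply, inner_sub_right, inner_sub_right, e] at h2
      have h5 : (μ - g) ^ 2 + (1 + ε) * (μ - g) + ε < β := by
        nlinarith [mul_nonneg hg.le (sub_nonneg.2 hgμ), mul_nonneg hg.le P.hε]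
      have h6 := mul_le_mul_of_nonneg_left h3 (show (0 : ℝ) ≤ 1 + ε by linarith [P.hε])
      simp only [nrm, eng] at h1 h2 h3 h4 h6 ⊢
      nlinarith
    have h1 := Submodule.finrank_sup_add_finrank_inf_eq S Whi
    rw [hd.eq_bot, finrank_bot] at h1
    have h2 := Submodule.finrank_le (S ⊔ Whi)
    omega
  · have hd : Disjoint S₀ S' := disjoint_iff.2 <| (Submodule.eq_bot_iff _).2 fun x ⟨hx, hx'⟩ => by
      refine hpos x ?_
      have h1 := hS₀' x hx
      have h2 := hh x hx'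
      simp only [nrm, eng] at h1 h2 ⊢
      nlinarith
    have h1 := Submodule.finrank_sup_add_finrank_inf_eq S₀ S'
    rw [hd.eq_bot, finrank_bot] at h1
    have h2 := Submodule.finrank_le (S₀ ⊔ S')
    have h3 := Submodule.finrank_add_eq_of_isCompl hc
    omega

/-- The energy flux `exp t * ⟪u, B u⟫` is nondecreasing along the flow. -/
theorem flux_mono {s₁ s₂ : ℝ} (h₁ : a ≤ s₁) (h₂ : s₂ ≤ b) {u : ℝ → V} (hu : P.IsSol s₁ s₂ u)
    (hK : ∀ t ∈ Icc s₁ s₂, ∀ x : V, 0 ≤ ⟪x, P.K t x⟫) :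
    MonotoneOn (fun t => Real.exp (∫ _s in s₁..t, (1 : ℝ)) * P.eng t (u t)) (Icc s₁ s₂) := by
  refine monotoneOn_exp_mul continuous_const (fun t ht => deriv_eng h₁ h₂ hu ht) fun t ht => ?_
  have hs : t ∈ Icc a b := Icc_subset_Icc h₁ h₂ ht
  have e : ⟪u t, (P.B t * Ring.inverse (P.G t) * P.B t) (u t)⟫ = P.nrm t (P.vel t (u t)) := by
    rw [nrm, G_vel hs, mul_apply_eq_comp, mul_apply_eq_comp, ← P.symB t hs, real_inner_comm]
    rfl
  have e2 : ⟪P.vel t (u t), P.B t (u t)⟫ = P.nrm t (P.vel t (u t)) := by rw [nrm, G_vel hs]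
  have h3 := hK t ht (u t)
  have h4 := nrm_nonneg (P := P) hs (P.vel t (u t))
  rw [sub_apply, sub_apply, inner_sub_right, inner_sub_right, e, e2]
  simp only [eng] at h3 h4 ⊢
  linarith

end TraceData

end

end Vale.Agent.P225.Disproof
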