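import Vale.Agent.P225.Disproof.Riccati

/-!
# P225: the weighted Riccati equation of the pencil `(K, G)`

For `(G u')' + G u' = K u` the trace map `B`, with `G u' = B u`, solves `B' + B + B G⁻¹ B = K`.
If `K` and `G` vary slowly, `-ε K ≤ K' ≤ ε K` and `-ε G ≤ G' ≤ ε G`, then
`-ε (B + G) ≤ B' ≤ ε (B + G)`, with constants independent of the dimension.
-/

namespace Vale.Agent.P225.Disproof

open Set Filter Topology
open scoped RealInnerProductSpace

noncomputable section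

variable {V : Type*} [NormedAddCommGroup V] [InnerProductSpace ℝ V] [FiniteDimensional ℝ V]
  {a b : ℝ}

/-- A coercive operator is invertible. -/
theorem isUnit_of_coercive {G : V →L[ℝ] V} {m : ℝ} (hm : 0 < m)
    (h : ∀ x : V, m * ‖x‖ ^ 2 ≤ ⟪x, G x⟫) : IsUnit G := by
  have hi : Function.Injective G := (injective_iff_map_eq_zero G).2 fun x hx => by
    have h1 := h x
    rw [hx, inner_zero_right] at h1
    exact norm_eq_zero.1 (pow_eq_zero_iff two_ne_zero |>.1
      (le_antisymm (nonpos_of_mul_nonpos_right h1 hm) (sq_nonneg _)))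
  exact ContinuousLinearMap.isUnit_iff_bijective.2
    ⟨hi, (LinearMap.injective_iff_surjective (f := G.toLinearMap)).1 hi⟩

theorem apply_inverse {G : V →L[ℝ] V} (h : IsUnit G) (x : V) : G (Ring.inverse G x) = x := by
  rw [← mul_apply_eq_comp, Ring.mul_inverse_cancel _ h, one_apply_eq_self]

theorem inverse_apply {G : V →L[ℝ] V} (h : IsUnit G) (x : V) : Ring.inverse G (G x) = x := by
  rw [← mul_apply_eq_comp, Ring.inverse_mul_cancel _ h, one_apply_eq_self]

theorem inverse_symm {G : V →L[ℝ] V} (h : IsUnit G) (hs : ∀ x y : V, ⟪G x, y⟫ = ⟪x, G y⟫)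
    (x y : V) : ⟪Ring.inverse G x, y⟫ = ⟪x, Ring.inverse G y⟫ := by
  conv_lhs => rw [← apply_inverse h y, ← hs, apply_inverse h]

/-- Nonnegativity is preserved by `Φ' + Mᵀ Φ + Φ M ≥ 0`, `M` arbitrary. -/
theorem nonneg_preserved_conj {Φ Φ' M : ℝ → V →L[ℝ] V} (hM : ContinuousOn M (Icc a b))
    (hΦ : ∀ t ∈ Icc a b, HasDerivWithinAt Φ (Φ' t) (Icc a b) t)
    (h : ∀ t ∈ Icc a b, ∀ x : V, 0 ≤ ⟪x, Φ' t x⟫ + ⟪M t x, Φ t x⟫ + ⟪x, Φ t (M t x)⟫)
    (h0 : ∀ x : V, 0 ≤ ⟪x, Φ a x⟫) : ∀ t ∈ Icc a b, ∀ x : V, 0 ≤ ⟪x, Φ t x⟫ := by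
  intro t ht x
  have hsub : Icc a t ⊆ Icc a b := Icc_subset_Icc_right ht.2
  set M' := fun s => IccExtend ht.1 ((Icc a t).domRestrict M) s
  have hM' : Continuous M' := (hM.mono hsub).domRestrict.Icc_extend'
  obtain ⟨u, hu, hu'⟩ := exists_linear_back hM' ht.1 x
  have hd : ∀ s ∈ Icc a t, HasDerivWithinAt (fun s => ⟪u s, Φ s (u s)⟫)
      (⟪u s, Φ' s (u s)⟫ + ⟪M s (u s), Φ s (u s)⟫ + ⟪u s, Φ s (M s (u s))⟫) (Icc a t) s :=
    fun s hs => by
      have h1 : HasDerivWithinAt u (M s (u s)) (Icc a t) s := by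
        have h2 := hu' s hs
        rwa [show M' s = M s from IccExtend_of_mem _ _ hs] at h2
      refine (h1.inner ℝ (((hΦ s (hsub hs)).mono hsub).clm_apply h1)).congr_deriv ?_
      simp only [inner_add_right]
      ring
  have := monotoneOn_Icc hd (fun s hs => h s (hsub hs) _) ⟨le_rfl, ht.1⟩ ⟨ht.1, le_rfl⟩ ht.1
  simp only [hu] at this
  exact (h0 _).trans this

/-- The trace map: existence, symmetry and positivity. -/
theorem exists_mass_dtn (hab : a ≤ b) {K G : ℝ → V →L[ℝ] V} {m : ℝ} (hm : 0 < m)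
    (hK : Continuous K) (hG : Continuous G) (hKs : ∀ t, ∀ x y : V, ⟪K t x, y⟫ = ⟪x, K t y⟫)
    (hGs : ∀ t, ∀ x y : V, ⟪G t x, y⟫ = ⟪x, G t y⟫)
    (hGm : ∀ t, ∀ x : V, m * ‖x‖ ^ 2 ≤ ⟪x, G t x⟫) (hK0 : ∀ t, ∀ x : V, 0 ≤ ⟪x, K t x⟫)
    (B₀ : V →L[ℝ] V) (hB₀s : ∀ x y : V, ⟪B₀ x, y⟫ = ⟪x, B₀ y⟫)
    (hB₀ : ∀ x : V, 0 ≤ ⟪x, B₀ x⟫) :
    ∃ B U : ℝ → V →L[ℝ] V, B a = B₀ ∧ U a = 1 ∧ ∀ t ∈ Icc a b,
      HasDerivWithinAt B (K t - B t - B t * Ring.inverse (G t) * B t) (Icc a b) t ∧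
      HasDerivWithinAt U (Ring.inverse (G t) * B t * U t) (Icc a b) t ∧ IsUnit (U t) ∧
      (∀ x y : V, ⟪B t x, y⟫ = ⟪x, B t y⟫) ∧ ∀ x : V, 0 ≤ ⟪x, B t x⟫ := by
  have hGu : ∀ t, IsUnit (G t) := fun t => isUnit_of_coercive hm (hGm t)
  set J := fun t => Ring.inverse (G t)
  have hJ : Continuous J := continuous_iff_continuousAt.2 fun t =>
    (hasFDerivAt_ringInverse (𝕜 := ℝ) (hGu t).unit).continuousAt.comp_of_eq hG.continuousAt
      (hGu t).unit_spec.symm
  have hJs : ∀ t, ∀ x y : V, ⟪J t x, y⟫ = ⟪x, J t y⟫ := fun t => inverse_symm (hGu t) (hGs t)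
  have hJm : ∀ t, ∀ y : V, m * ‖J t y‖ ^ 2 ≤ ⟪J t y, y⟫ := fun t y => by
    have h := hGm t (J t y)
    rwa [apply_inverse (hGu t)] at h
  set W := (V →L[ℝ] V) × (V →L[ℝ] V)
  set L : ℝ → W →L[ℝ] W := fun t =>
    (((ContinuousLinearMap.mul ℝ (V →L[ℝ] V)) (J t)).comp (ContinuousLinearMap.snd ℝ _ _)).prod
      (((ContinuousLinearMap.mul ℝ (V →L[ℝ] V)) (K t)).comp (ContinuousLinearMap.fst ℝ _ _) -
        ContinuousLinearMap.snd ℝ _ _)
  have hL : Continuous L := by
    have h1 : Continuous fun t => ((ContinuousLinearMap.mul ℝ (V →L[ℝ] V)) (J t)).comp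
        (ContinuousLinearMap.snd ℝ (V →L[ℝ] V) (V →L[ℝ] V)) := by fun_prop
    have h2 : Continuous fun t => ((ContinuousLinearMap.mul ℝ (V →L[ℝ] V)) (K t)).comp
        (ContinuousLinearMap.fst ℝ (V →L[ℝ] V) (V →L[ℝ] V)) -
        ContinuousLinearMap.snd ℝ (V →L[ℝ] V) (V →L[ℝ] V) := by fun_prop
    exact (ContinuousLinearMap.prodₗᵢ ℝ).continuous.comp (h1.prodMk h2)
  obtain ⟨w, hw0, hw⟩ := exists_linear hL hab ((1, B₀) : W)
  set U := fun t => (w t).1
  set P := fun t => (w t).2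
  have hU : ∀ t ∈ Icc a b, HasDerivWithinAt U (J t * P t) (Icc a b) t := fun t ht => by
    refine HasDerivWithinAt.congr_deriv
      ((ContinuousLinearMap.fst ℝ (V →L[ℝ] V) (V →L[ℝ] V)).hasFDerivAt.comp_hasDerivWithinAt t
        (hw t ht)) ?_
    rfl
  have hP : ∀ t ∈ Icc a b, HasDerivWithinAt P (K t * U t - P t) (Icc a b) t := fun t ht => by
    refine HasDerivWithinAt.congr_deriv
      ((ContinuousLinearMap.snd ℝ (V →L[ℝ] V) (V →L[ℝ] V)).hasFDerivAt.comp_hasDerivWithinAt t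
        (hw t ht)) ?_
    rfl
  have hU0 : U a = 1 := by simp [U, hw0]
  have hP0 : P a = B₀ := by simp [P, hw0]
  have hUx : ∀ x, ∀ t ∈ Icc a b,
      HasDerivWithinAt (fun s => U s x) (J t (P t x)) (Icc a b) t := fun x t ht => by
    simpa using (hU t ht).clm_apply (hasDerivWithinAt_const t _ x)
  have hPx : ∀ x, ∀ t ∈ Icc a b,
      HasDerivWithinAt (fun s => P s x) (K t (U t x) - P t x) (Icc a b) t := fun x t ht => by
    simpa using (hP t ht).clm_apply (hasDerivWithinAt_const t _ x)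
  -- the flux is monotone, so a solution does not vanish
  have hflux : ∀ x, MonotoneOn (fun t => Real.exp (∫ _s in a..t, (1 : ℝ)) * ⟪U t x, P t x⟫)
      (Icc a b) := fun x => monotoneOn_exp_mul continuous_const
    (fun t ht => (hUx x t ht).inner ℝ (hPx x t ht)) fun t ht => by
      have h1 := hK0 t (U t x)
      have h2 := (mul_nonneg hm.le (sq_nonneg _)).trans (hJm t (P t x))
      simp only [inner_sub_right, one_mul]
      linarith
  have hflux0 : ∀ x, ∀ t ∈ Icc a b, 0 ≤ ⟪U t x, P t x⟫ := fun x t ht => by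
    have h1 := hflux x ⟨le_rfl, hab⟩ ht ht.1
    simp only [intervalIntegral.integral_same, Real.exp_zero, one_mul, hU0, hP0,
      one_apply_eq_self] at h1
    exact (mul_nonneg_iff_of_pos_left (Real.exp_pos _)).1 ((hB₀ x).trans h1)
  have hinj : ∀ t ∈ Icc a b, ∀ x, U t x = 0 → x = 0 := by
    intro t ht x hx
    have hsub : Icc a t ⊆ Icc a b := Icc_subset_Icc_right ht.2
    have hzero : ∀ s ∈ Icc a t, ⟪U s x, P s x⟫ = 0 := fun s hs => by
      have h1 := hflux x (hsub hs) ht hs.2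
      simp only [hx, inner_zero_left, mul_zero] at h1
      exact le_antisymm (nonpos_of_mul_nonpos_right h1 (Real.exp_pos _)) (hflux0 x s (hsub hs))
    have hP' : ∀ s ∈ Ico a t, J s (P s x) = 0 := fun s hs => by
      have hsI := hsub (Ico_subset_Icc_self hs)
      have hd := ((hUx x s hsI).inner ℝ (hPx x s hsI)).mono hsub
      have hd0 : HasDerivWithinAt (fun r => ⟪U r x, P r x⟫) (0 : ℝ) (Icc a t) s :=
        (hasDerivWithinAt_const s _ 0).congr hzero (hzero s (Ico_subset_Icc_self hs))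
      have he := (uniqueDiffOn_Icc (hs.1.trans_lt hs.2) s (Ico_subset_Icc_self hs)).eq_deriv _ hd hd0
      have hz := hzero s (Ico_subset_Icc_self hs)
      simp only [inner_sub_right, hz, sub_zero] at he
      have h1 := hK0 s (U s x)
      have h2 := hJm s (P s x)
      exact norm_eq_zero.1 (pow_eq_zero_iff two_ne_zero |>.1 (le_antisymm
        (nonpos_of_mul_nonpos_right (by linarith) hm) (sq_nonneg _)))
    have hconst := constant_of_has_deriv_right_zero (f := fun s => U s x)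
      (fun s hs => ((hUx x s (hsub hs)).continuousWithinAt).mono hsub)
      (fun s hs => by
        have h := hUx x s (hsub (Ico_subset_Icc_self hs))
        rw [hP' s hs] at h
        exact h.mono_of_mem_nhdsWithin (Icc_mem_nhdsGE_of_mem ⟨hs.1, hs.2.trans_le ht.2⟩))
      t ⟨ht.1, le_rfl⟩
    simpa [hx, hU0] using hconst.symm
  have hunit : ∀ t ∈ Icc a b, IsUnit (U t) := fun t ht => by
    have hi : Function.Injective (U t) := (injective_iff_map_eq_zero (U t)).2 (hinj t ht)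
    exact ContinuousLinearMap.isUnit_iff_bijective.2
      ⟨hi, (LinearMap.injective_iff_surjective (f := (U t).toLinearMap)).1 hi⟩
  set B := fun t => P t * Ring.inverse (U t)
  have hBU : ∀ t ∈ Icc a b, B t * U t = P t := fun t ht => by
    simp only [B, mul_assoc, Ring.inverse_mul_cancel _ (hunit t ht), mul_one]
  have hBP : ∀ t ∈ Icc a b, ∀ x, B t (U t x) = P t x := fun t ht x => by
    rw [← mul_apply_eq_comp, hBU t ht]
  have hsurj : ∀ t ∈ Icc a b, Function.Surjective (U t) := fun t ht =>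
    (ContinuousLinearMap.isUnit_iff_bijective.1 (hunit t ht)).2
  refine ⟨B, U, ?_, hU0, fun t ht => ⟨?_, ?_, hunit t ht, ?_, ?_⟩⟩
  · simp [B, hU0, hP0]
  · have hi : HasDerivWithinAt (fun s => Ring.inverse (U s))
        (-Ring.inverse (U t) * (J t * P t) * Ring.inverse (U t)) (Icc a b) t := by
      have h1 := (hasFDerivAt_ringInverse (hunit t ht).unit).comp_hasDerivWithinAt_of_eq t
        (hU t ht) rfl
      refine h1.congr_deriv ?_
      have e : ((hunit t ht).unit⁻¹ : (V →L[ℝ] V)ˣ) = Ring.inverse (U t) := by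
        conv_rhs => rw [← (hunit t ht).unit_spec, Ring.inverse_unit]
      simp [e]
    refine ((hP t ht).mul hi).congr_deriv ?_
    simp only [B, J, sub_mul, mul_assoc, Ring.mul_inverse_cancel _ (hunit t ht), mul_one, mul_neg,
      neg_mul]
    abel
  · exact (hU t ht).congr_deriv (by rw [mul_assoc, hBU t ht])
  · intro x y
    obtain ⟨x, rfl⟩ := hsurj t ht x
    obtain ⟨y, rfl⟩ := hsurj t ht y
    rw [hBP t ht, hBP t ht]
    have hd : ∀ s ∈ Icc a b, HasDerivWithinAt (fun s => ⟪P s x, U s y⟫ - ⟪U s x, P s y⟫)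
        (-(1 : ℝ) * (⟪P s x, U s y⟫ - ⟪U s x, P s y⟫)) (Icc a b) s := fun s hs => by
      refine (((hPx x s hs).inner ℝ (hUx y s hs)).sub
        ((hUx x s hs).inner ℝ (hPx y s hs))).congr_deriv ?_
      simp only [inner_sub_left, inner_sub_right, hKs s (U s x) (U s y),
        hJs s (P s x) (P s y)]
      ring
    have h1 := monotoneOn_exp_mul (k := fun _ => (1 : ℝ)) continuous_const hd
      (fun s _ => le_of_eq (by ring)) ⟨le_rfl, hab⟩ ht ht.1
    have h2 := monotoneOn_exp_mul (k := fun _ => (1 : ℝ)) continuous_const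
      (fun s hs => (hd s hs).neg) (fun s _ => le_of_eq (by simp only [Pi.neg_apply]; ring))
      ⟨le_rfl, hab⟩ ht ht.1
    simp only [intervalIntegral.integral_same, Real.exp_zero, one_mul, hU0, hP0,
      one_apply_eq_self, hB₀s x y, sub_self, neg_zero, Pi.neg_apply, mul_neg, le_neg] at h1 h2
    have h3 := mul_eq_zero.1 (le_antisymm h2 h1)
    exact sub_eq_zero.1 (h3.resolve_left (Real.exp_pos _).ne')
  · intro x
    obtain ⟨x, rfl⟩ := hsurj t ht x
    rw [hBP t ht]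
    exact hflux0 x t ht

/-- The barrier for the trace map. -/
theorem mass_barrier (hab : a ≤ b) {K K' G G' B : ℝ → V →L[ℝ] V} {m ε : ℝ} (hm : 0 < m)
    (hε : 0 ≤ ε) (hε1 : ε ≤ 1)
    (hGs : ∀ t ∈ Icc a b, ∀ x y : V, ⟪G t x, y⟫ = ⟪x, G t y⟫)
    (hKs : ∀ t ∈ Icc a b, ∀ x y : V, ⟪K t x, y⟫ = ⟪x, K t y⟫)
    (hGm : ∀ t ∈ Icc a b, ∀ x : V, m * ‖x‖ ^ 2 ≤ ⟪x, G t x⟫)
    (hK : ∀ t ∈ Icc a b, HasDerivWithinAt K (K' t) (Icc a b) t)
    (hG : ∀ t ∈ Icc a b, HasDerivWithinAt G (G' t) (Icc a b) t)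
    (hK' : ∀ t ∈ Icc a b, ∀ x : V, |⟪x, K' t x⟫| ≤ ε * ⟪x, K t x⟫)
    (hG' : ∀ t ∈ Icc a b, ∀ x : V, |⟪x, G' t x⟫| ≤ ε * ⟪x, G t x⟫)
    (hB : ∀ t ∈ Icc a b,
      HasDerivWithinAt B (K t - B t - B t * Ring.inverse (G t) * B t) (Icc a b) t)
    (hBs : ∀ t ∈ Icc a b, ∀ x y : V, ⟪B t x, y⟫ = ⟪x, B t y⟫)
    (hB0 : ∀ t ∈ Icc a b, ∀ x : V, 0 ≤ ⟪x, B t x⟫)
    (ha : K a = B a + B a * Ring.inverse (G a) * B a) :
    ∀ t ∈ Icc a b, ∀ x : V, |⟪x, (K t - B t - B t * Ring.inverse (G t) * B t) x⟫| ≤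
      ε * (⟪x, B t x⟫ + ⟪x, G t x⟫) := by
  have hGu : ∀ t ∈ Icc a b, IsUnit (G t) := fun t ht => isUnit_of_coercive hm (hGm t ht)
  set J := fun t => Ring.inverse (G t)
  have hJ : ∀ t ∈ Icc a b, HasDerivWithinAt J (-(J t) * G' t * J t) (Icc a b) t := fun t ht => by
    refine ((hasFDerivAt_ringInverse (hGu t ht).unit).comp_hasDerivWithinAt_of_eq t (hG t ht)
      rfl).congr_deriv ?_
    have e : ((hGu t ht).unit⁻¹ : (V →L[ℝ] V)ˣ) = Ring.inverse (G t) := by
      conv_rhs => rw [← (hGu t ht).unit_spec, Ring.inverse_unit]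
    simp [e, J]
  set F := fun t => K t - B t - B t * J t * B t with hF
  set F' := fun t => K' t - F t -
    ((F t * J t + B t * (-(J t) * G' t * J t)) * B t + B t * J t * F t)
  have hF' : ∀ t ∈ Icc a b, HasDerivWithinAt F (F' t) (Icc a b) t := fun t ht =>
    ((hK t ht).sub (hB t ht)).sub (((hB t ht).mul (hJ t ht)).mul (hB t ht))
  set M := fun t => J t * B t + (1 / 2 : ℝ) • (1 : V →L[ℝ] V)
  have hM : ContinuousOn M (Icc a b) := fun t ht =>
    ((hJ t ht).continuousWithinAt.mul (hB t ht).continuousWithinAt).add continuousWithinAt_const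
  have hJs : ∀ t ∈ Icc a b, ∀ x y : V, ⟪J t x, y⟫ = ⟪x, J t y⟫ := fun t ht =>
    inverse_symm (hGu t ht) (hGs t ht)
  have key : ∀ σ : ℝ, |σ| = 1 → ∀ t ∈ Icc a b, ∀ x : V,
      0 ≤ ⟪x, (ε • (B t + G t) - σ • F t) x⟫ := by
    intro σ hσ
    refine nonneg_preserved_conj hM (Φ' := fun t => ε • (F t + G' t) - σ • F' t)
      (fun t ht => (((hB t ht).add (hG t ht)).const_smul ε).sub ((hF' t ht).const_smul σ))
      (fun t ht x => ?_) fun x => ?_
    · set y := J t (B t x) with hy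
      have hGy : G t y = B t x := apply_inverse (hGu t ht) _
      have hFs : ∀ u v : V, ⟪F t u, v⟫ = ⟪u, F t v⟫ := fun u v => by
        simp only [hF, sub_apply, mul_apply_eq_comp, inner_sub_left, inner_sub_right,
          hKs t ht, hBs t ht, hJs t ht]
      have e1 : ⟪y, G t x⟫ = ⟪x, B t x⟫ := by rw [← hGs t ht, hGy, real_inner_comm]
      have e2 : ⟪y, B t x⟫ = ⟪y, G t y⟫ := by rw [hGy]
      have e3 : ⟪x, F t x⟫ = ⟪x, K t x⟫ - ⟪x, B t x⟫ - ⟪y, G t y⟫ := by
        simp only [hF, sub_apply, mul_apply_eq_comp, inner_sub_right]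
        rw [← hy, ← hBs t ht x y, real_inner_comm y (B t x), e2]
      have e4 : ⟪x, F' t x⟫ = ⟪x, K' t x⟫ - ⟪x, F t x⟫ - 2 * ⟪y, F t x⟫ + ⟪y, G' t y⟫ := by
        simp only [F', sub_apply, add_apply, mul_apply_eq_comp, neg_apply,
          map_neg, inner_sub_right, inner_add_right, inner_neg_right]
        rw [← hy, ← hBs t ht x (J t (G' t y)), ← hJs t ht (B t x), ← hy,
          ← hBs t ht x (J t (F t x)), ← hJs t ht (B t x), ← hy, ← hFs x y,
          real_inner_comm (F t x) y]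
        ring
      have e5 : ∀ v : V, ⟪v, (ε • (B t + G t) - σ • F t) x⟫ =
          ε * (⟪v, B t x⟫ + ⟪v, G t x⟫) - σ * ⟪v, F t x⟫ := fun v => by
        simp only [sub_apply, smul_apply, add_apply, inner_sub_right, inner_add_right,
          real_inner_smul_right]
      have e6 : ∀ u v : V, ⟪u, (ε • (B t + G t) - σ • F t) v⟫ =
          ⟪v, (ε • (B t + G t) - σ • F t) u⟫ := fun u v => by
        simp only [sub_apply, smul_apply, add_apply, inner_sub_right, inner_add_right,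
          real_inner_smul_right, ← hBs t ht u, ← hGs t ht u, ← hFs u]
        rw [real_inner_comm v (B t u), real_inner_comm v (G t u), real_inner_comm v (F t u)]
      have hMx : M t x = y + (1 / 2 : ℝ) • x := by simp [M, hy]
      rw [e6 x (M t x), hMx, inner_add_left, real_inner_smul_left, e5, e5, e1, e2, sub_apply,
        smul_apply, smul_apply, add_apply, inner_sub_right, real_inner_smul_right,
        real_inner_smul_right, inner_add_right, e4, e3]
      have hyy : 0 ≤ ⟪y, G t y⟫ := (mul_nonneg hm.le (sq_nonneg _)).trans (hGm t ht y)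
      have hxx : 0 ≤ ⟪x, G t x⟫ := (mul_nonneg hm.le (sq_nonneg _)).trans (hGm t ht x)
      have h1 : σ * ⟪x, K' t x⟫ ≤ ε * ⟪x, K t x⟫ := by
        refine (le_abs_self _).trans ?_
        rw [abs_mul, hσ, one_mul]
        exact hK' t ht x
      have h2 : σ * ⟪y, G' t y⟫ ≤ ε * ⟪y, G t y⟫ := by
        refine (le_abs_self _).trans ?_
        rw [abs_mul, hσ, one_mul]
        exact hG' t ht y
      have h3 : 0 ≤ ε * (⟪x, G' t x⟫ + ⟪x, G t x⟫) := mul_nonneg hε (by
        linarith [(abs_le.1 (hG' t ht x)).1, mul_le_mul_of_nonneg_right hε1 hxx])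
      linarith [mul_nonneg hε (hB0 t ht x)]
    · have hF0 : F a = 0 := by simp only [hF, J, ha]; abel
      simp only [hF0, smul_zero, sub_zero, smul_apply, add_apply, real_inner_smul_right,
        inner_add_right]
      exact mul_nonneg hε (add_nonneg (hB0 a ⟨le_rfl, hab⟩ x)
        ((mul_nonneg hm.le (sq_nonneg _)).trans (hGm a ⟨le_rfl, hab⟩ x)))
  intro t ht x
  have h1 := key 1 abs_one t ht x
  have h2 := key (-1) (by norm_num) t ht x
  simp only [one_smul, neg_smul, sub_neg_eq_add, sub_apply, add_apply, smul_apply,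
    inner_add_right, inner_sub_right, real_inner_smul_right] at h1 h2
  simp only [sub_apply, inner_sub_right]
  simp only [hF, sub_apply, inner_sub_right] at h1 h2
  rw [abs_le]
  constructor <;> linarith

end

end Vale.Agent.P225.Disproof
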