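import Vale.Agent.P225.Disproof.SlowPlane
import Vale.Agent.P225.Disproof.MassRiccati

/-!
# P225: the slow plane of the pencil `(K, G)`

A gap of the pencil passes to the pencil `(B, G)` of the trace map; the cone
`⟪u, B u⟫ ≤ μ ⟪u, G u⟫` is invariant backwards in time along `G u' = B u`.
-/

namespace Vale.Agent.P225.Disproof

open Set Filter Topology
open scoped RealInnerProductSpace

noncomputable section

variable {V : Type*} [NormedAddCommGroup V] [InnerProductSpace ℝ V] [FiniteDimensional ℝ V]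
  {a b : ℝ}

/-- A symmetric coercive operator has a symmetric inverse square root. -/
theorem exists_invSqrt {G : V →L[ℝ] V} {m : ℝ} (hm : 0 < m)
    (hGm : ∀ x : V, m * ‖x‖ ^ 2 ≤ ⟪x, G x⟫) (hGs : ∀ x y : V, ⟪G x, y⟫ = ⟪x, G y⟫) :
    ∃ S : V →L[ℝ] V, (∀ x y : V, ⟪S x, y⟫ = ⟪x, S y⟫) ∧ Function.Bijective S ∧
      (∀ x, S (G (S x)) = x) ∧ S * S = Ring.inverse G := by
  classical
  have hsym : (G : V →ₗ[ℝ] V).IsSymmetric := hGs
  set e := hsym.eigenvectorBasis rfl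
  set d := hsym.eigenvalues rfl
  have hGe : ∀ i, G (e i) = d i • e i := fun i => by
    have h := hsym.apply_eigenvectorBasis rfl i
    exact h
  have hd : ∀ i, 0 < d i := fun i => by
    have h := hGm (e i)
    rw [hGe, real_inner_smul_right, real_inner_self_eq_norm_sq, e.orthonormal.1 i, one_pow,
      mul_one, mul_one] at h
    linarith
  set S : V →L[ℝ] V := ∑ i, (Real.sqrt (d i))⁻¹ • (innerSL ℝ (e i)).smulRight (e i)
  have hSa : ∀ x, S x = ∑ i, ((Real.sqrt (d i))⁻¹ * ⟪e i, x⟫) • e i := fun x => by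
    simp [S, sum_apply, smul_smul]
  have hSc : ∀ x j, ⟪e j, S x⟫ = (Real.sqrt (d j))⁻¹ * ⟪e j, x⟫ := fun x j => by
    rw [hSa, inner_sum, Finset.sum_eq_single j]
    · rw [real_inner_smul_right, real_inner_self_eq_norm_sq, e.orthonormal.1 j]; ring
    · intro i _ hij
      rw [real_inner_smul_right, e.orthonormal.2 (Ne.symm hij), mul_zero]
    · simp
  have hGc : ∀ x j, ⟪e j, G x⟫ = d j * ⟪e j, x⟫ := fun x j => by
    rw [← hGs, hGe, real_inner_smul_left]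
  have hSs : ∀ x y : V, ⟪S x, y⟫ = ⟪x, S y⟫ := fun x y => by
    rw [← e.sum_inner_mul_inner (S x) y, ← e.sum_inner_mul_inner x (S y)]
    refine Finset.sum_congr rfl fun i _ => ?_
    rw [real_inner_comm (e i) (S x), hSc, hSc, real_inner_comm (e i) x]
    ring
  have hSGS : ∀ x, S (G (S x)) = x := fun x => by
    refine e.repr.injective (PiLp.ext fun j => ?_)
    simp only [e.repr_apply_apply, hSc, hGc]
    have h := (Real.sqrt_pos.2 (hd j)).ne'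
    field_simp
    rw [Real.sq_sqrt (hd j).le]
  have hinj : Function.Injective S := fun x y h => by rw [← hSGS x, h, hSGS]
  have hsurj : Function.Surjective S := (LinearMap.injective_iff_surjective (f := S.toLinearMap)).1 hinj
  refine ⟨S, hSs, ⟨hinj, hsurj⟩, hSGS, ?_⟩
  have h1 : S * S * G = 1 := ContinuousLinearMap.ext fun y => by
    obtain ⟨x, rfl⟩ := hsurj y
    simp [hSGS]
  calc S * S = S * S * (G * Ring.inverse G) := by
        rw [Ring.mul_inverse_cancel _ (isUnit_of_coercive hm hGm), mul_one]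
    _ = Ring.inverse G := by rw [← mul_assoc, h1, one_mul]

/-- The trace map inherits a gap of the pencil. -/
theorem mass_gap {K G B : V →L[ℝ] V} {m : ℝ} (hm : 0 < m)
    (hGm : ∀ x : V, m * ‖x‖ ^ 2 ≤ ⟪x, G x⟫) (hGs : ∀ x y : V, ⟪G x, y⟫ = ⟪x, G y⟫)
    (hBs : ∀ x y : V, ⟪B x, y⟫ = ⟪x, B y⟫) (hB0 : ∀ x : V, 0 ≤ ⟪x, B x⟫) {ε : ℝ} (hε : 0 ≤ ε)
    (hε1 : ε ≤ 1)
    (hF : ∀ x : V, |⟪x, (K - B - B * Ring.inverse G * B) x⟫| ≤ ε * (⟪x, B x⟫ + ⟪x, G x⟫))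
    {M : ℕ} {μ g α β : ℝ} (hg : 0 < g) (hgμ : g ≤ μ) {Wlo Whi : Submodule ℝ V}
    (hlo : M ≤ Module.finrank ℝ Wlo) (hlo' : ∀ x ∈ Wlo, ⟪x, K x⟫ ≤ α * ⟪x, G x⟫)
    (hhi : Module.finrank ℝ V ≤ M + Module.finrank ℝ Whi)
    (hhi' : ∀ x ∈ Whi, β * ⟪x, G x⟫ ≤ ⟪x, K x⟫)
    (hα : α < (μ - g) ^ 2 + (1 - ε) * (μ - g) - ε)
    (hβ : (μ + g) ^ 2 + (1 + ε) * (μ + g) + ε < β) :
    ∃ S : Submodule ℝ V, Module.finrank ℝ S = M ∧ (∀ x ∈ S, ⟪x, B x⟫ ≤ μ * ⟪x, G x⟫) ∧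
      ∀ x : V, g ^ 2 * ⟪x, G x⟫ ≤
        ⟪Ring.inverse G (B x) - μ • x, G (Ring.inverse G (B x) - μ • x)⟫ := by
  obtain ⟨T, hTs, hTb, hTGT, hTT⟩ := exists_invSqrt hm hGm hGs
  have hN : ∀ z, ⟪T z, G (T z)⟫ = ‖z‖ ^ 2 := fun z => by
    rw [hTs, hTGT, real_inner_self_eq_norm_sq]
  have hconj : ∀ (X : V →L[ℝ] V) (z : V), ⟪z, (T * X * T) z⟫ = ⟪T z, X (T z)⟫ := fun X z => by
    simp only [mul_apply_eq_comp, hTs]
  have hDs : ∀ x y : V, ⟪(T * B * T) x, y⟫ = ⟪x, (T * B * T) y⟫ := fun x y => by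
    simp only [mul_apply_eq_comp, hTs, hBs]
  have hD0 : ∀ x : V, 0 ≤ ⟪x, (T * B * T) x⟫ := fun x => by rw [hconj]; exact hB0 _
  set e := LinearEquiv.ofBijective (T : V →ₗ[ℝ] V) hTb
  have hdim : ∀ W : Submodule ℝ V,
      Module.finrank ℝ (W.comap (T : V →ₗ[ℝ] V)) = Module.finrank ℝ W := fun W =>
    LinearEquiv.finrank_eq (e.ofSubmodule' W)
  obtain ⟨S, hS1, hS2, hS3⟩ := dtn_gap (A := T * K * T) (c := 1) hDs hD0 hε1 hε
    (fun z => by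
      have e1 : T * K * T - T * B * T * (T * B * T) - (1 : ℝ) • (T * B * T) =
          T * (K - B - B * Ring.inverse G * B) * T := by
        rw [one_smul, ← hTT]
        noncomm_ring
      rw [e1, hconj, hconj, ← hN z]
      exact hF (T z))
    hg hgμ (Wlo := Wlo.comap (T : V →ₗ[ℝ] V)) (Whi := Whi.comap (T : V →ₗ[ℝ] V))
    (hlo.trans (hdim Wlo).ge) (fun z hz => by rw [hconj, ← hN z]; exact hlo' _ hz)
    (by rw [hdim Whi]; exact hhi) (fun z hz => by rw [hconj, ← hN z]; exact hhi' _ hz) hα hβ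
  refine ⟨S.map (T : V →ₗ[ℝ] V), ?_, ?_, fun x => ?_⟩
  · exact (LinearEquiv.finrank_eq (Submodule.equivMapOfInjective _ hTb.1 S)).symm.trans hS1
  · rintro _ ⟨z, hz, rfl⟩
    have h := hS2 z hz
    rw [hconj] at h
    show ⟪T z, B (T z)⟫ ≤ μ * ⟪T z, G (T z)⟫
    rw [hN]
    exact h
  · obtain ⟨z, rfl⟩ := hTb.2 x
    have e2 : Ring.inverse G (B (T z)) - μ • T z = T ((T * B * T) z - μ • z) := by
      rw [← hTT]
      simp [map_sub, map_smul]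
    rw [hN, e2, hN]
    exact hS3 z

/-- The slow plane of the pencil. -/
theorem mass_slow_plane (hab : a ≤ b) {K K' G G' : ℝ → V →L[ℝ] V} {m ε : ℝ} (hm : 0 < m)
    (hK : Continuous K) (hG : Continuous G) (hKs : ∀ t, ∀ x y : V, ⟪K t x, y⟫ = ⟪x, K t y⟫)
    (hGs : ∀ t, ∀ x y : V, ⟪G t x, y⟫ = ⟪x, G t y⟫)
    (hGm : ∀ t, ∀ x : V, m * ‖x‖ ^ 2 ≤ ⟪x, G t x⟫) (hK0 : ∀ t, ∀ x : V, 0 ≤ ⟪x, K t x⟫)
    (hε : 0 ≤ ε) (hε1 : ε ≤ 1)
    (hdK : ∀ t ∈ Icc a b, HasDerivWithinAt K (K' t) (Icc a b) t)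
    (hdG : ∀ t ∈ Icc a b, HasDerivWithinAt G (G' t) (Icc a b) t)
    (hK' : ∀ t ∈ Icc a b, ∀ x : V, |⟪x, K' t x⟫| ≤ ε * ⟪x, K t x⟫)
    (hG' : ∀ t ∈ Icc a b, ∀ x : V, |⟪x, G' t x⟫| ≤ ε * ⟪x, G t x⟫)
    (B₀ : V →L[ℝ] V) (hB₀s : ∀ x y : V, ⟪B₀ x, y⟫ = ⟪x, B₀ y⟫) (hB₀ : ∀ x : V, 0 ≤ ⟪x, B₀ x⟫)
    (ha : K a = B₀ + B₀ * Ring.inverse (G a) * B₀) {M : ℕ} {μ g : ℝ} (hg : 0 < g) (hgμ : g ≤ μ)
    (hgε : ε * (2 * μ + 1) ≤ 2 * g ^ 2)
    (hgap : ∀ t ∈ Icc a b, ∃ (Wlo Whi : Submodule ℝ V) (α β : ℝ),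
      M ≤ Module.finrank ℝ Wlo ∧ (∀ x ∈ Wlo, ⟪x, K t x⟫ ≤ α * ⟪x, G t x⟫) ∧
      Module.finrank ℝ V ≤ M + Module.finrank ℝ Whi ∧
      (∀ x ∈ Whi, β * ⟪x, G t x⟫ ≤ ⟪x, K t x⟫) ∧
      α < (μ - g) ^ 2 + (1 - ε) * (μ - g) - ε ∧
      (μ + g) ^ 2 + (1 + ε) * (μ + g) + ε < β) :
    ∃ (B : ℝ → V →L[ℝ] V) (S : Submodule ℝ V), B a = B₀ ∧
      (∀ t ∈ Icc a b,
        HasDerivWithinAt B (K t - B t - B t * Ring.inverse (G t) * B t) (Icc a b) t ∧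
        (∀ x y : V, ⟪B t x, y⟫ = ⟪x, B t y⟫) ∧ (∀ x : V, 0 ≤ ⟪x, B t x⟫) ∧
        ∀ x : V, |⟪x, (K t - B t - B t * Ring.inverse (G t) * B t) x⟫| ≤
          ε * (⟪x, B t x⟫ + ⟪x, G t x⟫)) ∧
      Module.finrank ℝ S = M ∧ ∀ x ∈ S, ∃ u : ℝ → V, u a = x ∧ ∀ t ∈ Icc a b,
        HasDerivWithinAt u (Ring.inverse (G t) (B t (u t))) (Icc a b) t ∧
        HasDerivWithinAt (fun s => B s (u s)) (K t (u t) - B t (u t)) (Icc a b) t ∧
        ⟪u t, B t (u t)⟫ ≤ μ * ⟪u t, G t (u t)⟫ ∧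
        ⟪u t, G t (u t)⟫ ≤ Real.exp ((2 * μ + ε) * (t - a)) * ⟪x, G a x⟫ := by
  obtain ⟨B, U, hBa, hUa, hBU⟩ := exists_mass_dtn hab hm hK hG hKs hGs hGm hK0 B₀ hB₀s hB₀
  have hF := mass_barrier hab hm hε hε1 (fun t _ => hGs t) (fun t _ => hKs t) (fun t _ => hGm t)
    hdK hdG hK' hG' (fun t ht => (hBU t ht).1) (fun t ht => (hBU t ht).2.2.2.1)
    (fun t ht => (hBU t ht).2.2.2.2) (by rw [hBa]; exact ha)
  have hgap' : ∀ t ∈ Icc a b, ∃ S : Submodule ℝ V, Module.finrank ℝ S = M ∧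
      (∀ x ∈ S, ⟪x, B t x⟫ ≤ μ * ⟪x, G t x⟫) ∧ ∀ x : V, g ^ 2 * ⟪x, G t x⟫ ≤
        ⟪Ring.inverse (G t) (B t x) - μ • x, G t (Ring.inverse (G t) (B t x) - μ • x)⟫ :=
    fun t ht => by
      obtain ⟨Wlo, Whi, α, β, h1, h2, h3, h4, h5, h6⟩ := hgap t ht
      exact mass_gap hm (hGm t) (hGs t) (hBU t ht).2.2.2.1 (hBU t ht).2.2.2.2 hε hε1 (hF t ht)
        hg hgμ h1 h2 h3 h4 h5 h6
  obtain ⟨Sb, hSdim, hSb, -⟩ := hgap' b ⟨hab, le_rfl⟩
  have hub : Function.Bijective (U b) :=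
    ContinuousLinearMap.isUnit_iff_bijective.1 (hBU b ⟨hab, le_rfl⟩).2.2.1
  refine ⟨B, Sb.comap (U b : V →ₗ[ℝ] V), hBa,
    fun t ht => ⟨(hBU t ht).1, (hBU t ht).2.2.2.1, (hBU t ht).2.2.2.2, hF t ht⟩, ?_, ?_⟩
  · rw [← hSdim]
    exact LinearEquiv.finrank_eq
      ((LinearEquiv.ofBijective (U b : V →ₗ[ℝ] V) hub).ofSubmodule' Sb)
  intro x hx
  set u := fun t => U t x with hu_def
  have hu : ∀ t ∈ Icc a b,
      HasDerivWithinAt u (Ring.inverse (G t) (B t (u t))) (Icc a b) t := fun t ht => by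
    simpa [u] using (hBU t ht).2.1.clm_apply (hasDerivWithinAt_const t _ x)
  have hGu : ∀ t (y : V), G t (Ring.inverse (G t) y) = y := fun t =>
    apply_inverse (isUnit_of_coercive hm (hGm t))
  have hv : ∀ t ∈ Icc a b,
      HasDerivWithinAt (fun s => B s (u s)) (K t (u t) - B t (u t)) (Icc a b) t :=
    fun t ht => ((hBU t ht).1.clm_apply (hu t ht)).congr_deriv (by simp)
  have hn : ∀ t ∈ Icc a b, HasDerivWithinAt (fun s => ⟪u s, G s (u s)⟫)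
      (⟪u t, G' t (u t)⟫ + 2 * ⟪u t, B t (u t)⟫) (Icc a b) t := fun t ht => by
    refine ((hu t ht).inner ℝ ((hdG t ht).clm_apply (hu t ht))).congr_deriv ?_
    rw [inner_add_right, hGu, ← hGs t, hGu, real_inner_comm (u t) (B t (u t))]
    ring
  have hbd : ∀ t ∈ Icc a b, |⟪u t, G' t (u t)⟫| ≤ ε * ⟪u t, G t (u t)⟫ := fun t ht => hG' t ht _
  have hcone : ∀ t ∈ Icc a b, ⟪u t, B t (u t)⟫ ≤ μ * ⟪u t, G t (u t)⟫ := by
    intro t ht
    set q := fun s => ⟪u s, B s (u s)⟫ - μ * ⟪u s, G s (u s)⟫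
    have hq : ∀ s ∈ Icc a b, HasDerivWithinAt q
        (⟪Ring.inverse (G s) (B s (u s)), B s (u s)⟫ + ⟪u s, K s (u s) - B s (u s)⟫ -
          μ * (⟪u s, G' s (u s)⟫ + 2 * ⟪u s, B s (u s)⟫)) (Icc a b) s := fun s hs => by
      refine (((hu s hs).inner ℝ (hv s hs)).sub ((hn s hs).const_mul μ)).congr_deriv ?_
      ring
    have hmono := monotoneOn_exp_mul (k := fun _ => -(2 * μ - ε)) continuous_const hq fun s hs => by
      obtain ⟨-, -, hgs⟩ := (hgap' s hs).choose_spec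
      have h1 := hgs (u s)
      set y := Ring.inverse (G s) (B s (u s)) with hy
      have hGy : G s y = B s (u s) := hGu s _
      have e1 : ⟪y - μ • u s, G s (y - μ • u s)⟫ = ⟪y, B s (u s)⟫ - 2 * μ * ⟪u s, B s (u s)⟫ +
          μ * μ * ⟪u s, G s (u s)⟫ := by
        simp only [map_sub, map_smul, inner_sub_left, inner_sub_right, real_inner_smul_left,
          real_inner_smul_right]
        rw [← hGs s y (u s), hGy, real_inner_comm (u s) (B s (u s))]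
        ring
      rw [e1] at h1
      have e2 : ⟪u s, (B s * Ring.inverse (G s) * B s) (u s)⟫ = ⟪y, B s (u s)⟫ := by
        rw [mul_apply_eq_comp, mul_apply_eq_comp, ← hy, ← (hBU s hs).2.2.2.1, real_inner_comm]
      have h2 := (abs_le.1 (hF s hs (u s))).1
      rw [sub_apply, sub_apply, inner_sub_right, inner_sub_right, e2] at h2
      have h3 : μ * ⟪u s, G' s (u s)⟫ ≤ μ * (ε * ⟪u s, G s (u s)⟫) :=
        mul_le_mul_of_nonneg_left ((le_abs_self _).trans (hbd s hs)) (by linarith)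
      have h4 : ε * (2 * μ + 1) * ⟪u s, G s (u s)⟫ ≤ 2 * g ^ 2 * ⟪u s, G s (u s)⟫ :=
        mul_le_mul_of_nonneg_right hgε ((mul_nonneg hm.le (sq_nonneg _)).trans (hGm s _))
      simp only [q, inner_sub_right]
      linarith
    have h1 := hmono ht ⟨hab, le_rfl⟩ ht.2
    have hqb : q b ≤ 0 := by
      have := hSb (U b x) hx
      simp only [q, u]
      linarith
    have h2 : q t ≤ 0 := nonpos_of_mul_nonpos_right
      (h1.trans (mul_nonpos_of_nonneg_of_nonpos (Real.exp_nonneg _) hqb)) (Real.exp_pos _)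
    simp only [q] at h2
    linarith
  refine ⟨u, by simp [u, hUa], fun t ht => ⟨hu t ht, hv t ht, hcone t ht, ?_⟩⟩
  have h1 := monotoneOn_exp_mul (f := fun s => -⟪u s, G s (u s)⟫)
    (k := fun _ => -(2 * μ + ε)) continuous_const (fun s hs => (hn s hs).neg)
    (fun s hs => by linarith [hcone s hs, (abs_le.1 (hbd s hs)).2]) ⟨le_rfl, hab⟩ ht ht.1
  simp only [intervalIntegral.integral_same, Real.exp_zero, one_mul,
    intervalIntegral.integral_const, smul_eq_mul, mul_neg, neg_le_neg_iff] at h1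
  rw [show u a = x by simp [u, hUa], Real.exp_neg, inv_mul_le_iff₀ (Real.exp_pos _)] at h1
  refine h1.trans (le_of_eq ?_)
  congr 2
  ring

end

end Vale.Agent.P225.Disproof
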