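import Vale.Agent.P225.Disproof.Statement
import Mathlib.Tactic

/-!
# P225 L: the Ricci tensor of a polar conformal metric, algebra at a point of the axis

The point is `(0, 0, r)`; `F1, F2, N1, N2` are the first two derivatives of the coefficients of
`F I + (N² - F) x xᵀ / |x|²`. `ricJet` is the coordinate formula of the Ricci tensor in terms of the
jets of the metric and of its inverse, `target` the value predicted by the Gauss-Codazzi equations.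
-/

namespace Vale.Agent.P225.Disproof.Met3

noncomputable section

set_option linter.unusedSimpArgs false
set_option linter.unusedSectionVars false

/-- Kronecker delta. -/
def dl (i j : Fin 3) : ℝ := if i = j then 1 else 0

/-- The coordinate bracket of first derivatives. -/
def br (g1 : Fin 3 → Fin 3 → Fin 3 → ℝ) (i j l : Fin 3) : ℝ := g1 i j l + g1 j i l - g1 l i j

/-- The derivative of the bracket. -/
def br2 (g2 : Fin 3 → Fin 3 → Fin 3 → Fin 3 → ℝ) (m i j l : Fin 3) : ℝ :=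
  g2 m i j l + g2 m j i l - g2 m l i j

/-- Christoffel symbol from the jets. -/
def chJet (h : Fin 3 → Fin 3 → ℝ) (g1 : Fin 3 → Fin 3 → Fin 3 → ℝ) (k i j : Fin 3) : ℝ :=
  (1 / 2) * ∑ l, h k l * br g1 i j l

/-- Derivative of a Christoffel symbol from the jets. -/
def chJet1 (h : Fin 3 → Fin 3 → ℝ) (h1 g1 : Fin 3 → Fin 3 → Fin 3 → ℝ)
    (g2 : Fin 3 → Fin 3 → Fin 3 → Fin 3 → ℝ) (m k i j : Fin 3) : ℝ :=
  (1 / 2) * ∑ l, (h1 m k l * br g1 i j l + h k l * br2 g2 m i j l)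

/-- Ricci tensor from the jets. -/
def ricJet (h : Fin 3 → Fin 3 → ℝ) (h1 g1 : Fin 3 → Fin 3 → Fin 3 → ℝ)
    (g2 : Fin 3 → Fin 3 → Fin 3 → Fin 3 → ℝ) (i j : Fin 3) : ℝ :=
  (∑ k, chJet1 h h1 g1 g2 k k i j) - (∑ k, chJet1 h h1 g1 g2 j k i k) +
    ∑ k, ∑ l, (chJet h g1 k k l * chJet h g1 l i j - chJet h g1 k j l * chJet h g1 l i k)

variable (r F N : ℝ) (F1 N1 : Fin 3 → ℝ) (F2 N2 : Fin 3 → Fin 3 → ℝ)

/-- `x xᵀ / |x|²` on the axis. -/
def cz (i j : Fin 3) : ℝ := dl i 2 * dl j 2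

/-- Its first derivative. -/
def c1z (m i j : Fin 3) : ℝ :=
  (dl i m * dl j 2 + dl j m * dl i 2) / r - 2 * dl i 2 * dl j 2 * dl m 2 / r

/-- Its second derivative. -/
def c2z (l m i j : Fin 3) : ℝ :=
  (dl i m * dl j l + dl j m * dl i l) / r ^ 2
    - 2 * ((dl i m * dl j 2 + dl j m * dl i 2) * dl l 2 + dl i l * dl j 2 * dl m 2
        + dl j l * dl i 2 * dl m 2 + dl m l * dl i 2 * dl j 2) / r ^ 2
    + 8 * dl i 2 * dl j 2 * dl m 2 * dl l 2 / r ^ 2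

/-- The inverse metric. -/
def hz (i j : Fin 3) : ℝ := F⁻¹ * dl i j + ((N ^ 2)⁻¹ - F⁻¹) * cz i j

/-- Derivative of the inverse metric. -/
def h1z (m i j : Fin 3) : ℝ :=
  -F1 m / F ^ 2 * dl i j + (-2 * N1 m / N ^ 3 + F1 m / F ^ 2) * cz i j
    + ((N ^ 2)⁻¹ - F⁻¹) * c1z r m i j

/-- First derivatives of the metric. -/
def g1z (m i j : Fin 3) : ℝ :=
  F1 m * dl i j + (2 * N * N1 m - F1 m) * cz i j + (N ^ 2 - F) * c1z r m i j

/-- Second derivatives of the metric. -/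
def g2z (l m i j : Fin 3) : ℝ :=
  F2 l m * dl i j + (2 * N1 l * N1 m + 2 * N * N2 l m - F2 l m) * cz i j
    + (2 * N * N1 m - F1 m) * c1z r l i j + (2 * N * N1 l - F1 l) * c1z r m i j
    + (N ^ 2 - F) * c2z r l m i j

/-- `u = (1 + E F / (2 F)) / N`. -/
def uz : ℝ := (1 + r * F1 2 / (2 * F)) / N

/-- The derivative of `u`. -/
def u1z (a : Fin 3) : ℝ :=
  ((F1 a + r * F2 a 2) / (2 * F) - r * F1 2 * F1 a / (2 * F ^ 2)) / N
    - (1 + r * F1 2 / (2 * F)) * N1 a / N ^ 2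

/-- Radial entry. -/
def radz : ℝ :=
  -N * (r ^ 2 * (N2 0 0 + N2 1 1) - 2 * r * N1 2) / F
    - 2 * N * (r * u1z r F N F1 N1 F2 2 - uz r F N F1) - 2 * N ^ 2 * uz r F N F1 ^ 2

/-- Conformal tangential entry. -/
def tanz : ℝ :=
  1 - (1 / 2) * ((r ^ 2 * (F2 0 0 + F2 1 1) - 2 * r * F1 2) / F
      - r ^ 2 * (F1 0 ^ 2 + F1 1 ^ 2) / F ^ 2)
    - F * (r * u1z r F N F1 N1 F2 2 - uz r F N F1) / N - 2 * F * uz r F N F1 ^ 2

/-- The predicted tensor, times `r ^ 2`. -/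
def target : Matrix (Fin 3) (Fin 3) ℝ := fun i j =>
  if i = 2 then
    if j = 2 then radz r F N F1 N1 F2 N2 else -(N * r * u1z r F N F1 N1 F2 j)
  else
    if j = 2 then -(N * r * u1z r F N F1 N1 F2 i)
    else (tanz r F N F1 N1 F2 + r * N1 2 / N
          - r ^ 2 * (F1 0 * N1 0 + F1 1 * N1 1) / (2 * F * N)) * dl i j
        - r ^ 2 * (N2 i j - (F1 i * N1 j + F1 j * N1 i) / (2 * F)) / N

/-- The entries of the predicted tensor are `r ^ 2` times `ricJet`. -/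
def JetEq (i j : Fin 3) : Prop :=
  r ^ 2 * ricJet (hz F N) (h1z r F N F1 N1) (g1z r F N F1 N1) (g2z r F N F1 N1 F2 N2) i j
    = target r F N F1 N1 F2 N2 i j

variable (hr : r ≠ 0) (hF : F ≠ 0) (hN : N ≠ 0) (hF2 : ∀ i j, F2 i j = F2 j i)
  (hN2 : ∀ i j, N2 i j = N2 j i)

include hr hF hN hF2 hN2 in
lemma jetEq00 : JetEq r F N F1 N1 F2 N2 0 0 := by
  unfold JetEq
  simp [ricJet, chJet, chJet1, br, br2, hz, h1z, g1z, g2z, c2z, c1z, cz, dl, target, radz, tanz,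
    u1z, uz, Fin.sum_univ_three, hF2 1 0, hF2 2 0, hF2 2 1, hN2 1 0, hN2 2 0, hN2 2 1]
  field_simp
  ring

include hr hF hN hF2 hN2 in
lemma jetEq01 : JetEq r F N F1 N1 F2 N2 0 1 := by
  unfold JetEq
  simp [ricJet, chJet, chJet1, br, br2, hz, h1z, g1z, g2z, c2z, c1z, cz, dl, target, radz, tanz,
    u1z, uz, Fin.sum_univ_three, hF2 1 0, hF2 2 0, hF2 2 1, hN2 1 0, hN2 2 0, hN2 2 1]
  field_simp
  ring

include hr hF hN hF2 hN2 in
lemma jetEq02 : JetEq r F N F1 N1 F2 N2 0 2 := by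
  unfold JetEq
  simp [ricJet, chJet, chJet1, br, br2, hz, h1z, g1z, g2z, c2z, c1z, cz, dl, target, radz, tanz,
    u1z, uz, Fin.sum_univ_three, hF2 1 0, hF2 2 0, hF2 2 1, hN2 1 0, hN2 2 0, hN2 2 1]
  field_simp
  ring

include hr hF hN hF2 hN2 in
lemma jetEq10 : JetEq r F N F1 N1 F2 N2 1 0 := by
  unfold JetEq
  simp [ricJet, chJet, chJet1, br, br2, hz, h1z, g1z, g2z, c2z, c1z, cz, dl, target, radz, tanz,
    u1z, uz, Fin.sum_univ_three, hF2 1 0, hF2 2 0, hF2 2 1, hN2 1 0, hN2 2 0, hN2 2 1]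
  field_simp
  ring

include hr hF hN hF2 hN2 in
lemma jetEq11 : JetEq r F N F1 N1 F2 N2 1 1 := by
  unfold JetEq
  simp [ricJet, chJet, chJet1, br, br2, hz, h1z, g1z, g2z, c2z, c1z, cz, dl, target, radz, tanz,
    u1z, uz, Fin.sum_univ_three, hF2 1 0, hF2 2 0, hF2 2 1, hN2 1 0, hN2 2 0, hN2 2 1]
  field_simp
  ring

include hr hF hN hF2 hN2 in
lemma jetEq12 : JetEq r F N F1 N1 F2 N2 1 2 := by
  unfold JetEq
  simp [ricJet, chJet, chJet1, br, br2, hz, h1z, g1z, g2z, c2z, c1z, cz, dl, target, radz, tanz,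
    u1z, uz, Fin.sum_univ_three, hF2 1 0, hF2 2 0, hF2 2 1, hN2 1 0, hN2 2 0, hN2 2 1]
  field_simp
  ring

include hr hF hN hF2 hN2 in
lemma jetEq20 : JetEq r F N F1 N1 F2 N2 2 0 := by
  unfold JetEq
  simp [ricJet, chJet, chJet1, br, br2, hz, h1z, g1z, g2z, c2z, c1z, cz, dl, target, radz, tanz,
    u1z, uz, Fin.sum_univ_three, hF2 1 0, hF2 2 0, hF2 2 1, hN2 1 0, hN2 2 0, hN2 2 1]
  field_simp
  ring

include hr hF hN hF2 hN2 in
lemma jetEq21 : JetEq r F N F1 N1 F2 N2 2 1 := by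
  unfold JetEq
  simp [ricJet, chJet, chJet1, br, br2, hz, h1z, g1z, g2z, c2z, c1z, cz, dl, target, radz, tanz,
    u1z, uz, Fin.sum_univ_three, hF2 1 0, hF2 2 0, hF2 2 1, hN2 1 0, hN2 2 0, hN2 2 1]
  field_simp
  ring

include hr hF hN hF2 hN2 in
lemma jetEq22 : JetEq r F N F1 N1 F2 N2 2 2 := by
  unfold JetEq
  simp [ricJet, chJet, chJet1, br, br2, hz, h1z, g1z, g2z, c2z, c1z, cz, dl, target, radz, tanz,
    u1z, uz, Fin.sum_univ_three, hF2 1 0, hF2 2 0, hF2 2 1, hN2 1 0, hN2 2 0, hN2 2 1]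
  field_simp
  ring

include hr hF hN hF2 hN2 in
theorem ricJet_eq : ∀ i j, JetEq r F N F1 N1 F2 N2 i j := by
  intro i j
  fin_cases i <;> fin_cases j
  exacts [jetEq00 _ _ _ _ _ _ _ hr hF hN hF2 hN2, jetEq01 _ _ _ _ _ _ _ hr hF hN hF2 hN2,
    jetEq02 _ _ _ _ _ _ _ hr hF hN hF2 hN2, jetEq10 _ _ _ _ _ _ _ hr hF hN hF2 hN2,
    jetEq11 _ _ _ _ _ _ _ hr hF hN hF2 hN2, jetEq12 _ _ _ _ _ _ _ hr hF hN hF2 hN2,
    jetEq20 _ _ _ _ _ _ _ hr hF hN hF2 hN2, jetEq21 _ _ _ _ _ _ _ hr hF hN hF2 hN2,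
    jetEq22 _ _ _ _ _ _ _ hr hF hN hF2 hN2]

end

end Vale.Agent.P225.Disproof.Met3
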