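import Vale.Agent.P225.Calc
import Mathlib

/-!
# P225: the three rotation fields

`rot i` differentiates along `e_i × x`. It commutes with the Laplacian, preserves the degree, is
skew for the surface measure, and on harmonic polynomials of degree `l` the sum of its squares is
`-l (l + 1)`. These are all the facts about the sphere that the Galerkin scheme uses.
-/

namespace Vale.Agent.P225.Disproof

open MvPolynomial MeasureTheory Set

noncomputable section

/-- The totally antisymmetric symbol. -/
def eps (i j k : Fin 3) : ℝ :=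
  if j = i + 1 ∧ k = i + 2 then 1 else if j = i + 2 ∧ k = i + 1 then -1 else 0

/-- The rotation fields on polynomials. -/
def rotP (i : Fin 3) : Derivation ℝ (MvPolynomial (Fin 3) ℝ) (MvPolynomial (Fin 3) ℝ) :=
  (X (i + 1) : MvPolynomial (Fin 3) ℝ) •
      (pderiv (i + 2) : Derivation ℝ (MvPolynomial (Fin 3) ℝ) (MvPolynomial (Fin 3) ℝ)) -
    (X (i + 2) : MvPolynomial (Fin 3) ℝ) •
      (pderiv (i + 1) : Derivation ℝ (MvPolynomial (Fin 3) ℝ) (MvPolynomial (Fin 3) ℝ))

/-- The rotation fields on functions. -/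
def rot (i : Fin 3) (f : Space 3 → ℝ) (x : Space 3) : ℝ :=
  x (i + 1) * pd (i + 2) f x - x (i + 2) * pd (i + 1) f x

theorem rotP_apply (i : Fin 3) (p : MvPolynomial (Fin 3) ℝ) :
    rotP i p = X (i + 1) * pderiv (i + 2) p - X (i + 2) * pderiv (i + 1) p := rfl

theorem rot_evalFun (i : Fin 3) (p : MvPolynomial (Fin 3) ℝ) :
    rot i (evalFun p) = evalFun (rotP i p) := by
  funext x
  simp [rot, pd_evalFun, rotP_apply, evalFun]

theorem pderiv_comm' {σ : Type*} (a b : σ) (p : MvPolynomial σ ℝ) :
    pderiv a (pderiv b p) = pderiv b (pderiv a p) := by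
  classical
  induction p using MvPolynomial.induction_on with
  | C r => simp
  | add p q hp hq => simp [hp, hq]
  | mul_X p j hp =>
    simp only [pderiv_mul, map_add, hp, pderiv_X, Pi.single_apply]
    split_ifs <;> simp <;> ring

theorem rotP_X (i m : Fin 3) : rotP i (X m) =
    (if m = i + 2 then X (i + 1) else 0) - (if m = i + 1 then X (i + 2) else 0) := by
  simp [rotP, pderiv_X, Pi.single_apply, mul_ite]

theorem rotP_hom (i : Fin 3) {j : ℕ} {p : MvPolynomial (Fin 3) ℝ} (h : p.IsHomogeneous j) :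
    (rotP i p).IsHomogeneous j := by
  rcases Nat.eq_zero_or_pos j with hj | hj
  · subst hj
    rw [totalDegree_eq_zero_iff_eq_C.1 ((totalDegree_zero_iff_isHomogeneous _).2 h)]
    simp [rotP_apply, isHomogeneous_zero]
  · have e : 1 + (j - 1) = j := by omega
    rw [rotP_apply]
    exact (e ▸ (isHomogeneous_X ℝ _).mul h.pderiv).sub (e ▸ (isHomogeneous_X ℝ _).mul h.pderiv)

theorem rotP_commutator (i j : Fin 3) (p : MvPolynomial (Fin 3) ℝ) :
    rotP i (rotP j p) - rotP j (rotP i p) = -∑ k, C (eps i j k) * rotP k p := by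
  induction p using MvPolynomial.induction_on with
  | C r => simp [rotP_apply]
  | add p q hp hq =>
    simp only [map_add, mul_add, Finset.sum_add_distrib]
    linear_combination hp + hq
  | mul_X p m hp =>
    have h : rotP i (rotP j (X m)) - rotP j (rotP i (X m)) =
        -∑ k, C (eps i j k) * rotP k (X m) := by
      simp only [rotP_X, Fin.sum_univ_three, eps]
      fin_cases i <;> fin_cases j <;> fin_cases m <;> simp +decide [rotP_X]
    simp only [Derivation.leibniz, smul_eq_mul, map_add, Fin.sum_univ_three] at h hp ⊢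
    linear_combination p * h + X m * hp

theorem lapP_rotP (i : Fin 3) (p : MvPolynomial (Fin 3) ℝ) :
    lapP (rotP i p) = rotP i (lapP p) := by
  fin_cases i <;>
    simp [lapP, rotP_apply, Fin.sum_univ_three, pderiv_X, Pi.single_apply, map_add, map_sub,
      pderiv_comm' (1 : Fin 3) 0, pderiv_comm' (2 : Fin 3) 0, pderiv_comm' (2 : Fin 3) 1] <;>
    ring

theorem casimir {j : ℕ} {p : MvPolynomial (Fin 3) ℝ} (h : p.IsHomogeneous j) (hl : lapP p = 0) :
    ∑ i, rotP i (rotP i p) = -C ((j : ℝ) * (j + 1)) * p := by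
  have h1 := h.sum_X_mul_pderiv
  have h2 : ∀ a, pderiv a (∑ b, X b * pderiv b p) = pderiv a (j • p) := fun a => by rw [h1]
  have e0 := h2 0
  have e1 := h2 1
  have e2 := h2 2
  simp [lapP, Fin.sum_univ_three, pderiv_X, Pi.single_apply, nsmul_eq_mul,
    pderiv_comm' (1 : Fin 3) 0, pderiv_comm' (2 : Fin 3) 0, pderiv_comm' (2 : Fin 3) 1] at h1 hl e0 e1 e2
  simp [Fin.sum_univ_three, rotP_apply, pderiv_X, Pi.single_apply, map_sub,
    pderiv_comm' (1 : Fin 3) 0, pderiv_comm' (2 : Fin 3) 0, pderiv_comm' (2 : Fin 3) 1, map_mul, map_add]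
  linear_combination (X 0 ^ 2 + X 1 ^ 2 + X 2 ^ 2) * hl - X 0 * e0 - X 1 * e1 - X 2 * e2 -
    ((j : MvPolynomial (Fin 3) ℝ) + 1) * h1

theorem continuous_rot {f : Space 3 → ℝ} (hf : ContDiff ℝ 1 f) (i : Fin 3) :
    Continuous (rot i f) :=
  (((EuclideanSpace.proj (i + 1) : Space 3 →L[ℝ] ℝ).continuous).mul (continuous_pd hf _)).sub
    (((EuclideanSpace.proj (i + 2) : Space 3 →L[ℝ] ℝ).continuous).mul (continuous_pd hf _))

theorem rot_eq_fderiv (i : Fin 3) (f : Space 3 → ℝ) (x : Space 3) :
    rot i f x = fderiv ℝ f x (x (i + 1) • EuclideanSpace.single (i + 2) (1 : ℝ) -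
      x (i + 2) • EuclideanSpace.single (i + 1) (1 : ℝ)) := by
  simp [rot, pd]

theorem rot_mul {f g : Space 3 → ℝ} (hf : Differentiable ℝ f) (hg : Differentiable ℝ g) (i : Fin 3)
    (x : Space 3) : rot i (fun y => f y * g y) x = rot i f x * g x + f x * rot i g x := by
  simp only [rot_eq_fderiv, fderiv_fun_mul (hf x) (hg x), add_apply, smul_apply, smul_eq_mul]
  ring

/-- A rotation derivative has mean zero on the sphere. -/
theorem integral_rot {f : Space 3 → ℝ} (hf : ContDiff ℝ 1 f) (i : Fin 3) :
    ∫ θ : Sph 3, rot i f (θ : Space 3) ∂(sig 3) = 0 := by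
  let η : ContDiffBump (0 : ℝ) := ⟨1, 2, one_pos, one_lt_two⟩
  set b : ℝ → ℝ := fun s => η (s - 4)
  have hb : ∀ s, b s ≠ 0 → 2 < s ∧ s < 6 := fun s hs => by
    have h := η.support_eq.subset (Function.mem_support.2 hs)
    rw [Metric.mem_ball, Real.dist_0_eq_abs, abs_lt] at h
    exact ⟨by linarith [h.1], by linarith [h.2]⟩
  set F : Space 3 → ℝ := fun x => b (‖x‖ ^ 2) * f ((‖x‖⁻¹ : ℝ) • x)
  have hF : ContDiff ℝ 1 F := by
    rw [contDiff_iff_contDiffAt]
    intro x
    by_cases hx : x = 0
    · refine (contDiffAt_const (c := (0 : ℝ))).congr_of_eventuallyEq ?_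
      filter_upwards [Metric.ball_mem_nhds x one_pos] with y hy
      have hy' : ‖y‖ < 1 := by simpa [hx, dist_zero_right] using hy
      have : b (‖y‖ ^ 2) = 0 := by
        by_contra h
        have := (hb _ h).1
        nlinarith [norm_nonneg y]
      simp [F, this]
    · exact (((η.contDiff.comp (contDiff_id.sub contDiff_const)).comp
        (contDiff_norm_sq ℝ)).contDiffAt).mul (hf.contDiffAt.comp x
          (((contDiffAt_norm ℝ hx).inv (norm_ne_zero_iff.2 hx)).smul contDiffAt_id))
  have hFc : HasCompactSupport F := by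
    refine HasCompactSupport.intro (isCompact_closedBall (0 : Space 3) 3) fun x hx => ?_
    have : b (‖x‖ ^ 2) = 0 := by
      by_contra h
      have := (hb _ h).2
      rw [Metric.mem_closedBall, dist_zero_right] at hx
      nlinarith [norm_nonneg x]
    simp [F, this]
  have hzero : ∀ a c : Fin 3, a ≠ c → ∫ x, x a * pd c F x = 0 := fun a c hac => by
    have e := integral_mul_fderiv_eq_neg_fderiv_mul_of_integrable (μ := (volume : Measure (Space 3)))
      (f := fun x => x a) (g := F) (v := EuclideanSpace.single c (1 : ℝ))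
      (Integrable.congr (integrable_zero _ _ _) (Filter.Eventually.of_forall fun x => by
        simp [show fderiv ℝ (fun y : Space 3 => y a) x = (EuclideanSpace.proj a : Space 3 →L[ℝ] ℝ)
          from (EuclideanSpace.proj a : Space 3 →L[ℝ] ℝ).fderiv, hac]))
      (((EuclideanSpace.proj a : Space 3 →L[ℝ] ℝ).continuous.mul
        (continuous_pd hF c)).integrable_of_hasCompactSupport (hasCompactSupport_pd hFc c).mul_left)
      (((EuclideanSpace.proj a : Space 3 →L[ℝ] ℝ).continuous.mul
        hF.continuous).integrable_of_hasCompactSupport hFc.mul_left)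
      (fun x _ => (EuclideanSpace.proj a : Space 3 →L[ℝ] ℝ).differentiable x)
      (fun x _ => hF.differentiable one_ne_zero x)
    simp only [pd]
    rw [e]
    simp [show ∀ x, fderiv ℝ (fun y : Space 3 => y a) x = (EuclideanSpace.proj a : Space 3 →L[ℝ] ℝ)
      from fun x => (EuclideanSpace.proj a : Space 3 →L[ℝ] ℝ).fderiv, hac]
  have hI : ∫ x, rot i F x = 0 := by
    have h1 := hzero (i + 1) (i + 2) (by fin_cases i <;> decide)
    have h2 := hzero (i + 2) (i + 1) (by fin_cases i <;> decide)
    simp only [rot]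
    rw [integral_sub, h1, h2, sub_zero] <;>
      exact ((EuclideanSpace.proj _ : Space 3 →L[ℝ] ℝ).continuous.mul
        (continuous_pd hF _)).integrable_of_hasCompactSupport (hasCompactSupport_pd hFc _).mul_left
  have hrF : ∀ (r : ℝ) (θ : Sph 3), 0 < r →
      rot i F (r • (θ : Space 3)) = b (r ^ 2) * rot i f (θ : Space 3) := by
    intro r θ hr
    set x := r • (θ : Space 3) with hx'
    set v := x (i + 1) • EuclideanSpace.single (i + 2) (1 : ℝ) -
      x (i + 2) • EuclideanSpace.single (i + 1) (1 : ℝ)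
    have hθ : ‖(θ : Space 3)‖ = 1 := by simpa using θ.2
    have hxn : ‖x‖ = r := by rw [hx', norm_smul, hθ, mul_one, Real.norm_of_nonneg hr.le]
    have hx : x ≠ 0 := fun h => by rw [h, norm_zero] at hxn; linarith
    have hinner : inner ℝ x v = 0 := by
      simp [v, inner_sub_right, inner_smul_right, EuclideanSpace.inner_single_right]
      ring
    have hbd : HasFDerivAt (fun y : Space 3 => b (‖y‖ ^ 2))
        (deriv b (‖x‖ ^ 2) • (2 • innerSL ℝ x)) x := by
      have hd : HasDerivAt b (deriv b (‖x‖ ^ 2)) (‖x‖ ^ 2) :=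
        ((η.contDiff.comp (contDiff_id.sub contDiff_const)).differentiable
          (n := 1) one_ne_zero _).hasDerivAt
      exact HasDerivAt.comp_hasFDerivAt (f := fun y : Space 3 => ‖y‖ ^ 2) (h₂ := b) x hd
        (hasStrictFDerivAt_norm_sq x).hasFDerivAt
    have hnd : HasFDerivAt (fun y : Space 3 => ‖y‖⁻¹)
        ((-(‖x‖ ^ 2)⁻¹) • fderiv ℝ (fun y : Space 3 => ‖y‖) x) x :=
      (hasDerivAt_inv (norm_ne_zero_iff.2 hx)).comp_hasFDerivAt x
        ((contDiffAt_norm ℝ hx (n := 1)).differentiableAt one_ne_zero).hasFDerivAt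
    have hnv : fderiv ℝ (fun y : Space 3 => ‖y‖) x v = 0 := by
      have h2 : HasFDerivAt (fun y : Space 3 => ‖y‖) ((2 * ‖x‖)⁻¹ • (2 • innerSL ℝ x)) x := by
        have h3 := (hasStrictFDerivAt_norm_sq x).hasFDerivAt.sqrt
          (by positivity : ‖x‖ ^ 2 ≠ 0)
        simpa [Real.sqrt_sq (norm_nonneg _), one_div] using h3
      rw [h2.fderiv]
      simp [hinner]
    have hfd : HasFDerivAt (fun y : Space 3 => f (‖y‖⁻¹ • y))
        ((fderiv ℝ f (‖x‖⁻¹ • x)).comp (‖x‖⁻¹ • ContinuousLinearMap.id ℝ (Space 3) +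
          ((-(‖x‖ ^ 2)⁻¹) • fderiv ℝ (fun y : Space 3 => ‖y‖) x).smulRight x)) x :=
      ((hf.differentiable one_ne_zero) _).hasFDerivAt.comp x (hnd.smul (hasFDerivAt_id x))
    have hθx : r⁻¹ • x = (θ : Space 3) := by
      rw [hx', smul_smul, inv_mul_cancel₀ hr.ne', one_smul]
    rw [rot_eq_fderiv, (hbd.fun_mul hfd).fderiv, rot_eq_fderiv]
    simp only [add_apply, smul_apply, ContinuousLinearMap.comp_apply,
      ContinuousLinearMap.id_apply, ContinuousLinearMap.smulRight_apply, smul_eq_mul, hθx, hxn]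
    have e : r⁻¹ • v = (θ : Space 3) (i + 1) • EuclideanSpace.single (i + 2) (1 : ℝ) -
        (θ : Space 3) (i + 2) • EuclideanSpace.single (i + 1) (1 : ℝ) := by
      simp only [v, hx', PiLp.smul_apply, smul_eq_mul, smul_sub, smul_smul, ← mul_assoc,
        inv_mul_cancel₀ hr.ne', one_mul]
    rw [show fderiv ℝ (fun y : Space 3 => ‖y‖) x v = 0 from hnv, mul_zero, zero_smul, add_zero, e,
      innerSL_apply_apply, hinner]
    ring
  have hFi : Integrable (rot i F) := by
    refine (continuous_rot hF i).integrable_of_hasCompactSupport ?_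
    exact (hasCompactSupport_pd hFc _).mul_left.sub (hasCompactSupport_pd hFc _).mul_left
  rw [integral_polar (by norm_num) hFi, setIntegral_congr_fun measurableSet_Ioi
    (g := fun r => r ^ 2 * b (r ^ 2) * ∫ θ : Sph 3, rot i f (θ : Space 3) ∂(sig 3))
    (fun r hr => by
      simp only [hrF r _ hr, integral_const_mul]
      ring), integral_mul_const] at hI
  refine (mul_eq_zero.1 hI).resolve_left (ne_of_gt ?_)
  rw [setIntegral_pos_iff_support_of_nonneg_ae]
  · refine lt_of_lt_of_le ?_ (measure_mono (s := Ioo (1.8 : ℝ) 2.2) fun r hr => ⟨?_, ?_⟩)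
    · simp; norm_num
    · have h1 : b (r ^ 2) = 1 := η.one_of_mem_closedBall (by
        rw [Metric.mem_closedBall, Real.dist_0_eq_abs, abs_le]
        constructor <;> nlinarith [hr.1, hr.2])
      simp only [Function.mem_support, h1, mul_one]
      have : 0 < r := by linarith [hr.1]
      positivity
    · exact mem_Ioi.2 (by linarith [hr.1])
  · exact Filter.Eventually.of_forall fun r => mul_nonneg (sq_nonneg r) η.nonneg
  · exact (((continuous_id.pow 2).mul (η.continuous.comp
      ((continuous_id.pow 2).sub continuous_const))).integrable_of_hasCompactSupport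
        (HasCompactSupport.intro (isCompact_closedBall (0 : ℝ) 3) fun r hr => by
          have : b (r ^ 2) = 0 := by
            by_contra h
            have := (hb _ h).2
            rw [Metric.mem_closedBall, Real.dist_0_eq_abs] at hr
            nlinarith [sq_abs r, abs_nonneg r]
          simp [b] at this ⊢
          simp [this])).integrableOn

end

end Vale.Agent.P225.Disproof
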