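import Vale.Agent.P225.Disproof.MetricQuad
import Vale.Agent.P225.Disproof.Rot

/-!
# P225 L: lifts of functions of `(t, θ)`, rotations, the Laplace-Beltrami operator
-/

namespace Vale.Agent.P225.Disproof.Met3

open Filter Topology

noncomputable section

/-! ### Lifts -/

section lifts

variable {P : ℝ → Space 3 → ℝ}

/-- The polar coordinates `(log |x|, x / |x|)`. -/
def polar (x : Space 3) : ℝ × Space 3 := (Real.log ‖x‖, ‖x‖⁻¹ • x)

lemma lift_eq_comp (P : ℝ → Space 3 → ℝ) : lift P = Function.uncurry P ∘ polar := rfl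

lemma contDiffAt_polar {x : Space 3} (hx : x ≠ 0) {m : WithTop ℕ∞} : ContDiffAt ℝ m polar x := by
  have hn : ‖x‖ ≠ 0 := norm_ne_zero_iff.2 hx
  have hc : ContDiffAt ℝ m (fun y : Space 3 => ‖y‖) x := contDiffAt_norm ℝ hx
  exact (hc.log hn).prodMk ((hc.inv hn).smul contDiffAt_id)

lemma contDiffAt_lift {m : WithTop ℕ∞} (hP : ContDiff ℝ m (Function.uncurry P)) {x : Space 3}
    (hx : x ≠ 0) : ContDiffAt ℝ m (lift P) x :=
  hP.contDiffAt.comp x (contDiffAt_polar hx)

lemma lift_eq_near {c : ℝ} (h0 : ∀ t ≤ 0, ∀ θ, P t θ = c) {x : Space 3} (hx : ‖x‖ ≤ 1) :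
    lift P x = c :=
  h0 _ (Real.log_nonpos (norm_nonneg _) hx) _

lemma lift_eventually_const {c : ℝ} (h0 : ∀ t ≤ 0, ∀ θ, P t θ = c) :
    lift P =ᶠ[𝓝 (0 : Space 3)] fun _ => c := by
  filter_upwards [Metric.ball_mem_nhds (0 : Space 3) one_pos] with y hy
  exact lift_eq_near h0 (mem_ball_zero_iff.1 hy).le

lemma contDiff_lift {m : WithTop ℕ∞} (hP : ContDiff ℝ m (Function.uncurry P)) {c : ℝ}
    (h0 : ∀ t ≤ 0, ∀ θ, P t θ = c) : ContDiff ℝ m (lift P) := by
  refine contDiff_iff_contDiffAt.2 fun x => ?_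
  by_cases hx : x = 0
  · subst hx
    exact contDiffAt_const.congr_of_eventuallyEq (lift_eventually_const h0)
  · exact contDiffAt_lift hP hx

lemma norm_inv_smul {x : Space 3} (hx : x ≠ 0) : ‖‖x‖⁻¹ • x‖ = 1 := by
  rw [norm_smul, norm_inv, norm_norm, inv_mul_cancel₀ (norm_ne_zero_iff.2 hx)]

/-- The derivative of a lift. -/
theorem hasFDerivAt_lift (hP : ContDiff ℝ 1 (Function.uncurry P)) {x : Space 3} (hx : x ≠ 0) :
    ∃ L : Space 3 →L[ℝ] ℝ, HasFDerivAt (lift P) L x ∧ ∀ v,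
      L v = deriv (fun s => P s (‖x‖⁻¹ • x)) (Real.log ‖x‖) * (ip x v / ‖x‖ ^ 2)
        + fderiv ℝ (P (Real.log ‖x‖)) (‖x‖⁻¹ • x)
            (‖x‖⁻¹ • (v - (ip x v / ‖x‖ ^ 2) • x)) := by
  have hn : ‖x‖ ≠ 0 := norm_ne_zero_iff.2 hx
  set p := polar x with hp
  have hU := (hP.differentiable one_ne_zero p).hasFDerivAt
  have hN : HasFDerivAt (fun y : Space 3 => ‖y‖) (‖x‖⁻¹ • innerSL ℝ x) x := by
    have h := ((hasStrictFDerivAt_norm_sq x).hasFDerivAt.sqrt (by positivity)).congr_of_eventuallyEq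
      (Eventually.of_forall fun y => (Real.sqrt_sq (norm_nonneg y)).symm)
    refine h.congr_fderiv ?_
    ext v
    simp [Real.sqrt_sq (norm_nonneg x)]
    field_simp
  have hpol : HasFDerivAt polar
      (ContinuousLinearMap.prod (‖x‖⁻¹ • (‖x‖⁻¹ • innerSL ℝ x))
        (‖x‖⁻¹ • ContinuousLinearMap.id ℝ (Space 3)
          + ((-(‖x‖ ^ 2)⁻¹) • (‖x‖⁻¹ • innerSL ℝ x)).smulRight x)) x :=
    (hN.log hn).prodMk (((hasDerivAt_inv hn).comp_hasFDerivAt x hN).smul (hasFDerivAt_id x))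
  refine ⟨_, (lift_eq_comp P).symm ▸ (hU.comp x hpol), fun v => ?_⟩
  have e1 : deriv (fun s => P s p.2) p.1 = fderiv ℝ (Function.uncurry P) p (1, 0) := by
    have h : HasDerivAt (fun s => Function.uncurry P (s, p.2))
        (fderiv ℝ (Function.uncurry P) p (1, 0)) p.1 :=
      HasFDerivAt.comp_hasDerivAt (l := Function.uncurry P) (f := fun s : ℝ => (s, p.2)) p.1 hU
        ((hasDerivAt_id' p.1).prodMk (hasDerivAt_const p.1 p.2))
    exact h.deriv
  have e2 : ∀ u, fderiv ℝ (P p.1) p.2 u = fderiv ℝ (Function.uncurry P) p (0, u) := by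
    intro u
    have h : HasFDerivAt (fun θ => Function.uncurry P (p.1, θ))
        ((fderiv ℝ (Function.uncurry P) p).comp
          (ContinuousLinearMap.prod 0 (ContinuousLinearMap.id ℝ (Space 3)))) p.2 :=
      hU.comp p.2 ((hasFDerivAt_const p.1 p.2).prodMk (hasFDerivAt_id p.2))
    rw [show fderiv ℝ (P p.1) p.2 = _ from h.fderiv]
    rfl
  have hip : ∀ u : Space 3, innerSL ℝ x u = ip x u := fun u => by
    simp [ip, PiLp.inner_apply, mul_comm]
  show _ = deriv (fun s => P s p.2) p.1 * _ + fderiv ℝ (P p.1) p.2 _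
  have e3 : ∀ (b : ℝ) u, fderiv ℝ (Function.uncurry P) p (1, 0) * b
      + fderiv ℝ (Function.uncurry P) p (0, u) = fderiv ℝ (Function.uncurry P) p (b, u) := fun b u => by
    rw [mul_comm, ← smul_eq_mul, ← map_smul, ← map_add]
    simp
  rw [e1, e2, e3]
  simp only [ContinuousLinearMap.comp_apply, ContinuousLinearMap.prod_apply, add_apply, smul_apply,
    ContinuousLinearMap.smulRight_apply, ContinuousLinearMap.id_apply, hip, smul_eq_mul]
  congr 1
  ext i
  · field_simp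
  · simp only [smul_sub, smul_smul, PiLp.add_apply, PiLp.sub_apply, PiLp.smul_apply, smul_eq_mul]
    field_simp
    ring

lemma rotVec_ip (i : Fin 3) (x : Space 3) : ip x (x (i + 1) • EuclideanSpace.single (i + 2) (1 : ℝ)
    - x (i + 2) • EuclideanSpace.single (i + 1) (1 : ℝ)) = 0 := by
  fin_cases i <;> simp +decide [ip, Fin.sum_univ_three] <;> ring

lemma rot_lift (hP : ContDiff ℝ 1 (Function.uncurry P)) {x : Space 3} (hx : x ≠ 0) (i : Fin 3) :
    rot i (lift P) x = rot i (P (Real.log ‖x‖)) (‖x‖⁻¹ • x) := by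
  obtain ⟨L, hL, hLv⟩ := hasFDerivAt_lift hP hx
  rw [rot_eq_fderiv, rot_eq_fderiv, hL.fderiv, hLv, rotVec_ip]
  simp only [zero_div, mul_zero, zero_add, zero_smul, sub_zero, smul_sub, smul_smul,
    PiLp.smul_apply, smul_eq_mul]

lemma eul_lift (hP : ContDiff ℝ 1 (Function.uncurry P)) {x : Space 3} (hx : x ≠ 0) :
    eul (lift P) x = deriv (fun s => P s (‖x‖⁻¹ • x)) (Real.log ‖x‖) := by
  obtain ⟨L, hL, hLv⟩ := hasFDerivAt_lift hP hx
  have hn : ‖x‖ ≠ 0 := norm_ne_zero_iff.2 hx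
  have hip : ip x x = ‖x‖ ^ 2 := by
    rw [EuclideanSpace.real_norm_sq_eq]
    simp [ip, pow_two]
  rw [eul, hL.fderiv, hLv, hip, div_self (pow_ne_zero 2 hn)]
  simp

/-- `rot i` acting on the sphere variable. -/
def rotT (i : Fin 3) (P : ℝ → Space 3 → ℝ) : ℝ → Space 3 → ℝ := fun t θ => rot i (P t) θ

/-- The derivative in `t`. -/
def derT (P : ℝ → Space 3 → ℝ) : ℝ → Space 3 → ℝ := fun t θ => deriv (fun s => P s θ) t

lemma contDiff_rotT {m k : WithTop ℕ∞} (hP : ContDiff ℝ k (Function.uncurry P)) (hmk : m + 1 ≤ k)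
    (i : Fin 3) : ContDiff ℝ m (Function.uncurry (rotT i P)) := by
  have hd : ∀ a : Fin 3,
      ContDiff ℝ m fun p : ℝ × Space 3 => fderiv ℝ (P p.1) p.2 (EuclideanSpace.single a 1) := fun a =>
    ContDiff.fderiv_apply (f := fun (p : ℝ × Space 3) θ => P p.1 θ)
      (hP.comp ((contDiff_fst.comp contDiff_fst).prodMk contDiff_snd)) contDiff_snd contDiff_const hmk
  exact (((contDiff_coord (i + 1)).comp contDiff_snd).mul (hd _)).sub
    (((contDiff_coord (i + 2)).comp contDiff_snd).mul (hd _))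

lemma contDiff_derT {m k : WithTop ℕ∞} (hP : ContDiff ℝ k (Function.uncurry P)) (hmk : m + 1 ≤ k) :
    ContDiff ℝ m (Function.uncurry (derT P)) :=
  ContDiff.fderiv_apply (f := fun (p : ℝ × Space 3) (s : ℝ) => P s p.2)
    (hP.comp (contDiff_snd.prodMk (contDiff_snd.comp contDiff_fst))) contDiff_fst contDiff_const hmk

lemma rot_zero_point (i : Fin 3) (f : Space 3 → ℝ) : rot i f 0 = 0 := by simp [rot]

lemma rot_lift_fun (hP : ContDiff ℝ 1 (Function.uncurry P)) (i : Fin 3) :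
    rot i (lift P) = lift (rotT i P) := by
  funext x
  by_cases hx : x = 0
  · subst hx
    rw [rot_zero_point, lift, rotT, smul_zero, rot_zero_point]
  · exact rot_lift hP hx i

lemma eul_lift_eventually (hP : ContDiff ℝ 1 (Function.uncurry P)) {x : Space 3} (hx : x ≠ 0) :
    eul (lift P) =ᶠ[𝓝 x] lift (derT P) :=
  (eventually_ne_zero hx).mono fun _ hy => eul_lift hP hy

lemma eul_congr {f g : Space 3 → ℝ} {x : Space 3} (h : f =ᶠ[𝓝 x] g) : eul f x = eul g x := by
  simp [eul, h.fderiv_eq]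

lemma rot_congr {f g : Space 3 → ℝ} {x : Space 3} (h : f =ᶠ[𝓝 x] g) (i : Fin 3) :
    rot i f x = rot i g x := by simp [rot, pd_congr_at _ h]

end lifts

/-! ### Euclidean jets against rotations -/

section jets

variable {f h : Space 3 → ℝ} {x : Space 3}

lemma pd_rot (hf : ContDiff ℝ 2 f) (k i : Fin 3) :
    pd k (rot i f) x = dl (i + 1) k * pd (i + 2) f x + x (i + 1) * pd k (pd (i + 2) f) x
      - (dl (i + 2) k * pd (i + 1) f x + x (i + 2) * pd k (pd (i + 1) f) x) := by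
  have d : ∀ a, DifferentiableAt ℝ (pd a f) x := fun a =>
    (contDiff_pd_of (m := 1) a hf le_rfl).differentiable one_ne_zero x
  have dc : ∀ a, DifferentiableAt ℝ (fun y : Space 3 => y a) x :=
    fun a => (contDiff_coord a (m := 1)).differentiable one_ne_zero x
  show pd k (fun y => y (i + 1) * pd (i + 2) f y - y (i + 2) * pd (i + 1) f y) x = _
  rw [pd_sub_at k ((dc _).fun_mul (d _)) ((dc _).fun_mul (d _)), pd_mul_at k (dc _) (d _),
    pd_mul_at k (dc _) (d _), pd_coord, pd_coord]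

lemma pd_eul (hf : ContDiff ℝ 2 f) (k : Fin 3) :
    pd k (eul f) x = pd k f x + ∑ a, x a * pd k (pd a f) x := by
  have d : ∀ a, DifferentiableAt ℝ (pd a f) x := fun a =>
    (contDiff_pd_of (m := 1) a hf le_rfl).differentiable one_ne_zero x
  have dc : ∀ a, DifferentiableAt ℝ (fun y : Space 3 => y a) x :=
    fun a => (contDiff_coord a (m := 1)).differentiable one_ne_zero x
  rw [show eul f = fun y => ∑ a, y a * pd a f y from funext (eul_eq_sum f),
    pd_sum_at k _ fun a _ => (dc a).fun_mul (d a)]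
  simp only [pd_mul_at k (dc _) (d _), pd_coord, Finset.sum_add_distrib]
  congr 1
  simp [dl]

lemma differentiableAt_eul (hf : ContDiff ℝ 2 f) : DifferentiableAt ℝ (eul f) x := by
  rw [show eul f = fun y => ∑ a, y a * pd a f y from funext (eul_eq_sum f)]
  exact DifferentiableAt.fun_sum fun a _ =>
    ((contDiff_coord a (m := 1)).differentiable one_ne_zero x).fun_mul
      ((contDiff_pd_of (m := 1) a hf le_rfl).differentiable one_ne_zero x)

lemma differentiableAt_rot (hf : ContDiff ℝ 2 f) (i : Fin 3) : DifferentiableAt ℝ (rot i f) x :=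
  (((contDiff_coord (i + 1) (m := 1)).differentiable one_ne_zero x).fun_mul
    ((contDiff_pd_of (m := 1) (i + 2) hf le_rfl).differentiable one_ne_zero x)).fun_sub
  (((contDiff_coord (i + 2) (m := 1)).differentiable one_ne_zero x).fun_mul
    ((contDiff_pd_of (m := 1) (i + 1) hf le_rfl).differentiable one_ne_zero x))

lemma sum_rot_rot (hf : ContDiff ℝ 2 f) : ∑ i, rot i (rot i f) x = sl f x := by
  have s := fun i j => pd_pd_comm hf i j x
  have e : ∀ i, rot i (rot i f) x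
      = x (i + 1) * pd (i + 2) (rot i f) x - x (i + 2) * pd (i + 1) (rot i f) x := fun i => rfl
  simp only [e, pd_rot hf]
  simp +decide [sl, lap, B2, D1, dl, Fin.sum_univ_three, EuclideanSpace.real_norm_sq_eq,
    s 1 0, s 2 0, s 2 1]
  ring

lemma sum_rot_mul : ∑ i, rot i f x * rot i h x
    = ‖x‖ ^ 2 * gd f h x - D1 f x x * D1 h x x := by
  simp +decide [rot, gd, D1, Fin.sum_univ_three, EuclideanSpace.real_norm_sq_eq]
  ring

/-- `(x × v) / |x|`. -/
def cr (x v : Space 3) (i : Fin 3) : ℝ := (x (i + 1) * v (i + 2) - x (i + 2) * v (i + 1)) / ‖x‖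

/-- The tangential part. -/
def tg (x v : Space 3) : Space 3 := v - (ip x v / ‖x‖ ^ 2) • x

lemma cr_sq (hx : x ≠ 0) (v : Space 3) : ∑ i, cr x v i ^ 2 = ip (tg x v) (tg x v) := by
  have h := norm_ne_zero_iff.2 hx
  simp +decide [cr, tg, ip, Fin.sum_univ_three]
  field_simp
  rw [EuclideanSpace.real_norm_sq_eq, Fin.sum_univ_three]
  ring

lemma cr_rot (hx : x ≠ 0) (v : Space 3) :
    ∑ i, cr x v i * rot i f x = ‖x‖ * D1 f x (tg x v) := by
  have h := norm_ne_zero_iff.2 hx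
  simp +decide [cr, tg, ip, rot, D1, Fin.sum_univ_three]
  field_simp
  rw [EuclideanSpace.real_norm_sq_eq, Fin.sum_univ_three]
  ring

lemma cr_rot_eul (hf : ContDiff ℝ 2 f) (hx : x ≠ 0) (v : Space 3) :
    ∑ i, cr x v i * rot i (eul f) x
      = ‖x‖ * (D1 f x (tg x v) + B2 f x (tg x v) x) := by
  rw [cr_rot hx]
  congr 1
  simp only [D1, B2, pd_eul hf, Fin.sum_univ_three]
  ring

lemma cr_rot_rot (hf : ContDiff ℝ 2 f) (hx : x ≠ 0) (v : Space 3) :
    ∑ i, ∑ j, cr x v i * cr x v j * rot i (rot j f) x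
      = ‖x‖ ^ 2 * B2 f x (tg x v) (tg x v) - ip (tg x v) (tg x v) * D1 f x x := by
  have h := norm_ne_zero_iff.2 hx
  have s := fun i j => pd_pd_comm hf i j x
  have e : ∀ i j, rot i (rot j f) x
      = x (i + 1) * pd (i + 2) (rot j f) x - x (i + 2) * pd (i + 1) (rot j f) x := fun i j => rfl
  simp only [e, pd_rot hf]
  simp +decide [cr, tg, ip, B2, D1, dl, Fin.sum_univ_three, s 1 0, s 2 0, s 2 1]
  field_simp
  rw [EuclideanSpace.real_norm_sq_eq, Fin.sum_univ_three]
  ring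

lemma eul_eq_D1 : eul f x = D1 f x x := by rw [eul_eq_sum]; rfl

lemma eul_eul (hf : ContDiff ℝ 2 f) : eul (eul f) x = D1 f x x + B2 f x x x := by
  rw [eul_eq_sum (eul f)]
  simp only [pd_eul hf, D1, B2, Fin.sum_univ_three]
  ring

end jets

/-! ### The Laplace-Beltrami operator -/

lemma det_metFN (F N : Space 3 → ℝ) {x : Space 3} (hx : x ≠ 0) :
    (metFN F N x).det = (N x * F x) ^ 2 := by
  have h := normSq_ne hx
  have e : ‖x‖ ^ 2 = x 0 ^ 2 + x 1 ^ 2 + x 2 ^ 2 := by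
    rw [EuclideanSpace.real_norm_sq_eq, Fin.sum_univ_three]
  simp [Matrix.det_fin_three, metFN, cdir, dl]
  rw [e] at h ⊢
  field_simp
  ring

/-- The Laplace-Beltrami operator of `metFN F N`. -/
theorem lapBel_metFN {F N u : Space 3 → ℝ} (hF : ContDiff ℝ 2 F) (hN : ContDiff ℝ 2 N)
    (hu : ContDiff ℝ 2 u) (hF0 : ∀ y, 0 < F y) (hN0 : ∀ y, 0 < N y) {x : Space 3} (hx : x ≠ 0) :
    lapBel (metFN F N) u x = (‖x‖ ^ 2 * (N x * F x))⁻¹ *
      (eul (fun y => F y / N y * eul u y) x + F x / N x * eul u x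
        + ∑ i, rot i (fun y => N y * rot i u y) x) := by
  set M := fun y => F y / N y
  have hflux : ∀ i, (fun y => √(metFN F N y).det * ∑ j, (metFN F N y)⁻¹ i j * pd j u y)
      =ᶠ[𝓝 x] fun y => N y * pd i u y + y i * ((F y / N y - N y) * eul u y * (‖y‖ ^ 2)⁻¹) := by
    intro i
    filter_upwards [eventually_ne_zero hx] with y hy
    have h := normSq_ne hy
    have h1 := (hF0 y).ne'
    have h2 := (hN0 y).ne'
    rw [det_metFN F N hy, Real.sqrt_sq (mul_pos (hN0 y) (hF0 y)).le,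
      inv_metFN (fun z => (hF0 z).ne') (fun z => (hN0 z).ne') hy]
    simp only [Matrix.of_apply, hf, cdir, eul_eq_sum]
    fin_cases i <;> simp [dl, Fin.sum_univ_three] <;> field_simp <;> ring
  have dc : ∀ a, DifferentiableAt ℝ (fun y : Space 3 => y a) x :=
    fun a => (contDiff_coord a (m := 1)).differentiable one_ne_zero x
  have dp : ∀ a, DifferentiableAt ℝ (pd a u) x := fun a =>
    (contDiff_pd_of (m := 1) a hu le_rfl).differentiable one_ne_zero x
  have dN := hN.differentiable two_ne_zero x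
  have dM : DifferentiableAt ℝ M x := by
    simpa [M, div_eq_mul_inv] using (hF.differentiable two_ne_zero x).fun_mul (dN.fun_inv (hN0 x).ne')
  have de := differentiableAt_eul (x := x) hu
  have dn : DifferentiableAt ℝ (fun y : Space 3 => (‖y‖ ^ 2)⁻¹) x :=
    ((contDiff_normSq (m := 1)).differentiable one_ne_zero x).fun_inv (normSq_ne hx)
  have hdiv : ∀ i, pd i (fun y => √(metFN F N y).det * ∑ j, (metFN F N y)⁻¹ i j * pd j u y) x
      = pd i N x * pd i u x + N x * pd i (pd i u) x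
        + ((M x - N x) * eul u x * (‖x‖ ^ 2)⁻¹
          + x i * (((pd i M x - pd i N x) * eul u x + (M x - N x) * pd i (eul u) x) * (‖x‖ ^ 2)⁻¹
            + (M x - N x) * eul u x * (-(2 * x i) / (‖x‖ ^ 2) ^ 2))) := by
    intro i
    rw [pd_congr_at i (hflux i)]
    show pd i (fun y => N y * pd i u y + y i * ((M y - N y) * eul u y * (‖y‖ ^ 2)⁻¹)) x = _
    have dMN := dM.fun_sub dN
    rw [pd_add_at i (dN.fun_mul (dp i)) ((dc i).fun_mul ((dMN.fun_mul de).fun_mul dn)),
      pd_mul_at i dN (dp i), pd_mul_at i (dc i) ((dMN.fun_mul de).fun_mul dn),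
      pd_mul_at i (dMN.fun_mul de) dn, pd_mul_at i dMN de, pd_sub_at i dM dN,
      pd_inv_at i ((contDiff_normSq (m := 1)).differentiable one_ne_zero x) (normSq_ne hx),
      pd_normSq, pd_coord]
    simp [dl]
  have hE : eul (fun y => M y * eul u y) x = eul M x * eul u x + M x * eul (eul u) x := by
    simp only [eul_eq_sum (fun y => M y * eul u y), eul_eq_sum M, eul_eq_sum (eul u),
      pd_mul_at _ dM de, Fin.sum_univ_three]
    ring
  have hR : ∀ i, rot i (fun y => N y * rot i u y) x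
      = rot i N x * rot i u x + N x * rot i (rot i u) x := fun i => by
    have e : ∀ f : Space 3 → ℝ, rot i f x
        = x (i + 1) * pd (i + 2) f x - x (i + 2) * pd (i + 1) f x := fun f => rfl
    rw [e (fun y => N y * rot i u y), pd_mul_at _ dN (differentiableAt_rot hu i),
      pd_mul_at _ dN (differentiableAt_rot hu i), e N, e (rot i u)]
    ring
  rw [lapBel, det_metFN F N hx, Real.sqrt_sq (mul_pos (hN0 x) (hF0 x)).le]
  simp only [hdiv]
  show _ = (‖x‖ ^ 2 * (N x * F x))⁻¹ * (eul (fun y => M y * eul u y) x + M x * eul u x + _)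
  simp only [hR, hE, Finset.sum_add_distrib, ← Finset.mul_sum, sum_rot_rot hu, sum_rot_mul,
    eul_eul hu]
  have h := normSq_ne hx
  have h1 := (hF0 x).ne'
  have h2 := (hN0 x).ne'
  simp only [eul_eq_D1, sl, lap, gd, pd_eul hu, D1, B2, Fin.sum_univ_three]
  have e : ‖x‖ ^ 2 = x 0 ^ 2 + x 1 ^ 2 + x 2 ^ 2 := by
    rw [EuclideanSpace.real_norm_sq_eq, Fin.sum_univ_three]
  rw [e] at h ⊢
  field_simp
  ring

/-- Comparability of `metFN F N` with the Euclidean metric. -/
lemma isBoundedMetric_metFN {F N : Space 3 → ℝ} (hF : ContDiff ℝ (⊤ : ℕ∞) F)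
    (hN : ContDiff ℝ (⊤ : ℕ∞) N) (hnear : ∀ x : Space 3, ‖x‖ ≤ 1 → F x = 1 ∧ N x = 1) {c : ℝ}
    (hc : 0 < c) (hb : ∀ x, (c ≤ F x ∧ F x ≤ c⁻¹) ∧ c ≤ N x ^ 2 ∧ N x ^ 2 ≤ c⁻¹) :
    IsBoundedMetric (metFN F N) := by
  refine ⟨fun i j => contDiff_iff_contDiffAt.2 fun x => ?_, fun x => ?_, c, hc, fun x v => ?_⟩
  · by_cases hx : x = 0
    · subst hx
      refine (contDiffAt_const (c := dl i j)).congr_of_eventuallyEq ?_
      filter_upwards [Metric.ball_mem_nhds (0 : Space 3) one_pos] with y hy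
      obtain ⟨h1, h2⟩ := hnear y (mem_ball_zero_iff.1 hy).le
      simp [metFN, h1, h2]
    · exact (hF.contDiffAt.mul contDiffAt_const).add
        (((hN.pow 2).sub hF).contDiffAt.mul (contDiffAt_cdir hx i j))
  · exact Matrix.IsSymm.ext fun i j => by simp [metFN, dl, cdir, mul_comm (x i), eq_comm (a := i)]
  · have hv : gsq (metFN F N) x v = F x * ip v v + (N x ^ 2 - F x) * (ip x v ^ 2 / ‖x‖ ^ 2) := by
      simp [gsq, metFN, cdir, dl, ip, Fin.sum_univ_three]
      ring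
    have hvv : ip v v = ‖v‖ ^ 2 := by
      rw [EuclideanSpace.real_norm_sq_eq]
      simp [ip, pow_two]
    have hip : ip x v = inner ℝ x v := by simp [ip, PiLp.inner_apply, mul_comm]
    set q := ip x v ^ 2 / ‖x‖ ^ 2 with hq
    have hq0 : 0 ≤ q := by positivity
    have hq1 : q ≤ ‖v‖ ^ 2 := by
      refine div_le_of_le_mul₀ (sq_nonneg _) (sq_nonneg _) ?_
      rw [hip, ← sq_abs, ← mul_pow, mul_comm]
      exact pow_le_pow_left₀ (abs_nonneg _) (abs_real_inner_le_norm x v) 2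
    obtain ⟨⟨a1, a2⟩, a3, a4⟩ := hb x
    rw [hv, hvv]
    constructor <;>
      nlinarith [mul_le_mul_of_nonneg_left a1 (sub_nonneg.2 hq1),
        mul_le_mul_of_nonneg_left a2 (sub_nonneg.2 hq1), mul_le_mul_of_nonneg_left a3 hq0,
        mul_le_mul_of_nonneg_left a4 hq0]

end

end Vale.Agent.P225.Disproof.Met3
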