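import Vale.Agent.P225.Disproof.MetricPolar

/-!
# P225 L: the metric `polarMet a ρ ω` of the construction

Bounded, of nonnegative Ricci curvature, with its Laplace-Beltrami operator.
-/

namespace Vale.Agent.P225.Disproof.Met3

open Filter Topology Set

noncomputable section

variable {c0 B δ η0 K T0 : ℝ} {a : ℝ → ℝ} {ρ ω : ℝ → Space 3 → ℝ}

lemma two_le_infty : (2 : WithTop ℕ∞) ≤ ((⊤ : ℕ∞) : WithTop ℕ∞) := WithTop.coe_le_coe.2 le_top

lemma derT_lapse : derT (lapse ω) = derT ω := by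
  funext t θ
  simp [derT, lapse]

lemma rotT_lapse (i : Fin 3) : rotT i (lapse ω) = rotT i ω := by
  funext t θ
  exact congr_fun (rot_const_add (f := ω t) 1 i) θ

lemma rotT_confP (hρ : ContDiff ℝ 1 (Function.uncurry ρ)) (i : Fin 3) :
    rotT i (confP a ρ) = fun t θ => a t ^ 2 * rotT i ρ t θ := by
  funext t θ
  exact rot_const_mul _ ((contDiff_slice hρ t).differentiable one_ne_zero θ) i

lemma rotT_rotT_confP (hρ : ContDiff ℝ 2 (Function.uncurry ρ)) (i j : Fin 3) (t : ℝ) (θ : Space 3) :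
    rotT i (rotT j (confP a ρ)) t θ = a t ^ 2 * rotT i (rotT j ρ) t θ := by
  rw [rotT_confP (hρ.of_le one_le_two)]
  exact rot_const_mul _
    ((contDiff_slice (contDiff_rotT (m := 1) hρ le_rfl j) t).differentiable one_ne_zero θ) i

lemma rotT_derT_confP (ha : ContDiff ℝ 2 a) (hρ : ContDiff ℝ 2 (Function.uncurry ρ)) (i : Fin 3)
    (t : ℝ) (θ : Space 3) :
    rotT i (derT (confP a ρ)) t θ
      = 2 * a t * deriv a t * rotT i ρ t θ + a t ^ 2 * rotT i (derT ρ) t θ := by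
  rw [derT_confP ha hρ]
  exact rot_combo _ _ ((contDiff_slice (hρ.of_le one_le_two) t).differentiable one_ne_zero θ)
    ((contDiff_slice (contDiff_derT (m := 1) hρ le_rfl) t).differentiable one_ne_zero θ) i

section lifted

variable {P : ℝ → Space 3 → ℝ} (hP : ContDiff ℝ 2 (Function.uncurry P)) {x : Space 3} (hx : x ≠ 0)

include hP hx

lemma eul_eul_lift :
    eul (eul (lift P)) x = derT (derT P) (Real.log ‖x‖) (‖x‖⁻¹ • x) :=
  (eul_congr (eul_lift_eventually (hP.of_le one_le_two) hx)).trans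
    (eul_lift (contDiff_derT (m := 1) hP le_rfl) hx)

lemma rot_eul_lift (i : Fin 3) :
    rot i (eul (lift P)) x = rotT i (derT P) (Real.log ‖x‖) (‖x‖⁻¹ • x) :=
  (rot_congr (eul_lift_eventually (hP.of_le one_le_two) hx) i).trans
    (rot_lift (contDiff_derT (m := 1) hP le_rfl) hx i)

lemma rot_rot_lift (i j : Fin 3) :
    rot i (rot j (lift P)) x = rotT i (rotT j P) (Real.log ‖x‖) (‖x‖⁻¹ • x) := by
  rw [rot_lift_fun (hP.of_le one_le_two) j]
  exact rot_lift (contDiff_rotT (m := 1) hP le_rfl j) hx i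

end lifted

/-- The Ricci form of `metFN` of the lifts, in the variables of the construction. -/
theorem ricci_polar (ha : ContDiff ℝ 2 a) (hρ : ContDiff ℝ 2 (Function.uncurry ρ))
    (hω : ContDiff ℝ 2 (Function.uncurry ω)) (hF : ContDiff ℝ 2 (lift (confP a ρ)))
    (hN : ContDiff ℝ 2 (lift (lapse ω))) (hF0 : ∀ y, lift (confP a ρ) y ≠ 0)
    (hN0 : ∀ y, lift (lapse ω) y ≠ 0) {x : Space 3} (hx : x ≠ 0) {t : ℝ} {θ : Space 3}
    (ht : Real.log ‖x‖ = t) (hθ : ‖x‖⁻¹ • x = θ)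
    (heq : ∑ i, rotT i (rotT i ω) t θ = -(a t ^ 2) * derT ρ t θ) (v : Space 3) :
    ‖x‖ ^ 2 * ∑ i, ∑ j, ricci (polarMet a ρ ω) i j x * v i * v j
      = (-2 * deriv (fun s => a s + deriv a s) t / a t
            + (ω t θ * (derT ρ t θ / ρ t θ) + (derT ρ t θ / ρ t θ) ^ 2 / 2
              - 2 * (deriv a t / a t) * (derT ρ t θ / ρ t θ) - derT (derT ρ) t θ / ρ t θ
              + 2 * ((1 + deriv a t / a t + derT ρ t θ / ρ t θ / 2) * derT ω t θ / (1 + ω t θ))))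
            * (ip x v / ‖x‖) ^ 2
          - 2 * (ip x v / ‖x‖) * (∑ i, cr x v i * ((rotT i (derT ρ) t θ / ρ t θ
                - derT ρ t θ / ρ t θ * (rotT i ρ t θ / ρ t θ)) / 2
              - (1 + deriv a t / a t + derT ρ t θ / ρ t θ / 2) * rotT i ω t θ / (1 + ω t θ)))
          + ((1 - (1 / 2) * ((∑ i, rotT i (rotT i ρ) t θ) / ρ t θ
                - (∑ i, rotT i ρ t θ * rotT i ρ t θ) / ρ t θ ^ 2))
            - a t ^ 2 * ρ t θ / (1 + ω t θ) ^ 2 * ((1 + deriv a t / a t) ^ 2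
              + deriv (fun s => a s + deriv a s) t / a t
              + (derT (derT ρ) t θ / ρ t θ / 2 + 3 / 2 * (derT ρ t θ / ρ t θ)
                + 2 * (deriv a t / a t) * (derT ρ t θ / ρ t θ)
                - (1 + deriv a t / a t + derT ρ t θ / ρ t θ / 2) * derT ω t θ / (1 + ω t θ)))
            - (∑ i, rotT i ρ t θ * rotT i ω t θ) / (2 * ρ t θ * (1 + ω t θ)))
              * (∑ i, cr x v i ^ 2)
          - ∑ i, ∑ j, cr x v i * cr x v j
              * ((rotT i (rotT j ω) t θ - rotT i ρ t θ / ρ t θ * rotT j ω t θ) / (1 + ω t θ)) := by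
  have h2P : ContDiff ℝ 2 (Function.uncurry (confP a ρ)) := ((ha.comp contDiff_fst).pow 2).mul hρ
  have h2Q : ContDiff ℝ 2 (Function.uncurry (lapse ω)) := contDiff_const.add hω
  have eF : lift (confP a ρ) x = a t ^ 2 * ρ t θ := by rw [lift, ht, hθ]; rfl
  have eN : lift (lapse ω) x = 1 + ω t θ := by rw [lift, ht, hθ]; rfl
  have hne : a t ^ 2 * ρ t θ ≠ 0 := eF ▸ hF0 x
  obtain ⟨ha0, hr0⟩ := mul_ne_zero_iff.1 hne
  have ha1 : a t ≠ 0 := fun h => ha0 (by simp [h])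
  have hw0 : 1 + ω t θ ≠ 0 := eN ▸ hN0 x
  rw [polarMet_eq, ricci_rot hF hN hF0 hN0 hx v]
  simp only [uR, duR, dzR, eul_eul_lift h2P hx, rot_eul_lift h2P hx, rot_rot_lift h2P hx,
    rot_rot_lift h2Q hx, eul_lift (h2P.of_le one_le_two) hx, eul_lift (h2Q.of_le one_le_two) hx,
    rot_lift (h2P.of_le one_le_two) hx, rot_lift (h2Q.of_le one_le_two) hx, eF, eN, ht, hθ]
  simp_rw [show ∀ i, rot i (confP a ρ t) θ = rotT i (confP a ρ) t θ from fun _ => rfl,
    show ∀ i, rot i (lapse ω t) θ = rotT i (lapse ω) t θ from fun _ => rfl,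
    show deriv (fun s => confP a ρ s θ) t = derT (confP a ρ) t θ from rfl,
    show deriv (fun s => lapse ω s θ) t = derT (lapse ω) t θ from rfl]
  simp_rw [derT_derT_confP ha hρ, rotT_derT_confP ha hρ, rotT_rotT_confP hρ]
  simp_rw [rotT_confP (hρ.of_le one_le_two), derT_confP ha hρ, derT_lapse, rotT_lapse, phi_deriv ha]
  rw [heq]
  simp only [Fin.sum_univ_three]
  field_simp
  ring

namespace IsPolarData

variable (h : IsPolarData c0 B δ η0 K T0 a ρ ω)
include h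

lemma rho_of_nonpos {t : ℝ} (ht : t ≤ 0) (θ : Space 3) : ρ t θ = 1 :=
  (h.round t (lt_of_le_of_lt ht h.T0_pos) θ).1

lemma om_of_nonpos {t : ℝ} (ht : t ≤ 0) (θ : Space 3) : ω t θ = 0 :=
  (h.round t (lt_of_le_of_lt ht h.T0_pos) θ).2

lemma contDiff_uncurry_confP : ContDiff ℝ (⊤ : ℕ∞) (Function.uncurry (confP a ρ)) :=
  ((h.smooth_a.comp contDiff_fst).pow 2).mul h.smooth_rho

lemma contDiff_uncurry_lapse : ContDiff ℝ (⊤ : ℕ∞) (Function.uncurry (lapse ω)) :=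
  contDiff_const.add h.smooth_om

lemma confP_nonpos : ∀ t ≤ 0, ∀ θ, confP a ρ t θ = 1 := fun t ht θ => by
  rw [confP, h.a_one t ht, h.rho_of_nonpos ht, one_pow, mul_one]

lemma lapse_nonpos : ∀ t ≤ 0, ∀ θ, lapse ω t θ = 1 := fun t ht θ => by
  rw [lapse, h.om_of_nonpos ht, add_zero]

lemma contDiff_conf : ContDiff ℝ (⊤ : ℕ∞) (lift (confP a ρ)) :=
  contDiff_lift h.contDiff_uncurry_confP h.confP_nonpos

lemma contDiff_lapse : ContDiff ℝ (⊤ : ℕ∞) (lift (lapse ω)) :=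
  contDiff_lift h.contDiff_uncurry_lapse h.lapse_nonpos

lemma range_on_sphere (hc0 : 0 < c0) (hη0 : η0 ≤ 1 / 2) (t : ℝ) {θ : Space 3} (hθ : ‖θ‖ = 1) :
    (min c0 1 / 4 ≤ confP a ρ t θ ∧ confP a ρ t θ ≤ max B 1) ∧
      1 / 2 ≤ lapse ω t θ ∧ lapse ω t θ ≤ 3 / 2 := by
  have ha := h.a_lower t
  have ha2 : 1 / 4 ≤ a t ^ 2 := le_trans (by norm_num) (pow_le_pow_left₀ (by norm_num) ha 2)
  have ha3 : a t ^ 2 ≤ 1 := pow_le_one₀ (by linarith) (h.a_le t)
  rcases lt_or_ge t T0 with ht | ht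
  · obtain ⟨h1, h2⟩ := h.round t ht θ
    rw [confP, lapse, h1, h2, mul_one]
    exact ⟨⟨by linarith [min_le_right c0 1], ha3.trans (le_max_right _ _)⟩, by norm_num, by norm_num⟩
  · obtain ⟨η, q, hη, -, -, -, -, hb⟩ := h.small t ht
    obtain ⟨⟨h1, h2, -⟩, -, -, -, h3, -⟩ := hb θ hθ
    obtain ⟨w1, w2⟩ := abs_le.1 h3
    rw [confP, lapse]
    refine ⟨⟨?_, (mul_le_of_le_one_left (hc0.le.trans h1) ha3).trans (h2.trans (le_max_left _ _))⟩,
      by linarith, by linarith⟩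
    calc min c0 1 / 4 = 1 / 4 * min c0 1 := by ring
      _ ≤ a t ^ 2 * ρ t θ :=
        mul_le_mul ha2 ((min_le_left _ _).trans h1) (le_min hc0.le zero_le_one) (sq_nonneg _)

lemma range_lift (hc0 : 0 < c0) (hη0 : η0 ≤ 1 / 2) (x : Space 3) :
    (min c0 1 / 4 ≤ lift (confP a ρ) x ∧ lift (confP a ρ) x ≤ max B 1) ∧
      1 / 2 ≤ lift (lapse ω) x ∧ lift (lapse ω) x ≤ 3 / 2 := by
  by_cases hx : x = 0
  · subst hx
    rw [lift_eq_near h.confP_nonpos (by simp), lift_eq_near h.lapse_nonpos (by simp)]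
    exact ⟨⟨by linarith [min_le_right c0 1], le_max_right _ _⟩, by norm_num, by norm_num⟩
  · exact h.range_on_sphere hc0 hη0 _ (norm_inv_smul hx)

lemma pos (hc0 : 0 < c0) (hη0 : η0 ≤ 1 / 2) (x : Space 3) :
    0 < lift (confP a ρ) x ∧ 0 < lift (lapse ω) x := by
  obtain ⟨⟨h1, -⟩, h2, -⟩ := h.range_lift hc0 hη0 x
  exact ⟨lt_of_lt_of_le (by have := lt_min hc0 one_pos; positivity) h1, lt_of_lt_of_le (by norm_num) h2⟩

/-- The metric is smooth and comparable to the Euclidean one. -/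
theorem isBoundedMetric (hc0 : 0 < c0) (hη0 : η0 ≤ 1 / 2) : IsBoundedMetric (polarMet a ρ ω) := by
  have hm : (1 : ℝ) ≤ max B 1 := le_max_right _ _
  have hk : 0 < min (min c0 1 / 4) (min (1 / 4) (max B 1 + 2)⁻¹) :=
    lt_min (by have := lt_min hc0 one_pos; positivity) (lt_min (by norm_num) (by positivity))
  rw [polarMet_eq]
  refine isBoundedMetric_metFN h.contDiff_conf h.contDiff_lapse
    (fun x hx => ⟨lift_eq_near h.confP_nonpos hx, lift_eq_near h.lapse_nonpos hx⟩) hk fun x => ?_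
  obtain ⟨⟨h1, h2⟩, h3, h4⟩ := h.range_lift hc0 hη0 x
  have hup : max B 1 + 2 ≤ (min (min c0 1 / 4) (min (1 / 4) (max B 1 + 2)⁻¹))⁻¹ := by
    rw [le_inv_comm₀ (by positivity) hk]
    exact (min_le_right _ _).trans (min_le_right _ _)
  refine ⟨⟨(min_le_left _ _).trans h1, by linarith⟩, ?_, ?_⟩
  · exact ((min_le_right _ _).trans (min_le_left _ _)).trans
      (le_trans (by norm_num) (pow_le_pow_left₀ (by norm_num) h3 2))
  · exact le_trans (le_trans (pow_le_pow_left₀ (by linarith) h4 2) (by linarith)) hup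

/-- The Laplace-Beltrami operator, away from the origin. -/
theorem lapBel_eq (hc0 : 0 < c0) (hη0 : η0 ≤ 1 / 2) {U : Space 3 → ℝ} (hU : ContDiff ℝ 2 U)
    {x : Space 3} (hx : x ≠ 0) :
    lapBel (polarMet a ρ ω) U x = (‖x‖ ^ 2 * (lift (lapse ω) x * lift (confP a ρ) x))⁻¹ *
      (eul (fun y => lift (fun t θ => a t ^ 2 * ρ t θ / (1 + ω t θ)) y * eul U y) x
        + lift (fun t θ => a t ^ 2 * ρ t θ / (1 + ω t θ)) x * eul U x
        + ∑ i, rot i (fun y => lift (fun t θ => 1 + ω t θ) y * rot i U y) x) :=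
  lapBel_metFN (h.contDiff_conf.of_le two_le_infty)
    (h.contDiff_lapse.of_le two_le_infty) hU (fun y => (h.pos hc0 hη0 y).1)
    (fun y => (h.pos hc0 hη0 y).2) hx

lemma ricci_origin (i j : Fin 3) : ricci (polarMet a ρ ω) i j 0 = 0 := by
  have hg : ∀ᶠ y in 𝓝 (0 : Space 3), ∀ k l, polarMet a ρ ω y k l = dl k l := by
    filter_upwards [Metric.ball_mem_nhds (0 : Space 3) one_pos] with y hy
    intro k l
    have hy' := (mem_ball_zero_iff.1 hy).le
    simp [polarMet_eq, metFN, lift_eq_near h.confP_nonpos hy', lift_eq_near h.lapse_nonpos hy']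
  have hp : ∀ m k l, ∀ᶠ y in 𝓝 (0 : Space 3), pd m (fun z => polarMet a ρ ω z k l) y = 0 :=
    fun m k l => hg.eventually_nhds.mono fun y hy =>
      (pd_congr_at m (g := fun _ => dl k l) (hy.mono fun z hz => hz k l)).trans (pd_const_at _ _)
  have hc : ∀ k l m, christ (polarMet a ρ ω) k l m =ᶠ[𝓝 0] fun _ => (0 : ℝ) := by
    intro k l m
    filter_upwards [eventually_all.2 fun n => (hp l m n).and ((hp m l n).and (hp n l m))] with y hy
    simp [christ, fun n => (hy n).1, fun n => (hy n).2.1, fun n => (hy n).2.2]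
  have hc0' : ∀ k l m, christ (polarMet a ρ ω) k l m 0 = 0 := fun k l m => (hc k l m).self_of_nhds
  simp [ricci, pd_congr_at _ (hc _ _ _), pd_const_at, hc0']

lemma round_jet {t : ℝ} (ht : t < T0) :
    ρ t = (fun _ => 1) ∧ ω t = (fun _ => 0) ∧ derT ρ t = (fun _ => 0) ∧
      (∀ θ, derT ω t θ = 0) ∧ ∀ θ, derT (derT ρ) t θ = 0 := by
  have hn : ∀ᶠ s in 𝓝 t, s < T0 := Iio_mem_nhds ht
  have h1 : ∀ s < T0, ∀ θ, derT ρ s θ = 0 := fun s hs θ => by
    rw [derT, EventuallyEq.deriv_eq (f := fun _ => (1 : ℝ))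
      ((Iio_mem_nhds hs : Iio T0 ∈ 𝓝 s) |> fun m => Filter.mem_of_superset m
        fun r hr => (h.round r hr θ).1), deriv_const]
  refine ⟨funext fun θ => (h.round t ht θ).1, funext fun θ => (h.round t ht θ).2,
    funext (h1 t ht), fun θ => ?_, fun θ => ?_⟩
  · rw [derT, EventuallyEq.deriv_eq (f := fun _ => (0 : ℝ)) (hn.mono fun s hs => (h.round s hs θ).2),
      deriv_const]
  · rw [derT, EventuallyEq.deriv_eq (f := fun _ => (0 : ℝ)) (hn.mono fun s hs => h1 s hs θ),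
      deriv_const]

end IsPolarData

/-- Nonnegative Ricci curvature: the constants depend on the shape bounds only. -/
theorem ricciNonneg_polar {c0 B δ : ℝ} (hc0 : 0 < c0) (hB : 0 ≤ B) (hδ : 0 < δ) :
    ∃ η0 K : ℝ, 0 < η0 ∧ η0 ≤ 1 / 2 ∧ 0 ≤ K ∧ ∀ (T0 : ℝ) (a : ℝ → ℝ) (ρ ω : ℝ → Space 3 → ℝ),
      IsPolarData c0 B δ η0 K T0 a ρ ω → RicciNonneg (polarMet a ρ ω) := by
  obtain ⟨η0, K, hη0, hη0', hK, hmain⟩ := polar_scalar hc0 hB hδ
  refine ⟨η0, K, hη0, hη0', hK, fun T0 a ρ ω h x v => ?_⟩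
  by_cases hx : x = 0
  · subst hx
    simp [h.ricci_origin]
  refine nonneg_of_mul_nonneg_right (a := ‖x‖ ^ 2) ?_ (by positivity)
  set t := Real.log ‖x‖ with ht
  set θ := ‖x‖⁻¹ • x with hθd
  have hθ : ‖θ‖ = 1 := norm_inv_smul hx
  have ha : ContDiff ℝ 2 a := h.smooth_a.of_le two_le_infty
  have hρ : ContDiff ℝ 2 (Function.uncurry ρ) := h.smooth_rho.of_le two_le_infty
  have hω : ContDiff ℝ 2 (Function.uncurry ω) := h.smooth_om.of_le two_le_infty
  have ha0 : 0 < a t := by linarith [h.a_lower t]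
  have main := ricci_polar ha hρ hω (h.contDiff_conf.of_le two_le_infty)
    (h.contDiff_lapse.of_le two_le_infty) (fun y => (h.pos hc0 hη0' y).1.ne')
    (fun y => (h.pos hc0 hη0' y).2.ne') hx ht.symm hθd.symm
  rcases lt_or_ge t T0 with htT | htT
  · obtain ⟨hr, hw, hrt, hwt, hrtt⟩ := h.round_jet htT
    have hz : ∀ (c : ℝ) i, rot i (fun _ : Space 3 => c) θ = 0 := fun c i => by simp [rot, pd_const_at]
    have hzf : ∀ (c : ℝ) i, rot i (fun _ : Space 3 => c) = fun _ => 0 := fun c i => by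
      funext y; simp [rot, pd_const_at]
    have e1 : ∀ i, rotT i ρ t θ = 0 := fun i => by rw [rotT, hr, hz]
    have e2 : ∀ i, rotT i ω t θ = 0 := fun i => by rw [rotT, hw, hz]
    have e3 : ∀ i j, rotT i (rotT j ρ) t θ = 0 := fun i j => by
      show rot i (rot j (ρ t)) θ = 0
      rw [hr, hzf, hz]
    have e4 : ∀ i j, rotT i (rotT j ω) t θ = 0 := fun i j => by
      show rot i (rot j (ω t)) θ = 0
      rw [hw, hzf, hz]
    have e5 : ∀ i, rotT i (derT ρ) t θ = 0 := fun i => by rw [rotT, hrt, hz]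
    rw [main (by simp [e4, hrt]) v]
    simp only [e1, e2, e3, e4, e5, hwt, hrtt, show ρ t θ = 1 from congr_fun hr θ,
      show ω t θ = 0 from congr_fun hw θ, show derT ρ t θ = 0 from congr_fun hrt θ]
    set φ1 := deriv (fun s => a s + deriv a s) t
    have hφ : φ1 ≤ 0 := h.phi_anti t
    have h1 : φ1 / a t ≤ 0 := div_nonpos_of_nonpos_of_nonneg hφ ha0.le
    have h2 : (a t + deriv a t) ^ 2 ≤ 1 :=
      pow_le_one₀ (h.phi_nonneg t) (by linarith [h.a_le t, h.a_deriv t])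
    have h3 : a t ^ 2 * (1 + deriv a t / a t) ^ 2 = (a t + deriv a t) ^ 2 := by
      field_simp
    have h4 : 0 ≤ a t ^ 2 * -(φ1 / a t) := mul_nonneg (sq_nonneg _) (by linarith)
    have h5 : 0 ≤ (1 - a t ^ 2 * ((1 + deriv a t / a t) ^ 2 + φ1 / a t))
        * ∑ i, cr x v i ^ 2 :=
      mul_nonneg (by linarith) (Finset.sum_nonneg fun i _ => sq_nonneg _)
    have h6 : 0 ≤ -(φ1 / a t) * (ip x v / ‖x‖) ^ 2 := mul_nonneg (by linarith) (sq_nonneg _)
    simp only [Fin.sum_univ_three] at h5 ⊢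
    ring_nf
    ring_nf at h5 h6
    linarith
  · obtain ⟨η, q, hη, hq, hηq, haη, hKq, hb⟩ := h.small t htT
    obtain ⟨⟨b1, b2, b3⟩, b4, b5, b6, b7, b8, b9, b10, b11⟩ := hb θ hθ
    rw [main (h.eqn t htT θ hθ) v]
    exact hmain (a t) (deriv a t) _ (ρ t θ) (derT ρ t θ) (derT (derT ρ) t θ) (ω t θ) (derT ω t θ)
      η q _ (fun i => rotT i ρ t θ) (fun i => rotT i (derT ρ) t θ) (fun i => rotT i ω t θ)
      (fun i j => rotT i (rotT j ω) t θ) (cr x v) _ (h.a_lower t) (h.a_le t) (h.a_deriv t)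
      (h.phi_nonneg t) hη hq hηq haη hKq b1 b2 b3 b4 b5 b6 b7 b8 b9 b10 b11

end

end Vale.Agent.P225.Disproof.Met3
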