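import Vale.Agent.P225.Disproof.MetricJet
import Mathlib.Analysis.InnerProductSpace.Calculus
import Mathlib.Analysis.Calculus.Deriv.Inv
import Mathlib.Analysis.Calculus.FDeriv.Symmetric
import Mathlib.Analysis.SpecialFunctions.Log.Basic

/-!
# P225 L: polar conformal metrics and their jets
-/

namespace Vale.Agent.P225.Disproof.Met3

open Filter Topology

noncomputable section

variable {n : ℕ}

/-- A function of `t = log |x|` and `θ = x / |x|`. -/
def lift (P : ℝ → Space n → ℝ) (x : Space n) : ℝ := P (Real.log ‖x‖) (‖x‖⁻¹ • x)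

/-- The Euler derivative `x · ∇f`, that is `d / d log r`. -/
def eul (f : Space n → ℝ) (x : Space n) : ℝ := fderiv ℝ f x x

/-- The direction tensor `x xᵀ / |x|²`. -/
def cdir (i j : Fin 3) (x : Space 3) : ℝ := x i * x j / ‖x‖ ^ 2

/-- The metric `N² dr² + F · (tangential)`. -/
def metFN (F N : Space 3 → ℝ) : Met 3 := fun x =>
  Matrix.of fun i j => F x * dl i j + (N x ^ 2 - F x) * cdir i j x

/-- The metric `(1 + ω)² dr² + r² a² ρ g_S` in Cartesian coordinates. -/
def polarMet (a : ℝ → ℝ) (ρ ω : ℝ → Space 3 → ℝ) : Met 3 :=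
  metFN (lift fun t θ => a t ^ 2 * ρ t θ) (lift fun t θ => 1 + ω t θ)

lemma contDiff_coord (i : Fin n) {m : WithTop ℕ∞} : ContDiff ℝ m fun y : Space n => y i :=
  (EuclideanSpace.proj i : Space n →L[ℝ] ℝ).contDiff

lemma pd_coord (i m : Fin 3) (x : Space 3) : pd m (fun y : Space 3 => y i) x = dl i m := by
  unfold pd dl
  rw [show (fun y : Space 3 => y i) = (EuclideanSpace.proj i : Space 3 →L[ℝ] ℝ) from rfl,
    ContinuousLinearMap.fderiv]
  simp [PiLp.single_apply]

section calculus

variable {f g : Space n → ℝ} {x : Space n} (i : Fin n)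

lemma pd_add_at (hf : DifferentiableAt ℝ f x) (hg : DifferentiableAt ℝ g x) :
    pd i (fun y => f y + g y) x = pd i f x + pd i g x := by
  simp [pd, fderiv_fun_add hf hg]

lemma pd_sub_at (hf : DifferentiableAt ℝ f x) (hg : DifferentiableAt ℝ g x) :
    pd i (fun y => f y - g y) x = pd i f x - pd i g x := by
  simp [pd, fderiv_fun_sub hf hg]

lemma pd_mul_at (hf : DifferentiableAt ℝ f x) (hg : DifferentiableAt ℝ g x) :
    pd i (fun y => f y * g y) x = pd i f x * g x + f x * pd i g x := by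
  simp [pd, fderiv_fun_mul hf hg]; ring

lemma pd_const_at (c : ℝ) : pd i (fun _ : Space n => c) x = 0 := by simp [pd]

lemma pd_const_mul_at (c : ℝ) (hf : DifferentiableAt ℝ f x) :
    pd i (fun y => c * f y) x = c * pd i f x := by
  simp [pd, fderiv_const_mul hf]

lemma pd_inv_at (hf : DifferentiableAt ℝ f x) (h0 : f x ≠ 0) :
    pd i (fun y => (f y)⁻¹) x = -pd i f x / f x ^ 2 := by
  have h := (hasDerivAt_inv h0).comp_hasFDerivAt x hf.hasFDerivAt
  rw [pd, show fderiv ℝ (fun y => (f y)⁻¹) x = _ from h.fderiv]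
  simp [pd]
  ring

lemma pd_sum_at {ι : Type*} (s : Finset ι) {f : ι → Space n → ℝ}
    (hf : ∀ k ∈ s, DifferentiableAt ℝ (f k) x) :
    pd i (fun y => ∑ k ∈ s, f k y) x = ∑ k ∈ s, pd i (f k) x := by
  simp [pd, fderiv_fun_sum hf]

lemma pd_congr_at (h : f =ᶠ[𝓝 x] g) : pd i f x = pd i g x := by simp [pd, h.fderiv_eq]

lemma contDiff_pd_of {m k : WithTop ℕ∞} (hf : ContDiff ℝ k f) (hm : m + 1 ≤ k) :
    ContDiff ℝ m (pd i f) :=
  (hf.fderiv_right hm).clm_apply contDiff_const

end calculus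

lemma pd_pd_comm {f : Space n → ℝ} (hf : ContDiff ℝ 2 f) (i j : Fin n) (x : Space n) :
    pd i (pd j f) x = pd j (pd i f) x := by
  have h : DifferentiableAt ℝ (fderiv ℝ f) x :=
    (hf.fderiv_right (m := 1) le_rfl).differentiable one_ne_zero x
  have e : ∀ a b : Fin n, pd a (pd b f) x
      = fderiv ℝ (fderiv ℝ f) x (EuclideanSpace.single a 1) (EuclideanSpace.single b 1) := by
    intro a b
    show fderiv ℝ (fun y => fderiv ℝ f y (EuclideanSpace.single b 1)) x
      (EuclideanSpace.single a 1) = _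
    rw [fderiv_clm_apply h (differentiableAt_const _)]
    simp
  rw [e, e]
  exact (hf.contDiffAt.isSymmSndFDerivAt (by simp)).eq _ _

lemma eul_eq_sum (f : Space 3 → ℝ) (x : Space 3) : eul f x = ∑ i, x i * pd i f x := by
  have hx : x = ∑ i, x i • EuclideanSpace.single i (1 : ℝ) := by
    ext j
    simp [Pi.single_apply]
  unfold eul
  conv_lhs => arg 2; rw [hx]
  simp [pd]

/-! ### The direction tensor -/

lemma pd_normSq (m : Fin 3) (x : Space 3) : pd m (fun y : Space 3 => ‖y‖ ^ 2) x = 2 * x m := by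
  rw [pd, show fderiv ℝ (fun y : Space 3 => ‖y‖ ^ 2) x = _ from
    (hasStrictFDerivAt_norm_sq x).hasFDerivAt.fderiv]
  simp [EuclideanSpace.inner_single_right]

lemma contDiff_normSq {m : WithTop ℕ∞} : ContDiff ℝ m fun y : Space 3 => ‖y‖ ^ 2 :=
  contDiff_norm_sq ℝ

lemma normSq_ne {x : Space 3} (hx : x ≠ 0) : ‖x‖ ^ 2 ≠ 0 := by simpa using hx

lemma contDiffAt_cdir {x : Space 3} (hx : x ≠ 0) (i j : Fin 3) {m : WithTop ℕ∞} :
    ContDiffAt ℝ m (cdir i j) x :=
  ((contDiff_coord i).mul (contDiff_coord j)).contDiffAt.div contDiff_normSq.contDiffAt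
    (normSq_ne hx)

lemma sum_cdir_mul {x : Space 3} (hx : x ≠ 0) (i j : Fin 3) :
    ∑ k, cdir i k x * cdir k j x = cdir i j x := by
  have h := normSq_ne hx
  simp only [cdir, Fin.sum_univ_three]
  field_simp
  rw [EuclideanSpace.real_norm_sq_eq, Fin.sum_univ_three]
  ring

/-- First derivative of the direction tensor. -/
def c1f (m i j : Fin 3) (x : Space 3) : ℝ :=
  (dl i m * x j + dl j m * x i) * (‖x‖ ^ 2)⁻¹ - 2 * (x i * x j * x m) * ((‖x‖ ^ 2) ^ 2)⁻¹

/-- Second derivative of the direction tensor. -/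
def c2f (l m i j : Fin 3) (x : Space 3) : ℝ :=
  (dl i m * dl j l + dl j m * dl i l) * (‖x‖ ^ 2)⁻¹
    - 2 * ((dl i m * x j + dl j m * x i) * x l
        + (dl i l * x j * x m + dl j l * x i * x m + dl m l * x i * x j)) * ((‖x‖ ^ 2) ^ 2)⁻¹
    + 8 * (x i * x j * x m * x l) * ((‖x‖ ^ 2) ^ 3)⁻¹

lemma pd_cdir {x : Space 3} (hx : x ≠ 0) (m i j : Fin 3) :
    pd m (cdir i j) x = c1f m i j x := by
  have hd : ∀ k, DifferentiableAt ℝ (fun y : Space 3 => y k) x :=
    fun k => (contDiff_coord k (m := 1)).differentiable one_ne_zero x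
  have hS : DifferentiableAt ℝ (fun y : Space 3 => ‖y‖ ^ 2) x :=
    (contDiff_normSq (m := 1)).differentiable one_ne_zero x
  have h0 := normSq_ne hx
  rw [show cdir i j = fun y : Space 3 => (y i * y j) * (‖y‖ ^ 2)⁻¹ from
    funext fun y => div_eq_mul_inv _ _]
  rw [pd_mul_at m ((hd i).fun_mul (hd j)) (hS.fun_inv h0), pd_mul_at m (hd i) (hd j),
    pd_inv_at m hS h0, pd_normSq, pd_coord, pd_coord, c1f]
  field_simp
  ring

lemma pd_c1f {x : Space 3} (hx : x ≠ 0) (l m i j : Fin 3) :
    pd l (c1f m i j) x = c2f l m i j x := by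
  have hd : ∀ k, DifferentiableAt ℝ (fun y : Space 3 => y k) x :=
    fun k => (contDiff_coord k (m := 1)).differentiable one_ne_zero x
  have hS : DifferentiableAt ℝ (fun y : Space 3 => ‖y‖ ^ 2) x :=
    (contDiff_normSq (m := 1)).differentiable one_ne_zero x
  have h0 := normSq_ne hx
  have hS2 : DifferentiableAt ℝ (fun y : Space 3 => ((‖y‖ ^ 2) ^ 2)) x := hS.fun_pow 2
  have h2 : (‖x‖ ^ 2) ^ 2 ≠ 0 := pow_ne_zero 2 h0
  have hp : pd l (fun y : Space 3 => (‖y‖ ^ 2) ^ 2) x = 4 * ‖x‖ ^ 2 * x l := by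
    simp only [pow_two (‖_‖ ^ 2)]
    rw [pd_mul_at l hS hS, pd_normSq]
    ring
  unfold c1f
  rw [pd_sub_at l (((hd j).const_mul (dl i m)).fun_add ((hd i).const_mul (dl j m)) |>.fun_mul
      (hS.fun_inv h0)) (((((hd i).fun_mul (hd j)).fun_mul (hd m)).const_mul 2).fun_mul
      (hS2.fun_inv h2)),
    pd_mul_at l (((hd j).const_mul (dl i m)).fun_add ((hd i).const_mul (dl j m))) (hS.fun_inv h0),
    pd_mul_at l ((((hd i).fun_mul (hd j)).fun_mul (hd m)).const_mul 2) (hS2.fun_inv h2),
    pd_add_at l ((hd j).const_mul _) ((hd i).const_mul _),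
    pd_const_mul_at l _ (hd j), pd_const_mul_at l _ (hd i),
    pd_const_mul_at l _ (((hd i).fun_mul (hd j)).fun_mul (hd m)),
    pd_mul_at l ((hd i).fun_mul (hd j)) (hd m), pd_mul_at l (hd i) (hd j),
    pd_inv_at l hS h0, pd_inv_at l hS2 h2, hp, pd_normSq, pd_coord, pd_coord, pd_coord, c2f]
  field_simp
  ring

/-! ### Jets of the metric -/

variable {F N : Space 3 → ℝ}

/-- Inverse metric. -/
def hf (F N : Space 3 → ℝ) (i j : Fin 3) (x : Space 3) : ℝ :=
  (F x)⁻¹ * dl i j + ((N x * N x)⁻¹ - (F x)⁻¹) * cdir i j x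

/-- Derivative of the inverse metric. -/
def h1f (F N : Space 3 → ℝ) (m i j : Fin 3) (x : Space 3) : ℝ :=
  -pd m F x / F x ^ 2 * dl i j + (-2 * pd m N x / N x ^ 3 + pd m F x / F x ^ 2) * cdir i j x
    + ((N x * N x)⁻¹ - (F x)⁻¹) * c1f m i j x

/-- Derivative of the metric. -/
def g1f (F N : Space 3 → ℝ) (m i j : Fin 3) (x : Space 3) : ℝ :=
  pd m F x * dl i j + (2 * (N x * pd m N x) - pd m F x) * cdir i j x
    + (N x * N x - F x) * c1f m i j x

/-- Second derivative of the metric. -/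
def g2f (F N : Space 3 → ℝ) (l m i j : Fin 3) (x : Space 3) : ℝ :=
  pd l (pd m F) x * dl i j
    + (2 * (pd l N x * pd m N x + N x * pd l (pd m N) x) - pd l (pd m F) x) * cdir i j x
    + (2 * (N x * pd m N x) - pd m F x) * c1f l i j x
    + (2 * (N x * pd l N x) - pd l F x) * c1f m i j x
    + (N x * N x - F x) * c2f l m i j x

lemma dl_sum_mul (f : Fin 3 → ℝ) (i : Fin 3) : ∑ k, dl i k * f k = f i := by
  simp [dl, Finset.sum_ite_eq, ite_mul]

lemma sum_mul_dl (f : Fin 3 → ℝ) (j : Fin 3) : ∑ k, f k * dl k j = f j := by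
  simp [dl, Finset.sum_ite_eq', mul_ite]

lemma inv_metFN (hF : ∀ y, F y ≠ 0) (hN : ∀ y, N y ≠ 0) {x : Space 3} (hx : x ≠ 0) :
    (metFN F N x)⁻¹ = Matrix.of fun i j => hf F N i j x := by
  refine Matrix.inv_eq_right_inv (Matrix.ext fun i j => ?_)
  simp only [Matrix.mul_apply, metFN, Matrix.of_apply, hf]
  have e : ∀ A B A' B' : ℝ, ∑ k, (A * dl i k + B * cdir i k x) * (A' * dl k j + B' * cdir k j x)
      = A * A' * dl i j + (A * B' + B * A' + B * B') * cdir i j x := by
    intro A B A' B'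
    have e1 : ∀ k, (A * dl i k + B * cdir i k x) * (A' * dl k j + B' * cdir k j x)
        = A * A' * (dl i k * dl k j) + A * B' * (dl i k * cdir k j x)
          + B * A' * (cdir i k x * dl k j) + B * B' * (cdir i k x * cdir k j x) := fun k => by ring
    simp only [e1, Finset.sum_add_distrib, ← Finset.mul_sum, dl_sum_mul, sum_mul_dl,
      sum_cdir_mul hx]
    ring
  rw [e, show (1 : Matrix (Fin 3) (Fin 3) ℝ) i j = dl i j from Matrix.one_apply]
  have := hF x
  have := hN x
  field_simp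
  ring

variable (hF : ContDiff ℝ 2 F) (hN : ContDiff ℝ 2 N)

include hF hN in
lemma pd_metFN {x : Space 3} (hx : x ≠ 0) (m i j : Fin 3) :
    pd m (fun y => metFN F N y i j) x = g1f F N m i j x := by
  have dF := hF.differentiable two_ne_zero x
  have dN := hN.differentiable two_ne_zero x
  have dc := (contDiffAt_cdir hx i j (m := 1)).differentiableAt one_ne_zero
  simp only [metFN, Matrix.of_apply, pow_two]
  rw [pd_add_at m (dF.mul_const _) (((dN.fun_mul dN).fun_sub dF).fun_mul dc),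
    pd_mul_at m dF (differentiableAt_const _), pd_const_at,
    pd_mul_at m ((dN.fun_mul dN).fun_sub dF) dc, pd_sub_at m (dN.fun_mul dN) dF,
    pd_mul_at m dN dN, pd_cdir hx, g1f]
  ring

include hF hN in
lemma pd_hf (hF0 : ∀ y, F y ≠ 0) (hN0 : ∀ y, N y ≠ 0) {x : Space 3} (hx : x ≠ 0) (m i j : Fin 3) :
    pd m (hf F N i j) x = h1f F N m i j x := by
  have dF := hF.differentiable two_ne_zero x
  have dN := hN.differentiable two_ne_zero x
  have dc := (contDiffAt_cdir hx i j (m := 1)).differentiableAt one_ne_zero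
  have hNN : N x * N x ≠ 0 := mul_ne_zero (hN0 x) (hN0 x)
  have dFi := dF.fun_inv (hF0 x)
  have dNi := (dN.fun_mul dN).fun_inv hNN
  unfold hf
  rw [pd_add_at m (dFi.mul_const _) ((dNi.fun_sub dFi).fun_mul dc),
    pd_mul_at m dFi (differentiableAt_const _), pd_const_at, pd_mul_at m (dNi.fun_sub dFi) dc,
    pd_sub_at m dNi dFi, pd_inv_at m (dN.fun_mul dN) hNN, pd_mul_at m dN dN,
    pd_inv_at m dF (hF0 x), pd_cdir hx, h1f]
  have := hF0 x
  have := hN0 x
  field_simp
  ring

include hF hN in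
lemma pd_g1f {x : Space 3} (hx : x ≠ 0) (l m i j : Fin 3) :
    pd l (g1f F N m i j) x = g2f F N l m i j x := by
  have dF := hF.differentiable two_ne_zero x
  have dN := hN.differentiable two_ne_zero x
  have dF1 := (contDiff_pd_of (m := 1) m hF le_rfl).differentiable one_ne_zero x
  have dN1 := (contDiff_pd_of (m := 1) m hN le_rfl).differentiable one_ne_zero x
  have dc := (contDiffAt_cdir hx i j (m := 1)).differentiableAt one_ne_zero
  have dc1 : DifferentiableAt ℝ (c1f m i j) x := by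
    have hd : ∀ k, DifferentiableAt ℝ (fun y : Space 3 => y k) x :=
      fun k => (contDiff_coord k (m := 1)).differentiable one_ne_zero x
    have hS : DifferentiableAt ℝ (fun y : Space 3 => ‖y‖ ^ 2) x :=
      (contDiff_normSq (m := 1)).differentiable one_ne_zero x
    exact ((((hd j).const_mul _).fun_add ((hd i).const_mul _)).fun_mul
      (hS.fun_inv (normSq_ne hx))).fun_sub
      (((((hd i).fun_mul (hd j)).fun_mul (hd m)).const_mul 2).fun_mul
        ((hS.fun_pow 2).fun_inv (pow_ne_zero 2 (normSq_ne hx))))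
  have dM := ((dN.fun_mul dN1).const_mul (2 : ℝ)).fun_sub dF1
  have dB := (dN.fun_mul dN).fun_sub dF
  unfold g1f
  rw [pd_add_at l ((dF1.mul_const _).fun_add (dM.fun_mul dc)) (dB.fun_mul dc1),
    pd_add_at l (dF1.mul_const _) (dM.fun_mul dc),
    pd_mul_at l dF1 (differentiableAt_const _), pd_const_at, pd_mul_at l dM dc,
    pd_mul_at l dB dc1, pd_sub_at l ((dN.fun_mul dN1).const_mul (2 : ℝ)) dF1,
    pd_const_mul_at l _ (dN.fun_mul dN1), pd_mul_at l dN dN1, pd_sub_at l (dN.fun_mul dN) dF,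
    pd_mul_at l dN dN, pd_cdir hx, pd_c1f hx, g2f]
  ring

lemma eventually_ne_zero {x : Space 3} (hx : x ≠ 0) : ∀ᶠ y in 𝓝 x, y ≠ 0 :=
  isOpen_ne.mem_nhds hx

include hF hN in
/-- The Ricci tensor of `metFN F N` through the jets. -/
theorem ricci_metFN (hF0 : ∀ y, F y ≠ 0) (hN0 : ∀ y, N y ≠ 0) {x : Space 3} (hx : x ≠ 0)
    (i j : Fin 3) :
    ricci (metFN F N) i j x
      = ricJet (fun a b => hf F N a b x) (fun m a b => h1f F N m a b x)
          (fun m a b => g1f F N m a b x) (fun l m a b => g2f F N l m a b x) i j := by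
  have hch : ∀ᶠ y in 𝓝 x, ∀ k a b, christ (metFN F N) k a b y
      = (1 / 2) * ∑ l, hf F N k l y * (g1f F N a b l y + g1f F N b a l y - g1f F N l a b y) := by
    filter_upwards [eventually_ne_zero hx] with y hy k a b
    simp only [christ, inv_metFN hF0 hN0 hy, Matrix.of_apply, pd_metFN hF hN hy]
  have hd : ∀ m k a b, pd m (christ (metFN F N) k a b) x
      = chJet1 (fun a b => hf F N a b x) (fun m a b => h1f F N m a b x)
          (fun m a b => g1f F N m a b x) (fun l m a b => g2f F N l m a b x) m k a b := by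
    intro m k a b
    have d1 : ∀ p q r, DifferentiableAt ℝ (g1f F N p q r) x := by
      intro p q r
      have dF := hF.differentiable two_ne_zero x
      have dN := hN.differentiable two_ne_zero x
      have dF1 := (contDiff_pd_of (m := 1) p hF le_rfl).differentiable one_ne_zero x
      have dN1 := (contDiff_pd_of (m := 1) p hN le_rfl).differentiable one_ne_zero x
      have dc := (contDiffAt_cdir hx q r (m := 1)).differentiableAt one_ne_zero
      have dc1 : DifferentiableAt ℝ (c1f p q r) x := by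
        have hd : ∀ k, DifferentiableAt ℝ (fun y : Space 3 => y k) x :=
          fun k => (contDiff_coord k (m := 1)).differentiable one_ne_zero x
        have hS : DifferentiableAt ℝ (fun y : Space 3 => ‖y‖ ^ 2) x :=
          (contDiff_normSq (m := 1)).differentiable one_ne_zero x
        exact ((((hd r).const_mul _).fun_add ((hd q).const_mul _)).fun_mul
          (hS.fun_inv (normSq_ne hx))).fun_sub
          (((((hd q).fun_mul (hd r)).fun_mul (hd p)).const_mul 2).fun_mul
            ((hS.fun_pow 2).fun_inv (pow_ne_zero 2 (normSq_ne hx))))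
      exact ((dF1.mul_const _).fun_add ((((dN.fun_mul dN1).const_mul (2 : ℝ)).fun_sub dF1).fun_mul
        dc)).fun_add (((dN.fun_mul dN).fun_sub dF).fun_mul dc1)
    have dh : ∀ l, DifferentiableAt ℝ (hf F N k l) x := by
      intro l
      have dF := hF.differentiable two_ne_zero x
      have dN := hN.differentiable two_ne_zero x
      have dc := (contDiffAt_cdir hx k l (m := 1)).differentiableAt one_ne_zero
      exact ((dF.fun_inv (hF0 x)).mul_const _).fun_add
        ((((dN.fun_mul dN).fun_inv (mul_ne_zero (hN0 x) (hN0 x))).fun_sub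
          (dF.fun_inv (hF0 x))).fun_mul dc)
    have db : ∀ l, DifferentiableAt ℝ
        (fun y => g1f F N a b l y + g1f F N b a l y - g1f F N l a b y) x := fun l =>
      ((d1 a b l).fun_add (d1 b a l)).fun_sub (d1 l a b)
    rw [pd_congr_at m (hch.mono fun y hy => hy k a b),
      pd_const_mul_at m _ (DifferentiableAt.fun_sum fun l _ => (dh l).fun_mul (db l)),
      pd_sum_at m _ (fun l _ => (dh l).fun_mul (db l)), chJet1]
    congr 1
    refine Finset.sum_congr rfl fun l _ => ?_
    rw [pd_mul_at m (dh l) (db l), pd_sub_at m ((d1 a b l).fun_add (d1 b a l)) (d1 l a b),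
      pd_add_at m (d1 a b l) (d1 b a l), pd_hf hF hN hF0 hN0 hx, pd_g1f hF hN hx,
      pd_g1f hF hN hx, pd_g1f hF hN hx]
    rfl
  have hc : ∀ k a b, christ (metFN F N) k a b x
      = chJet (fun a b => hf F N a b x) (fun m a b => g1f F N m a b x) k a b := hch.self_of_nhds
  simp only [ricci, ricJet, hd, hc]

end

end Vale.Agent.P225.Disproof.Met3
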