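import Vale.Agent.P225.Disproof.MetricLift

/-!
# P225 L: `polarMet a ρ ω` is bounded, has nonnegative Ricci curvature, and its Laplacian
-/

namespace Vale.Agent.P225.Disproof.Met3

open Filter Topology Set

noncomputable section

/-! ### The Ricci form through rotations and the Euler operator -/

/-- The logarithmic rate. -/
def uR (F N : Space 3 → ℝ) (x : Space 3) : ℝ := (1 + eul F x / (2 * F x)) / N x

/-- Its Euler derivative. -/
def duR (F N : Space 3 → ℝ) (x : Space 3) : ℝ :=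
  (eul (eul F) x / (2 * F x) - eul F x ^ 2 / (2 * F x ^ 2)) / N x
    - (1 + eul F x / (2 * F x)) * eul N x / N x ^ 2

/-- Its rotations. -/
def dzR (F N : Space 3 → ℝ) (x : Space 3) (i : Fin 3) : ℝ :=
  (rot i (eul F) x / (2 * F x) - eul F x * rot i F x / (2 * F x ^ 2)) / N x
    - (1 + eul F x / (2 * F x)) * rot i N x / N x ^ 2

/-- The Ricci form of `metFN F N` through rotations. -/
theorem ricci_rot {F N : Space 3 → ℝ} (hF : ContDiff ℝ 2 F) (hN : ContDiff ℝ 2 N)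
    (hF0 : ∀ y, F y ≠ 0) (hN0 : ∀ y, N y ≠ 0) {x : Space 3} (hx : x ≠ 0) (v : Space 3) :
    ‖x‖ ^ 2 * ∑ i, ∑ j, ricci (metFN F N) i j x * v i * v j
      = (-N x * (∑ i, rot i (rot i N) x) / F x - 2 * N x * (duR F N x - uR F N x)
            - 2 * N x ^ 2 * uR F N x ^ 2) * (ip x v / ‖x‖) ^ 2
        - 2 * N x * (ip x v / ‖x‖) * (∑ i, cr x v i * dzR F N x i)
        + (1 - (1 / 2) * ((∑ i, rot i (rot i F) x) / F x
              - (∑ i, rot i F x * rot i F x) / F x ^ 2)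
            - F x * (duR F N x - uR F N x) / N x - 2 * F x * uR F N x ^ 2
            - (∑ i, rot i F x * rot i N x) / (2 * F x * N x)) * ∑ i, cr x v i ^ 2
        - ((∑ i, ∑ j, cr x v i * cr x v j * rot i (rot j N) x)
            - (∑ i, cr x v i * rot i F x) * (∑ i, cr x v i * rot i N x) / F x) / N x := by
  have hn := norm_ne_zero_iff.2 hx
  have h1 := hF0 x
  have h2 := hN0 x
  have hz : ∑ i, cr x v i * dzR F N x i
      = (∑ i, cr x v i * rot i (eul F) x) / (2 * F x * N x)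
        - eul F x * (∑ i, cr x v i * rot i F x) / (2 * F x ^ 2 * N x)
        - (1 + eul F x / (2 * F x)) * (∑ i, cr x v i * rot i N x) / N x ^ 2 := by
    simp only [dzR, Fin.sum_univ_three]
    field_simp
    ring
  rw [ricci_quad hF hN hF0 hN0 hx, ← tg, hz, cr_rot_eul hF hx, cr_rot hx, cr_rot hx,
    cr_rot_rot hN hx, cr_sq hx, sum_rot_rot hN, sum_rot_rot hF, sum_rot_mul, sum_rot_mul]
  simp only [quadQ, radQ, tanQ, duq, uq, duR, uR, eul_eul hF]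
  simp only [eul_eq_D1]
  field_simp
  ring

/-! ### The data -/

/-- Hypotheses on `(a, ρ, ω)`: round before `T0`, small and slowly varying after it. -/
structure IsPolarData (c0 B δ η0 K T0 : ℝ) (a : ℝ → ℝ) (ρ ω : ℝ → Space 3 → ℝ) : Prop where
  smooth_a : ContDiff ℝ (⊤ : ℕ∞) a
  smooth_rho : ContDiff ℝ (⊤ : ℕ∞) (Function.uncurry ρ)
  smooth_om : ContDiff ℝ (⊤ : ℕ∞) (Function.uncurry ω)
  T0_pos : 0 < T0
  a_one : ∀ t ≤ 0, a t = 1
  a_lower : ∀ t, 1 / 2 ≤ a t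
  a_le : ∀ t, a t ≤ 1
  a_deriv : ∀ t, deriv a t ≤ 0
  phi_nonneg : ∀ t, 0 ≤ a t + deriv a t
  phi_anti : ∀ t, deriv (fun s => a s + deriv a s) t ≤ 0
  round : ∀ t < T0, ∀ θ, ρ t θ = 1 ∧ ω t θ = 0
  eqn : ∀ t ≥ T0, ∀ θ, ‖θ‖ = 1 → ∑ i, rot i (rot i (ω t)) θ = -(a t ^ 2) * derT ρ t θ
  small : ∀ t ≥ T0, ∃ η q, η ≤ η0 ∧ q ≤ η0 ∧ η ^ 2 ≤ q ∧ |deriv a t| * η ≤ q ∧
    K * q ≤ -deriv (fun s => a s + deriv a s) t ∧
    ∀ θ, ‖θ‖ = 1 →
      (c0 ≤ ρ t θ ∧ ρ t θ ≤ B ∧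
        (1 + δ) * (a t ^ 2 * ρ t θ) ≤ 1 - (1 / 2) * ((∑ i, rot i (rot i (ρ t)) θ) / ρ t θ
          - (∑ i, rot i (ρ t) θ * rot i (ρ t) θ) / ρ t θ ^ 2)) ∧
      (∀ i, |rot i (ρ t) θ| ≤ B) ∧ |derT ρ t θ| ≤ η ∧ (∀ i, |rot i (derT ρ t) θ| ≤ η) ∧
      |ω t θ| ≤ η ∧ (∀ i, |rot i (ω t) θ| ≤ η) ∧ (∀ i j, |rot i (rot j (ω t)) θ| ≤ η) ∧
      |derT (derT ρ) t θ| ≤ q ∧ |derT ω t θ| ≤ q

/-- The conformal factor. -/
def confP (a : ℝ → ℝ) (ρ : ℝ → Space 3 → ℝ) (t : ℝ) (θ : Space 3) : ℝ := a t ^ 2 * ρ t θ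

/-- The lapse. -/
def lapse (ω : ℝ → Space 3 → ℝ) (t : ℝ) (θ : Space 3) : ℝ := 1 + ω t θ

lemma polarMet_eq (a : ℝ → ℝ) (ρ ω : ℝ → Space 3 → ℝ) :
    polarMet a ρ ω = metFN (lift (confP a ρ)) (lift (lapse ω)) := rfl

section jet

variable {a : ℝ → ℝ} {ρ ω : ℝ → Space 3 → ℝ}

lemma rot_const_mul {f : Space 3 → ℝ} {θ : Space 3} (c : ℝ) (hf : DifferentiableAt ℝ f θ) (i : Fin 3) :
    rot i (fun y => c * f y) θ = c * rot i f θ := by
  simp only [rot, pd_const_mul_at _ c hf]; ring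

lemma rot_const_add {f : Space 3 → ℝ} (c : ℝ) (i : Fin 3) :
    rot i (fun y => c + f y) = rot i f := by
  funext θ
  simp [rot, pd]

lemma rot_combo {f g : Space 3 → ℝ} {θ : Space 3} (c d : ℝ) (hf : DifferentiableAt ℝ f θ)
    (hg : DifferentiableAt ℝ g θ) (i : Fin 3) :
    rot i (fun y => c * f y + d * g y) θ = c * rot i f θ + d * rot i g θ := by
  simp only [rot, pd_add_at _ (hf.const_mul c) (hg.const_mul d), pd_const_mul_at _ _ hf,
    pd_const_mul_at _ _ hg]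
  ring

lemma hasDerivAt_derT {P : ℝ → Space 3 → ℝ} (hP : ContDiff ℝ 1 (Function.uncurry P)) (t : ℝ)
    (θ : Space 3) : HasDerivAt (fun s => P s θ) (derT P t θ) t :=
  ((hP.comp (contDiff_id.prodMk (contDiff_const (c := θ)))).differentiable one_ne_zero t).hasDerivAt

lemma contDiff_slice {m : WithTop ℕ∞} {P : ℝ → Space 3 → ℝ} (hP : ContDiff ℝ m (Function.uncurry P))
    (t : ℝ) : ContDiff ℝ m (P t) := hP.comp (contDiff_const.prodMk contDiff_id)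

lemma derT_confP (ha : ContDiff ℝ 2 a) (hρ : ContDiff ℝ 2 (Function.uncurry ρ)) :
    derT (confP a ρ)
      = fun t θ => 2 * a t * deriv a t * ρ t θ + a t ^ 2 * derT ρ t θ := by
  funext t θ
  have h := ((ha.differentiable two_ne_zero t).hasDerivAt.pow 2).mul
    (hasDerivAt_derT (hρ.of_le one_le_two) t θ)
  refine h.deriv.trans ?_
  simp only [Pi.pow_apply]
  norm_num

lemma derT_derT_confP (ha : ContDiff ℝ 2 a) (hρ : ContDiff ℝ 2 (Function.uncurry ρ)) (t : ℝ)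
    (θ : Space 3) :
    derT (derT (confP a ρ)) t θ
      = 2 * (deriv a t ^ 2 + a t * deriv (deriv a) t) * ρ t θ + 4 * a t * deriv a t * derT ρ t θ
        + a t ^ 2 * derT (derT ρ) t θ := by
  rw [derT_confP ha hρ]
  have h1 := (ha.differentiable two_ne_zero t).hasDerivAt
  have h2 := ((ha.deriv' (n := 1)).differentiable one_ne_zero t).hasDerivAt
  have h3 := hasDerivAt_derT (hρ.of_le one_le_two) t θ
  have h4 := hasDerivAt_derT (contDiff_derT (m := 1) hρ le_rfl) t θ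
  refine ((((h1.const_mul 2).mul h2).mul h3).add ((h1.pow 2).mul h4)).deriv.trans ?_
  simp only [Pi.pow_apply, Pi.mul_apply]
  norm_num
  ring

end jet

/-! ### Scalar estimates -/

lemma phi_deriv {a : ℝ → ℝ} (ha : ContDiff ℝ 2 a) (t : ℝ) :
    deriv (fun s => a s + deriv a s) t = deriv a t + deriv (deriv a) t :=
  deriv_fun_add (ha.differentiable two_ne_zero t) ((ha.deriv' (n := 1)).differentiable one_ne_zero t)

/-- Completing the square. -/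
lemma quad_nonneg {R T η q CX CM s : ℝ} {z X : Fin 3 → ℝ} {M : Fin 3 → Fin 3 → ℝ} (hT : 0 < T)
    (hq : η ^ 2 ≤ q) (hCX : 0 ≤ CX) (hX : ∀ i, |X i| ≤ CX * η) (hM : ∀ i j, |M i j| ≤ CM * η)
    (hR : 6 * CX ^ 2 / T * q ≤ R) (hMT : 3 * (CM * η) ≤ T / 2) :
    0 ≤ R * s ^ 2 - 2 * s * (∑ i, z i * X i) + T * (∑ i, z i ^ 2)
      - ∑ i, ∑ j, z i * z j * M i j := by
  have hCM : 0 ≤ CM * η := (abs_nonneg _).trans (hM 0 0)
  have h1 : ∑ i, ∑ j, z i * z j * M i j ≤ ∑ i, ∑ j, (CM * η) * ((z i ^ 2 + z j ^ 2) / 2) := by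
    refine Finset.sum_le_sum fun i _ => Finset.sum_le_sum fun j _ => ?_
    calc z i * z j * M i j ≤ |z i * z j * M i j| := le_abs_self _
      _ = |z i * z j| * |M i j| := abs_mul _ _
      _ ≤ ((z i ^ 2 + z j ^ 2) / 2) * (CM * η) := by
          refine mul_le_mul ?_ (hM i j) (abs_nonneg _) (by positivity)
          rw [abs_mul]
          nlinarith [sq_nonneg (|z i| - |z j|), sq_abs (z i), sq_abs (z j)]
      _ = _ := mul_comm _ _
  have h1' : ∑ i, ∑ j, z i * z j * M i j ≤ 3 * (CM * η) * ∑ i, z i ^ 2 := by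
    refine h1.trans (le_of_eq ?_)
    simp only [Fin.sum_univ_three]
    ring
  have h2 : ∀ i, 2 * s * (z i * X i) ≤ T / 2 * z i ^ 2 + 2 * CX ^ 2 / T * q * s ^ 2 := by
    intro i
    have hXq : X i ^ 2 ≤ CX ^ 2 * q := by
      calc X i ^ 2 = |X i| ^ 2 := (sq_abs _).symm
        _ ≤ (CX * η) ^ 2 := pow_le_pow_left₀ (abs_nonneg _) (hX i) 2
        _ ≤ _ := by rw [mul_pow]; exact mul_le_mul_of_nonneg_left hq (sq_nonneg _)
    have h3 : 0 ≤ (T / 2 * z i - s * X i) ^ 2 := sq_nonneg _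
    have h5 := mul_le_mul_of_nonneg_left hXq (sq_nonneg s)
    rw [show 2 * CX ^ 2 / T * q * s ^ 2 = 2 * (CX ^ 2 * q * s ^ 2) / T by ring, ← sub_nonneg,
      show T / 2 * z i ^ 2 + 2 * (CX ^ 2 * q * s ^ 2) / T - 2 * s * (z i * X i)
        = ((T / 2 * z i - s * X i) ^ 2 + (CX ^ 2 * q * s ^ 2 - s ^ 2 * X i ^ 2)) / (T / 2) by
          field_simp; ring]
    apply div_nonneg <;> linarith
  have h4 : 2 * s * (∑ i, z i * X i) ≤ T / 2 * (∑ i, z i ^ 2) + R * s ^ 2 := by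
    have hR' := mul_le_mul_of_nonneg_right hR (sq_nonneg s)
    simp only [Fin.sum_univ_three]
    linarith [h2 0, h2 1, h2 2,
      show 6 * CX ^ 2 / T * q * s ^ 2 = 3 * (2 * CX ^ 2 / T * q * s ^ 2) by ring]
  linarith [mul_le_mul_of_nonneg_right hMT (Finset.sum_nonneg fun i (_ : i ∈ Finset.univ) => sq_nonneg (z i))]

lemma abs_bilin {x y cx cy : ℝ} (hx : |x| ≤ cx) (hy : |y| ≤ cy) : |x * y| ≤ cx * cy := by
  rw [abs_mul]
  exact mul_le_mul hx hy (abs_nonneg _) ((abs_nonneg _).trans hx)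

lemma abs_quot {x r cx c0 : ℝ} (hc0 : 0 < c0) (hr : c0 ≤ r) (hx : |x| ≤ cx) : |x / r| ≤ cx / c0 := by
  rw [abs_div, abs_of_pos (hc0.trans_le hr)]
  exact div_le_div₀ ((abs_nonneg _).trans hx) hx hc0 hr

lemma abs_lapse {x w cx : ℝ} (hw : |w| ≤ 1 / 2) (hx : |x| ≤ cx) : |x / (1 + w)| ≤ 2 * cx := by
  obtain ⟨w1, w2⟩ := abs_le.1 hw
  refine (abs_quot (c0 := 1 / 2) (by norm_num) (by linarith) hx).trans (le_of_eq ?_)
  ring

section scalar

/- `α = a'/a`, `β = ρ'/ρ`, `γ = ρ''/ρ`, `ε = ω'`. -/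
variable {c0 B η q α β γ ε w : ℝ} (hc0 : 0 < c0) (hη : η ≤ 1 / 2) (hηc : η ≤ c0)
  (hq : η ^ 2 ≤ q) (hα : -1 ≤ α) (hα' : α ≤ 0) (hαq : |α| * η ≤ 2 * q) (hβ : |β| ≤ η / c0)
  (hγ : |γ| ≤ q / c0) (hw : |w| ≤ η) (hε : |ε| ≤ q)

include hc0 hηc hα hα' hβ in
lemma abs_one_add_rate : |1 + α + β / 2| ≤ 2 := by
  obtain ⟨b1, b2⟩ := abs_le.1 (hβ.trans ((div_le_one hc0).2 hηc))
  rw [abs_le]; constructor <;> linarith

include hc0 hη hηc hα hα' hβ hw in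
lemma abs_rate_lapse {x cx : ℝ} (hx : |x| ≤ cx) : |(1 + α + β / 2) * x / (1 + w)| ≤ 4 * cx := by
  refine (abs_lapse (hw.trans hη) (abs_bilin (abs_one_add_rate hc0 hηc hα hα' hβ) hx)).trans
    (le_of_eq ?_)
  ring

include hc0 hη hηc hq hα hα' hαq hβ hγ hw hε in
lemma radial_err :
    |w * β + β ^ 2 / 2 - 2 * α * β - γ + 2 * ((1 + α + β / 2) * ε / (1 + w))|
      ≤ (6 / c0 + 1 / c0 ^ 2 + 8) * q := by
  obtain ⟨u1, u2⟩ := abs_le.1 (abs_bilin hw hβ)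
  obtain ⟨u3, u4⟩ := abs_le.1 ((abs_bilin le_rfl hβ : |α * β| ≤ _).trans_eq (mul_div_assoc' _ _ _))
  obtain ⟨u5, u6⟩ := abs_le.1 hγ
  obtain ⟨u7, u8⟩ := abs_le.1 (abs_rate_lapse hc0 hη hηc hα hα' hβ hw hε)
  have b2 : β ^ 2 ≤ q / c0 ^ 2 := by
    rw [← sq_abs]
    refine (pow_le_pow_left₀ (abs_nonneg _) hβ 2).trans ?_
    rw [div_pow]
    exact div_le_div_of_nonneg_right hq (by positivity)
  have e1 : η * (η / c0) ≤ q / c0 := by
    rw [mul_div_assoc', ← pow_two]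
    exact div_le_div_of_nonneg_right hq hc0.le
  have e2 : |α| * η / c0 ≤ 2 * (q / c0) := by
    rw [mul_div_assoc']
    exact div_le_div_of_nonneg_right hαq hc0.le
  have e3 : (6 / c0 + 1 / c0 ^ 2 + 8) * q = 6 * (q / c0) + q / c0 ^ 2 + 8 * q := by ring
  have hb2 := sq_nonneg β
  rw [abs_le, e3]
  constructor <;> linarith

include hc0 hη hηc hα hα' hβ hγ hw hε in
lemma tangential_err {m : ℝ} (hm : η ≤ m) (hm' : q ≤ m) :
    |γ / 2 + 3 / 2 * β + 2 * α * β - (1 + α + β / 2) * ε / (1 + w)| ≤ (4 / c0 + 4) * m := by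
  obtain ⟨u1, u2⟩ := abs_le.1 (hβ.trans (div_le_div_of_nonneg_right hm hc0.le))
  obtain ⟨u3, u4⟩ := abs_le.1 (hγ.trans (div_le_div_of_nonneg_right hm' hc0.le))
  obtain ⟨u5, u6⟩ := abs_le.1 ((abs_bilin (abs_le.2 ⟨hα, hα'.trans zero_le_one⟩)
    (hβ.trans (div_le_div_of_nonneg_right hm hc0.le))).trans_eq (one_mul _))
  obtain ⟨u7, u8⟩ := abs_le.1 (abs_rate_lapse hc0 hη hηc hα hα' hβ hw hε)
  have e1 : (4 / c0 + 4) * m = 4 * (m / c0) + 4 * m := by ring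
  rw [abs_le, e1]
  constructor <;> linarith

include hc0 hη hηc hα hα' hβ hw in
lemma mixed_err {u v o : ℝ} (hu : |u| ≤ η / c0) (hv : |v| ≤ B / c0) (ho : |o| ≤ η) :
    |(u - β * v) / 2 - (1 + α + β / 2) * o / (1 + w)| ≤ ((1 / c0 + B / c0 ^ 2) / 2 + 4) * η := by
  obtain ⟨u1, u2⟩ := abs_le.1 hu
  obtain ⟨u3, u4⟩ := abs_le.1 (abs_bilin hβ hv)
  obtain ⟨u5, u6⟩ := abs_le.1 (abs_rate_lapse hc0 hη hηc hα hα' hβ hw ho)
  have e1 : ((1 / c0 + B / c0 ^ 2) / 2 + 4) * η = (η / c0 + η / c0 * (B / c0)) / 2 + 4 * η := by ring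
  rw [abs_le, e1]
  constructor <;> linarith

include hη hw in
lemma extra_err {k v o : ℝ} (hk : |k| ≤ η) (hv : |v| ≤ B / c0) (ho : |o| ≤ η) :
    |(k - v * o) / (1 + w)| ≤ 2 * (1 + B / c0) * η := by
  refine (abs_lapse (hw.trans hη) ((abs_sub _ _).trans (add_le_add hk (abs_bilin hv ho)))).trans
    (le_of_eq ?_)
  ring

end scalar

/-- `F / (1 + w) ^ 2 * (X + e)` does not exceed `F` by more than a factor `1 + δ / 2`. -/
lemma tangential_margin {F w η m δ E X e : ℝ} (hF : 0 ≤ F) (hη : η ≤ 1 / 2) (hw : |w| ≤ η)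
    (hm : η ≤ m) (hE : 0 ≤ E) (hX : X ≤ 1) (he : |e| ≤ E * m) (hmδ : (10 + 6 * E) * m ≤ δ / 2) :
    F / (1 + w) ^ 2 * (X + e) ≤ F * (1 + δ / 2) := by
  have hη0 : 0 ≤ η := (abs_nonneg _).trans hw
  obtain ⟨w1, w2⟩ := abs_le.1 hw
  have hw0 : 0 < 1 + w := by linarith
  have hXe : X + e ≤ 1 + E * m := by linarith [(abs_le.1 he).2]
  refine (mul_le_mul_of_nonneg_left hXe (by positivity)).trans ?_
  rw [div_mul_eq_mul_div, div_le_iff₀ (by positivity), mul_assoc]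
  refine mul_le_mul_of_nonneg_left ?_ hF
  have h3 : (1 : ℝ) ≤ (1 + 10 * η) * (1 + w) ^ 2 := by
    have h : (1 - η) ^ 2 ≤ (1 + w) ^ 2 := pow_le_pow_left₀ (by linarith) (by linarith) 2
    nlinarith [mul_le_mul_of_nonneg_left h (show (0 : ℝ) ≤ 1 + 10 * η by linarith),
      mul_nonneg hη0 (show 0 ≤ 1 / 2 - η by linarith)]
  have hEm : 0 ≤ E * m := mul_nonneg hE (hη0.trans hm)
  calc 1 + E * m ≤ (1 + E * m) * ((1 + 10 * η) * (1 + w) ^ 2) :=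
        le_mul_of_one_le_right (by linarith) h3
    _ = ((1 + E * m) * (1 + 10 * η)) * (1 + w) ^ 2 := by ring
    _ ≤ _ := mul_le_mul_of_nonneg_right
        (by linarith [mul_le_mul_of_nonneg_left hη hEm]) (sq_nonneg _)

/-- The pointwise inequality behind `RicciNonneg`, after the exact cancellations. -/
lemma polar_scalar {c0 B δ : ℝ} (hc0 : 0 < c0) (hB : 0 ≤ B) (hδ : 0 < δ) :
    ∃ η0 K : ℝ, 0 < η0 ∧ η0 ≤ 1 / 2 ∧ 0 ≤ K ∧
    ∀ (a a1 φ1 r rt rtt w wt η q s : ℝ) (ri rti wi : Fin 3 → ℝ) (wij : Fin 3 → Fin 3 → ℝ)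
      (z : Fin 3 → ℝ) (K0 : ℝ),
      1 / 2 ≤ a → a ≤ 1 → a1 ≤ 0 → 0 ≤ a + a1 → η ≤ η0 → q ≤ η0 → η ^ 2 ≤ q → |a1| * η ≤ q →
      K * q ≤ -φ1 → c0 ≤ r → r ≤ B → (1 + δ) * (a ^ 2 * r) ≤ K0 → (∀ i, |ri i| ≤ B) →
      |rt| ≤ η → (∀ i, |rti i| ≤ η) → |w| ≤ η → (∀ i, |wi i| ≤ η) → (∀ i j, |wij i j| ≤ η) →
      |rtt| ≤ q → |wt| ≤ q →
      0 ≤ (-2 * φ1 / a + (w * (rt / r) + (rt / r) ^ 2 / 2 - 2 * (a1 / a) * (rt / r) - rtt / r
              + 2 * ((1 + a1 / a + rt / r / 2) * wt / (1 + w)))) * s ^ 2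
          - 2 * s * (∑ i, z i * ((rti i / r - rt / r * (ri i / r)) / 2
              - (1 + a1 / a + rt / r / 2) * wi i / (1 + w)))
          + (K0 - a ^ 2 * r / (1 + w) ^ 2 * ((1 + a1 / a) ^ 2 + φ1 / a
              + (rtt / r / 2 + 3 / 2 * (rt / r) + 2 * (a1 / a) * (rt / r)
                - (1 + a1 / a + rt / r / 2) * wt / (1 + w)))
            - (∑ i, ri i * wi i) / (2 * r * (1 + w))) * (∑ i, z i ^ 2)
          - ∑ i, ∑ j, z i * z j * ((wij i j - ri i / r * wi j) / (1 + w)) := by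
  have hT : 0 < δ * c0 / 16 := by positivity
  refine ⟨min (min (1 / 2) c0) (min (δ / (2 * (10 + 6 * (4 / c0 + 4))))
      (δ * c0 / 16 / (3 * B / c0 + 6 * (2 * (1 + B / c0)) + 1))),
    (6 / c0 + 1 / c0 ^ 2 + 8 + 6 * ((1 / c0 + B / c0 ^ 2) / 2 + 4) ^ 2 / (δ * c0 / 16)) / 2,
    lt_min (lt_min (by norm_num) hc0) (lt_min (by positivity) (by positivity)),
    (min_le_left _ _).trans (min_le_left _ _), by positivity, ?_⟩
  intro a a1 φ1 r rt rtt w wt η q s ri rti wi wij z K0 ha ha' ha1 hphi hη hqη hηq haη hK hr hr' hK0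
    hri hrt hrti hw hwi hwij hrtt hwt
  simp only [le_min_iff] at hη hqη
  obtain ⟨⟨hη2, hηc⟩, hηδ, hηT⟩ := hη
  obtain ⟨-, hqδ, -⟩ := hqη
  have hη0 : 0 ≤ η := (abs_nonneg _).trans hw
  have hq0 : 0 ≤ q := (sq_nonneg η).trans hηq
  have hr0 : 0 < r := hc0.trans_le hr
  have ha0 : 0 < a := by linarith
  have hα' : a1 / a ≤ 0 := div_nonpos_of_nonpos_of_nonneg ha1 ha0.le
  have hα : -1 ≤ a1 / a := by rw [le_div_iff₀ ha0]; linarith
  have hαq : |a1 / a| * η ≤ 2 * q := by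
    rw [abs_div, abs_of_pos ha0, div_mul_eq_mul_div, div_le_iff₀ ha0]
    linarith [mul_nonneg hq0 (show 0 ≤ 2 * a - 1 by linarith)]
  have hβ := abs_quot hc0 hr hrt
  have hγ := abs_quot hc0 hr hrtt
  have hR := (abs_le.1 (radial_err hc0 hη2 hηc hηq hα hα' hαq hβ hγ hw hwt)).1
  have he := tangential_err hc0 hη2 hηc hα hα' hβ hγ hw hwt (le_max_left η q) (le_max_right η q)
  have hφ : φ1 ≤ 0 := by
    have : 0 ≤ (6 / c0 + 1 / c0 ^ 2 + 8
        + 6 * ((1 / c0 + B / c0 ^ 2) / 2 + 4) ^ 2 / (δ * c0 / 16)) / 2 * q := by positivity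
    linarith
  have hφa : φ1 / a ≤ 0 := div_nonpos_of_nonpos_of_nonneg hφ ha0.le
  have hφ2 : -φ1 ≤ -(φ1 / a) := by
    rw [← neg_div, le_div_iff₀ ha0]
    linarith [mul_nonneg (show 0 ≤ -φ1 by linarith) (show 0 ≤ 1 - a by linarith)]
  have hF : c0 / 4 ≤ a ^ 2 * r := by
    have h : (1 : ℝ) / 4 ≤ a ^ 2 :=
      le_trans (by norm_num) (pow_le_pow_left₀ (by norm_num) ha 2)
    linarith [mul_le_mul h hr hc0.le (sq_nonneg a)]
  have hX1 : (1 + a1 / a) ^ 2 + φ1 / a ≤ 1 := by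
    linarith [mul_nonneg (show 0 ≤ 1 + a1 / a by linarith) (show 0 ≤ -(a1 / a) by linarith)]
  have hmδ : (10 + 6 * (4 / c0 + 4)) * max η q ≤ δ / 2 := by
    have h := max_le hηδ hqδ
    rw [le_div_iff₀ (by positivity)] at h
    linarith
  have hmar := tangential_margin (F := a ^ 2 * r) (by positivity) hη2 hw (le_max_left η q)
    (show 0 ≤ 4 / c0 + 4 by positivity) hX1 he hmδ
  have hcross : |(∑ i, ri i * wi i) / (2 * r * (1 + w))| ≤ 3 * B / c0 * η := by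
    have h : |∑ i, ri i / r * wi i| ≤ 3 * (B / c0 * η) :=
      (Finset.abs_sum_le_sum_abs _ _).trans ((Finset.sum_le_sum fun i _ =>
        abs_bilin (abs_quot hc0 hr (hri i)) (hwi i)).trans (le_of_eq (by simp)))
    have e : (∑ i, ri i * wi i) / (2 * r * (1 + w)) = (∑ i, ri i / r * wi i) / (1 + w) / 2 := by
      simp only [Fin.sum_univ_three]; field_simp
    rw [e, abs_div, abs_two, div_le_iff₀ two_pos]
    exact (abs_lapse (hw.trans hη2) h).trans (le_of_eq (by ring))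
  rw [le_div_iff₀ (by positivity)] at hηT
  have hηT' : 3 * B / c0 * η + 6 * (2 * (1 + B / c0) * η) + η ≤ δ * c0 / 16 :=
    le_trans (le_of_eq (by ring)) hηT
  have hTt : δ * c0 / 16 ≤ K0 - a ^ 2 * r / (1 + w) ^ 2 * ((1 + a1 / a) ^ 2 + φ1 / a
      + (rtt / r / 2 + 3 / 2 * (rt / r) + 2 * (a1 / a) * (rt / r)
        - (1 + a1 / a + rt / r / 2) * wt / (1 + w)))
      - (∑ i, ri i * wi i) / (2 * r * (1 + w)) := by
    have h4 := (abs_le.1 hcross).2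
    have h5 : 0 ≤ 6 * (2 * (1 + B / c0) * η) + η := by positivity
    linarith [mul_le_mul_of_nonneg_left hF (show (0 : ℝ) ≤ δ / 2 by linarith)]
  refine le_trans (quad_nonneg hT hηq (by positivity)
      (fun i => mixed_err hc0 hη2 hηc hα hα' hβ hw (abs_quot hc0 hr (hrti i))
        (abs_quot hc0 hr (hri i)) (hwi i))
      (fun i j => extra_err hη2 hw (hwij i j) (abs_quot hc0 hr (hri i)) (hwi j)) le_rfl
      (by linarith [show 0 ≤ 3 * B / c0 * η by positivity]))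
    (sub_le_sub_right (add_le_add (sub_le_sub_right (mul_le_mul_of_nonneg_right ?_ (sq_nonneg s)) _)
      (mul_le_mul_of_nonneg_right hTt (Finset.sum_nonneg fun i _ => sq_nonneg _))) _)
  have e1 : -2 * φ1 / a = 2 * -(φ1 / a) := by ring
  have e2 : ((6 / c0 + 1 / c0 ^ 2 + 8)
      + 6 * ((1 / c0 + B / c0 ^ 2) / 2 + 4) ^ 2 / (δ * c0 / 16)) / 2 * q * 2
      = (6 / c0 + 1 / c0 ^ 2 + 8) * q + 6 * ((1 / c0 + B / c0 ^ 2) / 2 + 4) ^ 2 / (δ * c0 / 16) * q := by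
    ring
  linarith

end

end Vale.Agent.P225.Disproof.Met3
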