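import Vale.Agent.P225.Disproof.MetricRot

/-!
# P225 L: the Ricci quadratic form of `metFN F N` at any point away from the origin
-/

namespace Vale.Agent.P225.Disproof.Met3

open Filter Topology
open scoped Matrix

noncomputable section

/-- Directional derivative. -/
def D1 (f : Space 3 → ℝ) (x v : Space 3) : ℝ := ∑ i, v i * pd i f x

/-- Second derivative along two vectors. -/
def B2 (f : Space 3 → ℝ) (x a b : Space 3) : ℝ := ∑ i, ∑ j, a i * b j * pd i (pd j f) x

/-- The scalar product of two gradients. -/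
def gd (f h : Space 3 → ℝ) (x : Space 3) : ℝ := ∑ i, pd i f x * pd i h x

/-- The Laplacian of the unit sphere, on functions of space. -/
def sl (f : Space 3 → ℝ) (x : Space 3) : ℝ := ‖x‖ ^ 2 * lap f x - B2 f x x x - 2 * D1 f x x

/-- Euclidean scalar product. -/
def ip (x v : Space 3) : ℝ := ∑ i, x i * v i

/-- The rate `u`. -/
def uq (F N : Space 3 → ℝ) (x : Space 3) : ℝ := (1 + D1 F x x / (2 * F x)) / N x

/-- The derivative of `u`. -/
def duq (F N : Space 3 → ℝ) (x v : Space 3) : ℝ :=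
  ((D1 F x v + B2 F x v x) / (2 * F x) - D1 F x x * D1 F x v / (2 * F x ^ 2)) / N x
    - (1 + D1 F x x / (2 * F x)) * D1 N x v / N x ^ 2

/-- Radial coefficient. -/
def radQ (F N : Space 3 → ℝ) (x : Space 3) : ℝ :=
  -N x * sl N x / F x - 2 * N x * (duq F N x x - uq F N x) - 2 * N x ^ 2 * uq F N x ^ 2

/-- Conformal tangential coefficient. -/
def tanQ (F N : Space 3 → ℝ) (x : Space 3) : ℝ :=
  1 - (1 / 2) * (sl F x / F x - (‖x‖ ^ 2 * gd F F x - D1 F x x ^ 2) / F x ^ 2)
    - F x * (duq F N x x - uq F N x) / N x - 2 * F x * uq F N x ^ 2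
    + D1 N x x / N x - (‖x‖ ^ 2 * gd F N x - D1 F x x * D1 N x x) / (2 * F x * N x)

/-- The predicted quadratic form, with `s` the radial component and `w` the tangential one. -/
def quadQ (F N : Space 3 → ℝ) (x : Space 3) (s : ℝ) (w : Space 3) : ℝ :=
  radQ F N x * s ^ 2 - 2 * N x * s * ‖x‖ * duq F N x w + tanQ F N x * ip w w
    - ‖x‖ ^ 2 * (B2 N x w w - D1 F x w * D1 N x w / F x) / N x

variable {F N : Space 3 → ℝ}

lemma quad_axis (hF : ContDiff ℝ 2 F) (hN : ContDiff ℝ 2 N) (hF0 : ∀ y, F y ≠ 0)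
    (hN0 : ∀ y, N y ≠ 0) {r : ℝ} (hr : 0 < r) (v : Space 3) :
    r ^ 2 * ∑ i, ∑ j, ricci (metFN F N) i j (EuclideanSpace.single 2 r) * v i * v j
      = quadQ F N (EuclideanSpace.single 2 r) (v 2) (v - EuclideanSpace.single 2 (v 2)) := by
  set x : Space 3 := EuclideanSpace.single 2 r with hx
  have hn : ‖x‖ = r := by simp [x, abs_of_pos hr]
  have hx0 : x ≠ 0 := norm_ne_zero_iff.1 (by rw [hn]; exact hr.ne')
  have x0 : x 0 = 0 := by simp [x]
  have x1 : x 1 = 0 := by simp [x]
  have x2 : x 2 = r := by simp [x]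
  set F1 := fun m => pd m F x
  set N1 := fun m => pd m N x
  set F2 := fun l m => pd l (pd m F) x
  set N2 := fun l m => pd l (pd m N) x
  have sF : ∀ i j, F2 i j = F2 j i := fun i j => pd_pd_comm hF i j x
  have sN : ∀ i j, N2 i j = N2 j i := fun i j => pd_pd_comm hN i j x
  have hxi : ∀ i, x i = r * dl i 2 := by
    intro i; fin_cases i <;> simp [x, dl]
  have ec : ∀ a b, cdir a b x = cz a b := fun a b => by
    rw [cdir, cz, hn, hxi, hxi]; field_simp
  have ec1 : ∀ m a b, c1f m a b x = c1z r m a b := fun m a b => by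
    rw [c1f, c1z, hn, hxi, hxi, hxi]; field_simp
  have ec2 : ∀ l m a b, c2f l m a b x = c2z r l m a b := fun l m a b => by
    rw [c2f, c2z, hn, hxi, hxi, hxi, hxi]; field_simp; ring
  have eh : (fun a b => hf F N a b x) = hz (F x) (N x) := by
    funext a b; rw [hf, hz, ec]; ring
  have eh1 : (fun m a b => h1f F N m a b x) = h1z r (F x) (N x) F1 N1 := by
    funext m a b; rw [h1f, h1z, ec, ec1]; ring
  have eg1 : (fun m a b => g1f F N m a b x) = g1z r (F x) (N x) F1 N1 := by
    funext m a b; rw [g1f, g1z, ec, ec1]; ring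
  have eg2 : (fun l m a b => g2f F N l m a b x) = g2z r (F x) (N x) F1 N1 F2 N2 := by
    funext l m a b; rw [g2f, g2z, ec, ec1, ec1, ec2]; ring
  have key : ∀ i j, r ^ 2 * ricci (metFN F N) i j x
      = target r (F x) (N x) F1 N1 F2 N2 i j := fun i j => by
    rw [ricci_metFN hF hN hF0 hN0 hx0, eh, eh1, eg1, eg2]
    exact ricJet_eq r (F x) (N x) F1 N1 F2 N2 hr.ne' (hF0 x) (hN0 x) sF sN i j
  have n10 := sN 1 0
  simp only [N2] at n10
  calc r ^ 2 * ∑ i, ∑ j, ricci (metFN F N) i j x * v i * v j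
      = ∑ i, ∑ j, target r (F x) (N x) F1 N1 F2 N2 i j * v i * v j := by
        simp only [← key, Fin.sum_univ_three]; ring
    _ = _ := by
        have := hF0 x
        have := hN0 x
        simp [quadQ, radQ, tanQ, duq, uq, sl, D1, B2, gd, ip, lap, target, radz, tanz, u1z, uz, dl,
          Fin.sum_univ_three, x0, x1, x2, hn, n10, F1, N1, F2, N2]
        field_simp
        ring

variable {P : Matrix (Fin 3) (Fin 3) ℝ} (hP : IsOrth P)

lemma D1_act (x : Space 3) (v : Space 3) {f : Space 3 → ℝ} (hf : Differentiable ℝ f) :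
    D1 (fun y => f (act P y)) x v = D1 f (act P x) (act P v) := by
  simp only [D1, pd_act x (hf _), T1, act_apply, Fin.sum_univ_three]; ring

lemma pd_pd_act (x : Space 3) {f : Space 3 → ℝ} (hf : ContDiff ℝ 2 f) (i j : Fin 3) :
    pd i (pd j fun y => f (act P y)) x
      = T2 P (fun a b => pd a (pd b f) (act P x)) i j := by
  have d1 : ∀ b, Differentiable ℝ (pd b f) := fun b =>
    (contDiff_pd_of (m := 1) b hf le_rfl).differentiable one_ne_zero
  have e : pd j (fun y => f (act P y)) = fun y => T1 P (fun b => pd b f (act P y)) j :=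
    funext fun y => pd_act y (hf.differentiable two_ne_zero _) j
  rw [e, T1_pd fun b => (d1 b _).fun_comp' x (act P).differentiableAt]
  simp only [pd_act x (d1 _ _), T2, T1, Fin.sum_univ_three]
  ring

lemma B2_act (x a b : Space 3) {f : Space 3 → ℝ} (hf : ContDiff ℝ 2 f) :
    B2 (fun y => f (act P y)) x a b = B2 f (act P x) (act P a) (act P b) := by
  simp only [B2, pd_pd_act x hf, T2, T1, act_apply, Fin.sum_univ_three]; ring

include hP in
lemma lap_act (x : Space 3) {f : Space 3 → ℝ} (hf : ContDiff ℝ 2 f) :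
    lap (fun y => f (act P y)) x = lap f (act P x) := by
  simp only [lap, pd_pd_act x hf]
  exact hP.trace _

include hP in
lemma gd_act (x : Space 3) {f h : Space 3 → ℝ} (hf : Differentiable ℝ f) (hh : Differentiable ℝ h) :
    gd (fun y => f (act P y)) (fun y => h (act P y)) x = gd f h (act P x) := by
  simp only [gd, pd_act x (hf _), pd_act x (hh _)]
  exact hP.contract _ _

include hP in
lemma quadQ_act {F N : Space 3 → ℝ} (hF : ContDiff ℝ 2 F) (hN : ContDiff ℝ 2 N) (x : Space 3)
    (s : ℝ) (w : Space 3) :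
    quadQ (fun y => F (act P y)) (fun y => N (act P y)) x s w
      = quadQ F N (act P x) s (act P w) := by
  have dF := hF.differentiable two_ne_zero
  have dN := hN.differentiable two_ne_zero
  simp only [quadQ, radQ, tanQ, duq, uq, sl, D1_act _ _ dF, D1_act _ _ dN, B2_act _ _ _ hF,
    B2_act _ _ _ hN, lap_act hP _ hF, lap_act hP _ hN, gd_act hP _ dF dF, gd_act hP _ dF dN,
    hP.norm_act, show ip (act P w) (act P w) = ip w w from hP.dot_act w w]

/-- The Ricci quadratic form of `metFN F N`. -/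
theorem ricci_quad {F N : Space 3 → ℝ} (hF : ContDiff ℝ 2 F) (hN : ContDiff ℝ 2 N)
    (hF0 : ∀ y, F y ≠ 0) (hN0 : ∀ y, N y ≠ 0) {x : Space 3} (hx : x ≠ 0) (v : Space 3) :
    ‖x‖ ^ 2 * ∑ i, ∑ j, ricci (metFN F N) i j x * v i * v j
      = quadQ F N x (ip x v / ‖x‖) (v - (ip x v / ‖x‖ ^ 2) • x) := by
  have hr : 0 < ‖x‖ := norm_pos_iff.2 hx
  obtain ⟨P, hP, he⟩ := exists_isOrth (θ := ‖x‖⁻¹ • x)
    (by rw [norm_smul, norm_inv, norm_norm, inv_mul_cancel₀ hr.ne'])
  have hxe : act P (EuclideanSpace.single 2 ‖x‖) = x := by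
    rw [he, smul_smul, mul_inv_cancel₀ hr.ne', one_smul]
  set v' : Space 3 := WithLp.toLp 2 fun i => T1 P (fun a => v a) i
  have hv : act P v' = v := by
    ext k
    calc act P v' k = ∑ a, v a * ∑ i, P k i * P a i := by
          rw [act_apply]
          simp only [v', T1, Fin.sum_univ_three]
          ring
      _ = v k := by simp [hP.row_sum, dl]
  have hF' : ContDiff ℝ 2 fun y => F (act P y) := hF.comp (act P).contDiff
  have hN' : ContDiff ℝ 2 fun y => N (act P y) := hN.comp (act P).contDiff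
  have h := quad_axis hF' hN' (fun y => hF0 _) (fun y => hN0 _) hr v'
  rw [quadQ_act hP hF hN, map_sub, hv] at h
  set e : Space 3 := EuclideanSpace.single 2 ‖x‖ with hedef
  have he0 : e ≠ 0 := norm_ne_zero_iff.1 (by simp [e, hr.ne'])
  simp only [ricci_act hF hN hP hF0 hN0 he0, hxe] at h
  have hs : ip x v / ‖x‖ = v' 2 := by
    rw [div_eq_iff hr.ne', show ip x v = ip e v' by
      conv_lhs => rw [← hxe, ← hv]
      exact hP.dot_act e v']
    simp [ip, e, mul_comm]
  have hw : act P (EuclideanSpace.single 2 (v' 2)) = (ip x v / ‖x‖ ^ 2) • x := by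
    rw [he, ← hs, smul_smul]
    congr 1
    field_simp
  rw [hw, ← hs] at h
  rw [← h]
  congr 1
  calc ∑ i, ∑ j, ricci (metFN F N) i j x * v i * v j
      = ∑ i, ∑ j, ricci (metFN F N) i j x * act P v' i * act P v' j := by rw [hv]
    _ = _ := by simp only [T2, T1, act_apply, Fin.sum_univ_three]; ring

end

end Vale.Agent.P225.Disproof.Met3
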