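import Vale.Agent.P225.Disproof.MetricOps
import Mathlib.Analysis.InnerProductSpace.PiL2

/-!
# P225 L: orthogonal invariance of the coordinate Ricci tensor for `metFN`
-/

namespace Vale.Agent.P225.Disproof.Met3

open Filter Topology
open scoped Matrix

noncomputable section

/-- Transformation of a covector. -/
def T1 (P : Matrix (Fin 3) (Fin 3) ℝ) (X : Fin 3 → ℝ) (i : Fin 3) : ℝ := ∑ a, P a i * X a

/-- Transformation of a two-tensor. -/
def T2 (P : Matrix (Fin 3) (Fin 3) ℝ) (A : Fin 3 → Fin 3 → ℝ) (i j : Fin 3) : ℝ :=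
  T1 P (fun a => T1 P (A a) j) i

/-- Transformation of a three-tensor. -/
def T3 (P : Matrix (Fin 3) (Fin 3) ℝ) (A : Fin 3 → Fin 3 → Fin 3 → ℝ) (i j k : Fin 3) : ℝ :=
  T1 P (fun a => T2 P (A a) j k) i

/-- An orthogonal change of coordinates. -/
structure IsOrth (P : Matrix (Fin 3) (Fin 3) ℝ) : Prop where
  col : Pᵀ * P = 1
  row : P * Pᵀ = 1

/-- The linear map of a matrix. -/
def act (P : Matrix (Fin 3) (Fin 3) ℝ) : Space 3 →L[ℝ] Space 3 :=
  LinearMap.toContinuousLinearMap (Matrix.toEuclideanLin P)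

variable {P : Matrix (Fin 3) (Fin 3) ℝ}

lemma act_apply (x : Space 3) (i : Fin 3) : act P x i = ∑ a, P i a * x a := by
  simp [act, Matrix.mulVec, dotProduct]

lemma IsOrth.row_sum (hP : IsOrth P) (a b : Fin 3) : ∑ k, P a k * P b k = dl a b := by
  have h := congrFun (congrFun hP.row a) b
  simpa [Matrix.mul_apply, dl, Matrix.one_apply] using h

lemma IsOrth.col_sum (hP : IsOrth P) (a b : Fin 3) : ∑ k, P k a * P k b = dl a b := by
  have h := congrFun (congrFun hP.col a) b
  simpa [Matrix.mul_apply, dl, Matrix.one_apply] using h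

lemma IsOrth.contract (hP : IsOrth P) (X Y : Fin 3 → ℝ) :
    ∑ l, T1 P X l * T1 P Y l = ∑ a, X a * Y a := by
  calc ∑ l, T1 P X l * T1 P Y l = ∑ a, ∑ b, X a * Y b * ∑ l, P a l * P b l := by
        simp only [T1, Fin.sum_univ_three]; ring
    _ = _ := by simp [hP.row_sum, dl, Fin.sum_univ_three]

lemma IsOrth.trace (hP : IsOrth P) (A : Fin 3 → Fin 3 → ℝ) :
    ∑ k, T2 P A k k = ∑ a, A a a := by
  calc ∑ k, T2 P A k k = ∑ a, ∑ b, A a b * ∑ l, P a l * P b l := by
        simp only [T2, T1, Fin.sum_univ_three]; ring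
    _ = _ := by simp [hP.row_sum, dl, Fin.sum_univ_three]

lemma IsOrth.act_transpose (hP : IsOrth P) (x : Space 3) (i : Fin 3) :
    T1 P (fun a => act P x a) i = x i := by
  calc T1 P (fun a => act P x a) i = ∑ b, x b * ∑ k, P k i * P k b := by
        simp only [T1, act_apply, Fin.sum_univ_three]; ring
    _ = _ := by simp [hP.col_sum, dl]

lemma IsOrth.dot_act (hP : IsOrth P) (x y : Space 3) :
    ∑ a, act P x a * act P y a = ∑ a, x a * y a := by
  calc ∑ a, act P x a * act P y a = ∑ a, ∑ b, x a * y b * ∑ k, P k a * P k b := by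
        simp only [act_apply, Fin.sum_univ_three]; ring
    _ = _ := by simp [hP.col_sum, dl, Fin.sum_univ_three]

lemma IsOrth.norm_act (hP : IsOrth P) (x : Space 3) : ‖act P x‖ = ‖x‖ := by
  have h : ‖act P x‖ ^ 2 = ‖x‖ ^ 2 := by
    rw [EuclideanSpace.real_norm_sq_eq, EuclideanSpace.real_norm_sq_eq]
    simp only [pow_two]
    exact hP.dot_act x x
  exact (pow_left_inj₀ (norm_nonneg _) (norm_nonneg _) two_ne_zero).1 h

lemma pd_act (x : Space 3) {f : Space 3 → ℝ} (hf : DifferentiableAt ℝ f (act P x)) (i : Fin 3) :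
    pd i (fun y => f (act P y)) x = T1 P (fun a => pd a f (act P x)) i := by
  have h : HasFDerivAt (fun y => f (act P y)) ((fderiv ℝ f (act P x)).comp (act P)) x :=
    hf.hasFDerivAt.comp x (act P).hasFDerivAt
  have e : act P (EuclideanSpace.single i (1 : ℝ))
      = ∑ a, P a i • EuclideanSpace.single a (1 : ℝ) := by
    ext k
    rw [act_apply]
    simp [Pi.single_apply]
  rw [pd, h.fderiv, ContinuousLinearMap.comp_apply, e]
  simp [T1, pd]

lemma T1_pd {m : Fin 3} {φ : Fin 3 → Space 3 → ℝ} {x : Space 3}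
    (hφ : ∀ a, DifferentiableAt ℝ (φ a) x) (i : Fin 3) :
    pd m (fun y => T1 P (fun a => φ a y) i) x = T1 P (fun a => pd m (φ a) x) i := by
  unfold T1
  rw [pd_sum_at m _ fun a _ => (hφ a).const_mul _]
  exact Finset.sum_congr rfl fun a _ => pd_const_mul_at m _ (hφ a)

lemma differentiableAt_T1 {φ : Fin 3 → Space 3 → ℝ} {x : Space 3}
    (hφ : ∀ a, DifferentiableAt ℝ (φ a) x) (i : Fin 3) :
    DifferentiableAt ℝ (fun y => T1 P (fun a => φ a y) i) x :=
  DifferentiableAt.fun_sum fun a _ => (hφ a).const_mul _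

lemma T3_pd {m : Fin 3} {φ : Fin 3 → Fin 3 → Fin 3 → Space 3 → ℝ} {x : Space 3}
    (hφ : ∀ a b c, DifferentiableAt ℝ (φ a b c) x) (i j k : Fin 3) :
    pd m (fun y => T3 P (fun a b c => φ a b c y) i j k) x
      = T3 P (fun a b c => pd m (φ a b c) x) i j k := by
  unfold T3 T2
  rw [T1_pd fun a => differentiableAt_T1 (fun b => differentiableAt_T1 (hφ a b) k) j]
  congr 1
  funext a
  rw [T1_pd fun b => differentiableAt_T1 (hφ a b) k]
  congr 1
  funext b
  exact T1_pd (hφ a b) k

lemma T2_pd {m : Fin 3} {φ : Fin 3 → Fin 3 → Space 3 → ℝ} {x : Space 3}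
    (hφ : ∀ a b, DifferentiableAt ℝ (φ a b) x) (i j : Fin 3) :
    pd m (fun y => T2 P (fun a b => φ a b y) i j) x = T2 P (fun a b => pd m (φ a b) x) i j := by
  unfold T2
  rw [T1_pd fun a => differentiableAt_T1 (hφ a) j]
  congr 1
  funext a
  exact T1_pd (hφ a) j

lemma metFN_act (hP : IsOrth P) (F N : Space 3 → ℝ) (x : Space 3) (i j : Fin 3) :
    metFN (fun y => F (act P y)) (fun y => N (act P y)) x i j
      = T2 P (fun a b => metFN F N (act P x) a b) i j := by
  have hd : dl i j = T2 P dl i j := by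
    rw [← hP.col_sum i j]
    simp only [T2, T1, dl, Fin.sum_univ_three]
    simp
  have hc : cdir i j x = T2 P (fun a b => cdir a b (act P x)) i j := by
    have h : T2 P (fun a b => cdir a b (act P x)) i j
        = T1 P (fun a => act P x a) i * T1 P (fun a => act P x a) j / ‖act P x‖ ^ 2 := by
      simp only [T2, T1, cdir, Fin.sum_univ_three]; ring
    rw [h, hP.act_transpose, hP.act_transpose, hP.norm_act, cdir]
  simp only [metFN, Matrix.of_apply]
  rw [hd, hc]
  simp only [T2, T1, Fin.sum_univ_three]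
  ring

lemma inv_metFN_act (hP : IsOrth P) (F N : Space 3 → ℝ) (x : Space 3) :
    (metFN (fun y => F (act P y)) (fun y => N (act P y)) x)⁻¹
      = Matrix.of fun i j => T2 P (fun a b => (metFN F N (act P x))⁻¹ a b) i j := by
  have e : ∀ G : Matrix (Fin 3) (Fin 3) ℝ,
      (Matrix.of fun i j => T2 P (fun a b => G a b) i j) = Pᵀ * G * P := by
    intro G
    ext i j
    simp only [Matrix.of_apply, T2, T1, Matrix.mul_apply, Matrix.transpose_apply, Fin.sum_univ_three]
    ring
  have h1 : metFN (fun y => F (act P y)) (fun y => N (act P y)) x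
      = Pᵀ * metFN F N (act P x) * P := by
    rw [← e]
    ext i j
    exact metFN_act hP F N x i j
  rw [h1, e, Matrix.mul_inv_rev, Matrix.mul_inv_rev, Matrix.inv_eq_right_inv hP.row,
    Matrix.inv_eq_right_inv hP.col]
  simp [Matrix.mul_assoc]

variable {F N : Space 3 → ℝ} (hF : ContDiff ℝ 2 F) (hN : ContDiff ℝ 2 N)

include hF hN in
lemma differentiableAt_metFN {x : Space 3} (hx : x ≠ 0) (i j : Fin 3) :
    DifferentiableAt ℝ (fun y => metFN F N y i j) x := by
  have dF := hF.differentiable two_ne_zero x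
  have dN := hN.differentiable two_ne_zero x
  exact (dF.mul_const _).fun_add (((dN.fun_pow 2).fun_sub dF).fun_mul
    ((contDiffAt_cdir hx i j (m := 1)).differentiableAt one_ne_zero))

include hF hN in
lemma differentiableAt_christ (hF0 : ∀ y, F y ≠ 0) (hN0 : ∀ y, N y ≠ 0) {x : Space 3} (hx : x ≠ 0)
    (k a b : Fin 3) : DifferentiableAt ℝ (christ (metFN F N) k a b) x := by
  have hd : ∀ k, DifferentiableAt ℝ (fun y : Space 3 => y k) x :=
    fun k => (contDiff_coord k (m := 1)).differentiable one_ne_zero x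
  have hS : DifferentiableAt ℝ (fun y : Space 3 => ‖y‖ ^ 2) x :=
    (contDiff_normSq (m := 1)).differentiable one_ne_zero x
  have dF := hF.differentiable two_ne_zero x
  have dN := hN.differentiable two_ne_zero x
  have d1 : ∀ p q r, DifferentiableAt ℝ (g1f F N p q r) x := by
    intro p q r
    have dF1 := (contDiff_pd_of (m := 1) p hF le_rfl).differentiable one_ne_zero x
    have dN1 := (contDiff_pd_of (m := 1) p hN le_rfl).differentiable one_ne_zero x
    have dc := (contDiffAt_cdir hx q r (m := 1)).differentiableAt one_ne_zero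
    have dc1 : DifferentiableAt ℝ (c1f p q r) x :=
      ((((hd r).const_mul _).fun_add ((hd q).const_mul _)).fun_mul
        (hS.fun_inv (normSq_ne hx))).fun_sub
        (((((hd q).fun_mul (hd r)).fun_mul (hd p)).const_mul 2).fun_mul
          ((hS.fun_pow 2).fun_inv (pow_ne_zero 2 (normSq_ne hx))))
    exact ((dF1.mul_const _).fun_add ((((dN.fun_mul dN1).const_mul (2 : ℝ)).fun_sub dF1).fun_mul
      dc)).fun_add (((dN.fun_mul dN).fun_sub dF).fun_mul dc1)
  have dh : ∀ l, DifferentiableAt ℝ (hf F N k l) x := fun l =>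
    ((dF.fun_inv (hF0 x)).mul_const _).fun_add
      ((((dN.fun_mul dN).fun_inv (mul_ne_zero (hN0 x) (hN0 x))).fun_sub
        (dF.fun_inv (hF0 x))).fun_mul ((contDiffAt_cdir hx k l (m := 1)).differentiableAt one_ne_zero))
  have h : DifferentiableAt ℝ
      (fun y => (1 / 2) * ∑ l, hf F N k l y * (g1f F N a b l y + g1f F N b a l y - g1f F N l a b y)) x :=
    (DifferentiableAt.fun_sum fun l _ =>
      (dh l).fun_mul (((d1 a b l).fun_add (d1 b a l)).fun_sub (d1 l a b))).const_mul _
  refine h.congr_of_eventuallyEq ?_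
  filter_upwards [eventually_ne_zero hx] with y hy
  simp only [christ, inv_metFN hF0 hN0 hy, Matrix.of_apply, pd_metFN hF hN hy]

include hF hN in
lemma christ_act (hP : IsOrth P) {x : Space 3} (hx : x ≠ 0) (k i j : Fin 3) :
    christ (metFN (fun y => F (act P y)) (fun y => N (act P y))) k i j x
      = T3 P (fun a b c => christ (metFN F N) a b c (act P x)) k i j := by
  have hy : act P x ≠ 0 := by
    rw [← norm_ne_zero_iff, hP.norm_act]; simpa using hx
  have hg : ∀ m a b, pd m (fun z => metFN (fun y => F (act P y)) (fun y => N (act P y)) z a b) x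
      = T3 P (fun p q s => pd p (fun z => metFN F N z q s) (act P x)) m a b := by
    intro m a b
    rw [pd_congr_at m (Eventually.of_forall fun z => metFN_act hP F N z a b)]
    have hd : ∀ q s, DifferentiableAt ℝ (fun z => metFN F N (act P z) q s) x := fun q s =>
      (differentiableAt_metFN hF hN hy q s).fun_comp' x (act P).differentiableAt
    rw [T2_pd hd]
    simp only [pd_act x (differentiableAt_metFN hF hN hy _ _)]
    simp only [T3, T2, T1, Fin.sum_univ_three]
    ring
  simp only [christ, inv_metFN_act hP, Matrix.of_apply, hg]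
  set h := fun a b => (metFN F N (act P x))⁻¹ a b
  set A := fun p q s => pd p (fun z => metFN F N z q s) (act P x)
  have e1 : ∀ l, T2 P h k l = T1 P (fun b => T1 P (fun a => h a b) k) l := fun l => by
    simp only [T2, T1, Fin.sum_univ_three]; ring
  have e2 : ∀ l, T3 P A i j l + T3 P A j i l - T3 P A l i j
      = T1 P (fun c => T2 P (fun p q => A p q c + A q p c - A c p q) i j) l := fun l => by
    simp only [T3, T2, T1, Fin.sum_univ_three]; ring
  simp only [e1, e2]
  rw [hP.contract]
  simp only [h, A, T3, T2, T1, Fin.sum_univ_three]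
  ring

include hF hN in
/-- Orthogonal invariance of the Ricci quadratic form. -/
theorem ricci_act (hP : IsOrth P) (hF0 : ∀ y, F y ≠ 0) (hN0 : ∀ y, N y ≠ 0) {x : Space 3}
    (hx : x ≠ 0) (i j : Fin 3) :
    ricci (metFN (fun y => F (act P y)) (fun y => N (act P y))) i j x
      = T2 P (fun a b => ricci (metFN F N) a b (act P x)) i j := by
  have hy : act P x ≠ 0 := by
    rw [← norm_ne_zero_iff, hP.norm_act]; simpa using hx
  set Γ := fun a b c => christ (metFN F N) a b c (act P x)
  set D := fun m a b c => pd m (christ (metFN F N) a b c) (act P x)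
  have hd : ∀ m k a b, pd m (christ (metFN (fun y => F (act P y)) (fun y => N (act P y))) k a b) x
      = T1 P (fun q => T3 P (D q) k a b) m := by
    intro m k a b
    have he : christ (metFN (fun y => F (act P y)) (fun y => N (act P y))) k a b
        =ᶠ[𝓝 x] fun z => T3 P (fun p q s => christ (metFN F N) p q s (act P z)) k a b :=
      (eventually_ne_zero hx).mono fun z hz => christ_act hF hN hP hz k a b
    rw [pd_congr_at m he]
    have hd : ∀ p q s, DifferentiableAt ℝ (fun z => christ (metFN F N) p q s (act P z)) x :=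
      fun p q s => (differentiableAt_christ hF hN hF0 hN0 hy p q s).fun_comp' x (act P).differentiableAt
    rw [T3_pd hd]
    simp only [pd_act x (differentiableAt_christ hF hN hF0 hN0 hy _ _ _)]
    simp only [D, T3, T2, T1, Fin.sum_univ_three]
    ring
  simp only [ricci, christ_act hF hN hP hx, hd]
  have e1 : ∑ k, T1 P (fun q => T3 P (D q) k i j) k = T2 P (fun a b => ∑ q, D q q a b) i j := by
    have h : ∀ k, T1 P (fun q => T3 P (D q) k i j) k
        = T2 P (fun q p => T2 P (D q p) i j) k k := fun k => by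
      simp only [T3, T2, T1, Fin.sum_univ_three]
    simp only [h]
    rw [hP.trace]
    simp only [T2, T1, Fin.sum_univ_three]
    ring
  have e2 : ∑ k, T1 P (fun q => T3 P (D q) k i k) j = T2 P (fun a b => ∑ q, D b q a q) i j := by
    have h : ∀ k, T1 P (fun q => T3 P (D q) k i k) j
        = T2 P (fun p s => T2 P (fun a b => D b p a s) i j) k k := fun k => by
      simp only [T3, T2, T1, Fin.sum_univ_three]; ring
    simp only [h]
    rw [hP.trace]
    simp only [T2, T1, Fin.sum_univ_three]
    ring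
  have e3 : ∑ k, ∑ l, T3 P Γ k k l * T3 P Γ l i j
      = T2 P (fun a b => ∑ q, ∑ s, Γ q q s * Γ s a b) i j := by
    rw [Finset.sum_comm]
    have h : ∀ l, ∑ k, T3 P Γ k k l * T3 P Γ l i j
        = T1 P (fun c => ∑ q, Γ q q c) l * T1 P (fun p => T2 P (Γ p) i j) l := fun l => by
      rw [← Finset.sum_mul]
      congr 1
      have h2 : ∀ k, T3 P Γ k k l = T2 P (fun p q => T1 P (Γ p q) l) k k := fun k => by
        simp only [T3, T2, T1, Fin.sum_univ_three]
      simp only [h2]
      rw [hP.trace]
      simp only [T1, Fin.sum_univ_three]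
      ring
    simp only [h]
    rw [hP.contract]
    simp only [T2, T1, Fin.sum_univ_three]
    ring
  have e4 : ∑ k, ∑ l, T3 P Γ k j l * T3 P Γ l i k
      = T2 P (fun a b => ∑ q, ∑ s, Γ q b s * Γ s a q) i j := by
    have h : ∀ k, ∑ l, T3 P Γ k j l * T3 P Γ l i k
        = T2 P (fun q q' => ∑ s, T1 P (fun b => Γ q b s) j * T1 P (fun a => Γ s a q') i) k k := by
      intro k
      have ha : ∀ l, T3 P Γ k j l = T1 P (fun s => T2 P (fun q b => Γ q b s) k j) l := fun l => by
        simp only [T3, T2, T1, Fin.sum_univ_three]; ring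
      have hb : ∀ l, T3 P Γ l i k = T1 P (fun s => T2 P (Γ s) i k) l := fun l => rfl
      simp only [ha, hb]
      rw [hP.contract]
      simp only [T2, T1, Fin.sum_univ_three]
      ring
    simp only [h]
    rw [hP.trace]
    simp only [T2, T1, Fin.sum_univ_three]
    ring
  simp only [Finset.sum_sub_distrib]
  rw [e1, e2, e3, e4]
  simp only [D, Γ, T2, T1, Fin.sum_univ_three]
  ring

/-- Every unit vector is the image of the axis. -/
lemma exists_isOrth {θ : Space 3} (hθ : ‖θ‖ = 1) :
    ∃ P, IsOrth P ∧ ∀ r : ℝ, act P (EuclideanSpace.single 2 r) = r • θ := by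
  have ho : Orthonormal ℝ (({(2 : Fin 3)} : Set (Fin 3)).domRestrict fun _ : Fin 3 => θ) := by
    refine ⟨fun i => hθ, fun i j hij => ?_⟩
    exact absurd (Subtype.ext (i.2.trans j.2.symm)) hij
  obtain ⟨b, hb⟩ := ho.exists_orthonormalBasis_extension_of_card_eq (by simp)
  set P : Matrix (Fin 3) (Fin 3) ℝ := Matrix.of fun q i => b i q
  have hc : Pᵀ * P = 1 := by
    ext i j
    have h := orthonormal_iff_ite.1 b.orthonormal i j
    simp only [PiLp.inner_apply, RCLike.inner_apply, conj_trivial] at h
    rw [Matrix.mul_apply, Matrix.one_apply, ← h]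
    exact Finset.sum_congr rfl fun k _ => by simp [P, mul_comm]
  refine ⟨P, ⟨hc, mul_eq_one_comm.1 hc⟩, fun r => ?_⟩
  ext k
  rw [act_apply]
  simp [P, hb 2 rfl, mul_comm]

end

end Vale.Agent.P225.Disproof.Met3
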