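import Mathlib

/-!
# P225, disproof, module H: the theorem of Poincare and Miranda

Sperner parity on the Kuhn triangulation of a grid in the cube, then compactness.
-/

namespace Vale.Agent.P225.Disproof.PM

open Finset Filter
open scoped Topology

/-- A Kuhn simplex of the grid: lower corner and order of the coordinates. -/
abbrev Simp (n k : ℕ) : Type := (Fin n → Fin k) × Equiv.Perm (Fin n)

variable {n k : ℕ}

/-- The vertices of a Kuhn simplex. -/
def vert (s : Simp n k) (j : Fin (n + 1)) (i : Fin n) : ℕ :=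
  (s.1 i : ℕ) + if (s.2.symm i : ℕ) < (j : ℕ) then 1 else 0

lemma vert_le (s : Simp n k) (j : Fin (n + 1)) (i : Fin n) : vert s j i ≤ k := by
  unfold vert
  have := (s.1 i).isLt
  split_ifs <;> omega

/-- The admissible labellings. -/
def Label (n k : ℕ) (L : (Fin n → ℕ) → ℕ) : Prop :=
  ∀ x : Fin n → ℕ, (∀ i, x i ≤ k) → L x ≤ n ∧ (∀ i : Fin n, x i = 0 → L x ≤ i) ∧
    ∀ i : Fin n, x i = k → L x ≠ i

/-- All labels occur. -/
def Full (L : (Fin n → ℕ) → ℕ) (s : Simp n k) : Prop :=
  ∀ c ≤ n, ∃ j, L (vert s j) = c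

/-- All labels below `n` occur on the facet opposite to vertex `j`. -/
def Door (L : (Fin n → ℕ) → ℕ) (p : Simp n k × Fin (n + 1)) : Prop :=
  ∀ c < n, ∃ j', j' ≠ p.2 ∧ L (vert p.1 j') = c

open Classical in
lemma doors_parity {L : (Fin n → ℕ) → ℕ} (s : Simp n k) (hL : ∀ j, L (vert s j) ≤ n) :
    ((univ.filter fun j => Door L (s, j)).card : ZMod 2) = if Full L s then 1 else 0 := by
  set g : Fin (n + 1) → Fin (n + 1) := fun j => ⟨L (vert s j), Nat.lt_succ_of_le (hL j)⟩ with hg
  by_cases hF : Full L s
  · rw [if_pos hF]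
    have hs : Function.Surjective g := fun c => by
      obtain ⟨j, hj⟩ := hF c (Nat.le_of_lt_succ c.isLt)
      exact ⟨j, Fin.ext hj⟩
    have hi : Function.Injective g := Finite.injective_iff_surjective.2 hs
    obtain ⟨j₀, hj₀⟩ := hs (Fin.last n)
    have e : (univ.filter fun j => Door L (s, j)) = {j₀} := by
      ext j
      simp only [Finset.mem_filter, Finset.mem_univ, true_and, Finset.mem_singleton]
      constructor
      · intro hd
        by_contra hne
        have hlt : L (vert s j) < n := by
          rcases (hL j).lt_or_eq with h | h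
          · exact h
          · exact absurd (hi ((Fin.ext h : g j = Fin.last n).trans hj₀.symm)) hne
        obtain ⟨j', hj', e'⟩ := hd _ hlt
        exact hj' (hi (Fin.ext e'))
      · rintro rfl c hc
        obtain ⟨j', e'⟩ := hF c hc.le
        refine ⟨j', fun h => ?_, e'⟩
        subst h
        have := congrArg Fin.val hj₀
        simp only [hg, Fin.val_last] at this
        omega
    rw [e]; simp
  · rw [if_neg hF]
    rcases (univ.filter fun j => Door L (s, j)).eq_empty_or_nonempty with e | ⟨j, hj⟩
    · rw [e]; simp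
    · have hd : Door L (s, j) := (Finset.mem_filter.1 hj).2
      choose u hu using fun c : Fin n => hd c c.isLt
      simp only at hu
      have hui : Function.Injective u := fun c c' h => Fin.ext (by
        rw [← (hu c).2, ← (hu c').2, h])
      have hcard : (univ.erase j).card = n := by simp
      have himg : univ.image u = univ.erase j := by
        refine Finset.eq_of_subset_of_card_le (fun x hx => ?_) (by
          rw [hcard, Finset.card_image_of_injective _ hui]; simp)
        obtain ⟨c, -, rfl⟩ := Finset.mem_image.1 hx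
        exact Finset.mem_erase.2 ⟨(hu c).1, Finset.mem_univ _⟩
      have hlt : L (vert s j) < n := by
        rcases (hL j).lt_or_eq with h | h
        · exact h
        · exact absurd (fun c hc => by
            rcases hc.lt_or_eq with hc | rfl
            · exact ⟨_, (hu ⟨c, hc⟩).2⟩
            · exact ⟨j, h⟩) hF
      set c₀ : Fin n := ⟨_, hlt⟩
      have e : (univ.filter fun j => Door L (s, j)) = {j, u c₀} := by
        ext x
        simp only [Finset.mem_filter, Finset.mem_univ, true_and, Finset.mem_insert,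
          Finset.mem_singleton]
        constructor
        · intro hx
          by_contra hne
          rw [not_or] at hne
          have hxm : x ∈ univ.image u := by rw [himg]; simp [hne.1]
          obtain ⟨c, -, rfl⟩ := Finset.mem_image.1 hxm
          obtain ⟨j', hj', e'⟩ := hx c c.isLt
          by_cases hjj : j' = j
          · subst hjj
            exact hne.2 (congrArg u (Fin.ext e'.symm))
          · have hjm : j' ∈ univ.image u := by rw [himg]; simp [hjj]
            obtain ⟨c', -, rfl⟩ := Finset.mem_image.1 hjm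
            rw [(hu c').2] at e'
            exact hj' (congrArg u (Fin.ext e'))
        · rintro (rfl | rfl)
          · exact hd
          · intro c hc
            by_cases hcc : (⟨c, hc⟩ : Fin n) = c₀
            · exact ⟨j, (hu c₀).1.symm, (congrArg Fin.val hcc).symm⟩
            · exact ⟨u ⟨c, hc⟩, fun h => hcc (hui h), (hu ⟨c, hc⟩).2⟩
      rw [e, Finset.card_pair (hu c₀).1.symm]
      exact ZMod.natCast_self 2

variable {m : ℕ}

/-- The neighbour across the facet opposite to a vertex. -/
def flip (p : Simp (m + 1) k × Fin (m + 2)) : Simp (m + 1) k × Fin (m + 2) :=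
  if p.2 = 0 then
    if h : (p.1.1 (p.1.2 0) : ℕ) + 1 < k then
      ((Function.update p.1.1 (p.1.2 0) ⟨_, h⟩, (finRotate (m + 1)).trans p.1.2), Fin.last (m + 1))
    else p
  else if h : (p.2 : ℕ) = m + 1 then
    if h0 : 0 < (p.1.1 (p.1.2 (Fin.last m)) : ℕ) then
      ((Function.update p.1.1 (p.1.2 (Fin.last m))
        ⟨(p.1.1 (p.1.2 (Fin.last m)) : ℕ) - 1, by omega⟩,
        (finRotate (m + 1)).symm.trans p.1.2), 0)
    else p
  else ((p.1.1, (Equiv.swap (⟨(p.2 : ℕ) - 1, by omega⟩ : Fin (m + 1))
    ⟨(p.2 : ℕ), by omega⟩).trans p.1.2), p.2)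

lemma rot_zero : finRotate (m + 1) (Fin.last m) = 0 := finRotate_last

lemma rot_symm_zero : (finRotate (m + 1)).symm 0 = Fin.last m := by
  rw [Equiv.symm_apply_eq, rot_zero]

lemma vert_rot {v v' : Fin (m + 1) → Fin k} {π : Equiv.Perm (Fin (m + 1))}
    (hv : ∀ i, (v' i : ℕ) = (v i : ℕ) + if i = π 0 then 1 else 0) (a : Fin (m + 1)) :
    vert (n := m + 1) (v', (finRotate (m + 1)).trans π) a.castSucc = vert (v, π) a.succ := by
  funext i
  simp only [vert, Fin.val_castSucc, Fin.val_succ, Equiv.symm_trans_apply, hv]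
  set q := (finRotate (m + 1)).symm (π.symm i) with hq
  have hp : finRotate (m + 1) q = π.symm i := Equiv.apply_symm_apply _ _
  have hv' := congrArg Fin.val hp
  rw [coe_finRotate] at hv'
  have hiff : i = π 0 ↔ π.symm i = 0 := by rw [Equiv.symm_apply_eq]
  rw [if_congr hiff rfl rfl]
  by_cases hl : q = Fin.last m
  · rw [if_pos hl] at hv'
    have : (q : ℕ) = m := by rw [hl]; rfl
    have h0 : π.symm i = 0 := Fin.ext (by rw [Fin.val_zero]; omega)
    rw [if_pos h0]
    change (v i : ℕ) + 1 + (if (q : ℕ) < (a : ℕ) then 1 else 0) = _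
    have := a.isLt
    split_ifs <;> omega
  · rw [if_neg hl] at hv'
    have h0 : π.symm i ≠ 0 := fun h => by rw [h, Fin.val_zero] at hv'; omega
    rw [if_neg h0]
    change (v i : ℕ) + 0 + (if (q : ℕ) < (a : ℕ) then 1 else 0) = _
    split_ifs <;> omega

/-- The doors in the face `x m = 0`: those without a neighbour. -/
def Bdry (p : Simp (m + 1) k × Fin (m + 2)) : Prop :=
  p.2 = Fin.last (m + 1) ∧ p.1.2 (Fin.last m) = Fin.last m ∧ (p.1.1 (Fin.last m) : ℕ) = 0

variable {L : (Fin (m + 1) → ℕ) → ℕ}

lemma flip_door (hL : Label (m + 1) k L) {p : Simp (m + 1) k × Fin (m + 2)} (hd : Door L p)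
    (hb : ¬Bdry p) : Door L (flip p) ∧ ¬Bdry (flip p) ∧ flip p ≠ p ∧ flip (flip p) = p := by
  obtain ⟨⟨v, π⟩, j⟩ := p
  rcases Fin.eq_zero_or_eq_succ j with rfl | ⟨a, rfl⟩
  · -- the first vertex is dropped
    have h1 : (v (π 0) : ℕ) + 1 < k := by
      by_contra hcon
      have := (v (π 0)).isLt
      obtain ⟨j', hj', e⟩ := hd (π 0) (π 0).isLt
      refine (hL _ (vert_le (v, π) j')).2.2 (π 0) ?_ e
      have hpos : 0 < (j' : ℕ) := Nat.pos_of_ne_zero fun h => hj' (Fin.ext h)
      simp [vert, hpos]
      omega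
    have ef : flip ((v, π), (0 : Fin (m + 2))) = ((Function.update v (π 0) ⟨_, h1⟩,
        (finRotate (m + 1)).trans π), Fin.last (m + 1)) := by
      rw [flip, if_pos rfl, dif_pos h1]
    set v' := Function.update v (π 0) ⟨_, h1⟩ with hv'
    have hv : ∀ i, (v' i : ℕ) = (v i : ℕ) + if i = π 0 then 1 else 0 := fun i => by
      rw [hv', Function.update_apply]
      split_ifs with h
      · rw [h]
      · rfl
    rw [ef]
    refine ⟨fun c hc => ?_, fun hb' => ?_, fun h => ?_, ?_⟩
    · obtain ⟨j', hj', e⟩ := hd c hc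
      obtain ⟨a, rfl⟩ := Fin.eq_succ_of_ne_zero hj'
      exact ⟨a.castSucc, (Fin.castSucc_lt_last a).ne, by rw [vert_rot hv]; exact e⟩
    · obtain ⟨-, h2, h3⟩ := hb'
      simp only [Equiv.trans_apply, rot_zero] at h2
      rw [hv, if_pos h2.symm] at h3
      omega
    · have := congrArg (fun q => (q.2 : ℕ)) h
      simp at this
    · have e1 : ((finRotate (m + 1)).trans π) (Fin.last m) = π 0 := by
        rw [Equiv.trans_apply, rot_zero]
      rw [flip, if_neg (by simp [Fin.ext_iff]), dif_pos (Fin.val_last _)]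
      simp only [e1]
      rw [dif_pos (show 0 < (v' (π 0) : ℕ) by rw [hv, if_pos rfl]; omega)]
      refine Prod.ext (Prod.ext ?_ ?_) rfl
      · funext i
        refine Fin.ext ?_
        change ((Function.update v' (π 0) _ i : Fin k) : ℕ) = (v i : ℕ)
        by_cases h : i = π 0
        · subst h
          rw [Function.update_self]
          simp only
          rw [hv, if_pos rfl, Nat.add_sub_cancel]
        · rw [Function.update_of_ne h, hv, if_neg h, add_zero]
      · exact Equiv.ext fun x => by simp
  · rcases Fin.eq_castSucc_or_eq_last a with ⟨b, rfl⟩ | rfl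
    · -- a middle vertex is dropped
      set P : Fin (m + 1) := b.castSucc with hP
      set Q : Fin (m + 1) := b.succ with hQ
      have hne : P ≠ Q := (Fin.castSucc_lt_succ).ne
      have key : ∀ (v : Fin (m + 1) → Fin k) (π : Equiv.Perm (Fin (m + 1))),
          flip ((v, π), b.castSucc.succ) = ((v, (Equiv.swap P Q).trans π), b.castSucc.succ) := by
        intro v π
        rw [flip, if_neg (Fin.succ_ne_zero _), dif_neg (by simp; omega)]
        have e1 : (⟨((b.castSucc.succ : Fin (m + 2)) : ℕ) - 1, by simp⟩ : Fin (m + 1)) = P :=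
          Fin.ext (by simp [hP])
        have e2 : (⟨((b.castSucc.succ : Fin (m + 2)) : ℕ), by simp⟩ : Fin (m + 1)) = Q :=
          Fin.ext (by simp [hQ])
        simp only [e1, e2]
      rw [key]
      refine ⟨fun c hc => ?_, fun hb' => ?_, fun h => ?_, ?_⟩
      · obtain ⟨j', hj', e⟩ := hd c hc
        refine ⟨j', hj', ?_⟩
        rw [← e]
        congr 1
        funext i
        have hj : (j' : ℕ) ≠ (b : ℕ) + 1 := fun h => hj' (Fin.ext (by simpa [hP] using h))
        simp only [vert, Equiv.symm_trans_apply, Equiv.symm_swap]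
        congr 1
        refine if_congr ?_ rfl rfl
        rw [Equiv.swap_apply_def]
        split_ifs with h1 h2
        · rw [h1]; simp [hP, hQ]; omega
        · rw [h2]; simp [hP, hQ]; omega
        · exact Iff.rfl
      · have := congrArg Fin.val hb'.1
        simp at this
        omega
      · have h' := congrArg (fun q => q.1.2 P) h
        simp at h'
        exact hne h'.symm
      · rw [key]
        exact Prod.ext (Prod.ext rfl (Equiv.ext fun x => by simp)) rfl
    · -- the last vertex is dropped
      have e0 : (Fin.last m).succ = Fin.last (m + 1) := Fin.succ_last m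
      rw [e0] at hd hb ⊢
      set c := π (Fin.last m) with hc'
      have h1 : 0 < (v c : ℕ) := by
        by_contra hcon
        have h0 : (v c : ℕ) = 0 := by omega
        by_cases hcl : c = Fin.last m
        · exact hb ⟨rfl, hcl, by rw [← hcl]; exact h0⟩
        · obtain ⟨j', hj', e⟩ := hd m (Nat.lt_succ_self m)
          simp only at hj' e
          have hle : L (vert (v, π) j') ≤ c := by
            refine (hL _ (vert_le (v, π) j')).2.1 c ?_
            have h1 : (j' : ℕ) < m + 1 := Fin.val_lt_last hj'
            have h2 : π.symm c = Fin.last m := by rw [hc', Equiv.symm_apply_apply]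
            have h3 : ((π.symm c : Fin (m + 1)) : ℕ) = m := by rw [h2, Fin.val_last]
            simp only [vert]
            rw [if_neg (by omega), h0]
          have : (c : ℕ) < m := Fin.val_lt_last hcl
          omega
      have ef : flip ((v, π), Fin.last (m + 1)) = ((Function.update v c ⟨(v c : ℕ) - 1, by omega⟩,
          (finRotate (m + 1)).symm.trans π), 0) := by
        rw [flip, if_neg (by simp [Fin.ext_iff]), dif_pos (Fin.val_last _), dif_pos h1]
      set v' := Function.update v c ⟨(v c : ℕ) - 1, by omega⟩ with hv'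
      set π' := (finRotate (m + 1)).symm.trans π with hπ'
      have hp0 : π' 0 = c := by rw [hπ', Equiv.trans_apply, rot_symm_zero]
      have hv : ∀ i, (v i : ℕ) = (v' i : ℕ) + if i = π' 0 then 1 else 0 := fun i => by
        rw [hp0, hv', Function.update_apply]
        split_ifs with h
        · rw [h]; simp only; omega
        · rfl
      have hππ : (finRotate (m + 1)).trans π' = π := Equiv.ext fun x => by simp [hπ']
      rw [ef]
      refine ⟨fun c hc => ?_, fun hb' => ?_, fun h => ?_, ?_⟩
      · obtain ⟨j', hj', e⟩ := hd c hc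
        obtain ⟨a, rfl⟩ := Fin.exists_castSucc_eq.2 hj'
        have := vert_rot hv a
        rw [hππ] at this
        exact ⟨a.succ, Fin.succ_ne_zero a, by rw [← this]; exact e⟩
      · exact absurd (congrArg Fin.val hb'.1) (by simp)
      · have := congrArg (fun q => (q.2 : ℕ)) h
        simp at this
      · have hk : (v' (π' 0) : ℕ) + 1 < k := by
          have := hv c
          rw [hp0, if_pos rfl] at this
          rw [hp0, ← this]
          exact (v c).isLt
        rw [flip, if_pos rfl, dif_pos hk]
        refine Prod.ext (Prod.ext ?_ hππ) rfl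
        funext i
        refine Fin.ext ?_
        simp only [Function.update_apply]
        split_ifs with h
        · subst h; rw [hv (π' 0), if_pos rfl]
        · rw [hv i, if_neg h, add_zero]

/-- The simplex of one dimension more over a simplex of the face `x m = 0`. -/
def lift (hk : 0 < k) (s : Simp m k) : Simp (m + 1) k :=
  (Fin.snoc s.1 ⟨0, hk⟩, finSuccEquivLast.permCongr.symm s.2.optionCongr)

lemma lift_apply_castSucc (hk : 0 < k) (s : Simp m k) (i : Fin m) :
    (lift hk s).2 i.castSucc = (s.2 i).castSucc := by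
  simp [lift, Equiv.permCongr_apply, Equiv.permCongr_symm]

lemma lift_apply_last (hk : 0 < k) (s : Simp m k) :
    (lift hk s).2 (Fin.last m) = Fin.last m := by
  simp [lift, Equiv.permCongr_apply, Equiv.permCongr_symm]

lemma vert_lift (hk : 0 < k) (s : Simp m k) (a : Fin (m + 1)) :
    vert (lift hk s) a.castSucc = Fin.snoc (vert s a) 0 := by
  funext i
  induction i using Fin.lastCases with
  | last =>
    have h : (lift hk s).2.symm (Fin.last m) = Fin.last m := by
      rw [Equiv.symm_apply_eq, lift_apply_last]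
    rw [Fin.snoc_last, vert, h]
    simp [lift]
    omega
  | cast i =>
    have h : (lift hk s).2.symm i.castSucc = (s.2.symm i).castSucc := by
      rw [Equiv.symm_apply_eq, lift_apply_castSucc, Equiv.apply_symm_apply]
    rw [Fin.snoc_castSucc, vert, h]
    simp [lift, vert]

open Classical in
/-- The lemma of Sperner for the Kuhn triangulation of the cube. -/
theorem sperner (hk : 0 < k) : ∀ (n : ℕ) (L : (Fin n → ℕ) → ℕ), Label n k L →
    ((univ.filter fun s : Simp n k => Full L s).card : ZMod 2) = 1 := by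
  intro n
  induction n with
  | zero =>
    intro L hL
    have : (univ.filter fun s : Simp 0 k => Full L s) = univ := by
      refine Finset.filter_true_of_mem fun s _ c hc => ⟨0, ?_⟩
      have := (hL _ (vert_le s 0)).1
      omega
    rw [this, Finset.card_univ]
    simp [Simp, Fintype.card_prod]
  | succ m ih =>
    intro L hL
    set D := univ.filter fun p : Simp (m + 1) k × Fin (m + 2) => Door L p with hD
    have h1 : (D.card : ZMod 2) =
        ((univ.filter fun s : Simp (m + 1) k => Full L s).card : ZMod 2) := by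
      rw [hD, Finset.card_filter, Nat.cast_sum, ← Finset.univ_product_univ, Finset.sum_product,
        Finset.card_filter (fun s => Full L s), Nat.cast_sum]
      refine Finset.sum_congr rfl fun s _ => ?_
      rw [← Nat.cast_sum, ← Finset.card_filter, doors_parity s fun j => (hL _ (vert_le s j)).1]
      split_ifs <;> simp
    have h2 : ((D.filter fun p => ¬Bdry p).card : ZMod 2) = 0 := by
      rw [Finset.card_eq_sum_ones, Nat.cast_sum]
      refine Finset.sum_involution (fun p _ => flip p) (fun p hp => ?_) (fun p hp _ => ?_)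
        (fun p hp => ?_) (fun p hp => ?_)
      all_goals
        simp only [hD, Finset.mem_filter, Finset.mem_univ, true_and] at hp ⊢
      · exact CharTwo.add_self_eq_zero (1 : ZMod 2)
      · exact (flip_door hL hp.1 hp.2).2.2.1
      · exact ⟨(flip_door hL hp.1 hp.2).1, (flip_door hL hp.1 hp.2).2.1⟩
      · exact (flip_door hL hp.1 hp.2).2.2.2
    set L' : (Fin m → ℕ) → ℕ := fun x => L (Fin.snoc x 0) with hL'
    have hlab : Label m k L' := by
      intro x hx
      have hb : ∀ i, (Fin.snoc x 0 : Fin (m + 1) → ℕ) i ≤ k := fun i => by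
        induction i using Fin.lastCases with
        | last => rw [Fin.snoc_last]; exact Nat.zero_le _
        | cast i => rw [Fin.snoc_castSucc]; exact hx i
      obtain ⟨-, h0, hk'⟩ := hL _ hb
      refine ⟨by simpa [hL'] using h0 (Fin.last m) (Fin.snoc_last _ _), fun i hi => ?_,
        fun i hi => ?_⟩
      · simpa [hL'] using h0 i.castSucc (by rw [Fin.snoc_castSucc]; exact hi)
      · simpa [hL'] using hk' i.castSucc (by rw [Fin.snoc_castSucc]; exact hi)
    have h3 : (D.filter fun p => Bdry p).card =
        (univ.filter fun s : Simp m k => Full L' s).card := by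
      refine (Finset.card_bij (fun s _ => (lift hk s, Fin.last (m + 1))) (fun s hs => ?_)
        (fun s _ s' _ h => ?_) (fun p hp => ?_)).symm
      · simp only [hD, Finset.mem_filter, Finset.mem_univ, true_and] at hs ⊢
        refine ⟨fun c hc => ?_, rfl, lift_apply_last hk s, by simp [lift]⟩
        obtain ⟨a, ha⟩ := hs c (Nat.le_of_lt_succ hc)
        exact ⟨a.castSucc, (Fin.castSucc_lt_last a).ne, by rw [vert_lift]; exact ha⟩
      · have h' := congrArg Prod.fst h
        refine Prod.ext ?_ (Equiv.ext fun i => ?_)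
        · funext i
          simpa [lift] using congrFun (congrArg Prod.fst h') i.castSucc
        · have := congrArg (fun q : Simp (m + 1) k => q.2 i.castSucc) h'
          simpa [lift_apply_castSucc] using this
      · simp only [hD, Finset.mem_filter, Finset.mem_univ, true_and] at hp
        obtain ⟨⟨v, π⟩, j⟩ := p
        obtain ⟨hd, hj, hπ, hv⟩ := hp
        simp only at hj hπ hv
        subst hj
        have hne : ∀ i : Fin m, π i.castSucc ≠ Fin.last m := fun i h =>
          (Fin.castSucc_lt_last i).ne (π.injective (h.trans hπ.symm))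
        have hinj : Function.Injective fun i : Fin m => (π i.castSucc).castPred (hne i) :=
          fun i i' h => by simpa using h
        set σ : Equiv.Perm (Fin m) := Equiv.ofBijective _ (Finite.injective_iff_bijective.1 hinj)
        have hlift : lift hk (fun i => v i.castSucc, σ) = (v, π) := by
          refine Prod.ext ?_ (Equiv.ext fun i => ?_)
          · funext i
            induction i using Fin.lastCases with
            | last => simp [lift]; exact Fin.ext hv.symm
            | cast i => simp [lift]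
          · induction i using Fin.lastCases with
            | last => rw [lift_apply_last, hπ]
            | cast i => rw [lift_apply_castSucc]; simp [σ]
        refine ⟨(fun i => v i.castSucc, σ), ?_, by rw [hlift]⟩
        simp only [Finset.mem_filter, Finset.mem_univ, true_and]
        intro c hc
        obtain ⟨j', hj', e⟩ := hd c (Nat.lt_succ_of_le hc)
        obtain ⟨a, rfl⟩ := Fin.exists_castSucc_eq.2 hj'
        refine ⟨a, ?_⟩
        simp only [hL']
        rw [← vert_lift hk, hlift]
        exact e
    rw [← h1, ← Finset.card_filter_add_card_filter_not (s := D) fun p => Bdry p, Nat.cast_add, h2,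
      add_zero, h3]
    exact ih L' hlab

/-- A grid point. -/
noncomputable def pt (K : ℕ) (z : Fin n → ℕ) : Fin n → ℝ := fun i => (z i : ℝ) / K

lemma pt_mem {K : ℕ} (hK : 0 < K) {z : Fin n → ℕ} (hz : ∀ i, z i ≤ K) :
    pt K z ∈ Set.Icc (0 : Fin n → ℝ) 1 := by
  refine ⟨fun i => by simp [pt]; positivity, fun i => ?_⟩
  rw [pt, Pi.one_apply, div_le_one (Nat.cast_pos.2 hK)]
  exact Nat.cast_le.2 (hz i)

lemma exists_close {f : Fin n → (Fin n → ℝ) → ℝ}
    (h0 : ∀ i, ∀ x ∈ Set.Icc (0 : Fin n → ℝ) 1, x i = 0 → f i x ≤ 0)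
    (h1 : ∀ i, ∀ x ∈ Set.Icc (0 : Fin n → ℝ) 1, x i = 1 → 0 ≤ f i x) (N : ℕ) :
    ∃ x ∈ Set.Icc (0 : Fin n → ℝ) 1, ∀ i, ∃ a ∈ Set.Icc (0 : Fin n → ℝ) 1, ∃ b ∈ Set.Icc (0 : Fin n → ℝ) 1,
      dist a x ≤ 1 / ((N : ℝ) + 1) ∧ dist b x ≤ 1 / ((N : ℝ) + 1) ∧
      f i a ≤ 1 / ((N : ℝ) + 1) ∧ -(1 / ((N : ℝ) + 1)) ≤ f i b := by
  classical
  set K := N + 1 with hK
  have hK0 : (0 : ℝ) < K := by positivity
  have hKe : (N : ℝ) + 1 = K := by rw [hK]; push_cast; rfl
  rw [hKe]
  set g := fun (i : Fin n) (y : Fin n → ℝ) => f i y + (2 * y i - 1) / K with hg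
  set L : (Fin n → ℕ) → ℕ := fun z => if h : ∃ i : ℕ, ∃ hi : i < n, g ⟨i, hi⟩ (pt K z) < 0
    then Nat.find h else n with hL
  have hneg : ∀ (z : Fin n → ℕ) (i : Fin n), g i (pt K z) < 0 → L z ≤ i := fun z i hi => by
    have h : ∃ j : ℕ, ∃ hj : j < n, g ⟨j, hj⟩ (pt K z) < 0 := ⟨i, i.isLt, hi⟩
    simp only [hL, dif_pos h]
    exact Nat.find_min' h ⟨i.isLt, hi⟩
  have heq : ∀ (z : Fin n → ℕ) (i : Fin n), L z = i → g i (pt K z) < 0 := fun z i e => by
    by_cases h : ∃ j : ℕ, ∃ hj : j < n, g ⟨j, hj⟩ (pt K z) < 0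
    · simp only [hL, dif_pos h] at e
      obtain ⟨hj, hlt⟩ := Nat.find_spec h
      rwa [show (⟨Nat.find h, hj⟩ : Fin n) = i from Fin.ext e] at hlt
    · simp only [hL, dif_neg h] at e
      omega
  have hlab : Label n K L := by
    intro z hz
    have hmem := pt_mem (Nat.succ_pos N) hz
    refine ⟨?_, fun i hi => hneg z i ?_, fun i hi e => ?_⟩
    · by_cases h : ∃ j : ℕ, ∃ hj : j < n, g ⟨j, hj⟩ (pt K z) < 0
      · simp only [hL, dif_pos h]
        obtain ⟨hj, -⟩ := Nat.find_spec h
        exact hj.le
      · simp only [hL, dif_neg h]; exact le_rfl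
    · have hp : pt K z i = 0 := by simp [pt, hi]
      have hle := h0 i _ hmem hp
      have : 0 < 1 / (K : ℝ) := by positivity
      simp only [hg, hp]
      linarith [show (2 * (0 : ℝ) - 1) / K = -(1 / K) by ring]
    · have hp : pt K z i = 1 := by simp [pt, hi, hK0.ne']
      have hle := h1 i _ hmem hp
      have h' := heq z i e
      have : 0 < 1 / (K : ℝ) := by positivity
      simp only [hg, hp] at h'
      linarith [show (2 * (1 : ℝ) - 1) / K = 1 / K by ring]
  obtain ⟨s, hs⟩ := Finset.card_pos.1 (Nat.pos_of_ne_zero fun h => by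
    have := sperner (Nat.succ_pos N) n L hlab
    rw [h] at this
    simp at this :
      0 < (univ.filter fun s : Simp n (N + 1) => Full L s).card)
  have hs : Full L s := (Finset.mem_filter.1 hs).2
  refine ⟨pt K (vert s 0), pt_mem (Nat.succ_pos N) (vert_le s 0), fun i => ?_⟩
  have hd : ∀ j, dist (pt K (vert s j)) (pt K (vert s 0)) ≤ 1 / (K : ℝ) := fun j => by
    refine (dist_pi_le_iff (by positivity)).2 fun a => ?_
    rw [Real.dist_eq, pt, pt, div_sub_div_same, abs_div, abs_of_pos hK0]
    refine div_le_div_of_nonneg_right ?_ hK0.le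
    simp only [vert, Fin.val_zero, Nat.not_lt_zero, if_false, add_zero]
    split_ifs <;> simp
  have hbd : ∀ j, |(2 * pt K (vert s j) i - 1) / K| ≤ 1 / (K : ℝ) := fun j => by
    obtain ⟨ha, hb⟩ := pt_mem (Nat.succ_pos N) (vert_le s j)
    have ha := ha i
    have hb := hb i
    simp only [Pi.zero_apply, Pi.one_apply] at ha hb
    rw [abs_div, abs_of_pos hK0]
    exact div_le_div_of_nonneg_right (abs_le.2 ⟨by linarith, by linarith⟩) hK0.le
  obtain ⟨a, ha⟩ := hs i i.isLt.le
  obtain ⟨b, hb⟩ := hs n le_rfl
  refine ⟨_, pt_mem (Nat.succ_pos N) (vert_le s a), _, pt_mem (Nat.succ_pos N) (vert_le s b),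
    hd a, hd b, ?_, ?_⟩
  · have h' := heq _ i ha
    have := (abs_le.1 (hbd a)).1
    simp only [hg] at h'
    linarith
  · have h' : 0 ≤ g i (pt K (vert s b)) := by
      by_contra hlt
      have := hneg _ i (not_le.1 hlt)
      omega
    have := (abs_le.1 (hbd b)).2
    simp only [hg] at h'
    linarith

/-- The theorem of Poincare and Miranda. -/
theorem poincareMiranda {n : ℕ} (f : Fin n → (Fin n → ℝ) → ℝ)
    (hf : ∀ i, ContinuousOn (f i) (Set.Icc 0 1))
    (h0 : ∀ i, ∀ x ∈ Set.Icc (0 : Fin n → ℝ) 1, x i = 0 → f i x ≤ 0)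
    (h1 : ∀ i, ∀ x ∈ Set.Icc (0 : Fin n → ℝ) 1, x i = 1 → 0 ≤ f i x) :
    ∃ x ∈ Set.Icc (0 : Fin n → ℝ) 1, ∀ i, f i x = 0 := by
  choose X hX A hA B hB hAd hBd hAf hBf using exists_close h0 h1
  obtain ⟨x, hx, φ, hφ, hlim⟩ := isCompact_Icc.tendsto_subseq hX
  have h0t : Tendsto (fun N => 1 / ((φ N : ℝ) + 1)) atTop (𝓝 0) :=
    tendsto_one_div_add_atTop_nhds_zero_nat.comp hφ.tendsto_atTop
  refine ⟨x, hx, fun i => ?_⟩
  have key : ∀ Y : ℕ → Fin n → Fin n → ℝ, (∀ N i, Y N i ∈ Set.Icc (0 : Fin n → ℝ) 1) →
      (∀ N i, dist (Y N i) (X N) ≤ 1 / ((N : ℝ) + 1)) →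
      Tendsto (fun N => f i (Y (φ N) i)) atTop (𝓝 (f i x)) := fun Y hY hYd => by
    refine (hf i x hx).tendsto.comp (tendsto_nhdsWithin_iff.2 ⟨?_,
      Eventually.of_forall fun N => hY _ _⟩)
    refine hlim.congr_dist (squeeze_zero (fun N => dist_nonneg) (fun N => ?_) h0t)
    rw [dist_comm]
    exact hYd (φ N) i
  refine le_antisymm (le_of_tendsto_of_tendsto (key A hA hAd) h0t
    (Eventually.of_forall fun N => hAf _ _)) ?_
  have hlim0 : Tendsto (fun N => -(1 / ((φ N : ℝ) + 1))) atTop (𝓝 0) := by simpa using h0t.neg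
  exact le_of_tendsto_of_tendsto hlim0 (key B hB hBd) (Eventually.of_forall fun N => hBf _ _)

/-- Nonvanishing face signs, constant on each face and different on opposite faces. -/
theorem poincareMiranda_of_signs {n : ℕ} (f : Fin n → (Fin n → ℝ) → ℝ) (σ : Fin n → ℝ)
    (hf : ∀ i, ContinuousOn (f i) (Set.Icc 0 1))
    (h0 : ∀ i, ∀ x ∈ Set.Icc (0 : Fin n → ℝ) 1, x i = 0 → σ i * f i x < 0)
    (h1 : ∀ i, ∀ x ∈ Set.Icc (0 : Fin n → ℝ) 1, x i = 1 → 0 < σ i * f i x) :
    ∃ x ∈ Set.Icc (0 : Fin n → ℝ) 1, ∀ i, f i x = 0 := by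
  obtain ⟨x, hx, h⟩ := poincareMiranda (fun i y => σ i * f i y)
    (fun i => (hf i).const_mul (σ i)) (fun i y hy e => (h0 i y hy e).le)
    (fun i y hy e => (h1 i y hy e).le)
  refine ⟨x, hx, fun i => (mul_eq_zero.1 (h i)).resolve_left fun hσ => ?_⟩
  have hmem : Function.update x i 0 ∈ Set.Icc (0 : Fin n → ℝ) 1 := by
    refine ⟨fun a => ?_, fun a => ?_⟩
    · by_cases ha : a = i
      · subst ha; simp
      · simpa [ha] using hx.1 a
    · by_cases ha : a = i
      · subst ha; simp
      · simpa [ha] using hx.2 a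
  have := h0 i _ hmem (Function.update_self _ _ _)
  rw [hσ, zero_mul] at this
  exact lt_irrefl _ this

end Vale.Agent.P225.Disproof.PM
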