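import Vale.Agent.P225.Disproof.PencilSpectral
import Vale.Agent.P225.Disproof.EigenSup

/-!
# P225: the pencil on square integrable functions of the sphere

`lev l` projects on the harmonics of degree `l`, `resolv` is the inverse square root of the round
stiffness off the constants and `pencil w` is the mass form of the weight `w`, minimised over the
added constant, seen through `resolv`. For a positive weight it is a `GoodOp`; its eigenvectors
give weak eigenfunctions of the weighted round Laplacian.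
-/

namespace Vale.Agent.P225.Disproof

open MvPolynomial MeasureTheory Set Filter Topology
open scoped RealInnerProductSpace

noncomputable section

/-- Square integrable functions on the sphere. -/
abbrev L2S : Type := Lp ℝ 2 (sig 3)

/-- A continuous function in `L2S`. -/
def wvec : C(Sph 3, ℝ) →L[ℝ] L2S := ContinuousMap.toLp 2 (sig 3) ℝ

/-- A polynomial restricted to the sphere, in `L2S`. -/
def toH : MvPolynomial (Fin 3) ℝ →ₗ[ℝ] L2S :=
  wvec.toLinearMap.comp (sphAlg 3).toLinearMap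

theorem inner_wvec (f g : C(Sph 3, ℝ)) : ⟪wvec f, wvec g⟫ = ∫ θ, f θ * g θ ∂(sig 3) := by
  rw [wvec, ContinuousMap.inner_toLp]
  simp [mul_comm]

theorem inner_toH (p q : MvPolynomial (Fin 3) ℝ) : ⟪toH p, toH q⟫ = sphIp p q := by
  rw [show ⟪toH p, toH q⟫ = ⟪wvec (sphAlg 3 p), wvec (sphAlg 3 q)⟫ from rfl, inner_wvec]
  simp only [sphAlg_apply]
  rfl

theorem toH_sq_mul (q : MvPolynomial (Fin 3) ℝ) : toH (sq 3 * q) = toH q := by
  show wvec (sphAlg 3 (sq 3 * q)) = wvec (sphAlg 3 q)
  congr 1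
  ext θ
  have := evalFun_sq_sph θ
  rw [map_mul, ContinuousMap.mul_apply, sphAlg_apply, sphAlg_apply, this, one_mul]

/-- A vector orthogonal to all polynomials is zero. -/
theorem eq_zero_of_orth_toH {x : L2S} (h : ∀ p, ⟪toH p, x⟫ = 0) : x = 0 := by
  set Λ : C(Sph 3, ℝ) →L[ℝ] ℝ := (innerSL ℝ x).comp wvec
  have hsep : (sphAlg 3).range.SeparatesPoints := by
    intro a b hab
    obtain ⟨i, hi⟩ : ∃ i, (a : Space 3) i ≠ (b : Space 3) i := by
      by_contra hh
      push Not at hh
      exact hab (Subtype.ext (PiLp.ext hh))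
    exact ⟨fun θ => sphAlg 3 (MvPolynomial.X i) θ, ⟨_, ⟨MvPolynomial.X i, rfl⟩, rfl⟩,
      by simpa [sphAlg_apply, evalFun] using hi⟩
  have hΛ : ∀ f, Λ f = 0 := fun f => by
    have hd : Dense ((sphAlg 3).range : Set C(Sph 3, ℝ)) := by
      rw [dense_iff_closure_eq, ← Subalgebra.topologicalClosure_coe,
        ContinuousMap.subalgebra_topologicalClosure_eq_top_of_separatesPoints _ hsep]
      rfl
    refine congrFun (Λ.continuous.ext_on hd continuous_const ?_) f
    rintro _ ⟨p, rfl⟩
    simp only [Λ, ContinuousLinearMap.comp_apply, innerSL_apply_apply]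
    rw [real_inner_comm]; exact h p
  have h0 : (fun y : L2S => ⟪x, y⟫) = fun _ => 0 :=
    (ContinuousMap.toLp_denseRange ℝ (sig 3) ℝ (by norm_num : (2 : ENNReal) ≠ ⊤)).equalizer
      (continuous_const.inner continuous_id) continuous_const (funext fun f => hΛ f)
  exact inner_self_eq_zero.1 (congrFun h0 x)

/-- The harmonics of degree `l`. -/
def levSpace (l : ℕ) : Submodule ℝ L2S :=
  (homogeneousSubmodule (Fin 3) ℝ l ⊓ LinearMap.ker (lapL 3)).map toH

instance (l : ℕ) : FiniteDimensional ℝ (levSpace l) := by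
  haveI : FiniteDimensional ℝ
      (homogeneousSubmodule (Fin 3) ℝ l ⊓ LinearMap.ker (lapL 3) :
        Submodule ℝ (MvPolynomial (Fin 3) ℝ)) :=
    Submodule.finiteDimensional_of_le (S₂ := restrictTotalDegree (Fin 3) ℝ l) fun q hq =>
      (mem_restrictTotalDegree _ _ _).2 (IsHomogeneous.totalDegree_le hq.1)
  exact inferInstanceAs (FiniteDimensional ℝ
    ((homogeneousSubmodule (Fin 3) ℝ l ⊓ LinearMap.ker (lapL 3)).map toH))

/-- The projection on the harmonics of degree `l`. -/
def lev (l : ℕ) : L2S →L[ℝ] L2S := (levSpace l).starProjection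

theorem toH_mem_levSpace {l : ℕ} {q : MvPolynomial (Fin 3) ℝ} (hq : q.IsHomogeneous l)
    (hql : lapP q = 0) : toH q ∈ levSpace l := Submodule.mem_map_of_mem ⟨hq, hql⟩

theorem mem_levSpace {l : ℕ} {x : L2S} :
    x ∈ levSpace l ↔ ∃ q : MvPolynomial (Fin 3) ℝ, q.IsHomogeneous l ∧ lapP q = 0 ∧ toH q = x := by
  simp only [levSpace, Submodule.mem_map, Submodule.mem_inf, LinearMap.mem_ker,
    mem_homogeneousSubmodule, and_assoc]
  rfl

theorem inner_levSpace {i j : ℕ} (hij : i ≠ j) {x y : L2S} (hx : x ∈ levSpace i)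
    (hy : y ∈ levSpace j) : ⟪x, y⟫ = 0 := by
  obtain ⟨p, hp, hpl, rfl⟩ := mem_levSpace.1 hx
  obtain ⟨q, hq, hql, rfl⟩ := mem_levSpace.1 hy
  rw [inner_toH]
  exact sphIp_eq_zero hij hp hpl hq hql

theorem lev_mem (l : ℕ) (x : L2S) : lev l x ∈ levSpace l :=
  (levSpace l).starProjection_apply_mem x

theorem inner_lev (l : ℕ) (x y : L2S) : ⟪lev l x, y⟫ = ⟪x, lev l y⟫ :=
  (levSpace l).inner_starProjection_left_eq_right x y

theorem lev_lev (l m : ℕ) (x : L2S) : lev l (lev m x) = if l = m then lev l x else 0 := by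
  split_ifs with h
  · rw [h]; exact Submodule.starProjection_eq_self_iff.2 (lev_mem m x)
  · refine (Submodule.starProjection_apply_eq_zero_iff _).2 ?_
    exact (Submodule.mem_orthogonal _ _).2 fun u hu => inner_levSpace h hu (lev_mem m x)

theorem norm_sq_sum_lev (s : Finset ℕ) (c : ℕ → ℝ) (x : L2S) :
    ‖∑ l ∈ s, c l • lev l x‖ ^ 2 = ∑ l ∈ s, c l ^ 2 * ‖lev l x‖ ^ 2 := by
  rw [← real_inner_self_eq_norm_sq, sum_inner]
  refine Finset.sum_congr rfl fun l hl => ?_
  rw [inner_sum, Finset.sum_eq_single l]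
  · rw [real_inner_smul_left, real_inner_smul_right, real_inner_self_eq_norm_sq]; ring
  · intro m _ hm
    rw [real_inner_smul_left, real_inner_smul_right,
      inner_levSpace (Ne.symm hm) (lev_mem l x) (lev_mem m x), mul_zero, mul_zero]
  · exact fun h => absurd hl h

/-- Bessel's inequality for the levels. -/
theorem sum_norm_lev_le (s : Finset ℕ) (x : L2S) : ∑ l ∈ s, ‖lev l x‖ ^ 2 ≤ ‖x‖ ^ 2 := by
  set y := ∑ l ∈ s, lev l x with hy
  have h1 : ‖y‖ ^ 2 = ∑ l ∈ s, ‖lev l x‖ ^ 2 := by
    simpa using norm_sq_sum_lev s (fun _ => 1) x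
  have h2 : ⟪y, x⟫ = ∑ l ∈ s, ‖lev l x‖ ^ 2 := by
    rw [sum_inner]
    refine Finset.sum_congr rfl fun l _ => ?_
    have h := lev_lev l l x
    rw [if_pos rfl] at h
    rw [← real_inner_self_eq_norm_sq, inner_lev l x (lev l x), h, real_inner_comm]
  rw [← h2]
  nlinarith [real_inner_le_norm y x, sq_nonneg (‖y‖ - ‖x‖)]

/-- The levels are complete. -/
theorem hasSum_lev (x : L2S) : HasSum (fun l => lev l x) x := by
  have hs : Summable fun l => ‖lev l x‖ ^ 2 :=
    summable_of_sum_le (fun l => sq_nonneg _) fun s => sum_norm_lev_le s x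
  have hsum : Summable fun l => lev l x := by
    rw [summable_iff_vanishing_norm]
    intro ε hε
    obtain ⟨s, hs'⟩ := summable_iff_vanishing_norm.1 hs (ε ^ 2) (by positivity)
    refine ⟨s, fun t ht => ?_⟩
    have h1 := hs' t ht
    rw [Real.norm_of_nonneg (Finset.sum_nonneg fun l _ => sq_nonneg _)] at h1
    have h2 : ‖∑ l ∈ t, lev l x‖ ^ 2 < ε ^ 2 := by
      have h := norm_sq_sum_lev t (fun _ => 1) x
      simp only [one_smul, one_pow, one_mul] at h
      rwa [h]
    exact (pow_lt_pow_iff_left₀ (norm_nonneg _) hε.le two_ne_zero).1 h2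
  obtain ⟨y, hy⟩ := hsum
  suffices x = y by rwa [← this] at hy
  refine sub_eq_zero.1 (eq_zero_of_orth_toH fun p => ?_)
  let Λ : MvPolynomial (Fin 3) ℝ →ₗ[ℝ] ℝ :=
    (innerSL ℝ (x - y)).toLinearMap.comp toH
  have h := functional_zero (n := 3) (by norm_num) Λ
    (fun q => by simp only [Λ, LinearMap.comp_apply, toH_sq_mul])
    (fun j q hq hql => ?_) p
  · rw [real_inner_comm]; exact h
  show ⟪x - y, toH q⟫ = 0
  have hm := toH_mem_levSpace hq hql
  have e : ⟪y, toH q⟫ = ⟪lev j x, toH q⟫ := by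
    have h1 : HasSum (fun l => ⟪lev l x, toH q⟫) ⟪y, toH q⟫ := by
      simpa [Function.comp_def, innerSL_apply_apply, real_inner_comm (toH q)] using
        (innerSL ℝ (toH q)).hasSum hy
    refine h1.unique ?_
    exact hasSum_single j fun l hl => inner_levSpace hl (lev_mem l x) hm
  rw [inner_sub_left, e, inner_lev, lev, Submodule.starProjection_eq_self_iff.2 hm, sub_self]

/-- The multiplier `(l (l + 1))^(-1/2)`, zero at `l = 0`. -/
def resCoef (l : ℕ) : ℝ := (Real.sqrt ((l : ℝ) * (l + 1)))⁻¹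

theorem resCoef_nonneg (l : ℕ) : 0 ≤ resCoef l := inv_nonneg.2 (Real.sqrt_nonneg _)

theorem resCoef_zero : resCoef 0 = 0 := by simp [resCoef]

theorem resCoef_sq {l : ℕ} (hl : l ≠ 0) : resCoef l * resCoef l * ((l : ℝ) * (l + 1)) = 1 := by
  have h : (0 : ℝ) < (l : ℝ) * (l + 1) := by positivity
  rw [resCoef, ← mul_inv, Real.mul_self_sqrt h.le, inv_mul_cancel₀ h.ne']

theorem resCoef_le {l L : ℕ} (h : L < l) : resCoef l ≤ 1 / (L + 1) := by
  rw [resCoef, one_div]
  refine inv_anti₀ (by positivity) (Real.le_sqrt_of_sq_le ?_)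
  have : (L : ℝ) + 1 ≤ l := by exact_mod_cast h
  nlinarith

theorem resCoef_le_one (l : ℕ) : resCoef l ≤ 1 := by
  rcases Nat.eq_zero_or_pos l with h | h
  · rw [h, resCoef_zero]; exact zero_le_one
  · exact (resCoef_le (L := 0) h).trans (by simp)

theorem norm_sum_resCoef_le (s : Finset ℕ) {c : ℝ} (hc : 0 ≤ c) (h : ∀ l ∈ s, resCoef l ≤ c) :
    ‖∑ l ∈ s, resCoef l • lev l‖ ≤ c := by
  refine ContinuousLinearMap.opNorm_le_bound _ hc fun x => ?_
  refine (sq_le_sq₀ (norm_nonneg _) (by positivity)).1 ?_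
  simp only [sum_apply, smul_apply]
  rw [norm_sq_sum_lev, mul_pow]
  refine (Finset.sum_le_sum fun l hl => ?_).trans
    ((Finset.mul_sum s (fun l => ‖lev l x‖ ^ 2) (c ^ 2)).symm.le.trans
      (mul_le_mul_of_nonneg_left (sum_norm_lev_le s x) (sq_nonneg c)))
  exact mul_le_mul_of_nonneg_right (pow_le_pow_left₀ (resCoef_nonneg l) (h l hl) 2) (sq_nonneg _)

/-- The inverse square root of the round stiffness, zero on constants. -/
def resolv : L2S →L[ℝ] L2S := ∑' l, resCoef l • lev l

theorem hasSum_resolv : HasSum (fun l => resCoef l • lev l) resolv := by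
  refine Summable.hasSum ?_
  rw [summable_iff_vanishing_norm]
  intro ε hε
  obtain ⟨L, hL⟩ := exists_nat_one_div_lt hε
  refine ⟨Finset.range (L + 1), fun t ht => ?_⟩
  refine (norm_sum_resCoef_le t (by positivity) fun l hl => resCoef_le ?_).trans_lt hL
  have := Finset.disjoint_left.1 ht hl
  simp only [Finset.mem_range, not_lt] at this
  omega

theorem hasSum_resolv_apply (x : L2S) : HasSum (fun l => resCoef l • lev l x) (resolv x) := by
  simpa [Function.comp_def] using
    (ContinuousLinearMap.apply ℝ L2S x).hasSum hasSum_resolv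

theorem lev_resolv (m : ℕ) (x : L2S) : lev m (resolv x) = resCoef m • lev m x := by
  refine ((lev m).hasSum (hasSum_resolv_apply x)).unique ?_
  have := hasSum_single (f := fun l => lev m (resCoef l • lev l x)) m fun l hl => by
    rw [map_smul, lev_lev, if_neg (Ne.symm hl), smul_zero]
  simpa [map_smul, lev_lev] using this

theorem inner_resolv (x y : L2S) : ⟪resolv x, y⟫ = ⟪x, resolv y⟫ := by
  have h1 : HasSum (fun l => resCoef l * ⟪y, lev l x⟫) ⟪y, resolv x⟫ := by
    simpa [Function.comp_def, innerSL_apply_apply, real_inner_smul_right] using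
      (innerSL ℝ y).hasSum (hasSum_resolv_apply x)
  have h2 : HasSum (fun l => resCoef l * ⟪x, lev l y⟫) ⟪x, resolv y⟫ := by
    simpa [Function.comp_def, innerSL_apply_apply, real_inner_smul_right] using
      (innerSL ℝ x).hasSum (hasSum_resolv_apply y)
  rw [real_inner_comm y]
  refine h1.unique ?_
  convert! h2 using 1
  funext l
  rw [← inner_lev, real_inner_comm]

theorem norm_resolv_le : ‖resolv‖ ≤ 1 := le_of_tendsto'
  ((continuous_norm.tendsto _).comp hasSum_resolv)
  fun s => norm_sum_resCoef_le s zero_le_one fun l _ => resCoef_le_one l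

theorem isCompactOperator_lev (l : ℕ) : IsCompactOperator (lev l) :=
  (isCompactOperator_of_locallyCompactSpace_dom
    (levSpace l).orthogonalProjectionOnto).clm_comp (levSpace l).subtypeL

theorem isCompactOperator_resolv : IsCompactOperator resolv := by
  refine isCompactOperator_of_tendsto hasSum_resolv (Eventually.of_forall fun s => ?_)
  classical
  induction s using Finset.induction_on with
  | empty => simpa using isCompactOperator_zero (M₁ := L2S) (M₂ := L2S)
  | insert a s ha ih =>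
    rw [Finset.sum_insert ha]
    exact ((isCompactOperator_lev a).smul (resCoef a)).add ih

/-- Multiplication by a continuous function, linear in the function. -/
def mulOp : C(Sph 3, ℝ) →L[ℝ] L2S →L[ℝ] L2S :=
  ((ContinuousLinearMap.mul ℝ ℝ).holderL (sig 3) ⊤ 2 2).comp (ContinuousMap.toLp ⊤ (sig 3) ℝ)

theorem coeFn_mulOp (w : C(Sph 3, ℝ)) (x : L2S) :
    mulOp w x =ᵐ[sig 3] fun θ => w θ * x θ := by
  refine ((ContinuousLinearMap.mul ℝ ℝ).coeFn_holder (r := 2)
    (ContinuousMap.toLp ⊤ (sig 3) ℝ w) x).trans ?_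
  filter_upwards [ContinuousMap.coeFn_toLp (p := ⊤) (𝕜 := ℝ) (sig 3) w] with θ hθ
  simp only [ContinuousLinearMap.mul_apply', hθ]

theorem inner_mulOp (w : C(Sph 3, ℝ)) (x y : L2S) :
    ⟪mulOp w x, y⟫ = ∫ θ, w θ * (x θ * y θ) ∂(sig 3) := by
  rw [L2.inner_def]
  refine integral_congr_ae ?_
  filter_upwards [coeFn_mulOp w x] with θ hθ
  simp [hθ]; ring

theorem mulOp_symm (w : C(Sph 3, ℝ)) (x y : L2S) : ⟪mulOp w x, y⟫ = ⟪x, mulOp w y⟫ := by
  rw [real_inner_comm (mulOp w y) x, inner_mulOp, inner_mulOp]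
  exact integral_congr_ae (Eventually.of_forall fun θ => by ring)

theorem mulOp_nonneg {w : C(Sph 3, ℝ)} (hw : ∀ θ, 0 ≤ w θ) (x : L2S) : 0 ≤ ⟪mulOp w x, x⟫ := by
  rw [inner_mulOp]
  exact integral_nonneg fun θ => mul_nonneg (hw θ) (mul_self_nonneg _)

theorem mulOp_one : mulOp 1 = 1 :=
  ContinuousLinearMap.ext fun x => ext_inner_right ℝ fun y => by
    rw [inner_mulOp, one_apply_eq_self, L2.inner_def]
    simp [mul_comm]

theorem mulOp_coercive {m : ℝ} {w : C(Sph 3, ℝ)} (hw : ∀ θ, m ≤ w θ) (x : L2S) :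
    m * ‖x‖ ^ 2 ≤ ⟪mulOp w x, x⟫ := by
  have h := mulOp_nonneg (w := w - m • 1) (fun θ => by simpa using hw θ) x
  simp only [map_sub, map_smul, mulOp_one, sub_apply, smul_apply, one_apply_eq_self,
    inner_sub_left, real_inner_smul_left, real_inner_self_eq_norm_sq] at h
  linarith

theorem abs_form_mulOp_le (w : C(Sph 3, ℝ)) (x : L2S) : |⟪mulOp w x, x⟫| ≤ ‖w‖ * ‖x‖ ^ 2 := by
  have h1 := mulOp_coercive (m := -‖w‖) (fun θ => (abs_le.1 (w.norm_coe_le_norm θ)).1) x
  have h2 := mulOp_coercive (w := -w) (m := -‖w‖)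
    (fun θ => neg_le_neg (abs_le.1 (w.norm_coe_le_norm θ)).2) x
  simp only [map_neg, neg_apply, inner_neg_left] at h2
  rw [abs_le]
  constructor <;> linarith

theorem mulOp_wvec (w f : C(Sph 3, ℝ)) : mulOp w (wvec f) = wvec (w * f) := by
  refine Lp.ext ?_
  filter_upwards [coeFn_mulOp w (wvec f), ContinuousMap.coeFn_toLp (p := 2) (𝕜 := ℝ) (sig 3) f,
    ContinuousMap.coeFn_toLp (p := 2) (𝕜 := ℝ) (sig 3) (w * f)] with θ h1 h2 h3
  simp only [wvec] at h1 h2 h3 ⊢
  rw [h1, h2, h3]
  rfl

theorem mulOp_toH (w p : MvPolynomial (Fin 3) ℝ) :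
    mulOp (sphAlg 3 w) (toH p) = toH (w * p) := by
  rw [show toH p = wvec (sphAlg 3 p) from rfl, mulOp_wvec, ← map_mul]
  rfl

/-- The constant one. -/
def oneH : L2S := wvec 1

theorem oneH_mem : oneH ∈ levSpace 0 :=
  mem_levSpace.2 ⟨1, isHomogeneous_one _ _, by simp [lapP], by simp [toH, oneH]⟩

theorem mulOp_oneH (w : C(Sph 3, ℝ)) : mulOp w oneH = wvec w := by
  rw [oneH, mulOp_wvec, mul_one]

theorem resolv_oneH : resolv oneH = 0 := by
  refine (hasSum_resolv_apply oneH).unique ?_
  convert! hasSum_zero using 1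
  funext l
  rcases eq_or_ne l 0 with rfl | h
  · simp [resCoef_zero]
  · rw [show lev l oneH = 0 from (Submodule.starProjection_apply_eq_zero_iff _).2
      ((Submodule.mem_orthogonal _ _).2 fun u hu => inner_levSpace h hu oneH_mem), smul_zero]

/-- The total mass of a weight. -/
def tot : C(Sph 3, ℝ) →L[ℝ] ℝ := (innerSL ℝ oneH).comp wvec

theorem tot_eq (w : C(Sph 3, ℝ)) : tot w = ∫ θ, w θ ∂(sig 3) := by
  rw [tot, ContinuousLinearMap.comp_apply, innerSL_apply_apply, oneH, inner_wvec]
  simp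

theorem tot_pos {w : C(Sph 3, ℝ)} (hw : ∀ θ, 0 < w θ) : 0 < tot w := by
  rw [tot_eq, integral_pos_iff_support_of_nonneg (fun θ => (hw θ).le) (integrable_sig w.continuous),
    show Function.support w = univ from eq_univ_of_forall fun θ => (hw θ).ne']
  exact IsOpen.measure_pos _ isOpen_univ ⟨⟨EuclideanSpace.single 0 1, by simp⟩, trivial⟩

/-- The rank one operator `x ↦ ⟪a, x⟫ b`. -/
def outer : L2S →L[ℝ] L2S →L[ℝ] L2S →L[ℝ] L2S :=
  (ContinuousLinearMap.smulRightL ℝ L2S L2S).comp (innerSL ℝ)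

theorem outer_apply (a b x : L2S) : outer a b x = ⟪a, x⟫ • b := rfl

/-- The mass form minimised over constants. -/
def redMass (w : C(Sph 3, ℝ)) : L2S →L[ℝ] L2S :=
  mulOp w - (tot w)⁻¹ • outer (wvec w) (wvec w)

/-- The pencil. -/
def pencil (w : C(Sph 3, ℝ)) : L2S →L[ℝ] L2S := resolv.comp ((redMass w).comp resolv)

/-- The eigenfunction of a vector: the optimal constant is added. -/
def lift (w : C(Sph 3, ℝ)) (x : L2S) : L2S :=
  resolv x - ((tot w)⁻¹ * ⟪wvec w, resolv x⟫) • oneH

theorem redMass_resolv (w : C(Sph 3, ℝ)) (x : L2S) :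
    redMass w (resolv x) = mulOp w (lift w x) := by
  simp only [redMass, lift, sub_apply, smul_apply, outer_apply, map_sub, map_smul, mulOp_oneH,
    smul_smul]

theorem pencil_apply (w : C(Sph 3, ℝ)) (x : L2S) :
    pencil w x = resolv (mulOp w (lift w x)) := by
  simp only [pencil, ContinuousLinearMap.comp_apply, redMass_resolv]

/-- The lifted vector is orthogonal to constants in the mass form. -/
theorem inner_oneH_lift {w : C(Sph 3, ℝ)} (hw : tot w ≠ 0) (x : L2S) :
    ⟪oneH, mulOp w (lift w x)⟫ = 0 := by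
  rw [← mulOp_symm, mulOp_oneH, lift, inner_sub_right, real_inner_smul_right,
    show ⟪wvec w, oneH⟫ = tot w from real_inner_comm _ _, mul_comm (tot w)⁻¹, mul_assoc,
    inv_mul_cancel₀ hw, mul_one, sub_self]

theorem inner_pencil {w : C(Sph 3, ℝ)} (hw : tot w ≠ 0) (x y : L2S) :
    ⟪pencil w x, y⟫ = ⟪mulOp w (lift w x), lift w y⟫ := by
  rw [pencil_apply, inner_resolv, lift.eq_1 w y, inner_sub_right, real_inner_smul_right,
    real_inner_comm oneH, inner_oneH_lift hw, mul_zero, sub_zero]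

theorem pencil_symm {w : C(Sph 3, ℝ)} (hw : tot w ≠ 0) (x y : L2S) :
    ⟪pencil w x, y⟫ = ⟪x, pencil w y⟫ := by
  rw [inner_pencil hw, real_inner_comm (pencil w y), inner_pencil hw, mulOp_symm, real_inner_comm]

theorem levSpace_zero_orth {z : L2S} (hz : ⟪oneH, z⟫ = 0) : lev 0 z = 0 := by
  refine (Submodule.starProjection_apply_eq_zero_iff _).2 ((Submodule.mem_orthogonal _ _).2
    fun u hu => ?_)
  obtain ⟨q, hq, -, rfl⟩ := mem_levSpace.1 hu
  rw [totalDegree_eq_zero_iff_eq_C.1 ((totalDegree_zero_iff_isHomogeneous _).2 hq),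
    show (MvPolynomial.C (coeff 0 q) : MvPolynomial (Fin 3) ℝ) = coeff 0 q • 1 by
      rw [smul_eq_C_mul, mul_one], map_smul, real_inner_smul_left,
    show toH 1 = oneH by simp [toH, oneH], hz, mul_zero]

theorem pencil_pos {w : C(Sph 3, ℝ)} (hw : ∀ θ, 0 < w θ) {x : L2S} (hx : ⟪oneH, x⟫ = 0)
    (hx0 : x ≠ 0) : 0 < ⟪pencil w x, x⟫ := by
  obtain ⟨θ₀, -, hθ₀⟩ := isCompact_univ.exists_isMinOn
    ⟨⟨EuclideanSpace.single 0 1, by simp⟩, trivial⟩ w.continuous.continuousOn
  have hm := mulOp_coercive (w := w) (m := w θ₀) (fun θ => hθ₀ (mem_univ θ))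
  rw [inner_pencil (tot_pos hw).ne']
  refine lt_of_lt_of_le ?_ (hm (lift w x))
  refine mul_pos (hw θ₀) (pow_pos (norm_pos_iff.2 fun h0 => hx0 ?_) 2)
  refine (hasSum_lev x).unique ?_
  convert! hasSum_zero using 1
  funext l
  rcases eq_or_ne l 0 with rfl | hl
  · exact levSpace_zero_orth hx
  · have h1 := congrArg (lev l) h0
    rw [lift, map_sub, map_smul, lev_resolv, show lev l oneH = 0 from
      (Submodule.starProjection_apply_eq_zero_iff _).2
        ((Submodule.mem_orthogonal _ _).2 fun u hu => inner_levSpace hl hu oneH_mem),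
      smul_zero, sub_zero, map_zero, smul_eq_zero] at h1
    exact h1.resolve_left fun h => by simpa [h] using resCoef_sq hl

theorem toH_powers_injective : Function.Injective fun q : Polynomial ℝ =>
    toH (Polynomial.aeval (MvPolynomial.X (0 : Fin 3) : MvPolynomial (Fin 3) ℝ) q) := by
  intro q r h
  refine sub_eq_zero.1 (Polynomial.eq_zero_of_infinite_isRoot _ ?_)
  have h' := ContinuousMap.toLp_injective (𝕜 := ℝ) (p := 2) (sig 3) h
  refine Set.Infinite.mono (s := Ioo (-1 : ℝ) 1) (fun s hs => ?_) (Ioo_infinite (by norm_num))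
  have hs2 : 0 ≤ 1 - s ^ 2 := by nlinarith [hs.1, hs.2]
  let θ : Sph 3 := ⟨WithLp.toLp 2 ![s, Real.sqrt (1 - s ^ 2), 0], by
    rw [mem_sphere_zero_iff_norm, EuclideanSpace.norm_eq, Real.sqrt_eq_one, Fin.sum_univ_three]
    simp [Real.sq_sqrt hs2]⟩
  have h2 := DFunLike.congr_fun h' θ
  simp only [AlgHom.toLinearMap_apply, sphAlg_apply, evalFun] at h2
  have e : ∀ u : Polynomial ℝ, MvPolynomial.eval (fun i => (θ : Space 3) i)
      (Polynomial.aeval (MvPolynomial.X (0 : Fin 3) : MvPolynomial (Fin 3) ℝ) u) = u.eval s := by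
    intro u
    induction u using Polynomial.induction_on' with
    | add a b ha hb => simp [ha, hb]
    | monomial n a => simp [θ]
  rw [e, e] at h2
  simp [Polynomial.IsRoot, h2]

/-- For a positive weight the pencil has all the properties of the spectral layer. -/
theorem goodOp_pencil {w : C(Sph 3, ℝ)} (hw : ∀ θ, 0 < w θ) : GoodOp (pencil w) where
  symm := pencil_symm (tot_pos hw).ne'
  nonneg x := by
    rw [inner_pencil (tot_pos hw).ne']
    exact mulOp_nonneg (fun θ => (hw θ).le) _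
  compact := isCompactOperator_resolv.comp_clm ((redMass w).comp resolv)
  pos j := by
    let f : (Fin (j + 1) → ℝ) →ₗ[ℝ] L2S :=
      (toH.comp (Polynomial.aeval (MvPolynomial.X (0 : Fin 3) :
        MvPolynomial (Fin 3) ℝ)).toLinearMap).comp
        ((Polynomial.degreeLTEquiv ℝ (j + 1)).symm.toLinearMap |> (Submodule.subtype _).comp)
    have hf : Function.Injective f := toH_powers_injective.comp
      (Subtype.val_injective.comp (Polynomial.degreeLTEquiv ℝ (j + 1)).symm.injective)
    let g : (Fin (j + 1) → ℝ) →ₗ[ℝ] ℝ := (innerSL ℝ oneH).toLinearMap.comp f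
    have hg : j ≤ Module.finrank ℝ (LinearMap.ker g) := by
      have h1 := LinearMap.finrank_range_add_finrank_ker g
      have h2 : Module.finrank ℝ (LinearMap.range g) ≤ 1 :=
        (Submodule.finrank_le _).trans (Module.finrank_self ℝ).le
      rw [Module.finrank_fin_fun] at h1
      omega
    obtain ⟨v, hv⟩ := exists_linearIndependent_of_le_finrank hg
    refine ⟨Submodule.span ℝ (Set.range fun i => f (v i)), ?_, fun x hx hx0 =>
      pencil_pos hw ?_ hx0⟩
    · rw [finrank_span_eq_card, Fintype.card_fin]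
      exact (hv.map' (LinearMap.ker g).subtype (Submodule.ker_subtype _)).map' f
        (LinearMap.ker_eq_bot.2 hf)
    · clear hx0
      induction hx using Submodule.span_induction with
      | mem y hy => obtain ⟨i, rfl⟩ := hy; exact (v i).2
      | zero => exact inner_zero_right _
      | add a b _ _ ha hb => rw [inner_add_right, ha, hb, add_zero]
      | smul r a _ ha => rw [real_inner_smul_right, ha, mul_zero]

/-- The weak equation of an eigenvector. -/
theorem eigen_weak {w : C(Sph 3, ℝ)} (hw : tot w ≠ 0) {x : L2S} {ν : ℝ} (hν : ν ≠ 0)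
    (h : pencil w x = ν • x) (l : ℕ) :
    ((l : ℝ) * (l + 1)) • lev l (lift w x) = ν⁻¹ • lev l (mulOp w (lift w x)) := by
  rcases eq_or_ne l 0 with rfl | hl
  · simp [levSpace_zero_orth (inner_oneH_lift hw x)]
  rw [pencil_apply] at h
  have h1 := congrArg (lev l) h
  rw [lev_resolv, map_smul] at h1
  rw [lift.eq_1 w x, map_sub, map_smul, lev_resolv, show lev l oneH = 0 from
    (Submodule.starProjection_apply_eq_zero_iff _).2
      ((Submodule.mem_orthogonal _ _).2 fun u hu => inner_levSpace hl hu oneH_mem),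
    smul_zero, sub_zero, ← lift.eq_1 w x, smul_smul,
    show lev l x = ν⁻¹ • resCoef l • lev l (mulOp w (lift w x)) by
      rw [h1, smul_smul, inv_mul_cancel₀ hν, one_smul], smul_smul, smul_smul]
  congr 1
  rw [show (l : ℝ) * (l + 1) * resCoef l * ν⁻¹ * resCoef l =
    ν⁻¹ * (resCoef l * resCoef l * ((l : ℝ) * (l + 1))) by ring, resCoef_sq hl, mul_one]

end

end Vale.Agent.P225.Disproof
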