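import Mathlib

/-!
# P225: sorted eigenvalues and top eigenspaces of a compact nonnegative operator

`nu T i` is the `i`-th largest eigenvalue (from zero) of a compact nonnegative symmetric operator,
defined by max-min; it is Lipschitz in `T`. `topSpace T j` is spanned by the first `j`
eigenvectors. Where `Gap T j` holds its projection depends Lipschitz continuously on `T`.
-/

namespace Vale.Agent.P225.Disproof

open Filter Topology
open scoped RealInnerProductSpace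

noncomputable section

variable {H : Type*} [NormedAddCommGroup H] [InnerProductSpace ℝ H]

/-- Compact, symmetric, nonnegative, and positive on subspaces of every dimension. -/
structure GoodOp (T : H →L[ℝ] H) : Prop where
  symm : ∀ x y : H, ⟪T x, y⟫ = ⟪x, T y⟫
  nonneg : ∀ x : H, 0 ≤ ⟪T x, x⟫
  compact : IsCompactOperator T
  pos : ∀ j : ℕ, ∃ W : Submodule ℝ H, Module.finrank ℝ W = j ∧ ∀ x ∈ W, x ≠ 0 → 0 < ⟪T x, x⟫

/-- Cauchy-Schwarz for a nonnegative symmetric operator. -/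
theorem norm_sq_le_of_form {A : H →L[ℝ] H} (hs : ∀ x y : H, ⟪A x, y⟫ = ⟪x, A y⟫)
    (hn : ∀ x : H, 0 ≤ ⟪A x, x⟫) {C : ℝ} {x : H} (hC : ⟪A (A x), A x⟫ ≤ C * ‖A x‖ ^ 2) :
    ‖A x‖ ^ 2 ≤ C * ⟪A x, x⟫ := by
  have e : ⟪A (A x), x⟫ = ‖A x‖ ^ 2 := by rw [hs, real_inner_self_eq_norm_sq]
  have hq : ∀ r : ℝ, 0 ≤ ⟪A (A x), A x⟫ * (r * r) + 2 * ‖A x‖ ^ 2 * r + ⟪A x, x⟫ := fun r => by
    have h := hn (x + r • A x)
    simp only [map_add, map_smul, inner_add_left, inner_add_right, real_inner_smul_left,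
      real_inner_smul_right, e, real_inner_self_eq_norm_sq] at h
    linarith
  have h := discrim_le_zero hq
  rw [discrim] at h
  rcases (sq_nonneg ‖A x‖).eq_or_lt with h0 | h0
  · have hx : A x = 0 := norm_eq_zero.1 (pow_eq_zero_iff two_ne_zero |>.1 h0.symm)
    simp [hx]
  · refine le_of_mul_le_mul_right ?_ h0
    nlinarith [mul_le_mul_of_nonneg_right hC (hn x)]

/-- A subspace of finite positive dimension contains a unit vector. -/
theorem exists_unit {W : Submodule ℝ H} (h : 0 < Module.finrank ℝ W) : ∃ x ∈ W, ‖x‖ = 1 := by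
  have : Nontrivial W := Module.nontrivial_of_finrank_pos (R := ℝ) h
  obtain ⟨⟨x, hx⟩, hx0⟩ := exists_ne (0 : W)
  have hn : ‖x‖ ≠ 0 := fun h0 => hx0 (Subtype.ext (norm_eq_zero.1 h0))
  exact ⟨‖x‖⁻¹ • x, W.smul_mem _ hx, by rw [norm_smul, norm_inv, norm_norm, inv_mul_cancel₀ hn]⟩

/-- A subspace meets the orthogonal of a smaller one. -/
theorem exists_unit_orth {W S : Submodule ℝ H} [FiniteDimensional ℝ W] [FiniteDimensional ℝ S]
    (h : Module.finrank ℝ S < Module.finrank ℝ W) : ∃ x ∈ W, x ∈ Sᗮ ∧ ‖x‖ = 1 := by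
  set f : W →ₗ[ℝ] S := (S.orthogonalProjectionOnto : H →ₗ[ℝ] S).comp W.subtype
  obtain ⟨w, hw, hw0⟩ := (Submodule.ne_bot_iff _).1 (LinearMap.ker_ne_bot_of_finrank_lt h (f := f))
  have hn : ‖(w : H)‖ ≠ 0 := fun h0 => hw0 (Subtype.ext (norm_eq_zero.1 h0))
  have hS : (w : H) ∈ Sᗮ := by
    rw [← Submodule.starProjection_apply_eq_zero_iff]
    exact congrArg Subtype.val hw
  exact ⟨‖(w : H)‖⁻¹ • (w : H), W.smul_mem _ w.2, Sᗮ.smul_mem _ hS, by
    rw [norm_smul, norm_inv, norm_norm, inv_mul_cancel₀ hn]⟩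

/-- The set behind `nu`. -/
def nuSet (T : H →L[ℝ] H) (i : ℕ) : Set ℝ :=
  {b | ∃ W : Submodule ℝ H, Module.finrank ℝ W = i + 1 ∧ ∀ x ∈ W, b * ‖x‖ ^ 2 ≤ ⟪T x, x⟫}

/-- The sorted eigenvalues, largest first. -/
def nu (T : H →L[ℝ] H) (i : ℕ) : ℝ := sSup (nuSet T i)

theorem nuSet_le (T : H →L[ℝ] H) {i : ℕ} {b : ℝ} (hb : b ∈ nuSet T i) : b ≤ ‖T‖ := by
  obtain ⟨W, hW, hW'⟩ := hb
  obtain ⟨x, hx, hx1⟩ := exists_unit (W := W) (by omega)
  have h := hW' x hx
  rw [hx1, one_pow, mul_one] at h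
  calc b ≤ ⟪T x, x⟫ := h
    _ ≤ ‖T x‖ * ‖x‖ := real_inner_le_norm _ _
    _ ≤ ‖T‖ := by rw [hx1, mul_one]; simpa [hx1] using T.le_opNorm x

theorem bddAbove_nuSet (T : H →L[ℝ] H) (i : ℕ) : BddAbove (nuSet T i) :=
  ⟨‖T‖, fun _ => nuSet_le T⟩

theorem le_nu {T : H →L[ℝ] H} {i : ℕ} {b : ℝ} {W : Submodule ℝ H}
    (hW : Module.finrank ℝ W = i + 1) (h : ∀ x ∈ W, b * ‖x‖ ^ 2 ≤ ⟪T x, x⟫) : b ≤ nu T i :=
  le_csSup (bddAbove_nuSet T i) ⟨W, hW, h⟩

theorem abs_form_sub_le (T T' : H →L[ℝ] H) (x : H) :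
    |⟪T x, x⟫ - ⟪T' x, x⟫| ≤ ‖T - T'‖ * ‖x‖ ^ 2 := by
  rw [← inner_sub_left, ← sub_apply, pow_two, ← mul_assoc]
  exact (abs_real_inner_le_norm _ _).trans
    (mul_le_mul_of_nonneg_right ((T - T').le_opNorm x) (norm_nonneg x))

/-- The eigenvalues are Lipschitz in the operator. -/
theorem abs_nu_sub_le (T T' : H →L[ℝ] H) (i : ℕ) : |nu T i - nu T' i| ≤ ‖T - T'‖ := by
  by_cases hne : ∃ W : Submodule ℝ H, Module.finrank ℝ W = i + 1
  swap
  · have : ∀ S : H →L[ℝ] H, nu S i = 0 := fun S => by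
      rw [nu, show nuSet S i = ∅ from Set.eq_empty_iff_forall_notMem.2
        fun b ⟨W, hW, _⟩ => hne ⟨W, hW⟩, Real.sSup_empty]
    simp [this]
  obtain ⟨W₀, hW₀⟩ := hne
  have key : ∀ S S' : H →L[ℝ] H, nu S i ≤ nu S' i + ‖S - S'‖ := fun S S' => by
    refine csSup_le ⟨-‖S‖, W₀, hW₀, fun x _ => ?_⟩ fun b hb => ?_
    · have := abs_form_sub_le S 0 x
      simp only [zero_apply, inner_zero_left, sub_zero] at this
      linarith [neg_abs_le ⟪S x, x⟫]
    · obtain ⟨W, hW, hW'⟩ := hb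
      have : b - ‖S - S'‖ ≤ nu S' i := le_nu hW fun x hx => by
        linarith [hW' x hx, (abs_le.1 (abs_form_sub_le S S' x)).2, sub_mul b ‖S - S'‖ (‖x‖ ^ 2)]
      linarith
  rw [abs_le]
  constructor <;> linarith [key T T', key T' T, norm_sub_rev T T']

theorem continuous_nu (i : ℕ) : Continuous fun T : H →L[ℝ] H => nu T i :=
  (LipschitzWith.of_dist_le_mul (K := 1) fun T T' => by
    rw [NNReal.coe_one, one_mul, Real.dist_eq, dist_eq_norm]; exact abs_nu_sub_le T T' i).continuous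

/-- The gap after the first `j` eigenvalues is open. -/
def Gap (T : H →L[ℝ] H) (j : ℕ) : Prop := 1 ≤ j ∧ nu T j < nu T (j - 1)

theorem isOpen_gap (j : ℕ) : IsOpen {T : H →L[ℝ] H | Gap T j} := by
  by_cases hj : 1 ≤ j
  · simp only [Gap, hj, true_and]
    exact isOpen_lt (continuous_nu j) (continuous_nu (j - 1))
  · simp [Gap, hj]

/-- A vector extending a list of top eigenvectors. -/
def nextVec (T : H →L[ℝ] H) (S : Submodule ℝ H) : H :=
  haveI := Classical.dec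
  if h : ∃ x : H, ‖x‖ = 1 ∧ x ∈ Sᗮ ∧ T x = ⟪T x, x⟫ • x ∧
      ∀ y ∈ Sᗮ, ⟪T y, y⟫ ≤ ⟪T x, x⟫ * ‖y‖ ^ 2 then h.choose else 0

/-- The span of the first `j` eigenvectors. -/
def topSpace (T : H →L[ℝ] H) : ℕ → Submodule ℝ H
  | 0 => ⊥
  | j + 1 => topSpace T j ⊔ Submodule.span ℝ {nextVec T (topSpace T j)}

instance finiteDimensional_topSpace (T : H →L[ℝ] H) :
    ∀ j, FiniteDimensional ℝ (topSpace T j)
  | 0 => inferInstanceAs (FiniteDimensional ℝ (⊥ : Submodule ℝ H))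
  | j + 1 => by
    haveI := finiteDimensional_topSpace T j
    exact inferInstanceAs (FiniteDimensional ℝ
      (topSpace T j ⊔ Submodule.span ℝ {nextVec T (topSpace T j)} : Submodule ℝ H))

/-- The eigenvectors, largest eigenvalue first. -/
def eigvec (T : H →L[ℝ] H) (i : ℕ) : H := nextVec T (topSpace T i)

/-- The orthogonal projection on the top eigenspace. -/
def topProj (T : H →L[ℝ] H) (j : ℕ) : H →L[ℝ] H := (topSpace T j).starProjection

theorem topSpace_le_succ (T : H →L[ℝ] H) (j : ℕ) : topSpace T j ≤ topSpace T (j + 1) :=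
  le_sup_left

theorem topSpace_mono (T : H →L[ℝ] H) : Monotone (topSpace T) :=
  monotone_nat_of_le_succ (topSpace_le_succ T)

theorem topProj_zero (T : H →L[ℝ] H) : topProj T 0 = 0 := by
  ext x
  simp [topProj, topSpace]

theorem eigvec_mem (T : H →L[ℝ] H) {i j : ℕ} (h : i < j) : eigvec T i ∈ topSpace T j :=
  topSpace_mono T h (Submodule.mem_sup_right (Submodule.mem_span_singleton_self _))

variable [CompleteSpace H] {T T' : H →L[ℝ] H}

/-- The largest eigenvalue on an invariant orthogonal complement is attained. -/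
theorem GoodOp.exists_max (hT : GoodOp T) (S : Submodule ℝ H) [FiniteDimensional ℝ S]
    (hS : ∀ x ∈ S, T x ∈ S) (hpos : ∃ y ∈ Sᗮ, 0 < ⟪T y, y⟫) :
    ∃ x : H, ‖x‖ = 1 ∧ x ∈ Sᗮ ∧ T x = ⟪T x, x⟫ • x ∧
      ∀ y ∈ Sᗮ, ⟪T y, y⟫ ≤ ⟪T x, x⟫ * ‖y‖ ^ 2 := by
  have hS' : ∀ y ∈ Sᗮ, T y ∈ Sᗮ := fun y hy =>
    (Submodule.mem_orthogonal S _).2 fun u hu => by
      rw [← hT.symm]; exact (Submodule.mem_orthogonal S _).1 hy _ (hS u hu)
  set R : Set ℝ := {r | ∃ x ∈ Sᗮ, ‖x‖ = 1 ∧ r = ⟪T x, x⟫}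
  have hR : BddAbove R := ⟨‖T‖, fun r ⟨x, _, hx, hr⟩ => by
    rw [hr]
    refine (real_inner_le_norm _ _).trans ?_
    rw [hx, mul_one]; simpa [hx] using T.le_opNorm x⟩
  obtain ⟨y₀, hy₀, hy₀pos⟩ := hpos
  have hy₀n : ‖y₀‖ ≠ 0 := fun h => by simp [norm_eq_zero.1 h] at hy₀pos
  have hunit : ‖‖y₀‖⁻¹ • y₀‖ = 1 := by
    rw [norm_smul, norm_inv, norm_norm, inv_mul_cancel₀ hy₀n]
  have hR₀ : R.Nonempty := ⟨_, _, Sᗮ.smul_mem _ hy₀, hunit, rfl⟩
  set m := sSup R with hm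
  have hm0 : 0 < m := lt_of_lt_of_le (by
    rw [map_smul, real_inner_smul_left, real_inner_smul_right]; positivity)
    (le_csSup hR ⟨_, Sᗮ.smul_mem _ hy₀, hunit, rfl⟩)
  have hup : ∀ y ∈ Sᗮ, ⟪T y, y⟫ ≤ m * ‖y‖ ^ 2 := fun y hy => by
    rcases eq_or_ne y 0 with rfl | h0
    · simp
    have hn : ‖y‖ ≠ 0 := norm_ne_zero_iff.2 h0
    have h := le_csSup hR ⟨_, Sᗮ.smul_mem ‖y‖⁻¹ hy,
      by rw [norm_smul, norm_inv, norm_norm, inv_mul_cancel₀ hn], rfl⟩
    rw [map_smul, real_inner_smul_left, real_inner_smul_right, ← hm, ← mul_assoc,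
      ← mul_inv, ← pow_two, inv_mul_le_iff₀ (by positivity)] at h
    linarith
  obtain ⟨r, -, hr, hrR⟩ := exists_seq_tendsto_sSup hR₀ hR
  choose x hxS hx1 hxr using hrR
  have hA : ∀ i, ‖m • x i - T (x i)‖ ^ 2 ≤ (2 * m) * (m - r i) := fun i => by
    set Q := Sᗮ.starProjection
    have hQs : ∀ a b : H, ⟪Q a, b⟫ = ⟪a, Q b⟫ := fun a b => Sᗮ.inner_starProjection_left_eq_right a b
    set A : H →L[ℝ] H := (m • (1 : H →L[ℝ] H) - T).comp Q
    have hAQ : ∀ a, A a = Q (A a) := fun a => by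
      refine (Submodule.starProjection_eq_self_iff.2 ?_).symm
      exact Sᗮ.sub_mem (Sᗮ.smul_mem m (Sᗮ.starProjection_apply_mem a))
        (hS' _ (Sᗮ.starProjection_apply_mem a))
    have hform : ∀ a b, ⟪A a, b⟫ = m * ⟪Q a, Q b⟫ - ⟪T (Q a), Q b⟫ := fun a b => by
      rw [hAQ, hQs]
      simp only [A, ContinuousLinearMap.comp_apply, sub_apply, smul_apply, one_apply_eq_self,
        inner_sub_left, real_inner_smul_left]
    have h := norm_sq_le_of_form (A := A) (x := x i) (C := 2 * m)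
      (fun a b => by rw [hform, real_inner_comm (A b) a, hform, real_inner_comm (Q b),
        hT.symm, real_inner_comm (T (Q b))])
      (fun a => by
        rw [hform, real_inner_self_eq_norm_sq]
        linarith [hup _ (Sᗮ.starProjection_apply_mem a)])
      (by
        rw [hform, real_inner_self_eq_norm_sq, ← hAQ]
        nlinarith [hT.nonneg (A (x i)), sq_nonneg ‖A (x i)‖])
    have e : A (x i) = m • x i - T (x i) := by
      simp [A, Q, Submodule.starProjection_eq_self_iff.2 (hxS i)]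
    rw [e] at h
    refine h.trans (le_of_eq ?_)
    rw [inner_sub_left, real_inner_smul_left, real_inner_self_eq_norm_sq, hx1, hxr]
    ring
  have hK := hT.compact.isCompact_closure_image_closedBall (f := T.toLinearMap) 1
  obtain ⟨y, -, φ, hφ, hy⟩ := hK.tendsto_subseq (x := fun i => T (x i)) fun i =>
    subset_closure ⟨x i, by simp [hx1], rfl⟩
  have h0 : Tendsto (fun i => m • x i - T (x i)) atTop (𝓝 0) := by
    rw [tendsto_zero_iff_norm_tendsto_zero]
    have hlim : Tendsto (fun i => Real.sqrt ((2 * m) * (m - r i))) atTop (𝓝 0) := by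
      have : Tendsto (fun i => (2 * m) * (m - r i)) atTop (𝓝 0) := by
        simpa [← hm] using (hr.const_sub m).const_mul (2 * m)
      simpa [Function.comp_def] using (Real.continuous_sqrt.tendsto 0).comp this
    exact squeeze_zero (fun i => norm_nonneg _) (fun i => Real.le_sqrt_of_sq_le (hA i)) hlim
  have hxlim : Tendsto (fun i => x (φ i)) atTop (𝓝 (m⁻¹ • y)) := by
    have h := ((h0.comp hφ.tendsto_atTop).add hy).const_smul m⁻¹
    rw [zero_add] at h
    refine h.congr fun i => ?_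
    simp [smul_smul, inv_mul_cancel₀ hm0.ne']
  set z := m⁻¹ • y with hz
  have hzS : z ∈ Sᗮ := S.isClosed_orthogonal.mem_of_tendsto hxlim (Eventually.of_forall fun i => hxS _)
  have hz1 : ‖z‖ = 1 := tendsto_nhds_unique hxlim.norm (by simp [hx1])
  have hTz : T z = m • z := by
    rw [hz, smul_smul, mul_inv_cancel₀ hm0.ne', one_smul]
    exact tendsto_nhds_unique ((T.continuous.tendsto _).comp hxlim) hy
  have hzm : ⟪T z, z⟫ = m := by
    rw [hTz, real_inner_smul_left, real_inner_self_eq_norm_sq, hz1, one_pow, mul_one]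
  refine ⟨z, hz1, hzS, ?_, ?_⟩
  · rw [hzm]; exact hTz
  · rw [hzm]; exact hup

/-- The inductive properties of the top spaces. -/
theorem GoodOp.top_aux (hT : GoodOp T) : ∀ j,
    (∀ x ∈ topSpace T j, T x ∈ topSpace T j) ∧ Module.finrank ℝ (topSpace T j) = j ∧
      ∀ x ∈ topSpace T j, ∀ y ∈ (topSpace T j)ᗮ, ⟪T y, y⟫ * ‖x‖ ^ 2 ≤ ⟪T x, x⟫ * ‖y‖ ^ 2
  | 0 => by
    refine ⟨fun x hx => ?_, ?_, fun x hx y _ => ?_⟩
    · rw [topSpace, Submodule.mem_bot] at hx ⊢; rw [hx, map_zero]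
    · rw [topSpace]; exact finrank_bot ℝ H
    · rw [topSpace, Submodule.mem_bot] at hx; simp [hx]
  | j + 1 => by
    obtain ⟨hinv, hdim, hlow⟩ := hT.top_aux j
    set S := topSpace T j
    obtain ⟨W, hW, hW'⟩ := hT.pos (j + 1)
    haveI : FiniteDimensional ℝ W := FiniteDimensional.of_finrank_pos (by omega)
    obtain ⟨w, hwW, hwS, hw1⟩ := exists_unit_orth (W := W) (S := S) (by omega)
    have hex := hT.exists_max S hinv ⟨w, hwS, hW' w hwW (by rintro rfl; simp at hw1)⟩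
    obtain ⟨e, he⟩ : ∃ e, e = nextVec T S := ⟨_, rfl⟩
    obtain ⟨he1, heS, heT, hemax⟩ : ‖e‖ = 1 ∧ e ∈ Sᗮ ∧ T e = ⟪T e, e⟫ • e ∧
        ∀ y ∈ Sᗮ, ⟪T y, y⟫ ≤ ⟪T e, e⟫ * ‖y‖ ^ 2 := by
      rw [he, nextVec, dif_pos hex]; exact hex.choose_spec
    have hS1 : topSpace T (j + 1) = S ⊔ Submodule.span ℝ {e} := by rw [he]; rfl
    rw [hS1]
    have hdec : ∀ x ∈ S ⊔ Submodule.span ℝ {e}, ∃ s ∈ S, ∃ r : ℝ, x = s + r • e := by
      intro x hx
      obtain ⟨s, hs, t, ht, rfl⟩ := Submodule.mem_sup.1 hx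
      obtain ⟨r, rfl⟩ := Submodule.mem_span_singleton.1 ht
      exact ⟨s, hs, r, rfl⟩
    refine ⟨fun x hx => ?_, ?_, fun x hx y hy => ?_⟩
    · obtain ⟨s, hs, r, rfl⟩ := hdec x hx
      rw [map_add, map_smul, heT, smul_smul]
      exact Submodule.add_mem_sup (hinv s hs)
        (Submodule.smul_mem _ _ (Submodule.mem_span_singleton_self e))
    · have hdis : S ⊓ Submodule.span ℝ {e} = ⊥ := disjoint_iff.1 <|
        (Submodule.orthogonal_disjoint S).mono_right ((Submodule.span_singleton_le_iff_mem _ _).2 heS)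
      have := Submodule.finrank_sup_add_finrank_inf_eq S (Submodule.span ℝ {e})
      rw [hdis, finrank_bot, finrank_span_singleton (by rintro rfl; simp at he1), hdim] at this
      simpa using this
    · obtain ⟨s, hs, r, rfl⟩ := hdec x hx
      have hyS : y ∈ Sᗮ := Submodule.orthogonal_le le_sup_left hy
      have hse : ⟪s, e⟫ = 0 := (Submodule.mem_orthogonal S _).1 heS s hs
      have hTse : ⟪T s, e⟫ = 0 := (Submodule.mem_orthogonal S _).1 heS _ (hinv s hs)
      have hes : ⟪e, T s⟫ = 0 := by rw [real_inner_comm, hTse]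
      have h1 : ‖s + r • e‖ ^ 2 = ‖s‖ ^ 2 + r ^ 2 := by
        rw [norm_add_sq_real, real_inner_smul_right, hse, norm_smul, Real.norm_eq_abs, he1, mul_one,
          sq_abs]
        ring
      have h2 : ⟪T (s + r • e), s + r • e⟫ = ⟪T s, s⟫ + r ^ 2 * ⟪T e, e⟫ := by
        have : ⟪T e, s⟫ = 0 := by rw [hT.symm, hes]
        simp only [map_add, map_smul, inner_add_left, inner_add_right, real_inner_smul_left,
          real_inner_smul_right, hTse, this]
        ring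
      have h3 := hlow s hs e heS
      rw [he1, one_pow, mul_one] at h3
      rw [h1, h2]
      nlinarith [mul_le_mul_of_nonneg_right (hemax y hyS) (show 0 ≤ ‖s‖ ^ 2 + r ^ 2 by positivity),
        mul_le_mul_of_nonneg_right h3 (sq_nonneg ‖y‖)]

theorem GoodOp.topSpace_inv (hT : GoodOp T) (j : ℕ) {x : H} (hx : x ∈ topSpace T j) :
    T x ∈ topSpace T j := (hT.top_aux j).1 x hx

theorem GoodOp.finrank_topSpace (hT : GoodOp T) (j : ℕ) :
    Module.finrank ℝ (topSpace T j) = j := (hT.top_aux j).2.1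

theorem GoodOp.orth_inv (hT : GoodOp T) (j : ℕ) {x : H} (hx : x ∈ (topSpace T j)ᗮ) :
    T x ∈ (topSpace T j)ᗮ :=
  (Submodule.mem_orthogonal _ _).2 fun u hu => by
    rw [← hT.symm]; exact (Submodule.mem_orthogonal _ _).1 hx _ (hT.topSpace_inv j hu)

/-- The properties of the eigenvectors. -/
theorem GoodOp.eigvec_spec (hT : GoodOp T) (j : ℕ) :
    ‖eigvec T j‖ = 1 ∧ eigvec T j ∈ (topSpace T j)ᗮ ∧ T (eigvec T j) = nu T j • eigvec T j ∧
      (∀ y ∈ (topSpace T j)ᗮ, ⟪T y, y⟫ ≤ nu T j * ‖y‖ ^ 2) ∧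
      ∀ x ∈ topSpace T (j + 1), nu T j * ‖x‖ ^ 2 ≤ ⟪T x, x⟫ := by
  set S := topSpace T j
  obtain ⟨W, hW, hW'⟩ := hT.pos (j + 1)
  haveI : FiniteDimensional ℝ W := FiniteDimensional.of_finrank_pos (by omega)
  obtain ⟨w, hwW, hwS, hw1⟩ := exists_unit_orth (W := W) (S := S)
    (by rw [hT.finrank_topSpace]; omega)
  have hex := hT.exists_max S (fun x => hT.topSpace_inv j)
    ⟨w, hwS, hW' w hwW (by rintro rfl; simp at hw1)⟩
  obtain ⟨he1, heS, heT, hemax⟩ : ‖eigvec T j‖ = 1 ∧ eigvec T j ∈ Sᗮ ∧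
      T (eigvec T j) = ⟪T (eigvec T j), eigvec T j⟫ • eigvec T j ∧
      ∀ y ∈ Sᗮ, ⟪T y, y⟫ ≤ ⟪T (eigvec T j), eigvec T j⟫ * ‖y‖ ^ 2 := by
    rw [eigvec, nextVec, dif_pos hex]; exact hex.choose_spec
  have hlo : ∀ x ∈ topSpace T (j + 1),
      ⟪T (eigvec T j), eigvec T j⟫ * ‖x‖ ^ 2 ≤ ⟪T x, x⟫ := fun x hx => by
    obtain ⟨s, hs, t, ht, rfl⟩ := Submodule.mem_sup.1 hx
    obtain ⟨r, rfl⟩ := Submodule.mem_span_singleton.1 ht
    have hse : ⟪s, eigvec T j⟫ = 0 := (Submodule.mem_orthogonal S _).1 heS s hs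
    have hTse : ⟪T s, eigvec T j⟫ = 0 :=
      (Submodule.mem_orthogonal S _).1 heS _ (hT.topSpace_inv j hs)
    have h3 := (hT.top_aux j).2.2 s hs _ heS
    rw [he1, one_pow, mul_one] at h3
    show _ * ‖s + r • eigvec T j‖ ^ 2 ≤ ⟪T (s + r • eigvec T j), s + r • eigvec T j⟫
    have : ⟪T (eigvec T j), s⟫ = 0 := by rw [hT.symm, real_inner_comm, hTse]
    rw [norm_add_sq_real, real_inner_smul_right, hse, norm_smul, Real.norm_eq_abs, he1, mul_one,
      sq_abs]
    simp only [map_add, map_smul, inner_add_left, inner_add_right, real_inner_smul_left,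
      real_inner_smul_right, hTse, this]
    linarith
  have hnu : nu T j = ⟪T (eigvec T j), eigvec T j⟫ := by
    refine le_antisymm (csSup_le ?_ fun b hb => ?_) (le_nu (hT.finrank_topSpace (j + 1)) hlo)
    · exact ⟨_, topSpace T (j + 1), hT.finrank_topSpace (j + 1), hlo⟩
    · obtain ⟨V, hV, hV'⟩ := hb
      haveI : FiniteDimensional ℝ V := FiniteDimensional.of_finrank_pos (by omega)
      obtain ⟨v, hvV, hvS, hv1⟩ := exists_unit_orth (W := V) (S := S)
        (by rw [hT.finrank_topSpace]; omega)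
      have h1 := hV' v hvV
      have h2 := hemax v hvS
      rw [hv1, one_pow, mul_one] at h1 h2
      linarith
  rw [hnu]
  exact ⟨he1, heS, heT, hemax, hlo⟩

theorem GoodOp.inner_eigvec (hT : GoodOp T) (i j : ℕ) :
    ⟪eigvec T i, eigvec T j⟫ = if i = j then 1 else 0 := by
  rcases lt_trichotomy i j with h | h | h
  · rw [if_neg h.ne]
    exact (Submodule.mem_orthogonal _ _).1 (hT.eigvec_spec j).2.1 _ (eigvec_mem T h)
  · rw [if_pos h, h, real_inner_self_eq_norm_sq, (hT.eigvec_spec j).1, one_pow]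
  · rw [if_neg h.ne', real_inner_comm]
    exact (Submodule.mem_orthogonal _ _).1 (hT.eigvec_spec i).2.1 _ (eigvec_mem T h)

theorem GoodOp.nu_pos (hT : GoodOp T) (j : ℕ) : 0 < nu T j := by
  obtain ⟨W, hW, hW'⟩ := hT.pos (j + 1)
  haveI : FiniteDimensional ℝ W := FiniteDimensional.of_finrank_pos (by omega)
  obtain ⟨w, hwW, hwS, hw1⟩ := exists_unit_orth (W := W) (S := topSpace T j)
    (by rw [hT.finrank_topSpace]; omega)
  have h := (hT.eigvec_spec j).2.2.2.1 w hwS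
  rw [hw1, one_pow, mul_one] at h
  exact lt_of_lt_of_le (hW' w hwW (by rintro rfl; simp at hw1)) h

theorem GoodOp.nu_antitone (hT : GoodOp T) : Antitone (nu T) := by
  refine antitone_nat_of_succ_le fun j => ?_
  obtain ⟨h1, h2, h3, -, -⟩ := hT.eigvec_spec (j + 1)
  have h := (hT.eigvec_spec j).2.2.2.1 _ (Submodule.orthogonal_le (topSpace_le_succ T j) h2)
  rw [h3, real_inner_smul_left, real_inner_self_eq_norm_sq, h1, one_pow, mul_one, mul_one] at h
  exact h

/-- Off the top space the operator is at most the next eigenvalue. -/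
theorem GoodOp.form_le (hT : GoodOp T) {j : ℕ} {y : H} (hy : y ∈ (topSpace T j)ᗮ) :
    ⟪T y, y⟫ ≤ nu T j * ‖y‖ ^ 2 := (hT.eigvec_spec j).2.2.2.1 y hy

/-- On the top space the operator is at least its last eigenvalue. -/
theorem GoodOp.le_form (hT : GoodOp T) {j : ℕ} (hj : 1 ≤ j) {x : H} (hx : x ∈ topSpace T j) :
    nu T (j - 1) * ‖x‖ ^ 2 ≤ ⟪T x, x⟫ :=
  (hT.eigvec_spec (j - 1)).2.2.2.2 x (by rwa [Nat.sub_add_cancel hj])

theorem GoodOp.norm_apply_le (hT : GoodOp T) {j : ℕ} {y : H} (hy : y ∈ (topSpace T j)ᗮ) :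
    ‖T y‖ ≤ nu T j * ‖y‖ := by
  have hn := (hT.nu_pos j).le
  refine (sq_le_sq₀ (norm_nonneg _) (mul_nonneg hn (norm_nonneg _))).1 ?_
  calc ‖T y‖ ^ 2 ≤ nu T j * ⟪T y, y⟫ :=
        norm_sq_le_of_form hT.symm hT.nonneg (hT.form_le (hT.orth_inv j hy))
    _ ≤ nu T j * (nu T j * ‖y‖ ^ 2) := mul_le_mul_of_nonneg_left (hT.form_le hy) hn
    _ = _ := by ring

/-- An invariant space with large form is nearly contained in the top space of a nearby
operator. -/
theorem GoodOp.norm_sub_topProj_le (hT' : GoodOp T') {S : Submodule ℝ H}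
    [FiniteDimensional ℝ S] (hS : ∀ x ∈ S, T x ∈ S) {b : ℝ}
    (hb : ∀ x ∈ S, b * ‖x‖ ^ 2 ≤ ⟪T x, x⟫) {j : ℕ} (hlt : nu T' j < b) {x : H} (hx : x ∈ S) :
    ‖x - topProj T' j x‖ ≤ ‖T - T'‖ / (b - nu T' j) * ‖x‖ := by
  set a := nu T' j
  have ha : 0 < a := hT'.nu_pos j
  have hb0 : 0 < b := ha.trans hlt
  set P := topProj T' j
  set F : S →L[ℝ] H := (1 - P).comp S.subtypeL
  have hlow : ∀ z ∈ S, b * ‖z‖ ≤ ‖T z‖ := fun z hz => by
    rcases eq_or_ne z 0 with rfl | h0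
    · simp
    refine le_of_mul_le_mul_right ?_ (norm_pos_iff.2 h0)
    rw [mul_assoc, ← pow_two]
    exact (hb z hz).trans (real_inner_le_norm _ _)
  set f : S →ₗ[ℝ] S := (T : H →ₗ[ℝ] H).restrict hS
  have hinj : Function.Injective f := (injective_iff_map_eq_zero f).2 fun z hz => by
    have hz0 : T (z : H) = 0 := congrArg Subtype.val hz
    have h := hlow z z.2
    rw [hz0, norm_zero] at h
    exact Subtype.ext (norm_le_zero_iff.1 (nonpos_of_mul_nonpos_right h hb0))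
  have hF : ∀ z : S, ‖F z‖ ≤ (‖T - T'‖ + a * ‖F‖) / b * ‖z‖ := fun z => by
    obtain ⟨w, rfl⟩ := (LinearMap.injective_iff_surjective.1 hinj) z
    have e : F (f w) = (1 - P) ((T - T') w) + T' (F w) := by
      have hcomm : T' (P (w : H)) = P (T' w) := by
        refine (Submodule.eq_starProjection_of_mem_orthogonal (u := T' w)
          (hT'.topSpace_inv j ((topSpace T' j).starProjection_apply_mem _)) ?_).symm
        rw [← map_sub]
        exact hT'.orth_inv j ((topSpace T' j).sub_starProjection_mem_orthogonal _)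
      simp only [F, f, ContinuousLinearMap.comp_apply, Submodule.subtypeL_apply,
        LinearMap.restrict_coe_apply, ContinuousLinearMap.coe_coe, sub_apply, one_apply_eq_self,
        map_sub, hcomm]
      abel
    have hFw : F w ∈ (topSpace T' j)ᗮ := (topSpace T' j).sub_starProjection_mem_orthogonal _
    have h1 : ‖(1 - P) ((T - T') (w : H))‖ ≤ ‖T - T'‖ * ‖w‖ := by
      refine le_trans ?_ ((T - T').le_opNorm (w : H))
      have : (1 - P) ((T - T') (w : H)) = (topSpace T' j)ᗮ.starProjection ((T - T') (w : H)) := by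
        simp [P, topProj, Submodule.starProjection_orthogonal_val]
      rw [this]
      exact Submodule.norm_starProjection_apply_le _ _
    have h2 : ‖T' (F w)‖ ≤ a * (‖F‖ * ‖w‖) :=
      (hT'.norm_apply_le hFw).trans (mul_le_mul_of_nonneg_left (F.le_opNorm w) ha.le)
    have h3 : b * ‖w‖ ≤ ‖f w‖ := hlow w w.2
    rw [e]
    refine (norm_add_le _ _).trans ((add_le_add h1 h2).trans ?_)
    rw [div_mul_eq_mul_div, le_div_iff₀ hb0]
    calc (‖T - T'‖ * ‖w‖ + a * (‖F‖ * ‖w‖)) * b = (‖T - T'‖ + a * ‖F‖) * (b * ‖w‖) := by ring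
      _ ≤ _ := mul_le_mul_of_nonneg_left h3 (by positivity)
  have hFn : ‖F‖ ≤ (‖T - T'‖ + a * ‖F‖) / b := F.opNorm_le_bound (by positivity) hF
  have hF' : ‖F‖ ≤ ‖T - T'‖ / (b - a) := by
    rw [le_div_iff₀ hb0] at hFn
    rw [le_div_iff₀ (sub_pos.2 hlt)]
    linarith
  exact (F.le_opNorm ⟨x, hx⟩).trans (mul_le_mul_of_nonneg_right hF' (norm_nonneg _))

/-- An invariant `j`-space above the gap is the top space. -/
theorem GoodOp.eq_topSpace (hT : GoodOp T) {S : Submodule ℝ H} [FiniteDimensional ℝ S]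
    (hS : ∀ x ∈ S, T x ∈ S) {b : ℝ} (hb : ∀ x ∈ S, b * ‖x‖ ^ 2 ≤ ⟪T x, x⟫) {j : ℕ}
    (hlt : nu T j < b) (hdim : Module.finrank ℝ S = j) : S = topSpace T j := by
  refine Submodule.eq_of_le_of_finrank_eq (fun x hx => ?_) (by rw [hdim, hT.finrank_topSpace])
  have h := hT.norm_sub_topProj_le hS hb hlt hx
  rw [sub_self, norm_zero, zero_div, zero_mul, norm_le_zero_iff, sub_eq_zero] at h
  rw [h]; exact (topSpace T j).starProjection_apply_mem x

/-- The top projections are Lipschitz across an open gap. -/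
theorem GoodOp.norm_topProj_sub_le (hT : GoodOp T) (hT' : GoodOp T') {j : ℕ} (hj : 1 ≤ j)
    (h₁ : nu T' j < nu T (j - 1)) (h₂ : nu T j < nu T' (j - 1)) :
    ‖topProj T j - topProj T' j‖ ≤
      ‖T - T'‖ / (nu T (j - 1) - nu T' j) + ‖T - T'‖ / (nu T' (j - 1) - nu T j) := by
  set s := ‖T - T'‖ / (nu T (j - 1) - nu T' j)
  set s' := ‖T - T'‖ / (nu T' (j - 1) - nu T j) with hs'
  have hs0 : 0 ≤ s := div_nonneg (norm_nonneg _) (sub_pos.2 h₁).le
  have hs'0 : 0 ≤ s' := div_nonneg (norm_nonneg _) (sub_pos.2 h₂).le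
  refine ContinuousLinearMap.opNorm_le_bound _ (by positivity) fun v => ?_
  set P := topProj T j with hP
  set P' := topProj T' j with hP'
  have hA : ‖P v - P' (P v)‖ ≤ s * ‖v‖ :=
    (hT'.norm_sub_topProj_le (fun x => hT.topSpace_inv j) (fun x => hT.le_form hj) h₁
      ((topSpace T j).starProjection_apply_mem v)).trans
      (mul_le_mul_of_nonneg_left ((topSpace T j).norm_starProjection_apply_le v) hs0)
  have hB : ‖P' (v - P v)‖ ≤ s' * ‖v‖ := by
    set u := v - P v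
    set z := P' u with hz
    have hu : ‖u‖ ≤ ‖v‖ := by
      have : u = (topSpace T j)ᗮ.starProjection v := by
        simp [u, P, topProj, Submodule.starProjection_orthogonal_val]
      rw [this]
      exact Submodule.norm_starProjection_apply_le _ _
    have hzz := hT.norm_sub_topProj_le (fun x => hT'.topSpace_inv j) (fun x => hT'.le_form hj) h₂
      ((topSpace T' j).starProjection_apply_mem u)
    rw [norm_sub_rev T', ← hs'] at hzz
    rcases eq_or_ne z 0 with h0 | h0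
    · rw [h0, norm_zero]; positivity
    refine le_of_mul_le_mul_left ?_ (norm_pos_iff.2 h0)
    have e1 : ⟪z, z⟫ = ⟪z, u⟫ :=
      (sub_eq_zero.1 (by rw [← inner_sub_right, ← neg_sub u, inner_neg_right, real_inner_comm, hz, hP',
        topProj, Submodule.starProjection_inner_eq_zero u _
          ((topSpace T' j).starProjection_apply_mem u), neg_zero]))
    have e2 : ⟪P z, u⟫ = 0 := Submodule.inner_right_of_mem_orthogonal
      ((topSpace T j).starProjection_apply_mem z)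
      ((topSpace T j).sub_starProjection_mem_orthogonal v)
    calc ‖z‖ * ‖z‖ = ⟪z - P z, u⟫ := by
          rw [inner_sub_left, e2, sub_zero, ← e1, real_inner_self_eq_norm_mul_norm]
      _ ≤ ‖z - P z‖ * ‖u‖ := real_inner_le_norm _ _
      _ ≤ s' * ‖z‖ * ‖v‖ := mul_le_mul hzz hu (norm_nonneg _) (by positivity)
      _ = _ := by ring
  have e : (P - P') v = (P v - P' (P v)) - P' (v - P v) := by
    simp only [sub_apply, map_sub]; abel
  rw [e, add_mul]
  exact (norm_sub_le _ _).trans (add_le_add hA hB)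

/-- The cluster form: the projections across open gaps are locally Lipschitz. -/
theorem exists_topProj_lipschitz {T₀ : H →L[ℝ] H} {j : ℕ} (hg : Gap T₀ j) :
    ∃ δ : ℝ, 0 < δ ∧ ∃ K : ℝ, 0 ≤ K ∧ ∀ T T' : H →L[ℝ] H, GoodOp T → GoodOp T' →
      ‖T - T₀‖ < δ → ‖T' - T₀‖ < δ → ‖topProj T j - topProj T' j‖ ≤ K * ‖T - T'‖ := by
  obtain ⟨hj, hlt⟩ := hg
  set g := nu T₀ (j - 1) - nu T₀ j with hg'
  have hg0 : 0 < g := sub_pos.2 hlt
  refine ⟨g / 4, by positivity, 4 / g, by positivity, fun T T' hT hT' h h' => ?_⟩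
  have a1 := abs_le.1 ((abs_nu_sub_le T T₀ (j - 1)).trans h.le)
  have a2 := abs_le.1 ((abs_nu_sub_le T T₀ j).trans h.le)
  have b1 := abs_le.1 ((abs_nu_sub_le T' T₀ (j - 1)).trans h'.le)
  have b2 := abs_le.1 ((abs_nu_sub_le T' T₀ j).trans h'.le)
  refine (hT.norm_topProj_sub_le hT' hj (by linarith) (by linarith)).trans ?_
  have key : ∀ d : ℝ, g / 2 ≤ d → ‖T - T'‖ / d ≤ 2 / g * ‖T - T'‖ := fun d hd => by
    refine (div_le_div_of_nonneg_left (norm_nonneg _) (by positivity) hd).trans (le_of_eq ?_)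
    field_simp
  refine (add_le_add (key _ (by linarith)) (key _ (by linarith))).trans (le_of_eq ?_)
  ring

end

end Vale.Agent.P225.Disproof
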