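import Vale.Agent.P225.Disproof.PencilOp
import Vale.Agent.P225.Disproof.GalerkinPencil

/-!
# P225: gaps of the pencil give trial planes in the Galerkin spaces

If the first `j` eigenvalues of `pencil w` are separated from the rest, then for large `N` the
forms `∫ |∇u|²` and `∫ w u²` on `Gal N` have trial planes of dimensions `j + 1` and of codimension
`j + 1` (the constant is counted), with the same separation up to `2 ‖w‖ / (N + 1)`.
-/

namespace Vale.Agent.P225.Disproof

open MvPolynomial MeasureTheory Set Filter Topology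
open scoped RealInnerProductSpace

noncomputable section

theorem levSpace_zero_span {z : L2S} (hz : z ∈ levSpace 0) : ∃ c : ℝ, z = c • oneH := by
  obtain ⟨q, hq, -, rfl⟩ := mem_levSpace.1 hz
  refine ⟨coeff 0 q, ?_⟩
  conv_lhs => rw [totalDegree_eq_zero_iff_eq_C.1 ((totalDegree_zero_iff_isHomogeneous _).2 hq),
    show (MvPolynomial.C (coeff 0 q) : MvPolynomial (Fin 3) ℝ) = coeff 0 q • 1 by
      rw [smul_eq_C_mul, mul_one], map_smul, show toH 1 = oneH by simp [toH, oneH]]

/-- Adding any constant to the optimal one increases the mass. -/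
theorem pencil_form_le {w : C(Sph 3, ℝ)} (hw : 0 < tot w) (x : L2S) (c : ℝ) :
    ⟪pencil w x, x⟫ ≤ ⟪mulOp w (resolv x + c • oneH), resolv x + c • oneH⟫ := by
  have e : resolv x + c • oneH = lift w x + ((tot w)⁻¹ * ⟪wvec w, resolv x⟫ + c) • oneH := by
    rw [lift, add_smul]; abel
  rw [inner_pencil hw.ne', e]
  simp only [map_add, map_smul, inner_add_left, inner_add_right, real_inner_smul_left,
    real_inner_smul_right, mulOp_symm w oneH (lift w x), inner_oneH_lift hw.ne']
  rw [real_inner_comm oneH (mulOp w (lift w x)), inner_oneH_lift hw.ne', mulOp_oneH,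
    show ⟪wvec w, oneH⟫ = tot w from real_inner_comm _ _]
  nlinarith [mul_nonneg (sq_nonneg ((tot w)⁻¹ * ⟪wvec w, resolv x⟫ + c)) hw.le]

/-- An element of the Galerkin space as a function. -/
def galH (N : ℕ) : Gal N →ₗ[ℝ] L2S := toH.comp Gal.poly

theorem inner_galH {N : ℕ} (u v : Gal N) : ⟪galH N u, galH N v⟫ = ⟪u, v⟫ :=
  (inner_toH _ _).trans (inner_gal u v).symm

theorem lev_galH {N : ℕ} (l : ℕ) (u : Gal N) : lev l (galH N u) = galH N (part l u) := by
  have h : ∀ m, galH N (part m u) ∈ levSpace m := fun m =>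
    toH_mem_levSpace (homogeneousComponent_isHomogeneous m _)
      (lapP_homogeneousComponent m _ (mem_harmUpTo.1 u.mem).2)
  conv_lhs => rw [← sum_part u, map_sum, map_sum]
  rcases le_or_gt l N with hl | hl
  · rw [Finset.sum_eq_single l]
    · exact Submodule.starProjection_eq_self_iff.2 (h l)
    · exact fun m _ hm => (Submodule.starProjection_apply_eq_zero_iff _).2
        ((Submodule.mem_orthogonal _ _).2 fun z hz => inner_levSpace (Ne.symm hm) hz (h m))
    · exact fun hn => absurd (Finset.mem_range_succ_iff.2 hl) hn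
  · rw [Finset.sum_eq_zero fun m hm => show lev l (galH N (part m u)) = 0 from
      (Submodule.starProjection_apply_eq_zero_iff _).2
      ((Submodule.mem_orthogonal _ _).2 fun z hz => inner_levSpace (i := l)
        (by have := Finset.mem_range.1 hm; omega) hz (h m)),
      show part l u = 0 from Gal.ext (by
        rw [map_zero]; exact homogeneousComponent_eq_zero l _
          (lt_of_le_of_lt (mem_harmUpTo.1 u.mem).1 hl)), map_zero]

theorem sum_lev_galH {N : ℕ} (u : Gal N) :
    ∑ l ∈ Finset.range (N + 1), lev l (galH N u) = galH N u := by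
  simp only [lev_galH]
  rw [← map_sum, sum_part]

/-- The square root of the stiffness, as a vector. -/
def stiffVec (N : ℕ) : Gal N →ₗ[ℝ] L2S :=
  (∑ l ∈ Finset.range (N + 1), (resCoef l)⁻¹ • (lev l).toLinearMap).comp (galH N)

theorem stiffVec_apply {N : ℕ} (u : Gal N) :
    stiffVec N u = ∑ l ∈ Finset.range (N + 1), (resCoef l)⁻¹ • lev l (galH N u) := by
  simp [stiffVec]

theorem inv_resCoef_sq (l : ℕ) : (resCoef l)⁻¹ ^ 2 = (l : ℝ) * (l + 1) := by
  rw [resCoef, inv_inv, Real.sq_sqrt (by positivity)]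

theorem norm_stiffVec_sq {N : ℕ} (u : Gal N) :
    ‖stiffVec N u‖ ^ 2 = ⟪u, stiffOp N 1 u⟫ := by
  rw [stiffVec_apply, norm_sq_sum_lev, stiffOp_one, ← formOp_round, real_inner_comm,
    inner_formOp (b := roundB) (by exact continuous_const) (fun θ i j => by simp [roundB, eq_comm]),
    bForm_round]
  refine Finset.sum_congr rfl fun l _ => ?_
  rw [inv_resCoef_sq, ← real_inner_self_eq_norm_sq, lev_galH, inner_galH]

theorem mass_galH {N : ℕ} (w : C(Sph 3, ℝ)) (u : Gal N) :
    ⟪u, massOp N w u⟫ = ⟪mulOp w (galH N u), galH N u⟫ := by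
  rw [real_inner_comm, inner_massOp,
    show galH N u = wvec (sphAlg 3 u.poly) from rfl, mulOp_wvec, inner_wvec]
  refine integral_congr_ae (Eventually.of_forall fun θ => ?_)
  simp only [ContinuousMap.mul_apply, sphAlg_apply, res]
  ring

theorem resolv_stiffVec {N : ℕ} (u : Gal N) :
    ∃ c : ℝ, galH N u = resolv (stiffVec N u) + c • oneH := by
  obtain ⟨c, hc⟩ := levSpace_zero_span (lev_mem 0 (galH N u))
  refine ⟨c, ?_⟩
  have e : ∀ l, resolv ((resCoef l)⁻¹ • lev l (galH N u)) =
      if l = 0 then 0 else lev l (galH N u) := fun l => by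
    split_ifs with h
    · simp [h, resCoef_zero]
    · rw [map_smul, show resolv (lev l (galH N u)) = resCoef l • lev l (galH N u) from
        (hasSum_resolv_apply _).unique (by
          have := hasSum_single (f := fun m => resCoef m • lev m (lev l (galH N u))) l fun m hm => by
            rw [lev_lev, if_neg hm, smul_zero]
          simpa [lev_lev] using this), smul_smul, inv_mul_cancel₀ (fun h0 => by
            simpa [h0] using resCoef_sq h), one_smul]
  have h := sum_lev_galH u
  rw [Finset.sum_range_succ', hc] at h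
  rw [stiffVec_apply, map_sum, Finset.sum_congr rfl fun l _ => e l, Finset.sum_range_succ',
    if_pos rfl, add_zero]
  simpa using h.symm

/-- The levels `1` to `N`. -/
def cutLev (N : ℕ) : L2S →L[ℝ] L2S := ∑ l ∈ Finset.range N, lev (l + 1)

theorem norm_cutLev_le (N : ℕ) (x : L2S) : ‖cutLev N x‖ ≤ ‖x‖ := by
  refine (sq_le_sq₀ (norm_nonneg _) (norm_nonneg _)).1 ?_
  have e : cutLev N x = ∑ l ∈ (Finset.range N).map ⟨(· + 1), add_left_injective 1⟩,
      (fun _ : ℕ => (1 : ℝ)) l • lev l x := by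
    simp [cutLev]
  rw [e, norm_sq_sum_lev]
  simpa using sum_norm_lev_le ((Finset.range N).map ⟨(· + 1), add_left_injective 1⟩) x

theorem norm_resolv_sub_cutLev_le (N : ℕ) (x : L2S) :
    ‖resolv (x - cutLev N x)‖ ≤ 1 / ((N : ℝ) + 1) * ‖x‖ := by
  set D : L2S →L[ℝ] L2S := resolv - ∑ l ∈ Finset.range (N + 1), resCoef l • lev l
  have hD : ‖D‖ ≤ 1 / ((N : ℝ) + 1) := by
    refine le_of_tendsto ((continuous_norm.tendsto _).comp
      (hasSum_resolv.tendsto_sum_nat.sub_const _)) ?_
    filter_upwards [eventually_ge_atTop (N + 1)] with n hn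
    rw [Function.comp_apply, ← Finset.sum_Ico_eq_sub _ hn]
    exact norm_sum_resCoef_le _ (by positivity) fun l hl => resCoef_le (Finset.mem_Ico.1 hl).1
  have e : resolv (x - cutLev N x) = D x := by
    have h1 : resolv (cutLev N x) = ∑ l ∈ Finset.range N, resCoef (l + 1) • lev (l + 1) x := by
      simp only [cutLev, sum_apply, map_sum]
      refine Finset.sum_congr rfl fun l _ => (hasSum_resolv_apply _).unique ?_
      have := hasSum_single (f := fun m => resCoef m • lev m (lev (l + 1) x)) (l + 1) fun m hm => by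
        rw [lev_lev, if_neg hm, smul_zero]
      simpa [lev_lev] using this
    simp only [D, map_sub, h1, sub_apply, sum_apply, smul_apply, Finset.sum_range_succ' _ N,
      resCoef_zero, zero_smul, add_zero]
  rw [e]
  exact (D.le_opNorm x).trans (mul_le_mul_of_nonneg_right hD (norm_nonneg x))

/-- The cut changes the form little. -/
theorem pencil_cut {w : C(Sph 3, ℝ)} (hw : ∀ θ, 0 < w θ) (N : ℕ) (x : L2S) :
    ⟪pencil w x, x⟫ - 2 * ‖w‖ / ((N : ℝ) + 1) * ‖x‖ ^ 2 ≤
      ⟪pencil w (cutLev N x), cutLev N x⟫ := by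
  have ht := tot_pos hw
  set z := cutLev N x
  set e := x - z with he
  have hg : ∀ v, ⟪pencil w v, v⟫ ≤ ‖w‖ * ‖resolv v‖ ^ 2 := fun v => by
    have h := pencil_form_le ht v 0
    rw [zero_smul, add_zero] at h
    exact h.trans ((le_abs_self _).trans (abs_form_mulOp_le w _))
  set s := 2 * ((N : ℝ) + 1) with hs
  have hB : 2 * s * ⟪pencil w e, x + z⟫ ≤ s ^ 2 * ⟪pencil w e, e⟫ + ⟪pencil w (x + z), x + z⟫ := by
    have h := (goodOp_pencil hw).nonneg (s • e - (x + z))
    have hc : ⟪pencil w (x + z), e⟫ = ⟪pencil w e, x + z⟫ := by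
      rw [pencil_symm ht.ne', real_inner_comm]
    rw [map_sub (pencil w), map_smul] at h
    simp only [inner_sub_left, inner_sub_right, real_inner_smul_left, real_inner_smul_right,
      hc] at h
    linarith
  have hdiff : ⟪pencil w x, x⟫ - ⟪pencil w z, z⟫ = ⟪pencil w e, x + z⟫ := by
    have hc : ⟪pencil w z, x⟫ = ⟪pencil w x, z⟫ := by rw [pencil_symm ht.ne', real_inner_comm]
    simp only [he, map_sub, inner_add_right, inner_sub_left, hc]
    ring
  have h1 : ⟪pencil w e, e⟫ ≤ ‖w‖ * (1 / ((N : ℝ) + 1) * ‖x‖) ^ 2 :=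
    (hg e).trans (mul_le_mul_of_nonneg_left
      (pow_le_pow_left₀ (norm_nonneg _) (norm_resolv_sub_cutLev_le N x) 2) (norm_nonneg w))
  have h2 : ⟪pencil w (x + z), x + z⟫ ≤ ‖w‖ * (2 * ‖x‖) ^ 2 :=
    (hg _).trans (mul_le_mul_of_nonneg_left (pow_le_pow_left₀ (norm_nonneg _)
      (((resolv.le_opNorm _).trans (mul_le_of_le_one_left (norm_nonneg _) norm_resolv_le)).trans
        ((norm_add_le _ _).trans (by linarith [norm_cutLev_le N x]))) 2) (norm_nonneg w))
  have hs0 : 0 < s := by positivity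
  have h3 : 2 * s * (⟪pencil w x, x⟫ - ⟪pencil w z, z⟫) ≤
      2 * s * (2 * ‖w‖ / ((N : ℝ) + 1) * ‖x‖ ^ 2) := by
    rw [hdiff]
    refine (hB.trans (add_le_add (mul_le_mul_of_nonneg_left h1 (sq_nonneg s)) h2)).trans
      (le_of_eq ?_)
    rw [hs]; field_simp; ring
  linarith [le_of_mul_le_mul_left h3 (by positivity)]

theorem exists_stiffVec_eq_cutLev (N : ℕ) (x : L2S) : ∃ u : Gal N, stiffVec N u = cutLev N x := by
  choose q hq hql hqx using fun l => mem_levSpace.1 (lev_mem l x)
  have hm : ∀ l ∈ Finset.range N, q (l + 1) ∈ harmUpTo N := fun l hl =>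
    mem_harmUpTo.2 ⟨(hq _).totalDegree_le.trans (by have := Finset.mem_range.1 hl; omega), hql _⟩
  refine ⟨Gal.mk (∑ l ∈ Finset.range N, resCoef (l + 1) • q (l + 1))
    (Submodule.sum_mem _ fun l hl => Submodule.smul_mem _ _ (hm l hl)), ?_⟩
  have e : galH N (Gal.mk (∑ l ∈ Finset.range N, resCoef (l + 1) • q (l + 1))
      (Submodule.sum_mem _ fun l hl => Submodule.smul_mem _ _ (hm l hl))) =
      ∑ l ∈ Finset.range N, resCoef (l + 1) • lev (l + 1) x := by
    simp only [galH, LinearMap.comp_apply, Gal.poly_mk, map_sum, map_smul, hqx]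
  rw [stiffVec_apply, e, cutLev, sum_apply, Finset.sum_range_succ', resCoef_zero,
    inv_zero, zero_smul, add_zero]
  refine Finset.sum_congr rfl fun m hm => ?_
  rw [map_sum, Finset.sum_eq_single m]
  · rw [map_smul, lev_lev, if_pos rfl, smul_smul, inv_mul_cancel₀ (fun h0 => by
      simpa [h0] using resCoef_sq (Nat.succ_ne_zero m)), one_smul]
  · intro l _ hl
    rw [map_smul, lev_lev, if_neg (by omega), smul_zero]
  · exact fun h => absurd hm h

/-- A gap of the pencil gives trial planes for the Galerkin forms. -/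
theorem exists_trial_planes {w : C(Sph 3, ℝ)} (hw : ∀ θ, 0 < w θ) {j : ℕ} (hj : 1 ≤ j) {N : ℕ}
    (hN : 2 * ‖w‖ / ((N : ℝ) + 1) < nu (pencil w) (j - 1)) :
    ∃ Wlo Whi : Submodule ℝ (Gal N), j + 1 ≤ Module.finrank ℝ Wlo ∧
      Module.finrank ℝ (Gal N) ≤ j + 1 + Module.finrank ℝ Whi ∧
      (∀ u ∈ Wlo, ⟪u, stiffOp N 1 u⟫ ≤
        (nu (pencil w) (j - 1) - 2 * ‖w‖ / ((N : ℝ) + 1))⁻¹ * ⟪u, massOp N w u⟫) ∧
      ∀ u ∈ Whi, (nu (pencil w) j)⁻¹ * ⟪u, massOp N w u⟫ ≤ ⟪u, stiffOp N 1 u⟫ := by
  have hT := goodOp_pencil hw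
  have ht := tot_pos hw
  set T := pencil w
  set ε := 2 * ‖w‖ / ((N : ℝ) + 1)
  set b := nu T (j - 1) - ε with hb
  have hb0 : 0 < b := sub_pos.2 hN
  set S := topSpace T j
  have hlow : ∀ x ∈ S, b * ‖x‖ ^ 2 ≤ ⟪T (cutLev N x), cutLev N x⟫ := fun x hx => by
    have h1 := hT.le_form hj hx
    have h2 := pencil_cut hw N x
    rw [hb, sub_mul]; linarith
  set Z := S.map (cutLev N).toLinearMap
  have hZ : Module.finrank ℝ Z = j := by
    rw [← hT.finrank_topSpace j]
    refine (LinearEquiv.ofBijective ((cutLev N).toLinearMap.submoduleMap S) ⟨?_,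
      LinearMap.submoduleMap_surjective _ S⟩).finrank_eq.symm
    refine (injective_iff_map_eq_zero _).2 fun x hx => ?_
    have hx0 : cutLev N (x : L2S) = 0 := congrArg Subtype.val hx
    have h := hlow x x.2
    rw [hx0, map_zero, inner_zero_left] at h
    exact Subtype.ext (norm_eq_zero.1 (pow_eq_zero_iff two_ne_zero |>.1
      (le_antisymm (nonpos_of_mul_nonpos_right h hb0) (sq_nonneg _))))
  set Wlo := Z.comap (stiffVec N)
  let one : Gal N := Gal.mk 1 (mem_harmUpTo.2 ⟨by simp, by simp [lapP]⟩)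
  have hone : stiffVec N one = 0 := by
    rw [← norm_eq_zero, ← pow_eq_zero_iff two_ne_zero, norm_stiffVec_sq, real_inner_comm,
      inner_stiffOp, Finset.sum_eq_zero fun i _ => ?_]
    rw [show rotG i one = 0 from Gal.ext (by simp [one, poly_rotG, Gal.poly_mk]), map_zero,
      inner_zero_left]
  have hone0 : one ≠ 0 := fun h => by
    have := congrArg Gal.poly h
    simp [one, Gal.poly_mk] at this
  set f : Wlo →ₗ[ℝ] Z := ((stiffVec N).comp Wlo.subtype).codRestrict Z fun u => u.2
  have hsurj : LinearMap.range f = ⊤ := by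
    refine LinearMap.range_eq_top.2 fun z => ?_
    obtain ⟨x, -, hx⟩ := Submodule.mem_map.1 z.2
    obtain ⟨u, hu⟩ := exists_stiffVec_eq_cutLev N x
    have hu' : stiffVec N u = z := hu.trans hx
    exact ⟨⟨u, by rw [Submodule.mem_comap, hu']; exact z.2⟩, Subtype.ext hu'⟩
  have hker : 1 ≤ Module.finrank ℝ (LinearMap.ker f) := by
    refine Submodule.one_le_finrank_iff.2 ((Submodule.ne_bot_iff _).2 ⟨⟨one, ?_⟩, ?_, ?_⟩)
    · rw [Submodule.mem_comap, hone]; exact Z.zero_mem
    · exact Subtype.ext hone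
    · exact fun h => hone0 (congrArg Subtype.val h)
  have hrn := LinearMap.finrank_range_add_finrank_ker f
  rw [hsurj, finrank_top, hZ] at hrn
  set g : Gal N →ₗ[ℝ] ℝ × S := ((innerSL ℝ (wvec w)).toLinearMap.comp (galH N)).prod
    ((S.orthogonalProjectionOnto : L2S →ₗ[ℝ] S).comp (stiffVec N))
  have hrg := LinearMap.finrank_range_add_finrank_ker g
  have hrg' : Module.finrank ℝ (LinearMap.range g) ≤ 1 + j := by
    refine (Submodule.finrank_le _).trans ?_
    rw [Module.finrank_prod, Module.finrank_self, hT.finrank_topSpace]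
  refine ⟨Wlo, LinearMap.ker g, by omega, by omega, fun u hu => ?_, fun u hu => ?_⟩
  · obtain ⟨x, hx, hxu⟩ := Submodule.mem_map.1 hu
    obtain ⟨c, hc⟩ := resolv_stiffVec u
    have h1 := hlow x hx
    rw [show cutLev N x = stiffVec N u from hxu] at h1
    have h2 : ‖stiffVec N u‖ ^ 2 ≤ ‖x‖ ^ 2 := by
      rw [← show cutLev N x = stiffVec N u from hxu]
      exact pow_le_pow_left₀ (norm_nonneg _) (norm_cutLev_le N x) 2
    have h3 := pencil_form_le ht (stiffVec N u) c
    rw [← hc, ← mass_galH] at h3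
    rw [← norm_stiffVec_sq, inv_mul_eq_div, le_div_iff₀ hb0, mul_comm]
    exact (mul_le_mul_of_nonneg_left h2 hb0.le).trans (h1.trans h3)
  · rw [LinearMap.mem_ker, LinearMap.prod_apply, Prod.mk_eq_zero] at hu
    obtain ⟨hu1, hu2⟩ := hu
    have hu1 : ⟪wvec w, galH N u⟫ = 0 := hu1
    have hx : stiffVec N u ∈ Sᗮ := (Submodule.starProjection_apply_eq_zero_iff _).1
      (congrArg Subtype.val hu2)
    obtain ⟨c, hc⟩ := resolv_stiffVec u
    have e : lift w (stiffVec N u) = galH N u := by
      rw [hc, inner_add_right, real_inner_smul_right,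
        show ⟪wvec w, oneH⟫ = tot w from real_inner_comm _ _] at hu1
      rw [hc, lift, sub_eq_add_neg, ← neg_smul]
      congr 2
      field_simp
      linarith
    have h := hT.form_le hx
    rw [inner_pencil ht.ne', e, ← mass_galH] at h
    rw [← norm_stiffVec_sq, inv_mul_le_iff₀ (hT.nu_pos j)]
    exact h

end

end Vale.Agent.P225.Disproof
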