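import Vale.Agent.P225.Disproof.Statement
import Mathlib.MeasureTheory.Integral.IntervalIntegral.FundThmCalculus
import Mathlib.Analysis.Calculus.ContDiff.Deriv
import Mathlib.Analysis.Calculus.Deriv.Mul
import Mathlib.Analysis.Calculus.Deriv.Add
import Mathlib.Analysis.Real.Sqrt

/-!
# P225: the Riemannian distance of a metric field

The distance is the infimum of the lengths of continuously differentiable paths. A bounded metric
is complete for it, and its distance from the origin dominates a multiple of the norm.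
-/

namespace Vale.Agent.P225.Disproof

open Set Filter Topology MeasureTheory
open scoped Matrix

noncomputable section

variable {n : ℕ}

/-- The length of a path defined on the unit interval. -/
def pathLen (g : Met n) (γ : ℝ → Space n) : ℝ :=
  ∫ t in (0 : ℝ)..1, √(gsq g (γ t) (deriv γ t))

/-- The lengths of the continuously differentiable paths from `x` to `y`. -/
def pathLens (g : Met n) (x y : Space n) : Set ℝ :=
  {l | ∃ γ : ℝ → Space n, ContDiff ℝ 1 γ ∧ γ 0 = x ∧ γ 1 = y ∧ l = pathLen g γ}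

/-- The Riemannian distance. -/
def riemDist (g : Met n) (x y : Space n) : ℝ := sInf (pathLens g x y)

/-- A smooth metric: symmetric positive definite matrices, smooth in the point. -/
def IsSmoothMetric (g : Met n) : Prop :=
  (∀ i j, ContDiff ℝ (⊤ : ℕ∞) fun x => g x i j) ∧ (∀ x, (g x).IsSymm) ∧
    ∀ x v : Space n, v ≠ 0 → 0 < gsq g x v

/-- Completeness as a metric space: Cauchy sequences for the Riemannian distance converge. -/
def IsCompleteMetric (g : Met n) : Prop :=
  ∀ p : ℕ → Space n, (∀ ε > 0, ∃ N, ∀ i ≥ N, ∀ j ≥ N, riemDist g (p i) (p j) < ε) →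
    ∃ x, Tendsto (fun i => riemDist g (p i) x) atTop (𝓝 0)

/-- A smooth harmonic function with growth order at most `d` in the Riemannian distance from the
origin. -/
def IsHarmGrowth (g : Met n) (d : ℝ) (u : Space n → ℝ) : Prop :=
  ContDiff ℝ (⊤ : ℕ∞) u ∧ (∀ x, lapBel g u x = 0) ∧
    ∃ C : ℝ, ∀ x, |u x| ≤ C * (1 + riemDist g 0 x) ^ d

theorem IsBoundedMetric.smoothMetric {g : Met n} (h : IsBoundedMetric g) : IsSmoothMetric g := by
  obtain ⟨hs, hsymm, c, hc, hb⟩ := h
  exact ⟨hs, hsymm, fun x v hv =>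
    lt_of_lt_of_le (mul_pos hc (pow_pos (norm_pos_iff.2 hv) 2)) (hb x v).1⟩

theorem continuous_speed {g : Met n} (hs : ∀ i j, Continuous fun x => g x i j) {γ : ℝ → Space n}
    (hγ : ContDiff ℝ 1 γ) : Continuous fun t => √(gsq g (γ t) (deriv γ t)) := by
  have hc := hγ.continuous
  have hd := hγ.continuous_deriv le_rfl
  refine (continuous_finsetSum _ fun i _ => continuous_finsetSum _ fun j _ => ?_).sqrt
  exact (((hs i j).comp hc).mul ((PiLp.continuous_apply 2 _ i).comp hd)).mul
    ((PiLp.continuous_apply 2 _ j).comp hd)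

/-- The Riemannian distance of a bounded metric is comparable to the Euclidean one. -/
theorem IsBoundedMetric.exists_riemDist_bounds {g : Met n} (h : IsBoundedMetric g) :
    ∃ c > (0 : ℝ), ∀ x y : Space n,
      c * ‖x - y‖ ≤ riemDist g x y ∧ riemDist g x y ≤ c⁻¹ * ‖x - y‖ := by
  obtain ⟨hs, -, c, hc, hb⟩ := h
  have hcont : ∀ i j, Continuous fun x => g x i j := fun i j => (hs i j).continuous
  have hlow : ∀ x v : Space n, √c * ‖v‖ ≤ √(gsq g x v) := fun x v => by
    rw [← Real.sqrt_sq (norm_nonneg v), ← Real.sqrt_mul hc.le]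
    exact Real.sqrt_le_sqrt (hb x v).1
  have hup : ∀ x v : Space n, √(gsq g x v) ≤ (√c)⁻¹ * ‖v‖ := fun x v => by
    rw [← Real.sqrt_inv, ← Real.sqrt_sq (norm_nonneg v), ← Real.sqrt_mul (inv_nonneg.2 hc.le)]
    exact Real.sqrt_le_sqrt (hb x v).2
  have hsc : 0 < √c := Real.sqrt_pos.2 hc
  refine ⟨√c, hsc, fun x y => ?_⟩
  have hseg : ∃ l ∈ pathLens g x y, l ≤ (√c)⁻¹ * ‖x - y‖ := by
    have hγ : ContDiff ℝ 1 fun t : ℝ => x + t • (y - x) :=
      contDiff_const.add (contDiff_id.smul contDiff_const)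
    refine ⟨_, ⟨fun t => x + t • (y - x), hγ, by simp, by simp, rfl⟩, ?_⟩
    have hd : ∀ t : ℝ, deriv (fun t : ℝ => x + t • (y - x)) t = y - x := fun t => by
      simpa only [id_eq, one_smul] using
        ((HasDerivAt.smul_const (hasDerivAt_id' t) (y - x)).const_add x).deriv
    refine (intervalIntegral.integral_mono_on (g := fun _ => (√c)⁻¹ * ‖x - y‖) zero_le_one
      ((continuous_speed hcont hγ).intervalIntegrable 0 1) intervalIntegrable_const
      fun t _ => ?_).trans (by simp)
    rw [hd, ← norm_neg (x - y), neg_sub]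
    exact hup _ _
  have hge : ∀ l ∈ pathLens g x y, √c * ‖x - y‖ ≤ l := by
    rintro l ⟨γ, hγ, h0, h1, rfl⟩
    have hd := hγ.continuous_deriv le_rfl
    have e : ∫ t in (0 : ℝ)..1, deriv γ t = y - x := by
      rw [intervalIntegral.integral_deriv_eq_sub
        (fun t _ => (hγ.differentiable one_ne_zero) t) (hd.intervalIntegrable 0 1), h0, h1]
    calc √c * ‖x - y‖ = √c * ‖∫ t in (0 : ℝ)..1, deriv γ t‖ := by
          rw [e, ← norm_neg (x - y), neg_sub]
      _ ≤ √c * ∫ t in (0 : ℝ)..1, ‖deriv γ t‖ :=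
          mul_le_mul_of_nonneg_left (intervalIntegral.norm_integral_le_integral_norm zero_le_one)
            hsc.le
      _ = ∫ t in (0 : ℝ)..1, √c * ‖deriv γ t‖ := (intervalIntegral.integral_const_mul _ _).symm
      _ ≤ pathLen g γ := intervalIntegral.integral_mono_on zero_le_one
          ((continuous_const.mul hd.norm).intervalIntegrable 0 1)
          ((continuous_speed hcont hγ).intervalIntegrable 0 1) fun t _ => hlow _ _
  obtain ⟨l, hl, hl'⟩ := hseg
  exact ⟨le_csInf ⟨l, hl⟩ hge, (csInf_le ⟨_, hge⟩ hl).trans hl'⟩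

/-- A bounded metric is complete. -/
theorem IsBoundedMetric.completeMetric {g : Met n} (h : IsBoundedMetric g) :
    IsCompleteMetric g := by
  obtain ⟨c, hc, hb⟩ := h.exists_riemDist_bounds
  intro p hp
  have hcauchy : CauchySeq p := by
    refine Metric.cauchySeq_iff.2 fun ε hε => ?_
    obtain ⟨N, hN⟩ := hp (c * ε) (mul_pos hc hε)
    refine ⟨N, fun i hi j hj => ?_⟩
    rw [dist_eq_norm]
    exact lt_of_mul_lt_mul_left ((hb _ _).1.trans_lt (hN i hi j hj)) hc.le
  obtain ⟨x, hx⟩ := cauchySeq_tendsto_of_complete hcauchy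
  refine ⟨x, squeeze_zero (fun i => le_trans (mul_nonneg hc.le (norm_nonneg _)) (hb (p i) x).1)
    (fun i => (hb (p i) x).2) ?_⟩
  simpa using ((tendsto_iff_norm_sub_tendsto_zero.1 hx).const_mul c⁻¹)

/-- Growth in the norm is growth in the Riemannian distance. -/
theorem IsPolyHarm.harmGrowth {g : Met n} (h : IsBoundedMetric g) {d : ℝ} (hd : 0 ≤ d)
    {u : Space n → ℝ} (hu : IsPolyHarm g d u) : IsHarmGrowth g d u := by
  obtain ⟨h1, h2, C, hC⟩ := hu
  obtain ⟨c, hc, hb⟩ := h.exists_riemDist_bounds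
  set A := max 1 c⁻¹
  have hA : 0 ≤ A := zero_le_one.trans (le_max_left _ _)
  refine ⟨h1, h2, |C| * A ^ d, fun x => ?_⟩
  have hlow := (hb 0 x).1
  rw [zero_sub, norm_neg] at hlow
  have hr : 0 ≤ riemDist g 0 x := le_trans (mul_nonneg hc.le (norm_nonneg x)) hlow
  have hx : 1 + ‖x‖ ≤ A * (1 + riemDist g 0 x) := by
    have e1 : (1 : ℝ) ≤ A := le_max_left _ _
    have e2 : ‖x‖ ≤ c⁻¹ * riemDist g 0 x := by
      rw [le_inv_mul_iff₀ hc]; exact hlow
    have e3 := mul_le_mul_of_nonneg_right (le_max_right 1 c⁻¹) hr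
    rw [mul_add, mul_one]
    linarith
  calc |u x| ≤ C * (1 + ‖x‖) ^ d := hC x
    _ ≤ |C| * (1 + ‖x‖) ^ d :=
        mul_le_mul_of_nonneg_right (le_abs_self C) (Real.rpow_nonneg (by positivity) _)
    _ ≤ |C| * (A * (1 + riemDist g 0 x)) ^ d :=
        mul_le_mul_of_nonneg_left (Real.rpow_le_rpow (by positivity) hx hd) (abs_nonneg C)
    _ = |C| * A ^ d * (1 + riemDist g 0 x) ^ d := by
        rw [Real.mul_rpow hA (by linarith), mul_assoc]

end

end Vale.Agent.P225.Disproof
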