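import Mathlib
import Vale.Agent.P225.Disproof.Riccati

/-!
# P225: the slow plane of `u' = D u`

If `A` has exactly `M` levels below a gap, so does the Dirichlet-to-Neumann map `D`, and the cone
`⟪u, D u⟫ ≤ μ ‖u‖²` is invariant backwards in time. Hence for every horizon there is an
`M`-plane of initial data whose solutions grow at most like `exp (μ t)`. All constants are free of
the dimension.
-/

namespace Vale.Agent.P225.Disproof

open Set Filter Topology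
open scoped RealInnerProductSpace

noncomputable section

variable {V : Type*} [NormedAddCommGroup V] [InnerProductSpace ℝ V] [FiniteDimensional ℝ V]
  {a b : ℝ}

/-- `D` inherits the gap of `A` from `D² + c D = A` up to `ε (D + 1)`. -/
theorem dtn_gap {A D : V →L[ℝ] V} (hDs : ∀ x y : V, ⟪D x, y⟫ = ⟪x, D y⟫)
    (hD0 : ∀ x : V, 0 ≤ ⟪x, D x⟫) {c ε : ℝ} (hεc : ε ≤ c) (hε : 0 ≤ ε)
    (hF : ∀ x : V, |⟪x, (A - D * D - c • D) x⟫| ≤ ε * (⟪x, D x⟫ + ‖x‖ ^ 2))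
    {M : ℕ} {μ g α β : ℝ} (hg : 0 < g) (hgμ : g ≤ μ) {Wlo Whi : Submodule ℝ V}
    (hlo : M ≤ Module.finrank ℝ Wlo) (hlo' : ∀ x ∈ Wlo, ⟪x, A x⟫ ≤ α * ‖x‖ ^ 2)
    (hhi : Module.finrank ℝ V ≤ M + Module.finrank ℝ Whi)
    (hhi' : ∀ x ∈ Whi, β * ‖x‖ ^ 2 ≤ ⟪x, A x⟫)
    (hα : α < (μ - g) ^ 2 + (c - ε) * (μ - g) - ε)
    (hβ : (μ + g) ^ 2 + (c + ε) * (μ + g) + ε < β) :
    ∃ S : Submodule ℝ V, Module.finrank ℝ S = M ∧ (∀ x ∈ S, ⟪x, D x⟫ ≤ μ * ‖x‖ ^ 2) ∧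
      ∀ x : V, g ^ 2 * ‖x‖ ^ 2 ≤ ‖D x - μ • x‖ ^ 2 := by
  classical
  set N := Module.finrank ℝ V with hN
  have hsym : (D : V →ₗ[ℝ] V).IsSymmetric := hDs
  set e := hsym.eigenvectorBasis hN.symm
  set d := hsym.eigenvalues hN.symm
  have hDe : ∀ i, D (e i) = d i • e i := fun i => by
    have h := hsym.apply_eigenvectorBasis hN.symm i
    exact h
  have hcoord : ∀ x i, ⟪e i, D x⟫ = d i * ⟪e i, x⟫ := fun x i => by
    rw [← hDs, hDe, real_inner_smul_left]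
  have hd0 : ∀ i, 0 ≤ d i := fun i => by
    have h := hD0 (e i)
    rw [hDe, real_inner_smul_right, real_inner_self_eq_norm_sq, e.orthonormal.1 i, one_pow,
      mul_one] at h
    exact h
  have hquad : ∀ (x : V) (p q r : ℝ), p * ‖D x‖ ^ 2 + q * ⟪x, D x⟫ + r * ‖x‖ ^ 2 =
      ∑ i, (p * d i ^ 2 + q * d i + r) * ⟪e i, x⟫ ^ 2 := fun x p q r => by
    have h1 : ‖D x‖ ^ 2 = ∑ i, d i ^ 2 * ⟪e i, x⟫ ^ 2 := by
      rw [← e.sum_sq_inner_right (D x)]
      exact Finset.sum_congr rfl fun i _ => by rw [hcoord, mul_pow]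
    have h2 : ⟪x, D x⟫ = ∑ i, d i * ⟪e i, x⟫ ^ 2 := by
      rw [← e.sum_inner_mul_inner x (D x)]
      exact Finset.sum_congr rfl fun i _ => by rw [hcoord, real_inner_comm x]; ring
    rw [h1, h2, ← e.sum_sq_inner_right x, Finset.mul_sum, Finset.mul_sum, Finset.mul_sum,
      ← Finset.sum_add_distrib, ← Finset.sum_add_distrib]
    exact Finset.sum_congr rfl fun i _ => by ring
  have hA : ∀ x, ‖D x‖ ^ 2 + (c - ε) * ⟪x, D x⟫ - ε * ‖x‖ ^ 2 ≤ ⟪x, A x⟫ ∧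
      ⟪x, A x⟫ ≤ ‖D x‖ ^ 2 + (c + ε) * ⟪x, D x⟫ + ε * ‖x‖ ^ 2 := fun x => by
    have h := abs_le.1 (hF x)
    simp only [sub_apply, smul_apply, mul_apply_eq_comp, inner_sub_right, real_inner_smul_right,
      ← hDs x (D x), real_inner_self_eq_norm_sq] at h
    constructor <;> linarith
  set spanOf : Finset (Fin N) → Submodule ℝ V := fun s =>
    Submodule.span ℝ (Set.range fun i : s => e i)
  have hdim : ∀ s, Module.finrank ℝ (spanOf s) = s.card := fun s => by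
    show Module.finrank ℝ (Submodule.span ℝ (Set.range (e ∘ ((↑) : s → Fin N)))) = s.card
    rw [finrank_span_eq_card
      (e.orthonormal.linearIndependent.comp _ Subtype.val_injective), Fintype.card_coe]
  have hzero : ∀ (s : Finset (Fin N)), ∀ x ∈ spanOf s, ∀ i ∉ s, ⟪e i, x⟫ = 0 := by
    intro s x hx i hi
    induction hx using Submodule.span_induction with
    | mem y hy =>
      obtain ⟨j, rfl⟩ := hy
      exact e.orthonormal.2 fun h => hi (h ▸ j.2)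
    | zero => simp
    | add y z _ _ hy hz => rw [inner_add_right, hy, hz, add_zero]
    | smul r y _ hy => rw [real_inner_smul_right, hy, mul_zero]
  set lo := Finset.univ.filter fun i => d i < μ + g
  set hi := Finset.univ.filter fun i => μ - g < d i
  have hnorm : ∀ (x : V) (r : ℝ), r * ‖x‖ ^ 2 = ∑ i, r * ⟪e i, x⟫ ^ 2 := fun x r => by
    rw [← Finset.mul_sum, e.sum_sq_inner_right]
  have hdisj_lo : ∀ x ∈ spanOf lo ⊓ Whi, x = 0 := by
    rintro x ⟨hx, hxW⟩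
    by_contra hx0
    have h1 := (hhi' x hxW).trans (hA x).2
    have h2 : ‖D x‖ ^ 2 + (c + ε) * ⟪x, D x⟫ + ε * ‖x‖ ^ 2 ≤
        ((μ + g) ^ 2 + (c + ε) * (μ + g) + ε) * ‖x‖ ^ 2 := by
      rw [← one_mul (‖D x‖ ^ 2), hquad, hnorm]
      refine Finset.sum_le_sum fun i _ => ?_
      by_cases hi : i ∈ lo
      · refine mul_le_mul_of_nonneg_right ?_ (sq_nonneg _)
        have hlt := (Finset.mem_filter.1 hi).2.le
        have h4 := pow_le_pow_left₀ (hd0 i) hlt 2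
        have h5 := mul_le_mul_of_nonneg_left hlt (by linarith : 0 ≤ c + ε)
        linarith
      · rw [hzero lo x hx i hi]; simp
    have h3 := mul_lt_mul_of_pos_right hβ (pow_pos (norm_pos_iff.2 hx0) 2)
    linarith
  have hdisj_hi : ∀ x ∈ spanOf hi ⊓ Wlo, x = 0 := by
    rintro x ⟨hx, hxW⟩
    by_contra hx0
    have h1 := (hA x).1.trans (hlo' x hxW)
    have h2 : ((μ - g) ^ 2 + (c - ε) * (μ - g) - ε) * ‖x‖ ^ 2 ≤
        ‖D x‖ ^ 2 + (c - ε) * ⟪x, D x⟫ + -ε * ‖x‖ ^ 2 := by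
      rw [← one_mul (‖D x‖ ^ 2), hquad, hnorm]
      refine Finset.sum_le_sum fun i _ => ?_
      by_cases hmem : i ∈ hi
      · refine mul_le_mul_of_nonneg_right ?_ (sq_nonneg _)
        have hlt := (Finset.mem_filter.1 hmem).2.le
        have h4 := pow_le_pow_left₀ (by linarith : 0 ≤ μ - g) hlt 2
        have h5 := mul_le_mul_of_nonneg_left hlt (by linarith : 0 ≤ c - ε)
        linarith
      · rw [hzero hi x hx i hmem]; simp
    have h3 := mul_lt_mul_of_pos_right hα (pow_pos (norm_pos_iff.2 hx0) 2)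
    linarith
  have hcount : ∀ (s : Finset (Fin N)) (W : Submodule ℝ V),
      (∀ x ∈ spanOf s ⊓ W, x = 0) → s.card + Module.finrank ℝ W ≤ N := fun s W h => by
    have := Submodule.finrank_sup_add_finrank_inf_eq (spanOf s) W
    rw [(Submodule.eq_bot_iff _).2 h, finrank_bot, add_zero, hdim] at this
    rw [← this]
    exact Submodule.finrank_le _
  have c1 := hcount lo Whi hdisj_lo
  have c2 := hcount hi Wlo hdisj_hi
  have hcover : lo ∪ hi = Finset.univ := by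
    ext i
    simp only [lo, hi, Finset.mem_union, Finset.mem_filter, Finset.mem_univ, true_and, iff_true]
    by_contra h
    push Not at h
    linarith [h.1, h.2]
  have c3 := Finset.card_union_add_card_inter lo hi
  rw [hcover, Finset.card_univ, Fintype.card_fin] at c3
  have hinter : lo ∩ hi = ∅ := Finset.card_eq_zero.1 (by omega)
  have hsplit : ∀ i, d i ≤ μ - g ∨ μ + g ≤ d i := fun i => by
    by_contra h
    push Not at h
    have : i ∈ lo ∩ hi := Finset.mem_inter.2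
      ⟨Finset.mem_filter.2 ⟨Finset.mem_univ _, h.2⟩, Finset.mem_filter.2 ⟨Finset.mem_univ _, h.1⟩⟩
    rw [hinter] at this
    exact absurd this (Finset.notMem_empty i)
  refine ⟨spanOf lo, by rw [hdim]; omega, fun x hx => ?_, fun x => ?_⟩
  · have h := hquad x 0 1 (-μ)
    simp only [zero_mul, one_mul, zero_add] at h
    have h2 : ∑ i, (d i + -μ) * ⟪e i, x⟫ ^ 2 ≤ 0 := Finset.sum_nonpos fun i _ => by
      by_cases hmem : i ∈ lo
      · rcases hsplit i with h' | h'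
        · exact mul_nonpos_of_nonpos_of_nonneg (by linarith) (sq_nonneg _)
        · linarith [(Finset.mem_filter.1 hmem).2]
      · rw [hzero lo x hx i hmem]; simp
    linarith
  · rw [← e.sum_sq_inner_right (D x - μ • x), hnorm]
    refine Finset.sum_le_sum fun i _ => ?_
    rw [inner_sub_right, real_inner_smul_right, hcoord, ← sub_mul, mul_pow]
    refine mul_le_mul_of_nonneg_right (sq_le_sq.2 ?_) (sq_nonneg _)
    rw [abs_of_pos hg, le_abs]
    rcases hsplit i with h | h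
    · exact Or.inr (by linarith)
    · exact Or.inl (by linarith)

/-- The slow plane: an `M`-plane of data at time `a` whose solutions stay in the cone up to `b`. -/
theorem slow_plane (hab : a ≤ b) {A A' : ℝ → V →L[ℝ] V} {c c' : ℝ → ℝ} (hA : Continuous A)
    (hc : Continuous c) (hAs : ∀ t, ∀ x y : V, ⟪A t x, y⟫ = ⟪x, A t y⟫)
    (hA0 : ∀ t, ∀ x : V, 0 ≤ ⟪x, A t x⟫)
    (hdA : ∀ t ∈ Icc a b, HasDerivWithinAt A (A' t) (Icc a b) t)
    (hdc : ∀ t ∈ Icc a b, HasDerivWithinAt c (c' t) (Icc a b) t) {ε : ℝ} (hε : 0 ≤ ε)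
    (hA' : ∀ t ∈ Icc a b, ∀ x : V, |⟪x, A' t x⟫| ≤ ε * ⟪x, A t x⟫)
    (hcε : ∀ t ∈ Icc a b, |c' t| ≤ 2 * ε) (hεc : ∀ t ∈ Icc a b, ε ≤ c t)
    (Λ : V →L[ℝ] V) (hΛs : ∀ x y : V, ⟪Λ x, y⟫ = ⟪x, Λ y⟫) (hΛ0 : ∀ x : V, 0 ≤ ⟪x, Λ x⟫)
    (ha : A a = Λ * Λ + c a • Λ) {M : ℕ} {μ g : ℝ} (hg : 0 < g) (hgμ : g ≤ μ)
    (hgε : ε * (μ + 1) ≤ 2 * g ^ 2)
    (hgap : ∀ t ∈ Icc a b, ∃ (Wlo Whi : Submodule ℝ V) (α β : ℝ),
      M ≤ Module.finrank ℝ Wlo ∧ (∀ x ∈ Wlo, ⟪x, A t x⟫ ≤ α * ‖x‖ ^ 2) ∧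
      Module.finrank ℝ V ≤ M + Module.finrank ℝ Whi ∧
      (∀ x ∈ Whi, β * ‖x‖ ^ 2 ≤ ⟪x, A t x⟫) ∧
      α < (μ - g) ^ 2 + (c t - ε) * (μ - g) - ε ∧
      (μ + g) ^ 2 + (c t + ε) * (μ + g) + ε < β) :
    ∃ (D : ℝ → V →L[ℝ] V) (S : Submodule ℝ V), D a = Λ ∧
      (∀ t ∈ Icc a b, HasDerivWithinAt D (A t - D t * D t - c t • D t) (Icc a b) t ∧
        (∀ x y : V, ⟪D t x, y⟫ = ⟪x, D t y⟫) ∧ (∀ x : V, 0 ≤ ⟪x, D t x⟫) ∧
        ∀ x : V, |⟪x, (A t - D t * D t - c t • D t) x⟫| ≤ ε * (⟪x, D t x⟫ + ‖x‖ ^ 2)) ∧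
      Module.finrank ℝ S = M ∧ ∀ x ∈ S, ∃ u : ℝ → V, u a = x ∧ ∀ t ∈ Icc a b,
        HasDerivWithinAt u (D t (u t)) (Icc a b) t ∧
        HasDerivWithinAt (fun s => D s (u s)) (A t (u t) - c t • D t (u t)) (Icc a b) t ∧
        ⟪u t, D t (u t)⟫ ≤ μ * ‖u t‖ ^ 2 ∧ ‖u t‖ ≤ Real.exp (μ * (t - a)) * ‖x‖ := by
  obtain ⟨D, U, hDa, hUa, hDU⟩ := exists_dtn hab hA hc hAs hA0 Λ hΛs hΛ0
  have hF := dtn_barrier hab hε hc (fun t ht => hε.trans (hεc t ht)) hdA hdc hA' hcε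
    (fun t ht => (hDU t ht).1) (fun t ht => (hDU t ht).2.2.2.1) (fun t ht => (hDU t ht).2.2.2.2)
    (by rw [hDa]; exact ha)
  have hgap' : ∀ t ∈ Icc a b, ∃ S : Submodule ℝ V, Module.finrank ℝ S = M ∧
      (∀ x ∈ S, ⟪x, D t x⟫ ≤ μ * ‖x‖ ^ 2) ∧
      ∀ x : V, g ^ 2 * ‖x‖ ^ 2 ≤ ‖D t x - μ • x‖ ^ 2 := fun t ht => by
    obtain ⟨Wlo, Whi, α, β, h1, h2, h3, h4, h5, h6⟩ := hgap t ht
    exact dtn_gap (hDU t ht).2.2.2.1 (hDU t ht).2.2.2.2 (hεc t ht) hε (hF t ht) hg hgμ h1 h2 h3 h4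
      h5 h6
  obtain ⟨Sb, hSdim, hSb, -⟩ := hgap' b ⟨hab, le_rfl⟩
  have hub : Function.Bijective (U b) :=
    ContinuousLinearMap.isUnit_iff_bijective.1 (hDU b ⟨hab, le_rfl⟩).2.2.1
  refine ⟨D, Sb.comap (U b : V →ₗ[ℝ] V), hDa,
    fun t ht => ⟨(hDU t ht).1, (hDU t ht).2.2.2.1, (hDU t ht).2.2.2.2, hF t ht⟩, ?_, ?_⟩
  · rw [← hSdim]
    exact LinearEquiv.finrank_eq
      ((LinearEquiv.ofBijective (U b : V →ₗ[ℝ] V) hub).ofSubmodule' Sb)
  intro x hx
  set u := fun t => U t x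
  have hu : ∀ t ∈ Icc a b, HasDerivWithinAt u (D t (u t)) (Icc a b) t := fun t ht => by
    simpa [u] using (hDU t ht).2.1.clm_apply (hasDerivWithinAt_const t _ x)
  have hv : ∀ t ∈ Icc a b,
      HasDerivWithinAt (fun s => D s (u s)) (A t (u t) - c t • D t (u t)) (Icc a b) t :=
    fun t ht => ((hDU t ht).1.clm_apply (hu t ht)).congr_deriv (by simp; abel)
  have hn : ∀ t ∈ Icc a b,
      HasDerivWithinAt (fun s => ‖u s‖ ^ 2) (2 * ⟪u t, D t (u t)⟫) (Icc a b) t :=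
    fun t ht => (hu t ht).norm_sq
  have hcone : ∀ t ∈ Icc a b, ⟪u t, D t (u t)⟫ ≤ μ * ‖u t‖ ^ 2 := by
    intro t ht
    set q := fun s => ⟪u s, D s (u s)⟫ - μ * ‖u s‖ ^ 2
    have hq : ∀ s ∈ Icc a b, HasDerivWithinAt q
        (‖D s (u s)‖ ^ 2 + ⟪u s, A s (u s) - c s • D s (u s)⟫ -
          μ * (2 * ⟪u s, D s (u s)⟫)) (Icc a b) s := fun s hs => by
      refine (((hu s hs).inner ℝ (hv s hs)).sub ((hn s hs).const_mul μ)).congr_deriv ?_
      rw [real_inner_self_eq_norm_sq]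
      ring
    have hmono := monotoneOn_exp_mul (k := fun _ => -(2 * μ - ε)) continuous_const hq fun s hs => by
      obtain ⟨-, -, hgs⟩ := (hgap' s hs).choose_spec
      have h1 := hgs (u s)
      have h2 := (abs_le.1 (hF s hs (u s))).1
      simp only [sub_apply, smul_apply, mul_apply_eq_comp, inner_sub_right, real_inner_smul_right,
        ← (hDU s hs).2.2.2.1 (u s) (D s (u s)), real_inner_self_eq_norm_sq] at h2
      rw [norm_sub_sq_real, norm_smul, Real.norm_eq_abs, mul_pow, sq_abs, real_inner_smul_right,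
        real_inner_comm] at h1
      have h3 := mul_le_mul_of_nonneg_right hgε (sq_nonneg ‖u s‖)
      simp only [q, inner_sub_right, real_inner_smul_right]
      linarith
    have h1 := hmono ht ⟨hab, le_rfl⟩ ht.2
    have hqb : q b ≤ 0 := by
      have := hSb (U b x) hx
      simp only [q, u]
      linarith
    have h2 : q t ≤ 0 := nonpos_of_mul_nonpos_right
      (h1.trans (mul_nonpos_of_nonneg_of_nonpos (Real.exp_nonneg _) hqb)) (Real.exp_pos _)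
    simp only [q] at h2
    linarith
  refine ⟨u, by simp [u, hUa], fun t ht => ⟨hu t ht, hv t ht, hcone t ht, ?_⟩⟩
  have h1 := monotoneOn_exp_mul (f := fun s => -‖u s‖ ^ 2) (k := fun _ => -(2 * μ)) continuous_const
    (fun s hs => (hn s hs).neg) (fun s hs => by linarith [hcone s hs]) ⟨le_rfl, hab⟩ ht ht.1
  simp only [intervalIntegral.integral_same, Real.exp_zero, one_mul,
    intervalIntegral.integral_const, smul_eq_mul, mul_neg, neg_le_neg_iff] at h1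
  have h2 : ‖u t‖ ^ 2 ≤ (Real.exp (μ * (t - a)) * ‖x‖) ^ 2 := by
    rw [show u a = x by simp [u, hUa], Real.exp_neg, inv_mul_le_iff₀ (Real.exp_pos _)] at h1
    refine h1.trans (le_of_eq ?_)
    rw [mul_pow, ← Real.exp_nat_mul]
    congr 2
    push_cast
    ring
  exact (sq_le_sq₀ (norm_nonneg _) (by positivity)).1 h2

end

end Vale.Agent.P225.Disproof
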