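import Vale.Agent.P225.Disproof.StrataUniform

/-!
# P225, module F2: the admissible cone of shapes

`Ocone D` is the set of shapes `p` of degree at most `D` with `p > 0` and
`(18 / 25) p ^ 2 (area / ∫ p) + Δ p / 2 - p < 0` on the sphere. It is open and convex, and it
is preserved by raising the degree.
-/

namespace Vale.Agent.P225.Disproof.Strata

open MvPolynomial MeasureTheory Set Filter Topology

noncomputable section

/-- The spherical Laplacian of a shape. -/
def lapRes {D : ℕ} (p : Gal D) (θ : Sph 3) : ℝ := ∑ j, res (rotP j (rotP j p.poly)) θ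

/-- The curvature expression of a shape. -/
def coneExpr {D : ℕ} (p : Gal D) (θ : Sph 3) : ℝ :=
  18 / 25 * (tot 1 / tot (wt D p)) * res p.poly θ ^ 2 + lapRes p θ / 2 - res p.poly θ

/-- The admissible shapes. -/
def Ocone (D : ℕ) : Set (Gal D) := {p | (∀ θ, 0 < res p.poly θ) ∧ ∀ θ, coneExpr p θ < 0}

theorem wt_mem_posW {D : ℕ} {p : Gal D} (hp : ∀ θ, 0 < res p.poly θ) : wt D p ∈ PosW :=
  fun θ => by rw [wt_eval]; exact hp θ

theorem lapRes_comb {D : ℕ} (p q : Gal D) (a b : ℝ) (θ : Sph 3) :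
    lapRes (a • p + b • q) θ = a * lapRes p θ + b * lapRes q θ := by
  simp only [lapRes, map_add, map_smul, Derivation.map_smul, res_add, res_smul,
    Finset.sum_add_distrib, Finset.mul_sum]

/-- The perspective of the square is convex. -/
theorem persp_le {a b x y P R : ℝ} (ha : 0 ≤ a) (hb : 0 ≤ b) (hP : 0 < P) (hR : 0 < R)
    (hS : 0 < a * P + b * R) :
    (a * x + b * y) ^ 2 / (a * P + b * R) ≤ a * (x ^ 2 / P) + b * (y ^ 2 / R) := by
  rw [div_le_iff₀ hS]
  have e : (a * (x ^ 2 / P) + b * (y ^ 2 / R)) * (a * P + b * R) - (a * x + b * y) ^ 2 =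
      a * b * (x * R - y * P) ^ 2 / (P * R) := by
    field_simp
    ring
  have : 0 ≤ a * b * (x * R - y * P) ^ 2 / (P * R) := by positivity
  linarith

theorem convex_ocone (D : ℕ) : Convex ℝ (Ocone D) := by
  rintro p ⟨hp, hp'⟩ q ⟨hq, hq'⟩ a b ha hb hab
  have hres : ∀ θ, res (a • p + b • q).poly θ = a * res p.poly θ + b * res q.poly θ := fun θ => by
    simp only [map_add, map_smul, res_add, res_smul]
  have hpos : ∀ θ, 0 < res (a • p + b • q).poly θ := fun θ => by
    rw [hres]
    rcases ha.eq_or_lt with rfl | ha'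
    · simp only [zero_add] at hab; simp [hab, hq θ]
    · exact lt_add_of_pos_of_le (mul_pos ha' (hp θ)) (mul_nonneg hb (hq θ).le) |>.trans_le le_rfl
  refine ⟨hpos, fun θ => ?_⟩
  have hP := tot_pos (wt_mem_posW hp)
  have hR := tot_pos (wt_mem_posW hq)
  have hS := tot_pos (wt_mem_posW hpos)
  have e : tot (wt D (a • p + b • q)) = a * tot (wt D p) + b * tot (wt D q) := by
    simp only [map_add, map_smul, smul_eq_mul]
  have hc : 0 ≤ 18 / 25 * tot 1 :=
    mul_nonneg (by norm_num) (tot_pos (w := 1) fun θ => by simp).le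
  have h1 := mul_le_mul_of_nonneg_left
    (persp_le (x := res p.poly θ) (y := res q.poly θ) ha hb hP hR (e ▸ hS)) hc
  have h2 : a * coneExpr p θ + b * coneExpr q θ < 0 := by
    rcases ha.eq_or_lt with rfl | ha'
    · simp only [zero_add] at hab; simp [hab, hq' θ]
    · linarith [mul_neg_of_pos_of_neg ha' (hp' θ), mul_nonpos_of_nonneg_of_nonpos hb (hq' θ).le]
  refine lt_of_le_of_lt ?_ h2
  simp only [coneExpr, e, hres, lapRes_comb]
  ring_nf at h1 ⊢
  linarith

theorem continuous_res_gal {D : ℕ} (T : MvPolynomial (Fin 3) ℝ →ₗ[ℝ] MvPolynomial (Fin 3) ℝ) :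
    Continuous fun z : Gal D × Sph 3 => res (T z.1.poly) z.2 := by
  let M : Gal D →ₗ[ℝ] C(Sph 3, ℝ) := ((sphAlg 3).toLinearMap.comp T).comp Gal.poly
  have hM : Continuous M := M.continuous_of_finiteDimensional
  have hM' : ∀ (q : Gal D) (θ : Sph 3), M q θ = res (T q.poly) θ :=
    fun q θ => sphAlg_apply (T q.poly) θ
  refine Continuous.congr ?_ fun z => hM' z.1 z.2
  exact continuous_eval.comp ((hM.comp continuous_fst).prodMk continuous_snd)

theorem isOpen_ocone (D : ℕ) : IsOpen (Ocone D) := by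
  rw [isOpen_iff_mem_nhds]
  rintro p ⟨hp, hp'⟩
  have h1 : Continuous fun z : Gal D × Sph 3 => res z.1.poly z.2 :=
    continuous_res_gal LinearMap.id
  have h2 : Continuous fun z : Gal D × Sph 3 => lapRes z.1 z.2 :=
    continuous_finsetSum _ fun j _ =>
      continuous_res_gal ((rotP j).toLinearMap.comp (rotP j).toLinearMap)
  have key : ∀ θ ∈ (univ : Set (Sph 3)), ∀ᶠ z : Gal D × Sph 3 in 𝓝 (p, θ),
      0 < res z.1.poly z.2 ∧ coneExpr z.1 z.2 < 0 := fun θ _ => by
    refine ((h1.tendsto (p, θ)).eventually_const_lt (hp θ)).and ?_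
    refine ContinuousAt.eventually_lt ?_ continuousAt_const (hp' θ)
    refine ((ContinuousAt.mul (continuousAt_const.mul (continuousAt_const.div ?_ ?_))
      (h1.continuousAt.pow 2)).add (h2.continuousAt.div_const 2)).sub h1.continuousAt
    · exact (tot.continuous.comp ((wt D).continuous.comp continuous_fst)).continuousAt
    · exact (tot_pos (wt_mem_posW hp)).ne'
  filter_upwards [(isCompact_univ (X := Sph 3)).eventually_forall_of_forall_eventually
    (P := fun q θ => 0 < res (Gal.poly q) θ ∧ coneExpr q θ < 0) key] with q hq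
  exact ⟨fun θ => (hq θ trivial).1, fun θ => (hq θ trivial).2⟩

theorem up_mem_ocone {D D' : ℕ} (h : D ≤ D') {p : Gal D} (hp : p ∈ Ocone D) :
    up h p ∈ Ocone D' := hp

end

end Vale.Agent.P225.Disproof.Strata
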