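import Vale.Agent.P225.Disproof.StrataRank
import Vale.Agent.P225.Disproof.StrataCone
import Vale.Agent.P225.Disproof.PencilEigen
import Vale.Agent.P225.Disproof.Avoid

/-!
# P225, module F2: the closed-gap strata of polynomial shapes

Near a compact family of positive shapes one degree `D` makes, for every gap of `224..729`, the
closed set a countable union of 2-thin sets, and the set of two or more closed gaps a countable
union of 3-thin sets (`Strat`). So the shapes with all gaps open are dense there, are joined by two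
segments in convex open subsets, and generic cones over curves meet at most one closed gap.
-/

namespace Vale.Agent.P225.Disproof.Strata

open MvPolynomial MeasureTheory Set Filter Topology Avoid
open scoped RealInnerProductSpace

noncomputable section

/-- The gaps that matter. -/
@[irreducible] def gapWindow : Finset ℕ := Finset.Icc 224 729

theorem mem_gapWindow {l : ℕ} : l ∈ gapWindow ↔ 224 ≤ l ∧ l ≤ 729 := by
  unfold gapWindow
  exact Finset.mem_Icc

/-- The gap after `l` eigenvalues is closed. -/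
def Closed (w : C(Sph 3, ℝ)) (l : ℕ) : Prop := nu (pencil w) (l - 1) = nu (pencil w) l

/-- All gaps of the window are open at a shape. -/
def AllOpen {D : ℕ} (p : Gal D) : Prop := ∀ l ∈ gapWindow, Gap (pencil (wt D p)) l

theorem one_le_of_mem {l : ℕ} (hl : l ∈ gapWindow) : 1 ≤ l := by
  have := mem_gapWindow.1 hl
  omega

theorem closed_of_not_gap {w : C(Sph 3, ℝ)} (hw : w ∈ PosW) {l : ℕ} (hl : 1 ≤ l)
    (h : ¬ Gap (pencil w) l) : Closed w l := by
  have h1 := (goodOp_pencil hw).nu_antitone (Nat.sub_le l 1)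
  simp only [Gap, not_and, not_lt] at h
  exact le_antisymm (h hl) h1

theorem isOpen_allOpen {D : ℕ} {V : Set (Gal D)} (hV : IsOpen V) (hpos : ∀ p ∈ V, wt D p ∈ PosW) :
    IsOpen {p ∈ V | AllOpen p} := by
  rw [isOpen_iff_mem_nhds]
  rintro p ⟨hpV, hp⟩
  refine inter_mem (hV.mem_nhds hpV) ?_
  have hc : ContinuousAt (fun q => pencil (wt D q)) p :=
    (continuousAt_pencil (tot_pos (hpos p hpV)).ne').comp (wt D).continuous.continuousAt
  exact (Finset.eventually_all gapWindow).2 fun l hl =>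
    hc.eventually ((isOpen_gap l).mem_nhds (hp l hl))

/-- A state with the value of an exact cluster and open outer gaps lies in it. -/
theorem lt_of_nu_eq {w : C(Sph 3, ℝ)} (hw : w ∈ PosW) {i r t : ℕ} (hr : 1 ≤ r)
    (he : Exact w i r) (hg : OuterGaps w i r) (ht : nu (pencil w) t = nu (pencil w) i) :
    t < i + r := by
  by_contra hcon
  have h1 := (goodOp_pencil hw).nu_antitone (not_lt.1 hcon)
  have h2 := hg.2.2
  rw [show i + r - 1 = i + (r - 1) by omega, he (r - 1) (by omega)] at h2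
  linarith

variable {m k : ℕ}

/-- At an exact configuration of clusters with separating shapes the configuration is thin. -/
theorem thin_at {D : ℕ} {p₀ : Gal D} (hw : wt D p₀ ∈ PosW) {ι : Fin m → ℕ}
    (hι : Function.Injective ι) (cl : Fin m → ℕ × ℕ)
    (hmem : ∀ a, (cl a).1 ≤ ι a ∧ ι a < (cl a).1 + (cl a).2)
    (hg : ∀ a, OuterGaps (wt D p₀) (cl a).1 (cl a).2)
    (he : ∀ a, Exact (wt D p₀) (cl a).1 (cl a).2) {Q : Fin k → Matrix (Fin m) (Fin m) ℝ}
    (hcl : ∀ c a b, Q c a b ≠ 0 → cl a = cl b)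
    (htr : ∀ c, ∀ t : ℕ × ℕ → ℝ, ∑ a, Q c a a * t (cl a) = 0)
    (hS : Spans D (wt D p₀) ι Q) :
    ∃ U ∈ 𝓝 p₀, ∃ (F : Gal D → Fin k → ℝ) (F' : Gal D →L[ℝ] (Fin k → ℝ)),
      F p₀ = 0 ∧ HasStrictFDerivAt F F' p₀ ∧ Function.Surjective F' ∧
      ∀ p ∈ U, (∀ a, Exact (wt D p) (cl a).1 (cl a).2) → F p = 0 := by
  classical
  set w₀ := wt D p₀
  have hr : ∀ a, 1 ≤ (cl a).2 := fun a => by have := hmem a; omega
  let idx : (a : Fin m) → Fin (cl a).2 := fun a =>
    ⟨ι a - (cl a).1, by have := hmem a; omega⟩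
  let idx' : (a b : Fin m) → cl a = cl b → Fin (cl a).2 := fun a b h =>
    ⟨ι b - (cl a).1, by rw [h]; exact (idx b).2⟩
  let G : Fin m → Fin m → C(Sph 3, ℝ) → ℝ := fun a b w =>
    if h : cl a = cl b then clusterF w₀ (cl a).1 (cl a).2 (idx a) (idx' a b h) w else 0
  let G' : Fin m → Fin m → C(Sph 3, ℝ) →L[ℝ] ℝ := fun a b =>
    if h : cl a = cl b then clusterD w₀ (cl a).1 (cl a).2 (idx a) (idx' a b h) else 0
  have hG : ∀ a b, HasStrictFDerivAt (G a b) (G' a b) w₀ := fun a b => by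
    by_cases h : cl a = cl b
    · simp only [G, G', dif_pos h]
      exact hasStrictFDerivAt_clusterF hw (hg a) (hr a) (he a) _ _
    · simp only [G, G', dif_neg h]
      exact hasStrictFDerivAt_const 0 w₀
  have hG0 : ∀ᶠ w in 𝓝 w₀, ∀ a b, Exact w (cl a).1 (cl a).2 → G a b w = 0 := by
    have h1 : ∀ a, ∀ᶠ w in 𝓝 w₀, Exact w (cl a).1 (cl a).2 →
        ∀ x y, clusterF w₀ (cl a).1 (cl a).2 x y w = 0 := fun a =>
      eventually_clusterF_eq_zero hw (hg a) (hr a)
    filter_upwards [eventually_all.2 h1] with w hw' a b hex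
    by_cases h : cl a = cl b
    · simp only [G, dif_pos h]; exact hw' a hex _ _
    · simp only [G, dif_neg h]
  let sc : Fin m → ℝ := fun a => (Real.sqrt (nu (pencil w₀) (ι a)))⁻¹
  let F : C(Sph 3, ℝ) → Fin k → ℝ := fun w c => ∑ a, ∑ b, (Q c a b * (sc a * sc b)) * G a b w
  let F' : C(Sph 3, ℝ) →L[ℝ] (Fin k → ℝ) :=
    ContinuousLinearMap.pi fun c => ∑ a, ∑ b, (Q c a b * (sc a * sc b)) • G' a b
  have hF : HasStrictFDerivAt F F' w₀ := hasStrictFDerivAt_pi.2 fun c =>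
    HasStrictFDerivAt.fun_sum fun a _ => HasStrictFDerivAt.fun_sum fun b _ =>
      (hG a b).const_mul _
  have hF' : F' = qForm (fun a => st w₀ (ι a)) Q := by
    refine ContinuousLinearMap.ext fun h => funext fun c => ?_
    let t : ℕ × ℕ → ℝ := fun q => ((Real.sqrt (nu (pencil w₀) q.1))⁻¹) ^ 2 *
      ((∑ x : Fin q.2, pairD (clusterFun w₀ q.1 x) (clusterFun w₀ q.1 x) h) / q.2)
    have hsc : ∀ a, sc a = (Real.sqrt (nu (pencil w₀) (cl a).1))⁻¹ := fun a => by
      have := he a (idx a) (idx a).2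
      rw [show (cl a).1 + ((idx a : Fin (cl a).2) : ℕ) = ι a by
        have := hmem a; simp only [idx]; omega] at this
      simp only [sc, this]
    have hterm : ∀ a b, Q c a b * (sc a * sc b) * G' a b h =
        Q c a b * pairD (st w₀ (ι a)) (st w₀ (ι b)) h - if a = b then Q c a a * t (cl a) else 0 := by
      intro a b
      by_cases hq : Q c a b = 0
      · rw [hq]
        split_ifs with hab
        · subst hab; rw [hq]; ring
        · ring
      have hc := hcl c a b hq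
      have hp : pairD (st w₀ (ι a)) (st w₀ (ι b)) h =
          sc a * sc b * pairD (clusterFun w₀ (cl a).1 (idx a))
            (clusterFun w₀ (cl a).1 (idx' a b hc)) h := by
        have e1 : (cl a).1 + (idx a : ℕ) = ι a := by
          have := hmem a; simp only [idx]; omega
        have e2 : (cl a).1 + (idx' a b hc : ℕ) = ι b := by
          have := hmem b; rw [← hc] at this; simp only [idx']; omega
        simp only [st, clusterFun, clusterVec, e1, e2, pairD_apply, map_smul,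
          real_inner_smul_left, real_inner_smul_right, sc]
        ring
      simp only [G', dif_pos hc, clusterD, sub_apply, smul_apply, sum_apply, smul_eq_mul, hp]
      by_cases hab : a = b
      · subst hab
        rw [if_pos rfl, if_pos rfl]
        simp only [t, hsc]
        ring
      · rw [if_neg hab, if_neg (fun hh => hab (hι (by
          have := congrArg Fin.val hh
          have := hmem a; have := hmem b; rw [← hc] at this
          simp only [idx, idx'] at *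
          omega)))]
        ring
    simp only [F', ContinuousLinearMap.pi_apply, sum_apply, smul_apply, smul_eq_mul, qForm_apply,
      hterm, Finset.sum_sub_distrib, Finset.sum_ite_eq, Finset.mem_univ, if_true]
    rw [htr c t, sub_zero]
  have hzero : ∀ᶠ w in 𝓝 w₀, (∀ a, Exact w (cl a).1 (cl a).2) → F w = 0 := by
    filter_upwards [hG0] with w hw' hex
    funext c
    exact Finset.sum_eq_zero fun a _ => Finset.sum_eq_zero fun b _ => by
      rw [hw' a b (hex a), mul_zero]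
  refine ⟨_, (wt D).continuous.continuousAt.eventually hzero, fun p => F (wt D p),
    F'.comp (wt D), hzero.self_of_nhds he, hF.comp p₀ (wt D).hasStrictFDerivAt, ?_, fun p hp => hp⟩
  rw [hF']
  exact hS

/-- The rank conditions at a weight, with test shapes of degree at most `D`. -/
structure SpansAll (D : ℕ) (w : C(Sph 3, ℝ)) : Prop where
  pair : ∀ l ∈ gapWindow, (∀ a b, relAll 2 a b →
    nu (pencil w) (![l - 1, l] a) = nu (pencil w) (![l - 1, l] b)) →
      ∃ Q, Adm (relAll 2) Q ∧ Spans (k := 2) D w ![l - 1, l] Q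
  triple : ∀ q ∈ gapWindow ×ˢ gapWindow, q.1 < q.2 → (∀ a b, relAll 3 a b →
    nu (pencil w) (![q.1 - 1, q.1, q.2] a) = nu (pencil w) (![q.1 - 1, q.1, q.2] b)) →
      ∃ Q, Adm (relAll 3) Q ∧ Spans (k := 3) D w ![q.1 - 1, q.1, q.2] Q
  pairs : ∀ q ∈ gapWindow ×ˢ gapWindow, q.1 + 1 < q.2 → (∀ a b, relPairs a b →
    nu (pencil w) (![q.1 - 1, q.1, q.2 - 1, q.2] a) =
      nu (pencil w) (![q.1 - 1, q.1, q.2 - 1, q.2] b)) →
      ∃ Q, Adm relPairs Q ∧ Spans (k := 3) D w ![q.1 - 1, q.1, q.2 - 1, q.2] Q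

theorem SpansAll.mono {D D' : ℕ} {w : C(Sph 3, ℝ)} (hD : D ≤ D') (h : SpansAll D w) :
    SpansAll D' w :=
  ⟨fun l hl he => (h.pair l hl he).imp fun _ hQ => ⟨hQ.1, hQ.2.mono hD⟩,
    fun q hq hlt he => (h.triple q hq hlt he).imp fun _ hQ => ⟨hQ.1, hQ.2.mono hD⟩,
    fun q hq hlt he => (h.pairs q hq hlt he).imp fun _ hQ => ⟨hQ.1, hQ.2.mono hD⟩⟩

/-- A degree for finitely many conditions. -/
theorem exists_deg_finset {α : Type*} (s : Finset α) {w₀ : C(Sph 3, ℝ)}
    {P : α → ℕ → C(Sph 3, ℝ) → Prop} (hmono : ∀ a D D' w, D ≤ D' → P a D w → P a D' w)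
    (h : ∀ a ∈ s, ∃ D, ∀ᶠ w in 𝓝 w₀, P a D w) :
    ∃ D, ∀ᶠ w in 𝓝 w₀, ∀ a ∈ s, P a D w := by
  choose! f hf using h
  refine ⟨s.sup f, (Finset.eventually_all s).2 fun a ha => ?_⟩
  filter_upwards [hf a ha] with w hw
  exact hmono a _ _ w (Finset.le_sup ha) hw

theorem exists_deg_spansAll {p₀ : MvPolynomial (Fin 3) ℝ} (hp₀ : ∀ θ : Sph 3, 0 < res p₀ θ) :
    ∃ D, ∀ᶠ w in 𝓝 (sphAlg 3 p₀), SpansAll D w := by
  have i2 : ∀ l ∈ gapWindow, Function.Injective ![l - 1, l] := fun l hl a b hab => by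
    have := one_le_of_mem hl
    fin_cases a <;> fin_cases b <;> simp at hab ⊢ <;> omega
  obtain ⟨D₁, h₁⟩ := exists_deg_finset gapWindow
    (P := fun l D w => (∀ a b, relAll 2 a b →
      nu (pencil w) (![l - 1, l] a) = nu (pencil w) (![l - 1, l] b)) →
        ∃ Q, Adm (relAll 2) Q ∧ Spans (k := 2) D w ![l - 1, l] Q)
    (fun l D D' w hD h he => (h he).imp fun _ hQ => ⟨hQ.1, hQ.2.mono hD⟩)
    (fun l hl => exists_deg_spans hasRank_pair (i2 l hl) hp₀)
  obtain ⟨D₂, h₂⟩ := exists_deg_finset (gapWindow ×ˢ gapWindow) (w₀ := sphAlg 3 p₀)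
    (P := fun q D w => q.1 < q.2 → (∀ a b, relAll 3 a b →
      nu (pencil w) (![q.1 - 1, q.1, q.2] a) = nu (pencil w) (![q.1 - 1, q.1, q.2] b)) →
        ∃ Q, Adm (relAll 3) Q ∧ Spans (k := 3) D w ![q.1 - 1, q.1, q.2] Q)
    (fun q D D' w hD h hlt he => (h hlt he).imp fun _ hQ => ⟨hQ.1, hQ.2.mono hD⟩)
    (fun q hq => by
      by_cases hlt : q.1 < q.2
      · obtain ⟨D, hD⟩ := exists_deg_spans hasRank_triple
          (ι := ![q.1 - 1, q.1, q.2]) (fun a b hab => by
            have := one_le_of_mem (Finset.mem_product.1 hq).1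
            fin_cases a <;> fin_cases b <;> simp at hab ⊢ <;> omega) hp₀
        exact ⟨D, hD.mono fun w hw _ => hw⟩
      · exact ⟨0, Eventually.of_forall fun w h => absurd h hlt⟩)
  obtain ⟨D₃, h₃⟩ := exists_deg_finset (gapWindow ×ˢ gapWindow) (w₀ := sphAlg 3 p₀)
    (P := fun q D w => q.1 + 1 < q.2 → (∀ a b, relPairs a b →
      nu (pencil w) (![q.1 - 1, q.1, q.2 - 1, q.2] a) =
        nu (pencil w) (![q.1 - 1, q.1, q.2 - 1, q.2] b)) →
        ∃ Q, Adm relPairs Q ∧ Spans (k := 3) D w ![q.1 - 1, q.1, q.2 - 1, q.2] Q)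
    (fun q D D' w hD h hlt he => (h hlt he).imp fun _ hQ => ⟨hQ.1, hQ.2.mono hD⟩)
    (fun q hq => by
      by_cases hlt : q.1 + 1 < q.2
      · obtain ⟨D, hD⟩ := exists_deg_spans hasRank_pairs
          (ι := ![q.1 - 1, q.1, q.2 - 1, q.2]) (fun a b hab => by
            have := one_le_of_mem (Finset.mem_product.1 hq).1
            fin_cases a <;> fin_cases b <;> simp at hab ⊢ <;> omega) hp₀
        exact ⟨D, hD.mono fun w hw _ => hw⟩
      · exact ⟨0, Eventually.of_forall fun w h => absurd h hlt⟩)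
  refine ⟨max D₁ (max D₂ D₃), ?_⟩
  filter_upwards [h₁, h₂, h₃] with w a b c
  exact ⟨fun l hl he => (a l hl he).imp fun _ hQ => ⟨hQ.1, hQ.2.mono (le_max_left _ _)⟩,
    fun q hq hlt he => (b q hq hlt he).imp fun _ hQ =>
      ⟨hQ.1, hQ.2.mono ((le_max_left _ _).trans (le_max_right _ _))⟩,
    fun q hq hlt he => (c q hq hlt he).imp fun _ hQ =>
      ⟨hQ.1, hQ.2.mono ((le_max_right _ _).trans (le_max_right _ _))⟩⟩

variable {D : ℕ}

/-- Shapes of `V` where gap `l` is closed inside the exact cluster `(i, r)`. -/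
def strat2 (V : Set (Gal D)) (n : ℕ × ℕ × ℕ) : Set (Gal D) :=
  {p | p ∈ V ∧ n.1 ∈ gapWindow ∧ Closed (wt D p) n.1 ∧ n.2.1 ≤ n.1 - 1 ∧
    n.1 < n.2.1 + n.2.2 ∧ Exact (wt D p) n.2.1 n.2.2 ∧ OuterGaps (wt D p) n.2.1 n.2.2}

/-- Shapes of `V` with two closed gaps in given exact clusters. -/
def strat3 (V : Set (Gal D)) (n : (ℕ × ℕ × ℕ) × (ℕ × ℕ × ℕ)) : Set (Gal D) :=
  {p | p ∈ strat2 V n.1 ∧ p ∈ strat2 V n.2 ∧ n.1.1 < n.2.1}

theorem thin_strat2 {V : Set (Gal D)} (hV : ∀ p ∈ V, wt D p ∈ PosW ∧ SpansAll D (wt D p))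
    (n : ℕ × ℕ × ℕ) : Thin 2 (strat2 V n) := by
  obtain ⟨l, i, r⟩ := n
  rintro p ⟨hpV, hl, hc, hil, hlr, hex, hgap⟩
  dsimp only at hl hc hil hlr hex hgap
  have hl1 := one_le_of_mem hl
  obtain ⟨Q, hQ, hS⟩ := (hV p hpV).2.pair l hl fun a b _ => by
    fin_cases a <;> fin_cases b <;> simp <;> first | exact hc | exact hc.symm
  obtain ⟨U, hU, F, F', h0, hd, hs, hz⟩ := thin_at (hV p hpV).1 (ι := ![l - 1, l])
    (fun a b hab => by fin_cases a <;> fin_cases b <;> simp at hab ⊢ <;> omega)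
    (fun _ => (i, r)) (fun a => by fin_cases a <;> simp <;> omega) (fun _ => hgap) (fun _ => hex)
    (Q := Q) (fun _ _ _ _ => rfl) (fun c t => (hQ c).2 (fun _ => t (i, r)) fun _ _ _ => rfl) hS
  exact ⟨U, hU, F, F', h0, hd, hs, fun q hq => hz q hq.2 fun _ => hq.1.2.2.2.2.2.1⟩

theorem thin_strat3 {V : Set (Gal D)} (hV : ∀ p ∈ V, wt D p ∈ PosW ∧ SpansAll D (wt D p))
    (n : (ℕ × ℕ × ℕ) × (ℕ × ℕ × ℕ)) : Thin 3 (strat3 V n) := by
  obtain ⟨⟨l, i, r⟩, l', i', r'⟩ := n
  rintro p ⟨⟨hpV, hl, hc, hil, hlr, hex, hgap⟩, ⟨-, hl', hc', hil', hlr', hex', hgap'⟩, hlt⟩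
  dsimp only at hl hc hil hlr hex hgap hl' hc' hil' hlr' hex' hgap' hlt
  obtain ⟨hpos, hsp⟩ := hV p hpV
  have hl1 := one_le_of_mem hl
  have hl1' := one_le_of_mem hl'
  have hll : (l, l') ∈ gapWindow ×ˢ gapWindow := Finset.mem_product.2 ⟨hl, hl'⟩
  simp only [Closed] at hc hc' hlt hil hlr hil' hlr'
  by_cases heq : nu (pencil (wt D p)) l = nu (pencil (wt D p)) l'
  · have hl'r : l' < i + r := lt_of_nu_eq hpos (by omega) hex hgap (by
      rw [← heq, ← hex (l - i) (by omega), show i + (l - i) = l by omega])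
    obtain ⟨Q, hQ, hS⟩ := hsp.triple (l, l') hll hlt fun a b _ => by
      fin_cases a <;> fin_cases b <;> simp <;> linarith
    obtain ⟨U, hU, F, F', h0, hd, hs, hz⟩ := thin_at hpos (ι := ![l - 1, l, l'])
      (fun a b hab => by fin_cases a <;> fin_cases b <;> simp at hab ⊢ <;> omega)
      (fun _ => (i, r)) (fun a => by fin_cases a <;> simp <;> omega) (fun _ => hgap) (fun _ => hex)
      (Q := Q) (fun _ _ _ _ => rfl) (fun c t => (hQ c).2 (fun _ => t (i, r)) fun _ _ _ => rfl) hS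
    exact ⟨U, hU, F, F', h0, hd, hs, fun q hq => hz q hq.2 fun _ => hq.1.1.2.2.2.2.2.1⟩
  · have hlt' : l + 1 < l' := by
      by_contra hh
      obtain rfl : l' = l + 1 := by omega
      exact heq hc'
    obtain ⟨Q, hQ, hS⟩ := hsp.pairs (l, l') hll hlt' fun a b hab => by
      fin_cases a <;> fin_cases b <;> simp [relPairs] at hab ⊢ <;>
        first | exact hc | exact hc.symm | exact hc' | exact hc'.symm
    set cl : Fin 4 → ℕ × ℕ := ![(i, r), (i, r), (i', r'), (i', r')]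
    have hrel : ∀ a b, relPairs a b → cl a = cl b := fun a b hab => by
      fin_cases a <;> fin_cases b <;> simp [relPairs, cl] at hab ⊢
    obtain ⟨U, hU, F, F', h0, hd, hs, hz⟩ := thin_at hpos (ι := ![l - 1, l, l' - 1, l'])
      (fun a b hab => by fin_cases a <;> fin_cases b <;> simp at hab ⊢ <;> omega)
      cl (fun a => by fin_cases a <;> simp [cl] <;> omega)
      (fun a => by fin_cases a <;> simp [cl] <;> assumption)
      (fun a => by fin_cases a <;> simp [cl] <;> assumption)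
      (Q := Q) (fun c a b h => hrel a b ((hQ c).1 a b h))
      (fun c t => (hQ c).2 (fun a => t (cl a)) fun a b hab => congrArg t (hrel a b hab)) hS
    refine ⟨U, hU, F, F', h0, hd, hs, fun q hq => hz q hq.2 fun a => ?_⟩
    have e1 := hq.1.1.2.2.2.2.2.1
    have e2 := hq.1.2.1.2.2.2.2.2.1
    fin_cases a <;> simp [cl] <;> assumption

theorem exists_strat2 {V : Set (Gal D)} (hV : ∀ p ∈ V, wt D p ∈ PosW) {p : Gal D} (hp : p ∈ V)
    {l : ℕ} (hl : l ∈ gapWindow) (hc : ¬ Gap (pencil (wt D p)) l) :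
    ∃ i r, p ∈ strat2 V (l, i, r) := by
  have hl1 := one_le_of_mem hl
  have hcl := closed_of_not_gap (hV p hp) hl1 hc
  obtain ⟨i, r, -, h1, h2, h3, h4, h5⟩ := (goodOp_pencil (hV p hp)).exists_cluster hl1 hc
  exact ⟨i, r, hp, hl, hcl, Nat.le_sub_one_of_lt h1, h2, h5, h3, h4⟩

/-- The outcome: an open set of positive shapes with thin strata covering the closed gaps. -/
structure Strat (V : Set (Gal D)) : Prop where
  isOpen : IsOpen V
  pos : ∀ p ∈ V, wt D p ∈ PosW
  spans : ∀ p ∈ V, SpansAll D (wt D p)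
  thin2 : ∀ n, Thin 2 (strat2 V n)
  thin3 : ∀ n, Thin 3 (strat3 V n)

theorem Strat.cover2 {V : Set (Gal D)} (h : Strat V) {p : Gal D} (hp : p ∈ V) (hn : ¬ AllOpen p) :
    p ∈ ⋃ n, strat2 V n := by
  simp only [AllOpen, not_forall] at hn
  obtain ⟨l, hl, hc⟩ := hn
  obtain ⟨i, r, hm⟩ := exists_strat2 h.pos hp hl hc
  exact mem_iUnion.2 ⟨_, hm⟩

theorem Strat.cover3 {V : Set (Gal D)} (h : Strat V) {p : Gal D} (hp : p ∈ V) {l l' : ℕ}
    (hl : l ∈ gapWindow) (hl' : l' ∈ gapWindow) (hne : l ≠ l')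
    (hc : ¬ Gap (pencil (wt D p)) l) (hc' : ¬ Gap (pencil (wt D p)) l') :
    p ∈ ⋃ n, strat3 V n := by
  obtain ⟨i, r, hm⟩ := exists_strat2 h.pos hp hl hc
  obtain ⟨i', r', hm'⟩ := exists_strat2 h.pos hp hl' hc'
  rcases lt_or_gt_of_ne hne with hlt | hlt
  · exact mem_iUnion.2 ⟨((l, i, r), (l', i', r')), hm, hm', hlt⟩
  · exact mem_iUnion.2 ⟨((l', i', r'), (l, i, r)), hm', hm, hlt⟩

theorem allOpen_of_notMem {V : Set (Gal D)} (h : Strat V) {p : Gal D} (hp : p ∈ V)
    (hn : p ∉ ⋃ n, strat2 V n) : AllOpen p := by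
  by_contra hh
  exact hn (h.cover2 hp hh)

theorem notMem_of_allOpen {V : Set (Gal D)} {p : Gal D} (hp : AllOpen p) (n : ℕ × ℕ × ℕ) :
    p ∉ strat2 V n := fun hm => by
  have := (hp _ hm.2.1).2
  rw [hm.2.2.1] at this
  exact lt_irrefl _ this

/-- All gaps open is dense. -/
theorem Strat.exists_allOpen {V : Set (Gal D)} (h : Strat V) {U : Set (Gal D)} (hU : IsOpen U)
    (hUV : U ⊆ V) (hne : U.Nonempty) : ∃ p ∈ U, AllOpen p := by
  obtain ⟨p, hpU, hp⟩ := (dense_good (A := strat2 V) (γ := fun _ _ => (0 : Gal D)) two_pos h.thin2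
    fun n => dimH_badPoint (h.thin2 n) 0).inter_open_nonempty U hU hne
  refine ⟨p, hpU, allOpen_of_notMem h (hUV hpU) fun hm => hp ?_⟩
  obtain ⟨n, hn⟩ := mem_iUnion.1 hm
  exact mem_iUnion.2 ⟨n, 0, ⟨le_rfl, zero_lt_one⟩, 0, ⟨le_rfl, zero_le_one⟩, by simpa using hn⟩

/-- Two shapes with all gaps open are joined by two segments. -/
theorem Strat.exists_two_segments {V : Set (Gal D)} (h : Strat V) {U : Set (Gal D)}
    (hUc : Convex ℝ U) (hU : IsOpen U) (hUV : U ⊆ V) {p q : Gal D} (hp : p ∈ U) (hq : q ∈ U)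
    (hpo : AllOpen p) (hqo : AllOpen q) :
    ∃ v ∈ U, segment ℝ v p ⊆ U ∩ {x | AllOpen x} ∧ segment ℝ v q ⊆ U ∩ {x | AllOpen x} := by
  obtain ⟨v, hv, h1, h2⟩ := Avoid.exists_two_segments h.thin2 hUc hU hp hq
    (notMem_of_allOpen hpo) (notMem_of_allOpen hqo)
  exact ⟨v, hv, fun x hx => ⟨(h1 hx).1, allOpen_of_notMem h (hUV (h1 hx).1) (h1 hx).2⟩,
    fun x hx => ⟨(h2 hx).1, allOpen_of_notMem h (hUV (h2 hx).1) (h2 hx).2⟩⟩

/-- A cone over a curve, with apex where all gaps are open, closing at most one gap at a time. -/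
theorem Strat.exists_apex {V : Set (Gal D)} (h : Strat V) {γ : ℝ → Gal D} (hγ : ContDiff ℝ 1 γ)
    {U W : Set (Gal D)} (hUc : Convex ℝ U) (hUV : U ⊆ V) (hγU : ∀ s ∈ Icc (0 : ℝ) 1, γ s ∈ U)
    (hW : IsOpen W) (hWU : W ⊆ U) (hne : W.Nonempty) :
    ∃ v ∈ W, AllOpen v ∧ ∀ t ∈ Ico (0 : ℝ) 1, ∀ s ∈ Icc (0 : ℝ) 1,
      (1 - t) • v + t • γ s ∈ U ∧ ∀ l ∈ gapWindow, ∀ l' ∈ gapWindow, l ≠ l' →
        Gap (pencil (wt D ((1 - t) • v + t • γ s))) l ∨
          Gap (pencil (wt D ((1 - t) • v + t • γ s))) l' := by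
  obtain ⟨x, hxW, hx⟩ := h.exists_allOpen hW (hWU.trans hUV) hne
  have hW' : IsOpen (W ∩ {p ∈ V | AllOpen p}) := hW.inter (isOpen_allOpen h.isOpen h.pos)
  obtain ⟨v, hv, hcone⟩ := Avoid.exists_apex h.thin3 hγ hUc hγU hW'
    (inter_subset_left.trans hWU) ⟨x, hxW, (hWU.trans hUV) hxW, hx⟩
  refine ⟨v, hv.1, hv.2.2, fun t ht s hs => ⟨(hcone t ht s hs).1, fun l hl l' hl' hne' => ?_⟩⟩
  by_contra hcon
  obtain ⟨n, hn⟩ := mem_iUnion.1 (h.cover3 (hUV (hcone t ht s hs).1) hl hl' hne'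
    (fun hh => hcon (Or.inl hh)) fun hh => hcon (Or.inr hh))
  exact (hcone t ht s hs).2 n hn

/-- The main statement: one degree works near a compact family of admissible shapes. -/
theorem exists_strat {D₀ : ℕ} {K : Set (Gal D₀)} (hK : IsCompact K) (hKO : K ⊆ Ocone D₀) :
    ∃ (D : ℕ) (hD : D₀ ≤ D) (V : Set (Gal D)), Strat V ∧ up hD '' K ⊆ V ∧ V ⊆ Ocone D := by
  classical
  have hloc : ∀ p ∈ K, ∃ D : ℕ, ∃ W : Set C(Sph 3, ℝ), IsOpen W ∧ wt D₀ p ∈ W ∧
      ∀ w ∈ W, w ∈ PosW ∧ SpansAll D w := fun p hp => by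
    obtain ⟨D, hD⟩ := exists_deg_spansAll (hKO hp).1
    obtain ⟨W, hW, hWo, hpW⟩ := mem_nhds_iff.1
      (inter_mem (isOpen_posW.mem_nhds (wt_mem_posW (hKO hp).1)) hD)
    exact ⟨D, W, hWo, hpW, fun w hw => hW hw⟩
  choose Dp Wp hWo hpW hWs using fun p : K => hloc p p.2
  obtain ⟨t, hts⟩ := hK.elim_finite_subcover (fun p : K => wt D₀ ⁻¹' Wp p)
    (fun p => (hWo p).preimage (wt D₀).continuous)
    (fun p hp => mem_iUnion.2 ⟨⟨p, hp⟩, hpW ⟨p, hp⟩⟩)
  set D := max D₀ (t.sup Dp)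
  have hD : D₀ ≤ D := le_max_left _ _
  set W : Set C(Sph 3, ℝ) := ⋃ p ∈ t, Wp p
  set V := wt D ⁻¹' W ∩ Ocone D
  have hV : ∀ p ∈ V, wt D p ∈ PosW ∧ SpansAll D (wt D p) := fun p hp => by
    obtain ⟨q, hq, hpq⟩ := mem_iUnion₂.1 hp.1
    obtain ⟨h1, h2⟩ := hWs q _ hpq
    exact ⟨h1, h2.mono ((Finset.le_sup (f := Dp) hq).trans (le_max_right _ _))⟩
  refine ⟨D, hD, V, ⟨?_, fun p hp => (hV p hp).1, fun p hp => (hV p hp).2, thin_strat2 hV,
    thin_strat3 hV⟩, ?_,
    inter_subset_right⟩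
  · exact ((isOpen_biUnion fun p _ => hWo p).preimage (wt D).continuous).inter (isOpen_ocone D)
  · rintro _ ⟨p, hp, rfl⟩
    obtain ⟨q, hq, hpq⟩ := mem_iUnion₂.1 (hts hp)
    exact ⟨mem_iUnion₂.2 ⟨q, hq, hpq⟩, up_mem_ocone hD (hKO hp)⟩

/-- The form used by the loop families. -/
theorem Strat.allOpen_iff {V : Set (Gal D)} (h : Strat V) {p : Gal D} (hp : p ∈ V) :
    AllOpen p ↔ ∀ n, p ∉ strat2 V n :=
  ⟨notMem_of_allOpen, fun hn => allOpen_of_notMem h hp (by simpa using hn)⟩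

/-- A closed gap between two open ones is an exact cluster of two. -/
theorem cluster_two {w : C(Sph 3, ℝ)} (hw : w ∈ PosW) {j : ℕ} (hj : 2 ≤ j)
    (hc : ¬ Gap (pencil w) j) (h1 : Gap (pencil w) (j - 1)) (h2 : Gap (pencil w) (j + 1)) :
    Exact w (j - 1) 2 ∧ OuterGaps w (j - 1) 2 := by
  refine ⟨fun a ha => ?_, Or.inr h1, by rwa [show j - 1 + 2 = j + 1 by omega]⟩
  rcases Nat.eq_zero_or_pos a with rfl | ha0
  · simp
  · obtain rfl : a = 1 := by omega
    rw [show j - 1 + 1 = j by omega]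
    exact (closed_of_not_gap hw (by omega) hc).symm

/-- At a simple closed gap the pair functionals are onto the shapes. -/
theorem Strat.pair_surjective {V : Set (Gal D)} (h : Strat V) {p : Gal D} (hp : p ∈ V) {j : ℕ}
    (hj : j ∈ gapWindow) (hc : ¬ Gap (pencil (wt D p)) j) :
    Function.Surjective fun q : Gal D =>
      ![pairD (clusterFun (wt D p) (j - 1) (0 : Fin 2)) (clusterFun (wt D p) (j - 1) (0 : Fin 2)) (wt D q) -
          pairD (clusterFun (wt D p) (j - 1) (1 : Fin 2)) (clusterFun (wt D p) (j - 1) (1 : Fin 2)) (wt D q),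
        pairD (clusterFun (wt D p) (j - 1) (0 : Fin 2))
          (clusterFun (wt D p) (j - 1) (1 : Fin 2)) (wt D q)] := by
  have hj1 := one_le_of_mem hj
  set w := wt D p
  have heq : nu (pencil w) (j - 1) = nu (pencil w) j := closed_of_not_gap (h.pos p hp) hj1 hc
  obtain ⟨Q, hQ, hS⟩ := (h.spans p hp).pair j hj fun a b _ => by
    fin_cases a <;> fin_cases b <;> simp <;> linarith
  set s := (Real.sqrt (nu (pencil w) j))⁻¹
  set v : Fin 2 → L2S := fun a => clusterFun w (j - 1) a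
  have hst : ∀ a, st w (![j - 1, j] a) = s • v a := fun a => by
    fin_cases a
    · simp [st, v, s, clusterFun, clusterVec, heq]
    · simp [st, v, s, clusterFun, clusterVec, show j - 1 + 1 = j by omega]
  set L : Gal D →ₗ[ℝ] (Fin 2 → ℝ) :=
    { toFun := fun q => ![pairD (v 0) (v 0) (wt D q) - pairD (v 1) (v 1) (wt D q),
        pairD (v 0) (v 1) (wt D q)]
      map_add' := fun a b => by ext i; fin_cases i <;> simp; ring
      map_smul' := fun r a => by ext i; fin_cases i <;> simp; ring }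
  set M : (Fin 2 → ℝ) →ₗ[ℝ] (Fin 2 → ℝ) :=
    { toFun := fun u c => s * s * (Q c 0 0 * u 0 + (Q c 0 1 + Q c 1 0) * u 1)
      map_add' := fun a b => by ext i; simp; ring
      map_smul' := fun r a => by ext i; simp; ring }
  have hML : ∀ q, qForm (fun a => st w (![j - 1, j] a)) Q (wt D q) = M (L q) := fun q => funext fun c => by
    have htr := (hQ c).2 (fun _ => 1) fun _ _ _ => rfl
    simp only [Fin.sum_univ_two, mul_one] at htr
    have hsym : pairD (v 1) (v 0) (wt D q) = pairD (v 0) (v 1) (wt D q) := by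
      rw [pairD_apply, pairD_apply, mulOp_symm, real_inner_comm]
    have hh : ∀ a b, pairD (s • v a) (s • v b) (wt D q) = s * s * pairD (v a) (v b) (wt D q) :=
      fun a b => by
        simp only [pairD_apply, map_smul, real_inner_smul_left, real_inner_smul_right]; ring
    simp only [qForm_apply, hst, hh, hsym, Fin.sum_univ_two, M, L, LinearMap.coe_mk, AddHom.coe_mk,
      Matrix.cons_val_zero, Matrix.cons_val_one]
    linear_combination (s * s * pairD (v 1) (v 1) (wt D q)) * htr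
  have hM : Function.Surjective M := fun y => by
    obtain ⟨q, hq⟩ := hS y
    exact ⟨L q, (hML q).symm.trans hq⟩
  intro y
  obtain ⟨q, hq⟩ := hS (M y)
  exact ⟨q, LinearMap.injective_iff_surjective.2 hM ((hML q).symm.trans hq)⟩

/-- A compact convex family has a convex open neighbourhood inside any open one. -/
theorem exists_convex_nhd {K V : Set (Gal D)} (hK : IsCompact K) (hKc : Convex ℝ K)
    (hV : IsOpen V) (hKV : K ⊆ V) :
    ∃ U, IsOpen U ∧ Convex ℝ U ∧ K ⊆ U ∧ U ⊆ V := by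
  obtain ⟨δ, hδ, h⟩ := hK.exists_thickening_subset_open hV hKV
  exact ⟨_, Metric.isOpen_thickening, hKc.thickening δ, Metric.self_subset_thickening hδ K, h⟩

end

end Vale.Agent.P225.Disproof.Strata
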