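import Vale.Agent.P225.Disproof.StrataUniform
import Vale.Agent.P225.Disproof.EigenRank

/-!
# P225, module F2: the three rank properties

One pair has rank two; three states, or two pairs, have rank three.
-/

namespace Vale.Agent.P225.Disproof.Strata

open MeasureTheory

noncomputable section

/-- All states in one cluster. -/
def relAll (m : ℕ) : Fin m → Fin m → Prop := fun _ _ => True

/-- The states `0, 1` and `2, 3` in two clusters. -/
def relPairs : Fin 4 → Fin 4 → Prop := fun a b => ((a : ℕ) < 2 ↔ (b : ℕ) < 2)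

/-- The two combinations of a pair. -/
def pairQ : Fin 2 → Matrix (Fin 2) (Fin 2) ℝ := ![!![1, 0; 0, -1], !![0, 1; 0, 0]]

/-- Three combinations of two pairs. -/
def pairsQ (s : Bool) : Fin 3 → Matrix (Fin 4) (Fin 4) ℝ :=
  ![!![1, 0, 0, 0; 0, -1, 0, 0; 0, 0, 0, 0; 0, 0, 0, 0],
    !![0, 1, 0, 0; 0, 0, 0, 0; 0, 0, 0, 0; 0, 0, 0, 0],
    if s then !![0, 0, 0, 0; 0, 0, 0, 0; 0, 0, 1, 0; 0, 0, 0, -1]
    else !![0, 0, 0, 0; 0, 0, 0, 0; 0, 0, 0, 1; 0, 0, 0, 0]]

theorem adm_pairsQ (s : Bool) : Adm relPairs (pairsQ s) := by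
  refine fun c => ⟨fun a b => ?_, fun t ht => ?_⟩
  · fin_cases c <;> fin_cases a <;> fin_cases b <;> cases s <;> simp [pairsQ, relPairs]
  · have h1 := ht 0 1 (by simp [relPairs])
    have h2 := ht 2 3 (by simp [relPairs])
    fin_cases c <;> cases s <;> simp [pairsQ, Fin.sum_univ_four, h1, h2]

theorem hasRank_pair : HasRank (relAll 2) 2 := by
  intro p lam F _ hF _ horth
  refine ⟨pairQ, fun c => ⟨fun _ _ _ => trivial, fun t ht => ?_⟩, ?_⟩
  · have := ht 0 1 trivial
    fin_cases c <;> simp [pairQ, Fin.sum_univ_two, this]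
  · have h := rank_pair (p := p) (hF 0).2.1 (hF 1).2.1 (by simpa [pIp] using horth 0 0)
      (by simpa [pIp] using horth 1 1) (by simpa [pIp] using horth 0 1)
    convert h using 1
    funext c θ
    fin_cases c <;> simp [pairQ, Fin.sum_univ_two, sub_eq_add_neg]

theorem hasRank_triple : HasRank (relAll 3) 3 := by
  intro p lam F _ hF _ horth
  obtain ⟨Q, -, htr, hli⟩ := rank_triple (p := p) (fun a => (hF a).2.1) horth
  refine ⟨fun c => Matrix.of (Q c), fun c => ⟨fun _ _ _ => trivial, fun t ht => ?_⟩, hli⟩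
  have e : ∀ a, t a = t 0 := fun a => ht a 0 trivial
  simp only [e, ← Finset.sum_mul, Matrix.of_apply, htr, zero_mul]

theorem hasRank_pairs : HasRank relPairs 3 := by
  intro p lam F hp hF hlam horth
  have h1 : lam 0 = lam 1 := hlam 0 1 (by simp [relPairs])
  have h2 : lam 2 = lam 3 := hlam 2 3 (by simp [relPairs])
  have hvec : ∀ a : Fin 4, ![F 0, F 1, F 2, F 3] a = F a := fun a => by fin_cases a <;> rfl
  rcases exists_three_independent hp (hF 0).2 (h1 ▸ (hF 1).2) (hF 2).2 (h2 ▸ (hF 3).2)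
    (fun a b => by rw [hvec, hvec]; exact horth a b) with h | h
  · refine ⟨pairsQ true, adm_pairsQ _, ?_⟩
    convert h using 1
    funext c θ
    fin_cases c <;> simp [pairsQ, Fin.sum_univ_four, sub_eq_add_neg]
  · refine ⟨pairsQ false, adm_pairsQ _, ?_⟩
    convert h using 1
    funext c θ
    fin_cases c <;> simp [pairsQ, Fin.sum_univ_four, sub_eq_add_neg]

end

end Vale.Agent.P225.Disproof.Strata
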