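import Vale.Agent.P225.Disproof.BlockTimes

/-!
# P225: one slot, or the logarithm of the number of half blocks, is negligible against the time
-/

namespace Vale.Agent.P225.Disproof

open Set Filter Topology

noncomputable section

namespace Sched

variable (C : Sched)

theorem hstart_sub_eq (h : ℕ) :
    C.hstart h - C.t1 = (1 + C.kap) * C.P * ∑ r ∈ Finset.range h, C.tau r := by
  simp [hstart, halfLen, Finset.mul_sum]

/-- The slots together take the fraction `1 / ((1 + kap) P)` of the time. -/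
theorem sum_tau_eq (h : ℕ) :
    ∑ r ∈ Finset.range h, C.tau r = (C.hstart h - C.t1) / ((1 + C.kap) * C.P) := by
  have : (0 : ℝ) < (1 + C.kap) * C.P :=
    mul_pos (by linarith [C.hkap]) (by exact_mod_cast C.hP)
  rw [C.hstart_sub_eq, mul_div_cancel_left₀ _ this.ne']

/-- The last slot lengths add up to the cube of the block number. -/
theorem cube_le_sum_tau (i : ℕ) :
    C.tau0 * (i : ℝ) ^ 3 / 3 ≤ ∑ r ∈ Finset.range (2 * i), C.tau r := by
  induction i with
  | zero => simp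
  | succ i ih =>
    rw [show 2 * (i + 1) = 2 * i + 1 + 1 by ring, Finset.sum_range_succ, Finset.sum_range_succ]
    have h1 : C.tau (2 * i) = C.tau0 * ((i : ℝ) + 1) ^ 2 := by
      simp [tau]
    have h2 : 0 ≤ C.tau (2 * i + 1) := (C.tau_pos _).le
    have h3 : 0 ≤ C.tau0 * (i : ℝ) := mul_nonneg C.htau0.le (Nat.cast_nonneg i)
    push_cast
    nlinarith [C.htau0]

/-- A slot is negligible against the elapsed time. -/
theorem tau_le_small {δ : ℝ} (hδ : 0 < δ) :
    ∃ K : ℝ, ∀ h, C.tau h ≤ δ * (C.hstart h - C.t1) + K := by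
  set u : ℝ := (1 + C.kap) * C.P with hu
  have hu0 : 0 < u := mul_pos (by linarith [C.hkap]) (by exact_mod_cast C.hP)
  have hkey : ∀ h, δ * u * (C.tau0 * ((h / 2 : ℕ) : ℝ) ^ 3 / 3) ≤ δ * (C.hstart h - C.t1) := by
    intro h
    rw [mul_assoc, C.hstart_sub_eq, ← hu]
    refine mul_le_mul_of_nonneg_left (mul_le_mul_of_nonneg_left ?_ hu0.le) hδ.le
    exact (C.cube_le_sum_tau (h / 2)).trans (Finset.sum_le_sum_of_subset_of_nonneg
      (Finset.range_subset_range.2 (by omega)) fun r _ _ => (C.tau_pos r).le)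
  obtain ⟨N, hN⟩ := exists_nat_gt (12 / (δ * u))
  refine ⟨C.tau0 * ((N : ℝ) + 1) ^ 2 + C.tau0, fun h => ?_⟩
  set i : ℝ := ((h / 2 : ℕ) : ℝ) with hi
  have hi0 : 0 ≤ i := Nat.cast_nonneg _
  have hτ : C.tau h = C.tau0 * (i + 1) ^ 2 := by simp [tau, hi]
  have hpos : 0 ≤ δ * (C.hstart h - C.t1) :=
    mul_nonneg hδ.le (sub_nonneg.2 (by simpa [hstart] using C.hstart_mono (Nat.zero_le h)))
  have hN1 : 1 ≤ (N : ℝ) + 1 := by simp
  rcases le_or_gt i (N : ℝ) with hle | hlt
  · have h1 : (i + 1) ^ 2 ≤ ((N : ℝ) + 1) ^ 2 := pow_le_pow_left₀ (by linarith) (by linarith) 2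
    have := mul_le_mul_of_nonneg_left h1 C.htau0.le
    linarith [C.htau0]
  · have h1 : (1 : ℝ) ≤ i := by
      have hnn : N + 1 ≤ h / 2 := by
        have : (N : ℝ) < ((h / 2 : ℕ) : ℝ) := hlt
        exact_mod_cast Nat.lt_iff_add_one_le.1 (by exact_mod_cast this)
      have : ((N + 1 : ℕ) : ℝ) ≤ i := by rw [hi]; exact_mod_cast hnn
      push_cast at this
      linarith
    have h2 : 12 ≤ δ * u * i := by
      have := (div_lt_iff₀ (mul_pos hδ hu0)).1 (hN.trans hlt)
      linarith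
    have h3 : (i + 1) ^ 2 ≤ 4 * i ^ 2 := by nlinarith
    have h4 : 4 * i ^ 2 ≤ δ * u * (i ^ 3 / 3) := by
      have := mul_le_mul_of_nonneg_right h2 (sq_nonneg i)
      linarith
    have h5 := mul_le_mul_of_nonneg_left (h3.trans h4) C.htau0.le
    have h6 := hkey h
    have h7 : 0 ≤ C.tau0 * ((N : ℝ) + 1) ^ 2 := mul_nonneg C.htau0.le (sq_nonneg _)
    rw [hτ]
    nlinarith [C.htau0]

/-- A multiple of the logarithm of the number of half blocks is negligible. -/
theorem log_le_small {δ : ℝ} (hδ : 0 < δ) (a : ℝ) :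
    ∃ K : ℝ, ∀ h : ℕ, a * Real.log ((h : ℝ) + 1) ≤ δ * (C.hstart h - C.t1) + K := by
  obtain ⟨K, hK⟩ := C.tau_le_small (div_pos (mul_pos hδ C.htau0)
    (show 0 < 2 * |a| + 1 by positivity))
  refine ⟨(2 * |a| + 1) * |K| / C.tau0 + (2 * |a| + 1), fun h => ?_⟩
  have hh : (0 : ℝ) ≤ h := Nat.cast_nonneg h
  have hlog0 : 0 ≤ Real.log ((h : ℝ) + 1) := Real.log_nonneg (by linarith)
  have hlog : Real.log ((h : ℝ) + 1) ≤ h := by
    have := Real.log_le_sub_one_of_pos (show (0 : ℝ) < (h : ℝ) + 1 by linarith)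
    linarith
  have hh2 : (h : ℝ) ≤ 2 * (C.tau h / C.tau0) := by
    have h1 : (h : ℝ) ≤ 2 * (((h / 2 : ℕ) : ℝ) + 1) := by
      have : h ≤ 2 * (h / 2 + 1) := by omega
      exact_mod_cast this
    have h2 : ((h / 2 : ℕ) : ℝ) + 1 ≤ C.tau h / C.tau0 := by
      rw [tau, mul_div_cancel_left₀ _ C.htau0.ne']
      nlinarith [Nat.cast_nonneg (α := ℝ) (h / 2)]
    linarith
  have h3 : a * Real.log ((h : ℝ) + 1) ≤ (2 * |a| + 1) * (C.tau h / C.tau0) := by
    have h4 := mul_le_mul_of_nonneg_left (hlog.trans hh2) (abs_nonneg a)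
    have h5 := mul_le_mul_of_nonneg_right (le_abs_self a) hlog0
    nlinarith [div_nonneg (C.tau_pos h).le C.htau0.le]
  have h6 := mul_le_mul_of_nonneg_left (div_le_div_of_nonneg_right (hK h) C.htau0.le)
    (show 0 ≤ 2 * |a| + 1 by positivity)
  have hne := C.htau0.ne'
  have h7 : (2 * |a| + 1) * ((δ * C.tau0 / (2 * |a| + 1) * (C.hstart h - C.t1) + K) / C.tau0) =
      δ * (C.hstart h - C.t1) + (2 * |a| + 1) * K / C.tau0 := by
    have : (2 * |a| + 1) ≠ 0 := by positivity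
    field_simp
  have h8 : (2 * |a| + 1) * K / C.tau0 ≤ (2 * |a| + 1) * |K| / C.tau0 :=
    div_le_div_of_nonneg_right (mul_le_mul_of_nonneg_left (le_abs_self K) (by positivity)) C.htau0.le
  rw [h7] at h6
  nlinarith [abs_nonneg a]

end Sched

end

end Vale.Agent.P225.Disproof
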