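import Vale.Agent.P225.Disproof.TimedOpen
import Vale.Agent.P225.Disproof.Mix.Half

/-!
# P225: every half block of the control is a timed system that reverses the flags

Coordinates at the checkpoints come from the spectral projections and the eigenvectors of the rest
shape, the faces from the turning of the loops; so some parameters of the block give a `Half`.
-/

namespace Vale.Agent.P225.Disproof

open Set Filter Topology
open scoped RealInnerProductSpace

noncomputable section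

/-- Orientation only depends on the projections on the interval. -/
theorem TurnsBy.congr {H : Type*} [NormedAddCommGroup H] [InnerProductSpace ℝ H] {j : ℕ}
    {P P' : ℝ → H →L[ℝ] H} {a b sign : ℝ} (h : TurnsBy j P a b sign)
    (he : ∀ t ∈ Icc a b, P' t = P t) : TurnsBy j P' a b sign := by
  obtain ⟨e, hc, hP, hC⟩ := h
  exact ⟨e, hc, fun t ht => ⟨(hP t ht).1, fun m => by rw [he t ht]; exact (hP t ht).2 m⟩, hC⟩

/-- The first eigenvectors of the pencil at a weight. -/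
def restFrame (w : C(Sph 3, ℝ)) (j : ℕ) : Fin j → L2S := fun i => eigvec (pencil w) i

theorem restFrame_spec {w : C(Sph 3, ℝ)} (hw : ∀ θ, 0 < w θ) (j : ℕ) :
    LinearIndependent ℝ (restFrame w j) ∧
      ∀ i, restFrame w j i ∈ topSpace (pencil w) j := by
  refine ⟨?_, fun i => eigvec_mem _ i.2⟩
  have h : Orthonormal ℝ (restFrame w j) := orthonormal_iff_ite.2 fun a b => by
    simp only [restFrame, (goodOp_pencil hw).inner_eigvec, Fin.val_inj]
  exact h.linearIndependent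

open Classical in
/-- The spectral projection of `(G, B)` at a level, where it exists. -/
def specOf {V : Type*} [NormedAddCommGroup V] [InnerProductSpace ℝ V] (G B : V →L[ℝ] V) (μ g : ℝ) :
    V →L[ℝ] V :=
  if h : ∃ Q, IsSpecProj G B μ g Q then h.choose else 0

theorem specOf_spec {V : Type*} [NormedAddCommGroup V] [InnerProductSpace ℝ V]
    [FiniteDimensional ℝ V] {a b ε : ℝ} {P : TraceData V a b ε} {t μ g : ℝ} {l : ℕ}
    (ht : t ∈ Icc a b) (hg : 0 < g) (hμ : g ≤ μ) (h : P.Split t μ g l) :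
    IsSpecProj (P.G t) (P.B t) μ g (specOf (P.G t) (P.B t) μ g) ∧
      Module.finrank ℝ (LinearMap.range (specOf (P.G t) (P.B t) μ g : V →ₗ[ℝ] V)) = l := by
  obtain ⟨Q, hQ, hQl⟩ := TraceData.exists_specProj ht h
  have hex : ∃ R, IsSpecProj (P.G t) (P.B t) μ g R := ⟨Q, hQ⟩
  rw [specOf, dif_pos hex]
  refine ⟨hex.choose_spec, ?_⟩
  rw [TraceData.specProj_unique ht hg hμ hex.choose_spec hQ, hQl]

theorem halfLoop_eq {k : ℕ} (hk : k < wordLen) :
    halfLoop botDim slowDim winDim k = wordLev k := if_pos hk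

theorem lt_halfLoop {k : ℕ} (hk : ¬ k < wordLen) : slowDim < halfLoop botDim slowDim winDim k := by
  rw [halfLoop, if_neg (show ¬ k < Mix.loops winDim from hk)]
  exact Nat.lt_succ_self _

attribute [local irreducible] Mix.loops Mix.passLoop merge Sched.ck

variable {X : Type*} [NormedAddCommGroup X] [InnerProductSpace ℝ X]
  {W : X →L[ℝ] C(Sph 3, ℝ)} {L : LoopFam X wordLen} {p0 : X} {Λ : Levels W L p0}
  {C : Ctrl X} {N : ℕ} {t0 H ε : ℝ}
  {E : Type*} [NormedAddCommGroup E] [InnerProductSpace ℝ E] [FiniteDimensional ℝ E]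
  {F : TraceFam W C N t0 H ε Λ.g}

/-- The parameters with block `i` replaced by `u`, clamped to the cube. -/
def blockParam (s : paramCube) (i : ℕ) (u : Fin wordLen → ℝ) : paramCube :=
  ⟨merge wordLen i s fun k => max 0 (min 1 (u k)),
    merge_mem s.2 ⟨fun k => le_max_left _ _,
      fun k => max_le zero_le_one (min_le_left _ _)⟩⟩

theorem blockParam_val (s : paramCube) (i : ℕ) {u : Fin wordLen → ℝ}
    (hu : u ∈ Icc (0 : Fin wordLen → ℝ) 1) :
    (blockParam s i u : ℕ → ℝ) = merge wordLen i s u := by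
  have e : (fun k => max 0 (min 1 (u k))) = u := funext fun k => by
    rw [min_eq_right (show u k ≤ 1 from hu.2 k), max_eq_right (show 0 ≤ u k from hu.1 k)]
  simp only [blockParam, e]

theorem continuous_blockParam (s : paramCube) (i : ℕ) : Continuous (blockParam s i) := by
  have h1 : Continuous fun u : Fin wordLen → ℝ => fun k => max (0 : ℝ) (min 1 (u k)) :=
    continuous_pi fun k => continuous_const.max (continuous_const.min (continuous_apply k))
  exact ((continuous_merge wordLen i (s : ℕ → ℝ)).comp h1).subtype_mk _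

/-- The hypotheses on the times of half block `i`. -/
structure BlockTime {g top : ℝ} (C : Ctrl X) (K : TimeConsts g top) (H : ℝ) (i : ℕ) : Prop where
  hτ : 4 * K.L < C.sch.tau0
  hκ : 1 ≤ C.sch.kap
  hH : C.sch.hstart (i + 1) ≤ H

namespace BlockTime

variable {g top : ℝ} {K : TimeConsts g top} {i k : ℕ} (hb : BlockTime C K H i)
include hb

theorem buffer : 0 ≤ K.L ∧ 4 * K.L < C.sch.tau i := by
  refine ⟨by linarith [K.le_L, K.one_le_T], lt_of_lt_of_le hb.hτ (C.sch.tau0_le_tau i)⟩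

theorem long (hk : k ≤ C.sch.P) : C.sch.ck i k + C.sch.tau i ≤ C.sch.ck i (k + 1) := by
  rcases hk.eq_or_lt with rfl | hlt
  · have h1 : 1 * C.sch.tau i ≤ C.sch.kap * C.sch.P * C.sch.tau i := by
      refine mul_le_mul_of_nonneg_right ?_ (C.sch.tau_pos i).le
      have : (1 : ℝ) ≤ C.sch.P := by exact_mod_cast C.sch.hP
      nlinarith [hb.hκ]
    linarith [C.sch.ck_rest i]
  · linarith [C.sch.ck_succ (h := i) hlt]

theorem inside (hk : k ≤ C.sch.P + 1) : C.sch.ck i k ∈ Icc C.sch.t1 H := by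
  obtain ⟨h1, h2⟩ := C.sch.ck_mem (h := i) hk
  exact ⟨le_trans (by simpa [Sched.hstart] using C.sch.hstart_mono (Nat.zero_le i)) h1,
    h2.trans hb.hH⟩

theorem step_sub (hk : k ≤ C.sch.P) :
    Icc (C.sch.ck i k) (C.sch.ck i (k + 1)) ⊆ Icc C.sch.t1 H :=
  Icc_subset_Icc (hb.inside (hk.trans (Nat.le_succ _))).1 (hb.inside (Nat.succ_le_succ hk)).2

theorem rest_ck (hC : CtrlOf C L p0) {s : ℕ → ℝ} (hk : k ≤ C.sch.P + 1) :
    C.rho s (C.sch.ck i k) = p0 := by
  rcases hk.eq_or_lt with rfl | hlt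
  · exact hC.eq_rest le_rfl ⟨C.sch.ck_step le_rfl, le_rfl⟩ fun h => absurd h (lt_irrefl _)
  · refine hC.eq_rest (Nat.lt_succ_iff.1 hlt) ⟨le_rfl, C.sch.ck_step (Nat.lt_succ_iff.1 hlt)⟩
      fun _ => Or.inl (lt_add_of_pos_right _ ?_)
    linarith [C.sch.tau_pos i]

theorem rest_buf (hC : CtrlOf C L p0) {s : ℕ → ℝ} (hk : k ≤ C.sch.P) {τ : ℝ}
    (hτ : InBuf (C.sch.ck i) K.L k τ) :
    τ ∈ Icc (C.sch.ck i k) (C.sch.ck i (k + 1)) ∧ C.rho s τ = p0 := by
  obtain ⟨h0, h4⟩ := hb.buffer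
  have hl := hb.long hk
  have hm : τ ∈ Icc (C.sch.ck i k) (C.sch.ck i (k + 1)) := by
    rcases hτ with hτ | hτ <;> constructor <;> linarith [hτ.1, hτ.2]
  refine ⟨hm, hC.eq_rest hk hm fun hlt => ?_⟩
  rcases hτ with hτ | hτ
  · exact Or.inl (by linarith [hτ.2])
  · exact Or.inr (by linarith [hτ.1, C.sch.ck_succ (h := i) hlt])

end BlockTime

namespace SlowFam

variable (Z : SlowFam Λ F E)

/-- The coordinates of level `l` at time `t`. -/
def restProj (s : paramCube) (t : ℝ) : ∀ l : ℕ, E →L[ℝ] Mix.Co l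
  | 0 => 0
  | j + 1 => TraceData.coordMap ((F.P s).G t)
      (specOf ((F.P s).G t) ((F.P s).B t) (Λ.lev (j + 1)) Λ.g)
      (galFrame N (restFrame (W p0) j)) (Z.U s t)

/-- At a time with the rest shape the coordinates are the spectral ones. -/
theorem restProj_spec (h : CtrlSmall Λ C N ε) {s : paramCube} {t : ℝ} (ht : t ∈ Icc C.sch.t1 H)
    (hr : C.rho s t = p0) {j : ℕ} (hj : j ∈ Icc 224 729) :
    ∃ Q : Gal N →L[ℝ] Gal N, Q = specOf ((F.P s).G t) ((F.P s).B t) (Λ.lev (j + 1)) Λ.g ∧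
      IsSpecProj ((F.P s).G t) ((F.P s).B t) (Λ.lev (j + 1)) Λ.g Q ∧
      Λ.g ≤ Λ.lev (j + 1) ∧ ∀ x, Z.restProj s t (j + 1) x = 0 ↔ Q (Z.U s t x) = 0 := by
  have hq : C.rho s t ∈ openShapes L p0 j := by rw [hr]; exact rest_mem_openShapes L p0 j
  have e : Λ.lv j (C.rho s t) = Λ.lev (j + 1) := by simp [Levels.lev, hr]
  have hsp := h.level_split F hj ht hq
  rw [e] at hsp
  have hgood := (Λ.good j hj _ hq).1
  rw [e] at hgood
  have ht' : t ∈ Icc t0 H := ⟨F.le_t1.trans ht.1, ht.2⟩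
  obtain ⟨hQ, hQl⟩ := specOf_spec ht' Λ.g_pos hgood.2.1 hsp
  have hw : ∀ θ, 0 < W (C.rho s t) θ := (h.loops.on_openShapes hj hq).1
  obtain ⟨he, heT⟩ := restFrame_spec h.loops.pos_rest j
  obtain ⟨α, hα, hfi, hfK⟩ := hgood.frame hw (by linarith [hj.1]) (congrFun (F.eqK s) t)
    (congrFun (F.eqG s) t) h.eps_le_g (Λ.trunc j hj _ hq N h.hN) (fun θ => (F.close s t ht.1 θ).1)
    (fun θ => (F.close s t ht.1 θ).2) he (by rw [hr]; exact heT)
  exact ⟨_, rfl, hQ, hgood.2.1, fun x => TraceData.coordMap_eq_zero_iff ht' Λ.g_pos.le hgood.2.1 hα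
    hQ hQl hfi hfK (Z.U s t) x⟩

theorem cont_restProj (h : CtrlSmall Λ C N ε) {t : ℝ} (ht : t ∈ Icc C.sch.t1 H)
    (hr : ∀ s : paramCube, C.rho s t = p0) {l : ℕ} (h1 : botDim ≤ l) (h2 : l ≤ slowDim) :
    Continuous fun s => Z.restProj s t l := by
  simp only [botDim, slowDim] at h1 h2
  obtain ⟨j, rfl⟩ : ∃ j, l = j + 1 := ⟨l - 1, by omega⟩
  have hj : j ∈ Icc 224 729 := ⟨by omega, by omega⟩
  have ht' : t ∈ Icc t0 H := ⟨F.le_t1.trans ht.1, ht.2⟩
  choose Q hQe hQ hlev hker using fun s : paramCube => Z.restProj_spec h ht (hr s) hj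
  have hc := TraceData.continuous_specProj (P := F.P) (τ := fun _ => ⟨t, ht'⟩)
    (μ := fun _ => Λ.lev (j + 1)) (F.cont_G_at t ht') (F.cont_B_at t ht') continuous_const Λ.g_pos
    hlev hQ
  have hU : Continuous fun s : paramCube => Z.U s t :=
    Z.cont_U.comp (continuous_id.prodMk (continuous_const (y := (⟨t, ht⟩ : Icc C.sch.t1 H))))
  have hcc := TraceData.continuous_coordMap (F.cont_G_at t ht') hc
    (continuous_const (y := galFrame N (restFrame (W p0) j))) hU
  simp only [hQe] at hcc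
  exact hcc

variable (h : CtrlSmall Λ C N ε) {K : TimeConsts Λ.g Λ.top} {i : ℕ} (hb : BlockTime C K H i)
include h hb

theorem step_open {s : paramCube} {k : ℕ} (hk : k ≤ C.sch.P) {j : ℕ} (hj : j ∈ Icc 224 728)
    (hopen : k < C.sch.P → wordGap k ≠ j ∨ (s : ℕ → ℝ) (i * C.sch.P + k) = 0 ∨
      (s : ℕ → ℝ) (i * C.sch.P + k) = 1) :
    (Z.sys s).Open (fun r => Λ.lv j (C.rho s r)) K.c K.T (j + 1)
      (C.sch.ck i k) (C.sch.ck i (k + 1)) := by
  have hjw : j ∈ Icc 224 729 := ⟨hj.1, hj.2.trans (by norm_num)⟩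
  have hmem : ∀ t ∈ Icc (C.sch.ck i k) (C.sch.ck i (k + 1)), C.rho s t ∈ openShapes L p0 j :=
    fun t ht => by
      by_cases hlt : k < C.sch.P
      · exact h.ctrl.mem_slot s.2 hlt (hopen hlt) ht
      · rw [h.ctrl.eq_rest hk ht fun h' => absurd h' hlt]
        exact rest_mem_openShapes L p0 j
  exact Z.open_level hj (hb.step_sub hk) ((Λ.smooth j).continuous.comp (C.contDiff_rho s).continuous)
    (fun t ht => (h.level_deriv hjw s _ (hmem t ht)).1)
    (fun t ht => (h.level_deriv hjw s univ (hmem t ht)).2) (fun t ht => ⟨hmem t ht, rfl⟩) h K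

theorem rest_open {s : paramCube} {l : ℕ} (hl : botDim ≤ l) (hl2 : l < slowDim) {s₁ s₂ : ℝ}
    (hI : Icc s₁ s₂ ⊆ Icc C.sch.t1 H) (hr : ∀ t ∈ Icc s₁ s₂, C.rho s t = p0) :
    (Z.sys s).Open (fun _ => Λ.lev l) K.c K.T l s₁ s₂ := by
  simp only [botDim, slowDim] at hl hl2
  obtain ⟨j, rfl⟩ : ∃ j, l = j + 1 := ⟨l - 1, by omega⟩
  exact Z.open_level (μ' := fun _ => 0) ⟨by omega, by omega⟩ hI continuous_const
    (fun t _ => hasDerivWithinAt_const t _ _)
    (fun t _ => by rw [abs_zero]; exact mul_nonneg Λ.C_nonneg (norm_nonneg _))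
    (fun t ht => ⟨by rw [hr t ht]; exact rest_mem_openShapes L p0 j, by simp [Levels.lev, hr t ht]⟩)
    h K

theorem rest_top {s : paramCube} {t : ℝ} (ht : t ∈ Icc C.sch.t1 H) (hr : C.rho s t = p0) (x : E) :
    (Z.sys s).cone (Λ.lev slowDim) t x ≤ -K.c * (Z.sys s).nrm t x := by
  have e : topLev Λ C s t = Λ.lev slowDim := by simp [topLev, Levels.lev, hr, slowDim]
  have h1 := Z.top_strict h (s := s) ht x
  rw [e] at h1
  have h2 := mul_le_mul_of_nonneg_right (show K.c ≤ Λ.g / 2 by linarith [K.c_le, Λ.g_pos])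
    (DualSys.nrm_nonneg (S := Z.sys s) ht x)
  linarith

/-- Half block `i` is timed. -/
theorem timed (s : paramCube) :
    Timed (Z.sys s) Λ.lev (fun k => Z.restProj s (C.sch.ck i k))
      (halfLoop botDim slowDim winDim) (C.sch.ck i) botDim slowDim (wordLen + 1)
      K.c K.T K.L Λ.top Λ.g := by
  obtain ⟨hL0, hL4⟩ := hb.buffer
  have hP : C.sch.P = wordLen := h.ctrl.hP
  have hle : ∀ k, k < wordLen + 1 → k ≤ C.sch.P := fun k hk => by omega
  have hg := Λ.g_pos
  refine ⟨Z.dim, by simp [botDim, slowDim], K.c_pos, by linarith [K.one_le_T], le_rfl,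
    by linarith [K.c_le, Λ.g_le_top], K.le_L, h.eps_le_g, K.gain ε h.eps_le, fun l h1 h2 => ?_,
    fun l h1 h2 => ?_, fun k hk => hb.inside (by omega), fun k hk => ?_,
    fun k hk τ hτ x => ?_, fun k hk x hx => ?_, fun k hk l h1 h2 => ?_, fun k hk l h1 h2 => ?_,
    fun k hk l h1 h2 hne => ?_, fun k hk => ?_, fun k hk l h1 h2 x hx hx0 => ?_,
    fun l h1 h2 x hx => ?_⟩
  · obtain ⟨a, b⟩ := Λ.lev_good h1 h2
    exact abs_le.2 ⟨by linarith [a.2.1], b⟩
  · linarith [Λ.lev_step h.loops h1 h2]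
  · linarith [hb.long (hle k hk)]
  · obtain ⟨hm, hr⟩ := hb.rest_buf h.ctrl (s := s) (hle k hk) hτ
    exact Z.rest_top h hb (hb.step_sub (hle k hk) hm) hr x
  · have hk' : k ≤ C.sch.P + 1 := by omega
    exact lt_of_le_of_lt (Z.rest_top h hb (hb.inside hk') (hb.rest_ck h.ctrl hk') x)
      (mul_neg_of_neg_of_pos (neg_neg_of_pos K.c_pos) ((Z.sys s).posN _ (hb.inside hk') x hx))
  · have hl := hb.long (hle k hk)
    exact Z.rest_open h hb h1 h2 ((Icc_subset_Icc_right (by linarith)).trans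
      (hb.step_sub (hle k hk))) fun t ht => (hb.rest_buf h.ctrl (hle k hk) (Or.inl ht)).2
  · have hl := hb.long (hle k hk)
    exact Z.rest_open h hb h1 h2 ((Icc_subset_Icc_left (by linarith)).trans
      (hb.step_sub (hle k hk))) fun t ht => (hb.rest_buf h.ctrl (hle k hk) (Or.inr ht)).2
  · simp only [botDim, slowDim] at h1 h2
    obtain ⟨j, rfl⟩ : ∃ j, l = j + 1 := ⟨l - 1, by omega⟩
    refine ⟨fun r => Λ.lv j (C.rho s r), Z.step_open h hb (hle k hk) ⟨by omega, by omega⟩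
      (fun hlt => Or.inl fun he => ?_), fun τ hτ => ?_⟩
    · rw [halfLoop_eq (show k < wordLen by omega), ← wordGap_add_one (show k < wordLen by omega),
        he] at hne
      exact hne rfl
    · simp [Levels.lev, (hb.rest_buf h.ctrl (s := s) (hle k hk) hτ).2]
  · by_cases hlt : k < wordLen
    · exact Or.inl (by rw [halfLoop_eq hlt]; exact wordLev_mem hlt)
    · exact Or.inr (lt_halfLoop hlt)
  · simp only [botDim, slowDim] at h1 h2
    obtain ⟨j, rfl⟩ : ∃ j, l = j + 1 := ⟨l - 1, by omega⟩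
    have hk' : k ≤ C.sch.P + 1 := by omega
    have hI := hb.inside hk'
    obtain ⟨Q, -, hQ, -, hker⟩ :=
      Z.restProj_spec h hI (hb.rest_ck h.ctrl (s := s) hk') (show j ∈ Icc 224 729 from ⟨by omega, by omega⟩)
    have h3 := TraceData.high_of_specProj_eq_zero (P := F.P s) hQ ((hker x).1 hx)
    have h4 := (Z.sys s).posN _ hI x hx0
    have h5 : 0 < (Z.sys s).nrm (C.sch.ck i k) x := h4
    rw [sys, (Z.dual s).dualSys_nrm] at h5
    rw [sys, (Z.dual s).dualSys_cone]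
    simp only [TraceData.eng, TraceData.nrm, TraceData.tail] at h3 h5 ⊢
    clear hk hk'
    linarith [mul_pos Λ.g_pos h5]
  · simp only [botDim, slowDim] at h1 h2
    obtain ⟨j, rfl⟩ : ∃ j, l = j + 1 := ⟨l - 1, by omega⟩
    have hk' : wordLen + 1 ≤ C.sch.P + 1 := by omega
    have hI := hb.inside hk'
    have hr := hb.rest_ck h.ctrl (s := s) hk'
    obtain ⟨Q, -, hQ, hlev, hker⟩ :=
      Z.restProj_spec h hI hr (show j ∈ Icc 224 729 from ⟨by omega, by omega⟩)
    obtain ⟨Q', -, hQ', -, hker'⟩ :=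
      Z.restProj_spec h hI hr (show j + 1 ∈ Icc 224 729 from ⟨by omega, by omega⟩)
    refine (hker x).2 (TraceData.specProj_ker_le (P := F.P s)
      ⟨F.le_t1.trans hI.1, hI.2⟩ (sub_nonneg.2 hlev) ?_ hQ hQ' ((hker' x).1 hx))
    have := Λ.lev_step h.loops (l := j + 1) (by simp [botDim]; omega) (by simp [slowDim]; omega)
    linarith

/-- On a face the low cone of the loop survives its slot. -/
theorem face_low {s : paramCube} {k : ℕ} (hk : k < wordLen)
    (hf : (s : ℕ → ℝ) (i * C.sch.P + k) = 0 ∨ (s : ℕ → ℝ) (i * C.sch.P + k) = 1) {x : E}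
    (hx : x ≠ 0) (hlow : (Z.sys s).cone (Λ.lev (wordLev k)) (C.sch.ck i k) x ≤ 0) :
    (Z.sys s).cone (Λ.lev (wordLev k)) (C.sch.ck i (k + 1)) x < 0 := by
  have hP : C.sch.P = wordLen := h.ctrl.hP
  have hkP : k ≤ C.sch.P := by omega
  obtain ⟨hL0, hL4⟩ := hb.buffer
  have hl := hb.long hkP
  have hg := wordGap_mem hk
  have ho := Z.step_open h hb (s := s) hkP (j := wordGap k)
    ⟨le_trans (by norm_num) hg.1, hg.2⟩ fun _ => Or.inr hf
  rw [← wordGap_add_one hk] at hlow ⊢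
  have e : ∀ k' ≤ C.sch.P + 1,
      Λ.lv (wordGap k) (C.rho s (C.sch.ck i k')) = Λ.lev (wordGap k + 1) :=
    fun k' hk' => by simp [Levels.lev, hb.rest_ck h.ctrl hk']
  have h1 := (ho.low_forward x (C.sch.ck i k) ⟨le_rfl, by linarith [C.sch.tau_pos i]⟩
    (C.sch.ck i (k + 1)) ⟨by linarith [C.sch.tau_pos i], le_rfl⟩
    (by rw [e k (by omega)]; exact hlow)).2 (by linarith [K.le_L, K.one_le_T])
  rw [e (k + 1) (by omega)] at h1
  exact lt_of_le_of_lt h1 (mul_neg_of_neg_of_pos (neg_neg_of_pos K.c_pos)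
    ((Z.sys s).posN _ (hb.inside (by omega)) x hx))

/-- On a face the equation of the loop has the sign of the face. -/
theorem face_orient {s : paramCube} {k : ℕ} (hk : k < wordLen)
    (hf : (s : ℕ → ℝ) (i * C.sch.P + k) = 0 ∨ (s : ℕ → ℝ) (i * C.sch.P + k) = 1) {l : ℕ}
    (hl : l = wordGap k + 1) (J : Mix.Co l →L[ℝ] E)
    (hJ : ∀ v, Z.restProj s (C.sch.ck i k) l (J v) = v)
    (hJneg : ∀ v, v ≠ 0 → (Z.sys s).cone (Λ.lev l) (C.sch.ck i k) (J v) < 0) :
    0 < (if (s : ℕ → ℝ) (i * C.sch.P + k) = 0 then (-1 : ℝ) else 1) *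
      (Z.restProj s (C.sch.ck i (k + 1)) l ∘L J).det := by
  subst hl
  have hP : C.sch.P = wordLen := h.ctrl.hP
  have hkP : k < C.sch.P := by omega
  have hj : wordGap k ∈ Icc 224 729 :=
    ⟨le_trans (by norm_num) (wordGap_mem hk).1, le_trans (wordGap_mem hk).2 (by norm_num)⟩
  set u := (s : ℕ → ℝ) (i * C.sch.P + k) with hu
  set s₁ := C.sch.ck i k with hs1
  set s₂ := C.sch.ck i (k + 1) with hs2
  have hlen : s₂ - s₁ = C.sch.tau i := by simp only [hs1, hs2, C.sch.ck_succ hkP]; ring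
  have hsub := hb.step_sub hkP.le
  have hmem : ∀ t ∈ Icc s₁ s₂, C.rho s t ∈ openShapes L p0 (wordGap k) := fun t ht =>
    h.ctrl.mem_slot s.2 hkP (Or.inr hf) ht
  obtain ⟨Q₁, rfl, hQ₁, -, -⟩ := Z.restProj_spec h (hb.inside (by omega : k ≤ C.sch.P + 1))
    (hb.rest_ck h.ctrl (s := s) (by omega)) hj
  obtain ⟨Q₂, rfl, hQ₂, -, -⟩ := Z.restProj_spec h (hb.inside (by omega : k + 1 ≤ C.sch.P + 1))
    (hb.rest_ck h.ctrl (s := s) (by omega)) hj
  have e : ∀ k' ≤ C.sch.P + 1, Λ.lev ((wordGap k) + 1) = Λ.lv (wordGap k) (C.rho s (C.sch.ck i k')) :=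
    fun k' hk' => by simp [Levels.lev, hb.rest_ck h.ctrl hk']
  have hε := (F.P s).hε
  have hturn : TurnsBy (wordGap k)
      (fun x => topProj (pencil (W (C.rho s (s₁ + x * (s₂ - s₁))))) (wordGap k)) 0 1
      (if u = 0 then (-1 : ℝ) else 1) := by
    have key : ∀ x ∈ Icc (0 : ℝ) 1, C.rho s (s₁ + x * (s₂ - s₁)) =
        p0 + L.path (Fin.cast hP ⟨k, hkP⟩) u x := fun x hx => by
      have hτ := C.sch.tau_pos i
      have hm : s₁ + x * (s₂ - s₁) ∈ Icc s₁ s₂ := by
        rw [hlen]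
        constructor <;> nlinarith [hx.1, hx.2]
      rw [C.rho_ck s hkP hm, h.ctrl.p0_eq, h.ctrl.path_eq]
      congr 2
      rw [hlen]
      field_simp
      ring
    by_cases h0 : u = 0
    · rw [if_pos h0]
      refine (h.loops.turn_zero (Fin.cast hP ⟨k, hkP⟩)).congr fun x hx => ?_
      rw [key x hx, h0]
      rfl
    · rw [if_neg h0]
      refine (h.loops.turn_one (Fin.cast hP ⟨k, hkP⟩)).congr fun x hx => ?_
      rw [key x hx, hf.resolve_left h0]
      rfl
  obtain ⟨he₀, he₀T⟩ := restFrame_spec h.loops.pos_rest (wordGap k)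
  have hJ' := hJ
  simp only [restProj] at hJ'
  simp only [restProj]
  have hI₁ : C.sch.t1 ≤ s₁ := (hb.inside (by omega)).1
  have hI₂ : s₂ ≤ H := (hb.inside (by omega)).2
  have hdμ : ∀ t ∈ Icc s₁ s₂, HasDerivWithinAt (fun r => Λ.lv (wordGap k) (C.rho s r))
      (fderiv ℝ (Λ.lv (wordGap k)) (C.rho s t) (deriv (C.rho s) t)) (Icc s₁ s₂) t := fun t ht =>
    (h.level_deriv hj s _ (hmem t ht)).1
  have hsm : ∀ t ∈ Icc s₁ s₂, ε * (2 * Λ.lv (wordGap k) (C.rho s t) + 2) +
      |fderiv ℝ (Λ.lv (wordGap k)) (C.rho s t) (deriv (C.rho s) t)| ≤ Λ.g ^ 2 := fun t ht => by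
    have h1 := (h.level_deriv hj s (Icc s₁ s₂) (hmem t ht)).2
    have h2 := mul_le_mul_of_nonneg_left (show 2 * Λ.lv (wordGap k) (C.rho s t) + 2 ≤ 2 * Λ.top + 2 by
      linarith [(Λ.good (wordGap k) hj _ (hmem t ht)).2.1]) hε
    linarith [h.rate s t, sq_nonneg Λ.g]
  have he₀T' : ∀ m, restFrame (W p0) (wordGap k) m ∈ topSpace (pencil (W (C.rho s s₁))) (wordGap k) := by
    rw [hb.rest_ck h.ctrl (s := s) (by omega : k ≤ C.sch.P + 1)]
    exact he₀T
  have hle : ∀ v, (F.P s).eng s₁ (Z.U s s₁ (J v)) ≤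
      Λ.lv (wordGap k) (C.rho s s₁) * (F.P s).nrm s₁ (Z.U s s₁ (J v)) := fun v => by
    have hle : (Z.sys s).cone (Λ.lev ((wordGap k) + 1)) s₁ (J v) ≤ 0 := by
      rcases eq_or_ne v 0 with rfl | hv
      · simp [DualSys.cone]
      · exact (hJneg v hv).le
    rw [sys, (Z.dual s).dualSys_cone, e k (by omega)] at hle
    exact sub_nonpos.1 hle
  rw [e k (by omega)] at hQ₁ hJ'
  rw [e (k + 1) (by omega)] at hQ₂ ⊢
  have key := face_sign_of_turns (P := (F.P s).tail C.sch.t1 F.le_t1) (Z.dual s)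
    (s₁ := s₁) (s₂ := s₂) hI₁ hI₂ (by linarith [C.sch.tau_pos i]) (j := wordGap k)
    (le_trans (by norm_num) hj.1) (μ := fun r => Λ.lv (wordGap k) (C.rho s r))
    (μ' := fun t => fderiv ℝ (Λ.lv (wordGap k)) (C.rho s t) (deriv (C.rho s) t))
    (w := Λ.g) (δ := Λ.g) ((Λ.smooth (wordGap k)).continuous.comp (C.contDiff_rho s).continuous) hdμ hsm
    h.eps_le_g (ρ := fun t => W (C.rho s t)) (νw := F.nu s) (ω := F.om s)
    (fun t ht => (h.loops.on_openShapes hj (hmem t ht)).1)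
    (fun t ht => (Λ.good (wordGap k) hj _ (hmem t ht)).1) (fun t _ => congrFun (F.eqK s) t)
    (fun t _ => congrFun (F.eqG s) t) (fun t ht => Λ.trunc (wordGap k) hj _ (hmem t ht) N h.hN)
    (fun t ht θ => (F.close s t (hsub ht).1 θ).1) (fun t ht θ => (F.close s t (hsub ht).1 θ).2)
    hturn he₀ he₀T' hQ₁ hQ₂ (J := J) hJ' hle
  exact key

/-- Some parameters of half block `i` reverse a low flag at its start. -/
theorem exists_half_ctrl (s : paramCube) {Fl : ℕ → Submodule ℝ E}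
    (hFd : ∀ l, botDim ≤ l → l ≤ slowDim → Module.finrank ℝ (Fl l) = l)
    (hFm : ∀ l, botDim ≤ l → l < slowDim → Fl l ≤ Fl (l + 1))
    (hFn : ∀ l, botDim ≤ l → l ≤ slowDim → ∀ x ∈ Fl l, x ≠ 0 →
      (Z.sys s).cone (Λ.lev l) (C.sch.ck i 0) x < 0) :
    ∃ u ∈ Icc (0 : Fin wordLen → ℝ) 1, ∃ Wl Hl : ℕ → Submodule ℝ E,
      Half (Z.sys (blockParam s i u)) Λ.lev botDim slowDim K.c K.T (C.sch.ck i 0)
        (C.sch.ck i wordLen) (C.sch.ck i (wordLen + 1)) Fl Wl Hl := by
  have hP : C.sch.P = wordLen := h.ctrl.hP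
  have hval : ∀ (u : Fin wordLen → ℝ), u ∈ Icc (0 : Fin wordLen → ℝ) 1 → ∀ k : Fin wordLen,
      (blockParam s i u : ℕ → ℝ) (i * C.sch.P + k) = u k := fun u hu k => by
    rw [blockParam_val s i hu, hP, merge_apply]
  have hc := continuous_blockParam s i
  have hW : Mix.loops winDim = wordLen := rfl
  refine exists_half (m := winDim) botDim_add_winDim
    (S := fun u : Fin wordLen → ℝ => Z.sys (blockParam s i u))
    (proj := fun u k => Z.restProj (blockParam s i u) (C.sch.ck i k)) (L := K.L) (B := Λ.top)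
    (d := Λ.g) (fun u _ => Z.timed h hb (blockParam s i u))
    (fun u _ => ⟨fun l h1 h2 => ?_, fun τ hτ x => ?_⟩) (fun k hk => ?_) (fun k hk => ?_)
    (fun k hk l h1 h2 => ?_) hFd hFm (fun u hu l h1 h2 x hx hx0 => ?_) (fun _ => 1)
    (fun k u hu hf x hx hlow => ?_) (fun k u hu hf J hJ hJneg => ?_)
  · exact Z.rest_open h hb h1 h2 (hb.step_sub hP.ge) fun t ht =>
      h.ctrl.eq_rest hP.ge ht fun hlt => absurd hlt (by omega)
  · exact Z.rest_top h hb (hb.step_sub hP.ge hτ)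
      (h.ctrl.eq_rest hP.ge hτ fun hlt => absurd hlt (by omega)) x
  · exact ((Z.cont_forms (hb.inside (by omega : k ≤ C.sch.P + 1))).1.comp hc).continuousOn
  · exact ((Z.cont_forms (hb.inside (by omega : k ≤ C.sch.P + 1))).2.comp hc).continuousOn
  · exact ((Z.cont_restProj h (hb.inside (by omega : k ≤ C.sch.P + 1))
      (fun s' => hb.rest_ck h.ctrl (by omega)) h1 h2).comp hc).continuousOn
  · obtain ⟨-, e1, e2⟩ := Z.agree (s := blockParam s i u) (s' := s) (n := i * C.sch.P)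
      (fun m hm => by
        rw [blockParam_val s i hu]
        exact merge_before (P := wordLen) _ _ (hP ▸ hm))
      (hb.inside (Nat.zero_le _)) (by rw [C.sch.ck_zero, C.sch.hstart_eq_slotStart])
    have h3 := hFn l h1 h2 x hx hx0
    simp only [DualSys.cone] at h3 ⊢
    rw [e1, e2]
    exact h3
  · refine Z.face_low h hb k.2 ?_ hx hlow
    rwa [hval u hu k]
  · have h4 := Z.face_orient h hb (s := blockParam s i u) k.2 (by rwa [hval u hu k])
      (l := Mix.passLoop botDim winDim k) (wordGap_add_one k.2).symm J hJ hJneg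
    rwa [hval u hu k] at h4

omit hb in
/-- The first flag. -/
theorem exists_start_flag (s : paramCube) :
    ∀ l, botDim ≤ l → l ≤ slowDim → ∃ Wl : Submodule ℝ E, Module.finrank ℝ Wl = l ∧
      ∀ x ∈ Wl, x ≠ 0 → (Z.sys s).cone (Λ.lev l) C.sch.t1 x < 0 := by
  intro l h1 h2
  simp only [botDim, slowDim] at h1 h2
  obtain ⟨j, rfl⟩ : ∃ j, l = j + 1 := ⟨l - 1, by omega⟩
  have hj : j ∈ Icc 224 729 := ⟨by omega, by omega⟩
  set hs := Z.dual s
  have hr := h.ctrl.start_rest (s : ℕ → ℝ)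
  obtain ⟨-, S, S', -, hSl, hSlow, -, -⟩ := h.level_split F hj (s := s)
    ⟨le_rfl, F.lt_H.le⟩ (by rw [hr]; exact rest_mem_openShapes L p0 j)
  rw [hr] at hSlow
  have hlt : Λ.lev (j + 1) ≤ topLev Λ C s C.sch.t1 := by
    simp only [topLev, hr, Levels.lev, Nat.add_sub_cancel]
    rcases (show j ≤ 729 by omega).eq_or_lt with rfl | hlt
    · exact le_rfl
    · have := (Λ.good j hj p0 (rest_mem_openShapes L p0 j)).1.lev_lt
        (Λ.good 729 top_mem_win p0 (rest_mem_openShapes L p0 729)).1 h.loops.pos_rest hlt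
      linarith [Λ.g_pos]
  obtain ⟨Q, hQ⟩ := hs.exists_projMap hs.ht0
  set P := (F.P s).tail C.sch.t1 F.le_t1
  have key : ∀ v : S, (v : Gal N) ≠ 0 →
      (Z.sys s).cone (Λ.lev (j + 1)) C.sch.t1 (Q v) < 0 := fun v hv => by
    set p := Z.U s C.sch.t1 (Q v)
    set q := (v : Gal N) - p
    have hq := hQ (v : Gal N)
    have hperp := hs.perp q hq
    have hB := hs.perpB q hq (Q v)
    have hsym := P.symG _ hs.ht0
    have hsymB := P.symB _ hs.ht0
    have hN : P.nrm C.sch.t1 v = P.nrm C.sch.t1 p + P.nrm C.sch.t1 q := by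
      rw [show (v : Gal N) = p + q by simp [q]]
      have h0 : ⟪q, P.G C.sch.t1 p⟫ = 0 := hq (Q v)
      have h0' : ⟪p, P.G C.sch.t1 q⟫ = 0 := by rw [← hsym, real_inner_comm]; exact h0
      simp only [TraceData.nrm, map_add, inner_add_left, inner_add_right, h0, h0']
      ring
    have hE : P.eng C.sch.t1 v = P.eng C.sch.t1 p + P.eng C.sch.t1 q := by
      rw [show (v : Gal N) = p + q by simp [q]]
      have h0 : ⟪q, P.B C.sch.t1 p⟫ = 0 := hB
      have h0' : ⟪p, P.B C.sch.t1 q⟫ = 0 := by rw [← hsymB, real_inner_comm]; exact h0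
      simp only [TraceData.eng, map_add, inner_add_left, inner_add_right, h0, h0']
      ring
    have h3 : P.eng C.sch.t1 v ≤ (Λ.lev (j + 1) - Λ.g) * P.nrm C.sch.t1 v := by
      have := hSlow v v.2
      exact this
    have h4 : 0 < P.nrm C.sch.t1 v :=
      lt_of_not_ge fun h0 => hv (TraceData.eq_zero_of_nrm_le (P := P) hs.ht0 h0)
    have h5 := TraceData.nrm_nonneg (P := P) hs.ht0 q
    rw [sys, hs.dualSys_cone]
    show P.eng C.sch.t1 p - Λ.lev (j + 1) * P.nrm C.sch.t1 p < 0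
    have h6 := mul_le_mul_of_nonneg_right hlt h5
    have h7 := mul_pos Λ.g_pos h4
    rw [hN] at h7
    rw [hE, hN] at h3
    nlinarith [mul_nonneg Λ.g_pos.le h5]
  have hinj : Function.Injective (Q.comp S.subtype) := (injective_iff_map_eq_zero _).2 fun v hv => by
    by_contra hne
    have h3 := key v (fun h0 => hne (Subtype.ext h0))
    rw [show Q (v : Gal N) = 0 from hv] at h3
    simp [DualSys.cone] at h3
  refine ⟨LinearMap.range (Q.comp S.subtype), by
    rw [LinearMap.finrank_range_of_inj hinj, hSl], ?_⟩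
  rintro _ ⟨v, rfl⟩ hne
  exact key v fun h0 => hne (by simp [LinearMap.comp_apply, h0])

end SlowFam

end

end Vale.Agent.P225.Disproof
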