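import Vale.Agent.P225.Disproof.CtrlFam
import Vale.Agent.P225.Disproof.DualOpen

/-!
# P225: the open gaps of the dual systems along the control

The constants of time depend only on the margin and the bound of the levels. In every slot and
rest the gaps that stay open give `DualSys.Open`, and the top level is strict everywhere.
-/

namespace Vale.Agent.P225.Disproof

open Set Filter Topology
open scoped RealInnerProductSpace

noncomputable section

/-- The delay, the strictness and the buffer, for margin `g` and levels at most `top`. -/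
structure TimeConsts (g top : ℝ) where
  T : ℝ
  c : ℝ
  L : ℝ
  one_le_T : 1 ≤ T
  sep : ∀ ε, 0 ≤ ε → ε ≤ g / 8 →
    Real.exp (-(g / 2 - 2 * ε) * (T - 1)) < TraceData.sepConst g top ε ^ 2
  c_pos : 0 < c
  c_le : c ≤ g / 4
  c_small : ∀ ε, 0 ≤ ε → ε ≤ 1 →
    c ≤ g ^ 2 / 4 * T * Real.exp (-(2 * top + 3 * ε) * T)
  le_L : 3 * T ≤ L
  gain : ∀ ε, ε ≤ g / 8 →
    (40 * top ^ 2 / c ^ 2) ^ 2 * Real.exp (-((2 * g - 2 * ε) * (L - 3 * T))) < 1

/-- An exponential eventually beats a positive bound. -/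
theorem exists_exp_lt {r κ : ℝ} (hr : 0 < r) (hκ : 0 < κ) (A : ℝ) :
    ∃ x, A ≤ x ∧ 0 ≤ x ∧ Real.exp (-(r * x)) < κ := by
  have h : Tendsto (fun x : ℝ => Real.exp (-(r * x))) atTop (𝓝 0) :=
    Real.tendsto_exp_neg_atTop_nhds_zero.comp (tendsto_id.const_mul_atTop hr)
  obtain ⟨x, ⟨h1, h2⟩, h3⟩ := (((eventually_ge_atTop A).and (eventually_ge_atTop (0 : ℝ))).and
    (h.eventually (eventually_lt_nhds hκ))).exists
  exact ⟨x, h1, h2, h3⟩

theorem exists_timeConsts {g top : ℝ} (hg : 0 < g) (htop : g ≤ top) :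
    Nonempty (TimeConsts g top) := by
  have hκ0 : 0 < (1 - Real.exp (-(g / 2))) * Real.exp (-(top + g)) :=
    mul_pos (sub_pos.2 (Real.exp_lt_one_iff.2 (by linarith))) (Real.exp_pos _)
  set κ := ((1 - Real.exp (-(g / 2))) * Real.exp (-(top + g))) ^ 2
  obtain ⟨x, -, hx0, hx⟩ := exists_exp_lt (show 0 < g / 4 by linarith)
    (show 0 < κ by positivity) 0
  set T := 1 + x
  set c := min (g / 4) (g ^ 2 / 4 * T * Real.exp (-(2 * top + 3) * T))
  have hc : 0 < c := lt_min (by linarith)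
    (mul_pos (mul_pos (by positivity) (by linarith : (0 : ℝ) < 1 + x)) (Real.exp_pos _))
  set K := (40 * top ^ 2 / c ^ 2) ^ 2
  have hK : 0 < K := by
    have : 0 < top := lt_of_lt_of_le hg htop
    positivity
  obtain ⟨y, -, hy0, hy⟩ := exists_exp_lt hg (inv_pos.2 hK) 0
  refine ⟨⟨T, c, 3 * T + y, by linarith, fun ε h0 h8 => ?_, hc, min_le_left _ _,
    fun ε _ h1 => ?_, by linarith, fun ε h8 => ?_⟩⟩
  · refine lt_of_le_of_lt (Real.exp_le_exp.2 ?_) (hx.trans_le ?_)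
    · rw [show T - 1 = x by simp [T]]
      nlinarith
    · refine pow_le_pow_left₀ hκ0.le (mul_le_mul ?_ (Real.exp_le_exp.2 (by linarith))
        (Real.exp_nonneg _) (sub_nonneg.2 (Real.exp_le_one_iff.2 (by linarith)))) 2
      linarith [Real.exp_le_exp.2 (show -(g - ε) ≤ -(g / 2) by linarith)]
  · refine (min_le_right _ _).trans (mul_le_mul_of_nonneg_left (Real.exp_le_exp.2 ?_)
      (mul_nonneg (by positivity) (by linarith : (0 : ℝ) ≤ 1 + x)))
    exact mul_le_mul_of_nonneg_right (by linarith) (by linarith : (0 : ℝ) ≤ 1 + x)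
  · rw [show 3 * T + y - 3 * T = y by ring]
    have h1 : Real.exp (-((2 * g - 2 * ε) * y)) < K⁻¹ := by
      refine lt_of_le_of_lt (Real.exp_le_exp.2 ?_) hy
      nlinarith
    have := mul_lt_mul_of_pos_left h1 hK
    rwa [mul_inv_cancel₀ hK.ne'] at this

variable {X : Type*} [NormedAddCommGroup X] [InnerProductSpace ℝ X]
  {W : X →L[ℝ] C(Sph 3, ℝ)} {L : LoopFam X wordLen} {p0 : X} {Λ : Levels W L p0}
  {C : Ctrl X} {N : ℕ} {t0 H ε : ℝ}
  {E : Type*} [NormedAddCommGroup E] [InnerProductSpace ℝ E] [FiniteDimensional ℝ E]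
  {F : TraceFam W C N t0 H ε Λ.g}

namespace SlowFam

variable (Z : SlowFam Λ F E) (h : CtrlSmall Λ C N ε) (K : TimeConsts Λ.g Λ.top)

/-- A slowly moving good level below the top one gives an open gap. -/
theorem open_level {s : paramCube} {j : ℕ} (hj : j ∈ Icc 224 728) {s₁ s₂ : ℝ}
    (hI : Icc s₁ s₂ ⊆ Icc C.sch.t1 H) {μ μ' : ℝ → ℝ} (hcμ : Continuous μ)
    (hdμ : ∀ t ∈ Icc s₁ s₂, HasDerivWithinAt μ (μ' t) (Icc s₁ s₂) t)
    (hsp : ∀ t ∈ Icc s₁ s₂, |μ' t| ≤ Λ.C * ‖deriv (C.rho s) t‖)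
    (hq : ∀ t ∈ Icc s₁ s₂, C.rho s t ∈ openShapes L p0 j ∧ μ t = Λ.lv j (C.rho s t))
    (h : CtrlSmall Λ C N ε) (K : TimeConsts Λ.g Λ.top) :
    (Z.sys s).Open μ K.c K.T (j + 1) s₁ s₂ := by
  have hjw : j ∈ Icc 224 729 := ⟨hj.1, hj.2.trans (by norm_num)⟩
  obtain ⟨h0, h1⟩ : 0 ≤ ε ∧ ε ≤ 1 := ⟨(F.P s).hε, (F.P s).hε1⟩
  have hg := Λ.g_pos
  have hgood : ∀ t ∈ Icc s₁ s₂, GoodLevel (W (C.rho s t)) j (μ t) Λ.g Λ.g ∧ μ t ≤ Λ.top :=
    fun t ht => by
      obtain ⟨hm, he⟩ := hq t ht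
      rw [he]
      exact ⟨(Λ.good j hjw _ hm).1, (Λ.good j hjw _ hm).2.1⟩
  have hw : ∀ t ∈ Icc s₁ s₂, ε * (2 * μ t + 2) + |μ' t| ≤ Λ.g ^ 2 / 4 := fun t ht => by
    have := mul_le_mul_of_nonneg_left
      (show 2 * μ t + 2 ≤ 2 * Λ.top + 2 by linarith [(hgood t ht).2]) h0
    linarith [h.rate s t, hsp t ht]
  refine TraceData.DualStart.open_of_split (Z.dual s) hI hcμ hdμ
    (fun t ht => ⟨by linarith [(hgood t ht).1.2.1], (hgood t ht).2⟩)
    (w := Λ.g) (δ := Λ.g ^ 2 / 4) (fun t ht => by linarith [hw t ht, sq_nonneg Λ.g])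
    (by positivity) (by linarith [K.one_le_T]) (K.c_small ε h0 h1) (fun t ht => ?_)
    (fun t ht => ⟨hg, by linarith [(hgood t ht).1.2.1]⟩) (fun t ht => ?_)
    (fun t ht => by linarith [hw t ht, sq_nonneg Λ.g]) ?_ K.one_le_T (K.sep ε h0 h.eps_le)
    (by linarith [h.eps_le]) K.c_le
  · have h2 := h.level_split F hjw (hI ht) (hq t ht).1
    rw [← (hq t ht).2] at h2
    exact h2
  · have htop := h.ctrl.mem_top s.2 (hI ht).1
    have h2 := (hgood t ht).1.lev_lt (Λ.good 729 top_mem_win _ htop).1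
      (h.loops.on_openShapes top_mem_win htop).1 (by linarith [hj.2])
    simp only [topLev]
    linarith
  · rw [Z.dim]
    simp only [slowDim]
    linarith [hj.2]

include h in
/-- The top level is strict along every orbit. -/
theorem top_strict {s : paramCube} {t : ℝ} (ht : t ∈ Icc C.sch.t1 H) (x : E) :
    (Z.sys s).cone (topLev Λ C s t) t x ≤ -(Λ.g / 2) * (Z.sys s).nrm t x := by
  set hs := Z.dual s
  have hsub : Icc C.sch.t1 t ⊆ Icc C.sch.t1 H := Icc_subset_Icc_right ht.2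
  have hh := TraceData.dual_low_forward (P := (F.P s).tail C.sch.t1 F.le_t1) hs.hab le_rfl ht.2
    ht.1 ((hs.orbit x).mono le_rfl ht.2) (μ := fun r => topLev Λ C s r - Λ.g / 2)
    (μ' := topLevD Λ C s) (w := Λ.g / 2) (hs.contν.sub continuous_const)
    (fun r hr => by
      have := (Λ.good 729 top_mem_win _ (h.ctrl.mem_top s.2 (hsub hr).1)).1.2.1
      simp only [topLev]
      linarith [Λ.g_pos])
    (fun r hr => ((hs.derivν r (hsub hr)).mono hsub).sub_const _)
    (fun r hr => by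
      have hq := h.ctrl.mem_top s.2 (hsub hr).1
      have h1 := (h.level_deriv top_mem_win s (Icc C.sch.t1 H) hq).2
      have htl : topLev Λ C s r ≤ Λ.top := (Λ.good 729 top_mem_win _ hq).2.1
      have h2 := mul_le_mul_of_nonneg_left (show 2 * (topLev Λ C s r - Λ.g / 2) + 2 ≤
        2 * Λ.top + 2 by linarith [Λ.g_pos]) (F.P s).hε
      have h3 := h.rate s r
      simp only [topLevD]
      nlinarith [(F.P s).hε1, sq_nonneg Λ.g])
    fun r hr => ?_
  · have h0 := hs.start x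
    have hn := TraceData.nrm_nonneg (P := (F.P s).tail C.sch.t1 F.le_t1) hs.ht0 (Z.U s C.sch.t1 x)
    have h2 := (mul_nonneg_iff_of_pos_left (Real.exp_pos _)).1 (le_trans (by
      nlinarith [Λ.g_pos] : (0 : ℝ) ≤ _) hh)
    rw [sys, hs.dualSys_cone, hs.dualSys_nrm]
    linarith
  · have h1 := (hs.gapν r (hsub hr)).shift (hsub hr) (μ' := topLev Λ C s r - Λ.g / 2)
      (by rw [sub_sub_cancel_left, abs_neg, abs_of_pos (half_pos Λ.g_pos)]; linarith [Λ.g_pos])
    rwa [sub_sub_cancel_left, abs_neg, abs_of_pos (half_pos Λ.g_pos), sub_half] at h1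

end SlowFam

end

end Vale.Agent.P225.Disproof
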