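import Vale.Agent.P225.Disproof.Control
import Vale.Agent.P225.Disproof.GalerkinPencil

/-!
# P225: weights built from a curve of shapes

From a curve `p` of shapes in `Gal D` and a profile `a`: the correction `om`, with
`∑ rot i (rot i om) = -a² p'`, the mass weight `a² p / (1 + om)`, the stiffness weight `1 + om`,
their derivatives in `C(S², ℝ)` and the pointwise bounds in terms of `p'`, `p''` and `a'`.
-/

namespace Vale.Agent.P225.Disproof

open Set Filter Topology MvPolynomial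
open scoped RealInnerProductSpace

noncomputable section

variable {D : ℕ}

/-- The homogeneous part, as a continuous linear map. -/
def partL (l : ℕ) : Gal D →L[ℝ] Gal D :=
  LinearMap.toContinuousLinearMap
    { toFun := part l
      map_add' := fun p q => Gal.ext (by simp [part, Gal.poly_mk, map_add])
      map_smul' := fun r p => Gal.ext (by simp [part, Gal.poly_mk, map_smul]) }

theorem partL_apply (l : ℕ) (p : Gal D) : partL l p = part l p := rfl

/-- The Casimir operator on a homogeneous part. -/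
theorem sum_rotG_part (l : ℕ) (p : Gal D) :
    ∑ i, rotG i (rotG i (part l p)) = -((l : ℝ) * (l + 1)) • part l p := Gal.ext (by
  simp only [map_sum, poly_rotG, map_smul, part, Gal.poly_mk]
  rw [casimir (homogeneousComponent_isHomogeneous l _)
    (lapP_homogeneousComponent l _ (mem_harmUpTo.1 p.mem).2), smul_eq_C_mul, map_neg])

/-- The inverse of the Casimir operator off the constants. -/
def Linv (D : ℕ) : Gal D →L[ℝ] Gal D :=
  ∑ l ∈ Finset.range (D + 1), (-((l : ℝ) * (l + 1)))⁻¹ • partL l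

theorem casimir_Linv (p : Gal D) : ∑ i, rotG i (rotG i (Linv D p)) = p - part 0 p := by
  have h : ∀ i, rotG i (rotG i (Linv D p)) = ∑ l ∈ Finset.range (D + 1),
      (-((l : ℝ) * (l + 1)))⁻¹ • rotG i (rotG i (part l p)) := fun i => by
    simp only [Linv, sum_apply, smul_apply, map_sum, map_smul, partL_apply]
  simp only [h]
  rw [Finset.sum_comm, eq_sub_iff_add_eq]
  conv_rhs => rw [← sum_part p, Finset.sum_range_succ']
  rw [Finset.sum_range_succ']
  simp only [← Finset.smul_sum, sum_rotG_part, smul_smul, Nat.cast_zero, zero_mul, neg_zero,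
    zero_smul]
  simp only [inv_zero, smul_zero, add_zero]
  congr 1
  refine Finset.sum_congr rfl fun l _ => ?_
  rw [inv_mul_cancel₀ (neg_ne_zero.2 (by positivity)), one_smul]

/-- Restriction to the sphere, linear in the element. -/
def sphFn (D : ℕ) : Gal D →L[ℝ] C(Sph 3, ℝ) :=
  LinearMap.toContinuousLinearMap
    { toFun := fun p => ⟨res p.poly, continuous_res _⟩
      map_add' := fun p q => ContinuousMap.ext fun θ => by simp [map_add, res_add]
      map_smul' := fun r p => ContinuousMap.ext fun θ => by simp [map_smul, res_smul] }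

theorem sphFn_apply (p : Gal D) (θ : Sph 3) : sphFn D p θ = res p.poly θ := rfl

theorem abs_res_le (p : Gal D) (θ : Sph 3) : |res p.poly θ| ≤ ‖sphFn D‖ * ‖p‖ := by
  have h := ((sphFn D p).norm_coe_le_norm θ).trans ((sphFn D).le_opNorm p)
  rwa [sphFn_apply, Real.norm_eq_abs] at h

/-- The value at a point, linear in the element. -/
def fnAt (x : Space 3) : Gal D →L[ℝ] ℝ :=
  LinearMap.toContinuousLinearMap
    { toFun := fun p => evalFun p.poly x
      map_add' := fun p q => by simp [evalFun]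
      map_smul' := fun r p => by simp [evalFun] }

/-- The function of a curve in the Galerkin space. -/
def gfn (q : ℝ → Gal D) (t : ℝ) (x : Space 3) : ℝ := evalFun (q t).poly x

theorem gfn_sph (q : ℝ → Gal D) (t : ℝ) (θ : Sph 3) :
    gfn q t (θ : Space 3) = res (q t).poly θ := rfl

theorem contDiff_gfn {q : ℝ → Gal D} {m : WithTop ℕ∞} (hq : ContDiff ℝ m q) :
    ContDiff ℝ m fun z : ℝ × Space 3 => gfn q z.1 z.2 := by
  set e := stdOrthonormalBasis ℝ (Gal D)
  have he : (fun z : ℝ × Space 3 => gfn q z.1 z.2) =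
      fun z => ∑ k, ⟪e k, q z.1⟫ * evalFun (e k).poly z.2 := by
    funext z
    show fnAt z.2 (q z.1) = _
    conv_lhs => rw [← e.sum_repr' (q z.1)]
    simp only [map_sum, map_smul, smul_eq_mul]
    rfl
  rw [he]
  exact ContDiff.sum fun k _ => (((innerSL ℝ (e k)).contDiff.comp hq).comp contDiff_fst).mul
    ((contDiff_evalFun _).comp contDiff_snd)

theorem hasDerivAt_gfn {q : ℝ → Gal D} {q' : Gal D} {t : ℝ} (hq : HasDerivAt q q' t)
    (x : Space 3) : HasDerivAt (fun s => gfn q s x) (evalFun q'.poly x) t :=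
  (fnAt x).hasFDerivAt.comp_hasDerivAt t hq

theorem deriv_gfn {q : ℝ → Gal D} (hq : Differentiable ℝ q) (t : ℝ) (x : Space 3) :
    deriv (fun s => gfn q s x) t = gfn (deriv q) t x :=
  (hasDerivAt_gfn (hq t).hasDerivAt x).deriv

theorem rot_gfn (q : ℝ → Gal D) (i : Fin 3) (t : ℝ) :
    rot i (gfn q t) = gfn (fun s => rotG i (q s)) t :=
  rot_evalFun i (q t).poly

/-! ### The correction and the weights -/

/-- The correction. -/
def omC (a : ℝ → ℝ) (p : ℝ → Gal D) (t : ℝ) : Gal D := (-(a t) ^ 2) • Linv D (deriv p t)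

/-- Its time derivative. -/
def omD (a : ℝ → ℝ) (p : ℝ → Gal D) (t : ℝ) : Gal D :=
  (-(2 * a t * deriv a t)) • Linv D (deriv p t) + (-(a t) ^ 2) • Linv D (deriv (deriv p) t)

/-- The correction as a function. -/
def omF (a : ℝ → ℝ) (p : ℝ → Gal D) : ℝ → Space 3 → ℝ := gfn (omC a p)

/-- The stiffness weight. -/
def nuF (a : ℝ → ℝ) (p : ℝ → Gal D) (t : ℝ) (x : Space 3) : ℝ := 1 + omF a p t x

/-- A smooth function equal to `1 / y` for `y ≥ 1 / 2`. -/
def safeInv (y : ℝ) : ℝ := Real.smoothTransition (4 * y - 1) / y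

theorem safeInv_eq {y : ℝ} (hy : 1 / 2 ≤ y) : safeInv y = y⁻¹ := by
  rw [safeInv, Real.smoothTransition.one_of_one_le (by linarith), one_div]

theorem contDiff_safeInv {m : ℕ∞} : ContDiff ℝ m safeInv := by
  refine contDiff_iff_contDiffAt.2 fun y => ?_
  rcases lt_or_ge y (1 / 4) with hy | hy
  · refine (contDiffAt_const (c := (0 : ℝ))).congr_of_eventuallyEq ?_
    refine Filter.eventuallyEq_of_mem (Iio_mem_nhds hy) fun z hz => ?_
    have hz' : z < 1 / 4 := hz
    show safeInv z = 0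
    rw [safeInv, Real.smoothTransition.zero_of_nonpos (by linarith), zero_div]
  · exact (Real.smoothTransition.contDiff.comp
      ((contDiff_const.mul contDiff_id).sub contDiff_const)).contDiffAt.div contDiffAt_id
      (show y ≠ 0 by linarith)

/-- The mass weight. -/
def massF (a : ℝ → ℝ) (p : ℝ → Gal D) (t : ℝ) (x : Space 3) : ℝ :=
  a t ^ 2 * gfn p t x * safeInv (nuF a p t x)

/-- The time derivative of the mass weight. -/
def massDF (a : ℝ → ℝ) (p : ℝ → Gal D) (t : ℝ) (x : Space 3) : ℝ :=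
  (2 * a t * deriv a t * gfn p t x + a t ^ 2 * gfn (deriv p) t x) * safeInv (nuF a p t x) -
    a t ^ 2 * gfn p t x * safeInv (nuF a p t x) ^ 2 * gfn (omD a p) t x

variable {a : ℝ → ℝ} {p : ℝ → Gal D}

theorem contDiff_omC (ha : ContDiff ℝ (⊤ : ℕ∞) a) (hp : ContDiff ℝ (⊤ : ℕ∞) p) :
    ContDiff ℝ (⊤ : ℕ∞) (omC a p) :=
  ((ha.pow 2).neg).smul ((Linv D).contDiff.comp (contDiff_infty_iff_deriv.1 hp).2)

theorem contDiff_nuF (ha : ContDiff ℝ (⊤ : ℕ∞) a) (hp : ContDiff ℝ (⊤ : ℕ∞) p) :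
    ContDiff ℝ (⊤ : ℕ∞) fun z : ℝ × Space 3 => nuF a p z.1 z.2 :=
  contDiff_const.add (contDiff_gfn (contDiff_omC ha hp))

theorem contDiff_massF (ha : ContDiff ℝ (⊤ : ℕ∞) a) (hp : ContDiff ℝ (⊤ : ℕ∞) p) :
    ContDiff ℝ (⊤ : ℕ∞) fun z : ℝ × Space 3 => massF a p z.1 z.2 :=
  (((ha.comp contDiff_fst).pow 2).mul (contDiff_gfn hp)).mul
    (contDiff_safeInv.comp (contDiff_nuF ha hp))

theorem hasDerivAt_omC (ha : ContDiff ℝ (⊤ : ℕ∞) a) (hp : ContDiff ℝ (⊤ : ℕ∞) p) (t : ℝ) :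
    HasDerivAt (omC a p) (omD a p t) t := by
  have h1 : HasDerivAt a (deriv a t) t := (ha.differentiable (by simp) t).hasDerivAt
  have h2 : HasDerivAt (deriv p) (deriv (deriv p) t) t :=
    ((contDiff_infty_iff_deriv.1 hp).2.differentiable (by simp) t).hasDerivAt
  have h3 : HasDerivAt (fun s => -(a s) ^ 2) (-(2 * a t * deriv a t)) t := by
    have h := (h1.fun_pow 2).fun_neg
    simpa [pow_one] using h
  have h4 := h3.fun_smul ((Linv D).hasFDerivAt.comp_hasDerivAt t h2)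
  rw [omD, add_comm]
  exact h4

/-- The equation of the correction, when the mean does not move. -/
theorem casimir_omF {t : ℝ} (h0 : part 0 (deriv p t) = 0) (x : Space 3) :
    ∑ i, rot i (rot i (omF a p t)) x = -(a t) ^ 2 * gfn (deriv p) t x := by
  simp only [omF, rot_gfn]
  show ∑ i, fnAt x (rotG i (rotG i (omC a p t))) = -(a t) ^ 2 * fnAt x (deriv p t)
  simp only [omC, map_smul, smul_eq_mul, ← Finset.mul_sum, ← map_sum, casimir_Linv, h0, sub_zero]

theorem rot_nuF (i : Fin 3) (t : ℝ) (x : Space 3) :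
    rot i (nuF a p t) x = gfn (fun s => rotG i (omC a p s)) t x := by
  rw [← rot_gfn, rot_eq_fderiv, rot_eq_fderiv]
  show fderiv ℝ (fun y => 1 + omF a p t y) x _ = _
  rw [fderiv_const_add]
  rfl

/-! ### The weights in `C(S², ℝ)` -/

/-- The stiffness weight on the sphere. -/
def nuC (a : ℝ → ℝ) (p : ℝ → Gal D) (t : ℝ) : C(Sph 3, ℝ) := 1 + sphFn D (omC a p t)

/-- The mass weight on the sphere. -/
def massC (a : ℝ → ℝ) (p : ℝ → Gal D) (t : ℝ) : C(Sph 3, ℝ) :=
  (a t ^ 2) • (sphFn D (p t) * Ring.inverse (nuC a p t))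

/-- The derivative of the stiffness weight. -/
def nuCD (a : ℝ → ℝ) (p : ℝ → Gal D) (t : ℝ) : C(Sph 3, ℝ) := sphFn D (omD a p t)

/-- The derivative of the mass weight. -/
def massCD (a : ℝ → ℝ) (p : ℝ → Gal D) (t : ℝ) : C(Sph 3, ℝ) :=
  (2 * a t * deriv a t) • (sphFn D (p t) * Ring.inverse (nuC a p t)) +
    (a t ^ 2) • (sphFn D (deriv p t) * Ring.inverse (nuC a p t) -
      sphFn D (p t) * (Ring.inverse (nuC a p t) * nuCD a p t * Ring.inverse (nuC a p t)))

theorem nuC_apply (t : ℝ) (θ : Sph 3) : nuC a p t θ = nuF a p t (θ : Space 3) := by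
  simp [nuC, nuF, omF, sphFn_apply, gfn_sph]

theorem nuCD_apply (t : ℝ) (θ : Sph 3) : nuCD a p t θ = gfn (omD a p) t (θ : Space 3) := rfl

theorem sph_inverse_apply {f : C(Sph 3, ℝ)} (hf : ∀ θ, f θ ≠ 0) (θ : Sph 3) :
    Ring.inverse f θ = (f θ)⁻¹ := by
  have hu : IsUnit f := (ContinuousMap.isUnit_iff_forall_ne_zero f).2 hf
  have h := congrArg (fun g : C(Sph 3, ℝ) => g θ) (Ring.inverse_mul_cancel f hu)
  simp only [ContinuousMap.mul_apply, ContinuousMap.one_apply] at h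
  exact eq_inv_of_mul_eq_one_left h

/-- The weights on the sphere: derivatives, and agreement with the functions. -/
theorem massC_apply {t : ℝ} (h : ∀ θ : Sph 3, 1 / 2 ≤ nuF a p t (θ : Space 3)) (θ : Sph 3) :
    massC a p t θ = massF a p t (θ : Space 3) ∧
      massCD a p t θ = massDF a p t (θ : Space 3) := by
  have hne : ∀ φ : Sph 3, nuC a p t φ ≠ 0 := fun φ => by
    rw [nuC_apply]
    linarith [h φ]
  simp only [massC, massCD, massF, massDF, ContinuousMap.smul_apply, ContinuousMap.add_apply,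
    ContinuousMap.sub_apply, ContinuousMap.mul_apply, sph_inverse_apply hne, nuC_apply, nuCD_apply,
    sphFn_apply, gfn_sph, safeInv_eq (h θ), smul_eq_mul]
  constructor <;> ring

theorem hasDerivAt_nuC (ha : ContDiff ℝ (⊤ : ℕ∞) a) (hp : ContDiff ℝ (⊤ : ℕ∞) p) (t : ℝ) :
    HasDerivAt (nuC a p) (nuCD a p t) t :=
  ((sphFn D).hasFDerivAt.comp_hasDerivAt t (hasDerivAt_omC ha hp t)).const_add _

theorem hasDerivAt_massC (ha : ContDiff ℝ (⊤ : ℕ∞) a) (hp : ContDiff ℝ (⊤ : ℕ∞) p) {t : ℝ}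
    (h : ∀ θ : Sph 3, 1 / 2 ≤ nuF a p t (θ : Space 3)) :
    HasDerivAt (massC a p) (massCD a p t) t := by
  have h1 : HasDerivAt a (deriv a t) t := (ha.differentiable (by simp) t).hasDerivAt
  have h2 : HasDerivAt p (deriv p t) t := (hp.differentiable (by simp) t).hasDerivAt
  have hu : IsUnit (nuC a p t) :=
    (ContinuousMap.isUnit_iff_forall_ne_zero _).2 fun φ => by
      rw [nuC_apply]
      linarith [h φ]
  obtain ⟨u, hu⟩ := hu
  have h3 := (hasFDerivAt_ringInverse (𝕜 := ℝ) u).comp_hasDerivAt_of_eq t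
    (hasDerivAt_nuC ha hp t) hu
  have h4 := (h1.fun_pow 2).fun_smul
    (((sphFn D).hasFDerivAt.comp_hasDerivAt t h2).fun_mul h3)
  refine (h4.congr_deriv ?_)
  simp only [Function.comp_apply, neg_apply, ContinuousLinearMap.mulLeftRight_apply, massCD,
    ← Ring.inverse_unit, hu, Nat.cast_ofNat]
  rw [show (2 : ℕ) - 1 = 1 from rfl, pow_one]
  ext θ
  simp only [ContinuousMap.add_apply, ContinuousMap.sub_apply, ContinuousMap.neg_apply,
    ContinuousMap.smul_apply, ContinuousMap.mul_apply, smul_eq_mul]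
  ring

theorem continuous_nuC (ha : ContDiff ℝ (⊤ : ℕ∞) a) (hp : ContDiff ℝ (⊤ : ℕ∞) p) :
    Continuous (nuC a p) :=
  continuous_iff_continuousAt.2 fun t => (hasDerivAt_nuC ha hp t).continuousAt

theorem continuous_massC (ha : ContDiff ℝ (⊤ : ℕ∞) a) (hp : ContDiff ℝ (⊤ : ℕ∞) p)
    (h : ∀ t, ∀ θ : Sph 3, 1 / 2 ≤ nuF a p t (θ : Space 3)) : Continuous (massC a p) :=
  continuous_iff_continuousAt.2 fun t => (hasDerivAt_massC ha hp (h t)).continuousAt

/-- The time derivative of the mass weight at a point of the sphere. -/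
theorem deriv_massF (ha : ContDiff ℝ (⊤ : ℕ∞) a) (hp : ContDiff ℝ (⊤ : ℕ∞) p)
    (h : ∀ t, ∀ θ : Sph 3, 1 / 2 ≤ nuF a p t (θ : Space 3)) (t : ℝ) (θ : Sph 3) :
    deriv (fun s => massF a p s (θ : Space 3)) t = massDF a p t (θ : Space 3) := by
  have he : (fun s => massF a p s (θ : Space 3)) = fun s => massC a p s θ :=
    funext fun s => (massC_apply (h s) θ).1.symm
  rw [he, ← (massC_apply (h t) θ).2]
  exact ((ContinuousMap.evalCLM ℝ θ).hasFDerivAt.comp_hasDerivAt t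
    (hasDerivAt_massC ha hp (h t))).deriv

/-- Before the shapes move: the correction vanishes and the weights are constant in space. -/
theorem omC_eq_zero {t : ℝ} (h : deriv p t = 0) : omC a p t = 0 := by simp [omC, h]

theorem weights_eq_one {t : ℝ} (hd : deriv p t = 0) (hone : ∀ θ, res (p t).poly θ = 1)
    (ha1 : a t = 1) : massC a p t = 1 ∧ nuC a p t = 1 := by
  have hn : nuC a p t = 1 := by simp [nuC, omC_eq_zero hd]
  refine ⟨?_, hn⟩
  rw [massC, hn, Ring.inverse_one, ha1]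
  ext θ
  simp [sphFn_apply, hone θ]

/-! ### Pointwise bounds -/

/-- The size of one rotation on the shapes, at least `1`. -/
def rotK (D : ℕ) : ℝ := 1 + ∑ i, ‖rotG (N := D) i‖

/-- The constant of the pointwise bounds. -/
def boundK (D : ℕ) : ℝ := 1 + (1 + ‖sphFn D‖) * rotK D ^ 3 * (2 + 3 * ‖Linv D‖)

theorem one_le_rotK (D : ℕ) : 1 ≤ rotK D :=
  le_add_of_nonneg_right (Finset.sum_nonneg fun _ _ => ContinuousLinearMap.opNorm_nonneg _)

theorem norm_rotG_le (i : Fin 3) (v : Gal D) : ‖rotG i v‖ ≤ rotK D * ‖v‖ := by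
  refine ((rotG i).le_opNorm v).trans (mul_le_mul_of_nonneg_right ?_ (norm_nonneg v))
  have := Finset.single_le_sum (f := fun j => ‖rotG (N := D) j‖) (fun _ _ => ContinuousLinearMap.opNorm_nonneg _)
    (Finset.mem_univ i)
  rw [rotK]
  linarith

/-- Values and rotations up to order three. -/
theorem abs_rots_le (v : Gal D) {b : ℝ} (hv : ‖v‖ ≤ b) (θ : Sph 3) :
    |res v.poly θ| ≤ ‖sphFn D‖ * rotK D ^ 3 * b ∧
      (∀ i, |res (rotG i v).poly θ| ≤ ‖sphFn D‖ * rotK D ^ 3 * b) ∧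
      (∀ i j, |res (rotG i (rotG j v)).poly θ| ≤ ‖sphFn D‖ * rotK D ^ 3 * b) ∧
      ∀ i j k, |res (rotG i (rotG j (rotG k v))).poly θ| ≤ ‖sphFn D‖ * rotK D ^ 3 * b := by
  have hR := one_le_rotK D
  have hR0 : 0 ≤ rotK D := zero_le_one.trans hR
  have hb : 0 ≤ b := (norm_nonneg v).trans hv
  have key : ∀ (n : ℕ) (w : Gal D), n ≤ 3 → ‖w‖ ≤ rotK D ^ n * b →
      |res w.poly θ| ≤ ‖sphFn D‖ * rotK D ^ 3 * b := fun n w hn hw => by
    refine (abs_res_le w θ).trans ?_
    rw [mul_assoc]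
    exact mul_le_mul_of_nonneg_left
      (hw.trans (mul_le_mul_of_nonneg_right (pow_le_pow_right₀ hR hn) hb)) (ContinuousLinearMap.opNorm_nonneg _)
  have step : ∀ (n : ℕ) (w : Gal D) (i : Fin 3), ‖w‖ ≤ rotK D ^ n * b →
      ‖rotG i w‖ ≤ rotK D ^ (n + 1) * b := fun n w i hw => by
    refine (norm_rotG_le i w).trans ((mul_le_mul_of_nonneg_left hw hR0).trans (le_of_eq ?_))
    ring
  have h0 : ‖v‖ ≤ rotK D ^ 0 * b := by simpa using hv
  exact ⟨key 0 v (by norm_num) h0, fun i => key 1 _ (by norm_num) (step 0 v i h0),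
    fun i j => key 2 _ (by norm_num) (step 1 _ i (step 0 v j h0)),
    fun i j k => key 3 _ le_rfl (step 2 _ i (step 1 _ j (step 0 v k h0)))⟩

theorem norm_omC_le {t b1 : ℝ} (ha0 : 0 ≤ a t) (ha1 : a t ≤ 1) (h1 : ‖deriv p t‖ ≤ b1) :
    ‖omC a p t‖ ≤ ‖Linv D‖ * b1 := by
  rw [omC, norm_smul, Real.norm_eq_abs, abs_neg, abs_of_nonneg (sq_nonneg _)]
  exact le_trans (mul_le_of_le_one_left (norm_nonneg _) (pow_le_one₀ ha0 ha1))
    (((Linv D).le_opNorm _).trans (mul_le_mul_of_nonneg_left h1 (ContinuousLinearMap.opNorm_nonneg _)))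

theorem norm_omD_le {t α b1 b2 : ℝ} (ha0 : 0 ≤ a t) (ha1 : a t ≤ 1) (hd : |deriv a t| ≤ α)
    (h1 : ‖deriv p t‖ ≤ b1) (h2 : ‖deriv (deriv p) t‖ ≤ b2) :
    ‖omD a p t‖ ≤ ‖Linv D‖ * (2 * α * b1 + b2) := by
  have hL := ContinuousLinearMap.opNorm_nonneg (Linv D)
  have hb1 : 0 ≤ b1 := (norm_nonneg _).trans h1
  have e1 : |2 * a t * deriv a t| ≤ 2 * α := by
    rw [abs_mul, abs_of_nonneg (by linarith)]
    exact mul_le_mul (by linarith) hd (abs_nonneg _) (by norm_num)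
  have e2 : |-(a t) ^ 2| ≤ 1 := by
    rw [abs_neg, abs_of_nonneg (sq_nonneg _)]
    exact pow_le_one₀ ha0 ha1
  rw [omD]
  refine (norm_add_le _ _).trans ?_
  rw [norm_smul, norm_smul, Real.norm_eq_abs, Real.norm_eq_abs, abs_neg]
  have f1 := mul_le_mul e1 (((Linv D).le_opNorm _).trans (mul_le_mul_of_nonneg_left h1 hL))
    (norm_nonneg _) ((abs_nonneg _).trans e1)
  have f2 := mul_le_mul e2 (((Linv D).le_opNorm _).trans (mul_le_mul_of_nonneg_left h2 hL))
    (norm_nonneg _) zero_le_one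
  linarith

/-- Bounds of the first order quantities by `p'`, of the second order ones by `p''` and `a' p'`. -/
theorem weight_bounds {t α b1 b2 : ℝ} (ha0 : 0 ≤ a t) (ha1 : a t ≤ 1) (hd : |deriv a t| ≤ α)
    (h1 : ‖deriv p t‖ ≤ b1) (h2 : ‖deriv (deriv p) t‖ ≤ b2) (θ : Sph 3) :
    (|gfn (deriv p) t (θ : Space 3)| ≤ boundK D * b1 ∧
      (∀ i, |rot i (gfn (deriv p) t) (θ : Space 3)| ≤ boundK D * b1) ∧
      |omF a p t (θ : Space 3)| ≤ boundK D * b1 ∧
      (∀ i, |rot i (omF a p t) (θ : Space 3)| ≤ boundK D * b1) ∧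
      ∀ i j, |rot i (rot j (omF a p t)) (θ : Space 3)| ≤ boundK D * b1) ∧
    |gfn (deriv (deriv p)) t (θ : Space 3)| ≤ boundK D * (b2 + α * b1) ∧
      |gfn (omD a p) t (θ : Space 3)| ≤ boundK D * (b2 + α * b1) := by
  have hb1 : 0 ≤ b1 := (norm_nonneg _).trans h1
  have hb2 : 0 ≤ b2 := (norm_nonneg _).trans h2
  have hα : 0 ≤ α := (abs_nonneg _).trans hd
  have hS := ContinuousLinearMap.opNorm_nonneg (sphFn D)
  have hL := ContinuousLinearMap.opNorm_nonneg (Linv D)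
  have hR : 1 ≤ rotK D ^ 3 := one_le_pow₀ (one_le_rotK D)
  have hSR : 0 ≤ ‖sphFn D‖ * rotK D ^ 3 := mul_nonneg hS (by linarith)
  have hL' : 0 ≤ (2 + 3 * ‖Linv D‖) * rotK D ^ 3 := mul_nonneg (by linarith) (by linarith)
  have c1 : ‖sphFn D‖ * rotK D ^ 3 ≤ boundK D := by
    rw [boundK]
    nlinarith [mul_nonneg hSR hL]
  have c2 : ‖sphFn D‖ * rotK D ^ 3 * (3 * ‖Linv D‖) ≤ boundK D := by
    rw [boundK]
    nlinarith [mul_nonneg hSR hL]
  obtain ⟨p0, p1, -, -⟩ := abs_rots_le _ h1 θ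
  obtain ⟨o0, o1, o2, -⟩ := abs_rots_le _ (norm_omC_le ha0 ha1 h1) θ
  obtain ⟨q0, -, -, -⟩ := abs_rots_le _ h2 θ
  obtain ⟨d0, -, -, -⟩ := abs_rots_le _ (norm_omD_le ha0 ha1 hd h1 h2) θ
  have ko : ‖sphFn D‖ * rotK D ^ 3 * (‖Linv D‖ * b1) ≤ boundK D * b1 := by
    nlinarith [mul_nonneg (mul_nonneg hSR hL) hb1]
  have kd : ‖sphFn D‖ * rotK D ^ 3 * (‖Linv D‖ * (2 * α * b1 + b2)) ≤
      boundK D * (b2 + α * b1) := by
    nlinarith [mul_nonneg (mul_nonneg hSR hL) (mul_nonneg hα hb1), mul_nonneg (mul_nonneg hSR hL) hb2,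
      mul_le_mul_of_nonneg_right c2 (add_nonneg hb2 (mul_nonneg hα hb1))]
  have kp := mul_le_mul_of_nonneg_right c1 hb1
  have kq : ‖sphFn D‖ * rotK D ^ 3 * b2 ≤ boundK D * (b2 + α * b1) := by
    nlinarith [mul_le_mul_of_nonneg_right c1 hb2, mul_nonneg (hSR.trans c1) (mul_nonneg hα hb1)]
  refine ⟨⟨p0.trans kp, fun i => ?_, o0.trans ko, fun i => ?_, fun i j => ?_⟩, q0.trans kq,
    d0.trans kd⟩
  · rw [rot_gfn]
    exact (p1 i).trans kp
  · rw [omF, rot_gfn]
    exact (o1 i).trans ko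
  · rw [omF, rot_gfn, rot_gfn]
    exact (o2 i j).trans ko

/-- The relative rates of the two weights. -/
theorem weight_rate {t α c0 b1 b2 : ℝ} (ha0 : 0 < a t) (ha1 : a t ≤ 1)
    (hd : |deriv a t| ≤ α * a t) (h1 : ‖deriv p t‖ ≤ b1) (h2 : ‖deriv (deriv p) t‖ ≤ b2)
    (hc0 : 0 < c0) (hρ : ∀ θ, c0 ≤ res (p t).poly θ) (hsmall : boundK D * b1 ≤ 1 / 2)
    (θ : Sph 3) :
    (1 / 2 ≤ nuF a p t (θ : Space 3) ∧ nuF a p t (θ : Space 3) ≤ 3 / 2) ∧
      |nuCD a p t θ| ≤ 2 * boundK D * (b2 + α * b1) * nuC a p t θ ∧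
      |massCD a p t θ| ≤
        (2 * α + boundK D * b1 / c0 + 2 * boundK D * (b2 + α * b1)) * massC a p t θ := by
  have hb1 : 0 ≤ b1 := (norm_nonneg _).trans h1
  have hα : 0 ≤ α := by
    by_contra hneg
    linarith [abs_nonneg (deriv a t), mul_neg_of_neg_of_pos (not_le.1 hneg) ha0]
  have hd' : |deriv a t| ≤ α := hd.trans (mul_le_of_le_one_right hα ha1)
  have hν : ∀ φ : Sph 3, 1 / 2 ≤ nuF a p t (φ : Space 3) := fun φ => by
    have h := abs_le.1 ((weight_bounds ha0.le ha1 hd' h1 h2 φ).1.2.2.1.trans hsmall)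
    rw [nuF]
    linarith [h.1]
  obtain ⟨⟨hr, -, hom, -, -⟩, -, homD⟩ := weight_bounds ha0.le ha1 hd' h1 h2 θ
  have hom' := abs_le.1 (hom.trans hsmall)
  set n := nuF a p t (θ : Space 3) with hn
  have hnn : 1 / 2 ≤ n ∧ n ≤ 3 / 2 := by
    constructor <;> · rw [hn, nuF]; linarith [hom'.1, hom'.2]
  have hKb : 0 ≤ boundK D * b1 := (abs_nonneg _).trans hom
  have hKq : 0 ≤ boundK D * (b2 + α * b1) := (abs_nonneg _).trans homD
  refine ⟨hnn, ?_, ?_⟩
  · rw [nuC_apply, nuCD_apply, ← hn]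
    calc |gfn (omD a p) t (θ : Space 3)| ≤ boundK D * (b2 + α * b1) := homD
      _ ≤ _ := by nlinarith
  · rw [(massC_apply hν θ).1, (massC_apply hν θ).2, massF, massDF, ← hn, safeInv_eq hnn.1]
    set r := gfn p t (θ : Space 3) with hr0
    have hrc : c0 ≤ r := hρ θ
    set r' := gfn (deriv p) t (θ : Space 3)
    set o' := gfn (omD a p) t (θ : Space 3)
    set m := a t ^ 2 * r * n⁻¹ with hm
    have hn0 : 0 < n := by linarith [hnn.1]
    have hr0 : 0 < r := lt_of_lt_of_le hc0 hrc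
    have hm0 : 0 < m := by positivity
    have e : (2 * a t * deriv a t * r + a t ^ 2 * r') * n⁻¹ - a t ^ 2 * r * n⁻¹ ^ 2 * o' =
        (2 * (deriv a t / a t) + r' / r - o' / n) * m := by
      rw [hm]
      field_simp
    rw [e, abs_mul, abs_of_pos hm0]
    refine mul_le_mul_of_nonneg_right ?_ hm0.le
    have g1 : |deriv a t / a t| ≤ α := by
      rw [abs_div, abs_of_pos ha0, div_le_iff₀ ha0]
      exact hd
    have g2 : |r' / r| ≤ boundK D * b1 / c0 := by
      rw [abs_div, abs_of_pos hr0]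
      exact div_le_div₀ hKb hr hc0 hrc
    have g3 : |o' / n| ≤ 2 * boundK D * (b2 + α * b1) := by
      rw [abs_div, abs_of_pos hn0, div_le_iff₀ hn0]
      nlinarith
    have t1 := abs_le.1 g1
    have t2 := abs_le.1 g2
    have t3 := abs_le.1 g3
    rw [abs_le]
    constructor <;> linarith [t1.1, t1.2, t2.1, t2.2, t3.1, t3.2]

end

end Vale.Agent.P225.Disproof
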