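import Vale.Agent.P225.Disproof.WeightsCtrl
import Mathlib.Analysis.Calculus.ContDiff.Bounds

/-!
# P225: families of weights and their limits

Uniform bounds of every time derivative of the coefficient curves over the parameters in
`[0, 1] ^ ℕ`, and pointwise convergence of the weights, their time derivatives and rotations when
the parameters converge coordinatewise.
-/

namespace Vale.Agent.P225.Disproof

open Set Filter Topology MvPolynomial
open scoped RealInnerProductSpace

noncomputable section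

/-! ### Curves with bounded derivatives -/

/-- A family of smooth curves with every derivative bounded, uniformly in the family. -/
def BddFam {ι E : Type*} [NormedAddCommGroup E] [NormedSpace ℝ E] (q : ι → ℝ → E) : Prop :=
  (∀ i, ContDiff ℝ (⊤ : ℕ∞) (q i)) ∧ ∀ m, ∃ B, ∀ i t, ‖iteratedDeriv m (q i) t‖ ≤ B

section families

variable {ι E F : Type*} [NormedAddCommGroup E] [NormedSpace ℝ E] [NormedAddCommGroup F]
  [NormedSpace ℝ F]

theorem BddFam.deriv' {q : ι → ℝ → E} (hq : BddFam q) : BddFam fun i => deriv (q i) := by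
  refine ⟨fun i => (contDiff_infty_iff_deriv.1 (hq.1 i)).2, fun m => ?_⟩
  obtain ⟨B, hB⟩ := hq.2 (m + 1)
  exact ⟨B, fun i t => by rw [← iteratedDeriv_succ']; exact hB i t⟩

theorem BddFam.clm {q : ι → ℝ → E} (hq : BddFam q) (L : E →L[ℝ] F) :
    BddFam fun i t => L (q i t) := by
  refine ⟨fun i => L.contDiff.comp (hq.1 i), fun m => ?_⟩
  obtain ⟨B, hB⟩ := hq.2 m
  refine ⟨‖L‖ * B, fun i t => ?_⟩
  rw [← norm_iteratedFDeriv_eq_norm_iteratedDeriv]
  refine (L.norm_iteratedFDeriv_comp_left (hq.1 i).contDiffAt (mod_cast le_top)).trans ?_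
  rw [norm_iteratedFDeriv_eq_norm_iteratedDeriv]
  exact mul_le_mul_of_nonneg_left (hB i t) (ContinuousLinearMap.opNorm_nonneg L)

theorem BddFam.smul {f : ι → ℝ → ℝ} {q : ι → ℝ → E} (hf : BddFam f) (hq : BddFam q) :
    BddFam fun i t => f i t • q i t := by
  refine ⟨fun i => (hf.1 i).smul (hq.1 i), fun m => ?_⟩
  choose Bf hBf using hf.2
  choose Bq hBq using hq.2
  refine ⟨∑ j ∈ Finset.range (m + 1), (m.choose j : ℝ) * |Bf j| * |Bq (m - j)|, fun i t => ?_⟩
  rw [← norm_iteratedFDeriv_eq_norm_iteratedDeriv]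
  refine (norm_iteratedFDeriv_smul_le (hf.1 i) (hq.1 i) t (mod_cast le_top)).trans ?_
  refine Finset.sum_le_sum fun j _ => ?_
  rw [norm_iteratedFDeriv_eq_norm_iteratedDeriv, norm_iteratedFDeriv_eq_norm_iteratedDeriv]
  exact mul_le_mul (mul_le_mul_of_nonneg_left ((hBf j i t).trans (le_abs_self _))
    (Nat.cast_nonneg _)) ((hBq _ i t).trans (le_abs_self _)) (norm_nonneg _) (by positivity)

theorem BddFam.single {f : ℝ → E} (hf : ContDiff ℝ (⊤ : ℕ∞) f)
    (hB : ∀ m, ∃ B, ∀ t, ‖iteratedDeriv m f t‖ ≤ B) : BddFam fun _ : ι => f :=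
  ⟨fun _ => hf, fun m => (hB m).imp fun _ h _ t => h t⟩

theorem BddFam.comp {κ : Type*} {q : ι → ℝ → E} (hq : BddFam q) (g : κ → ι) :
    BddFam fun k => q (g k) :=
  ⟨fun k => hq.1 (g k), fun m => (hq.2 m).imp fun _ h k t => h (g k) t⟩

end families

/-- Parameters of the control. -/
abbrev Par : Type := {s : ℕ → ℝ // ∀ n, s n ∈ Icc (0 : ℝ) 1}

variable {X : Type*} [NormedAddCommGroup X] [NormedSpace ℝ X]

namespace Ctrl

variable (C : Ctrl X)

/-- Every time derivative of the shapes is bounded, uniformly in the parameters. -/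
theorem bddFam_rho : BddFam fun s : Par => C.rho s.1 := by
  refine ⟨fun s => C.contDiff_rho _, fun m => ?_⟩
  obtain ⟨B, hB⟩ := exists_pathBd C.loops C.one C.p0
  rcases Nat.eq_zero_or_pos m with hm | hm
  · refine ⟨3 * B, fun s t => ?_⟩
    rw [hm, iteratedDeriv_zero]
    exact norm_rho_le hB s.2 t
  obtain ⟨BL, hBL0, hBL⟩ := C.loops.exists_bound m
  obtain ⟨BS, hBS⟩ := exists_transition_bound hm
  refine ⟨BL / C.sch.tau0 ^ m + |BS| / C.sch.tau0 ^ m * ‖C.p0 - C.one‖, fun s t => ?_⟩
  have h0 := C.sch.htau0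
  have e1 : 0 ≤ BL / C.sch.tau0 ^ m := div_nonneg hBL0 (by positivity)
  have e2 : 0 ≤ |BS| / C.sch.tau0 ^ m * ‖C.p0 - C.one‖ :=
    mul_nonneg (div_nonneg (abs_nonneg _) (by positivity)) (norm_nonneg _)
  have hc : IsClosed {x | ‖iteratedDeriv m (C.rho s.1) x‖ ≤
      |BS| / C.sch.tau0 ^ m * ‖C.p0 - C.one‖} :=
    isClosed_le ((C.contDiff_rho s.1).continuous_iteratedDeriv m (mod_cast le_top)).norm
      continuous_const
  have hsub : Iio C.sch.t1 ⊆ {x | ‖iteratedDeriv m (C.rho s.1) x‖ ≤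
      |BS| / C.sch.tau0 ^ m * ‖C.p0 - C.one‖} := fun x hx =>
    C.rho_deriv_bound_early s.1 hm (fun y => (hBS y).trans (le_abs_self _)) hx
  rcases le_or_gt t C.sch.t1 with ht | ht
  · have := (hc.closure_subset_iff.2 hsub) (by rw [closure_Iio]; exact ht)
    exact this.trans (le_add_of_nonneg_left e1)
  · obtain ⟨h, hh⟩ := C.sch.exists_block ht.le
    refine (C.rho_deriv_bound s.1 hm hBL0 (fun k n x => hBL k _ (s.2 n) x) h hh
      (lt_of_le_of_lt C.ht1 ht)).trans (le_trans ?_ (le_add_of_nonneg_right e2))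
    exact div_le_div_of_nonneg_left hBL0 (by positivity)
      (pow_le_pow_left₀ h0.le (C.sch.tau0_le_tau h) m)

/-- At a given time the shapes depend on one parameter only, continuously. -/
theorem exists_local_param (m : ℕ) (t : ℝ) :
    ∃ (n : ℕ) (G : ℝ → X), Continuous G ∧ ∀ s, iteratedDeriv m (C.rho s) t = G (s n) := by
  set base : ℝ → X := fun y => C.one + C.switch y • (C.p0 - C.one) with hbase
  have hb : ∀ s, C.rho s = base + (C.sch.slots C.loops s).total := fun s => rfl
  have hbs : ContDiff ℝ (m : ℕ∞) base :=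
    contDiff_const.add (C.contDiff_switch.smul contDiff_const)
  by_cases h : ∃ n, t ∈ Ioo (C.sch.slotStart n) (C.sch.slotStart n + C.sch.slotLen n)
  · obtain ⟨n, hn⟩ := h
    set k : Fin C.sch.P := ⟨n % C.sch.P, Nat.mod_lt n C.sch.hP⟩
    obtain ⟨G, hG, hGe⟩ := C.loops.exists_deriv m k
    set x0 := (t - C.sch.slotStart n) / C.sch.slotLen n
    refine ⟨n, fun u => iteratedDeriv m base t + (C.sch.slotLen n)⁻¹ ^ m • G (u, x0),
      continuous_const.add ((hG.continuous.comp (continuous_id.prodMk continuous_const)).const_smul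
        ((C.sch.slotLen n)⁻¹ ^ m)), fun s => ?_⟩
    set f := C.loops.path k (s n) with hf
    have hfs : ContDiff ℝ m f :=
      ((C.loops.smooth k).comp (contDiff_const.prodMk contDiff_id)).of_le (mod_cast le_top)
    have e2 : (C.sch.slots C.loops s).dev n =
        fun x => f ((C.sch.slotLen n)⁻¹ * (x - C.sch.slotStart n)) := by
      funext x
      simp [Sched.slots, hf, k, div_eq_inv_mul]
    have heq : C.rho s =ᶠ[𝓝 t] base + (C.sch.slots C.loops s).dev n := by
      rw [hb]
      exact EventuallyEq.rfl.add ((C.sch.slots C.loops s).total_eq_dev_nhds hn)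
    have hdev : ContDiff ℝ (m : ℕ∞) ((C.sch.slots C.loops s).dev n) := by
      rw [e2]
      exact hfs.comp (contDiff_const.mul (contDiff_id.sub contDiff_const))
    rw [heq.iteratedDeriv_eq m, iteratedDeriv_add (by exact_mod_cast hbs.contDiffAt)
      (by exact_mod_cast hdev.contDiffAt), e2,
      congrFun (iteratedDeriv_comp_sub_const m (fun x => f ((C.sch.slotLen n)⁻¹ * x))
        (C.sch.slotStart n)) t,
      congrFun (iteratedDeriv_comp_const_smul hfs (C.sch.slotLen n)⁻¹) (t - C.sch.slotStart n),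
      hGe, ← div_eq_inv_mul]
  · refine ⟨0, fun _ => iteratedDeriv m base t, continuous_const, fun s => ?_⟩
    have hz : (C.sch.slots C.loops s).total =ᶠ[𝓝 t] fun _ => 0 :=
      (C.sch.slots C.loops s).total_eq_zero_nhds fun n hn => h ⟨n, by
        have hl : 0 < C.sch.slotLen n := C.sch.tau_pos _
        have h1 : C.sch.slotStart n + C.sch.slotLen n / 4 ≤ t := hn.1
        have h2 : t ≤ C.sch.slotStart n + C.sch.slotLen n / 2 := hn.2
        exact ⟨by linarith, by linarith⟩⟩
    have heq : C.rho s =ᶠ[𝓝 t] base := by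
      rw [hb]
      filter_upwards [hz] with y hy
      simp [hy]
    exact heq.iteratedDeriv_eq m

/-- Coordinatewise convergence of the parameters gives convergence of every time derivative. -/
theorem tendsto_rho {α : Type*} {l : Filter α} {sk : α → ℕ → ℝ} {s : ℕ → ℝ}
    (h : ∀ n, Tendsto (fun k => sk k n) l (𝓝 (s n))) (m : ℕ) (t : ℝ) :
    Tendsto (fun k => iteratedDeriv m (C.rho (sk k)) t) l (𝓝 (iteratedDeriv m (C.rho s) t)) := by
  obtain ⟨n, G, hG, hGe⟩ := C.exists_local_param m t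
  simp only [hGe]
  exact (hG.tendsto _).comp (h n)

end Ctrl

variable {D : ℕ}

/-- The coefficient curves of the weights have bounded derivatives, uniformly. -/
theorem bddFam_coeff (C : Ctrl (Gal D)) {a : ℝ → ℝ} (ha : ContDiff ℝ (⊤ : ℕ∞) a)
    (hB : ∀ m, ∃ B, ∀ t, |iteratedDeriv m a t| ≤ B) :
    BddFam (fun s : Par => C.rho s.1) ∧ BddFam (fun _ : Par => fun t => a t ^ 2) ∧
      BddFam (fun s : Par => omC a (C.rho s.1)) := by
  have h1 : BddFam fun _ : Par => a :=
    BddFam.single ha fun m => by simpa only [Real.norm_eq_abs] using hB m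
  have h2 : BddFam fun _ : Par => fun t => a t ^ 2 := by
    have e : (fun _ : Par => fun t => a t ^ 2) = fun _ : Par => fun t => a t • a t := by
      funext s t
      rw [smul_eq_mul, pow_two]
    rw [e]
    exact h1.smul h1
  refine ⟨C.bddFam_rho, h2, ?_⟩
  have h3 := h2.smul (C.bddFam_rho.deriv'.clm (-Linv D))
  have e : (fun s : Par => omC a (C.rho s.1)) =
      fun s : Par => fun t => a t ^ 2 • (-Linv D) (deriv (C.rho s.1) t) := by
    funext s t
    simp [omC]
  rw [e]
  exact h3

theorem tendsto_fnAt {α : Type*} {l : Filter α} {v : α → Gal D} {w : Gal D}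
    (h : Tendsto v l (𝓝 w)) (x : Space 3) :
    Tendsto (fun k => evalFun (v k).poly x) l (𝓝 (evalFun w.poly x)) :=
  ((fnAt x).continuous.tendsto w).comp h

/-- Pointwise convergence of the weights, their time derivatives and the rotations of the
stiffness weight. -/
theorem tendsto_weights (C : Ctrl (Gal D)) {a : ℝ → ℝ}
    {α : Type*} {l : Filter α} {sk : α → ℕ → ℝ} {s : ℕ → ℝ}
    (h : ∀ n, Tendsto (fun k => sk k n) l (𝓝 (s n))) (t : ℝ) (x : Space 3) :
    Tendsto (fun k => massF a (C.rho (sk k)) t x) l (𝓝 (massF a (C.rho s) t x)) ∧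
      Tendsto (fun k => massDF a (C.rho (sk k)) t x) l (𝓝 (massDF a (C.rho s) t x)) ∧
      Tendsto (fun k => nuF a (C.rho (sk k)) t x) l (𝓝 (nuF a (C.rho s) t x)) ∧
      ∀ i, Tendsto (fun k => rot i (nuF a (C.rho (sk k)) t) x) l
        (𝓝 (rot i (nuF a (C.rho s) t) x)) := by
  have e : ∀ r, iteratedDeriv 2 (C.rho r) = deriv (deriv (C.rho r)) := fun r => by
    rw [iteratedDeriv_succ, iteratedDeriv_one]
  have h0 := C.tendsto_rho h 0 t
  have h1 := C.tendsto_rho h 1 t
  have h2 := C.tendsto_rho h 2 t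
  simp only [iteratedDeriv_zero, iteratedDeriv_one, e] at h0 h1 h2
  have hom : Tendsto (fun k => omC a (C.rho (sk k)) t) l (𝓝 (omC a (C.rho s) t)) :=
    (((Linv D).continuous.tendsto _).comp h1).const_smul (-(a t) ^ 2)
  have homD : Tendsto (fun k => omD a (C.rho (sk k)) t) l (𝓝 (omD a (C.rho s) t)) :=
    ((((Linv D).continuous.tendsto _).comp h1).const_smul _).add
      ((((Linv D).continuous.tendsto _).comp h2).const_smul _)
  have hnu : Tendsto (fun k => nuF a (C.rho (sk k)) t x) l (𝓝 (nuF a (C.rho s) t x)) :=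
    (tendsto_fnAt hom x).const_add 1
  have hsi : Tendsto (fun k => safeInv (nuF a (C.rho (sk k)) t x)) l
      (𝓝 (safeInv (nuF a (C.rho s) t x))) :=
    ((contDiff_safeInv (m := 0)).continuous.tendsto _).comp hnu
  have hp := tendsto_fnAt h0 x
  have hp1 := tendsto_fnAt h1 x
  refine ⟨((hp.const_mul _).mul hsi), ?_, hnu, fun i => ?_⟩
  · exact (((hp.const_mul _).add (hp1.const_mul _)).mul hsi).sub
      (((hp.const_mul _).mul (hsi.pow 2)).mul (tendsto_fnAt homD x))
  · simp only [rot_nuF]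
    exact tendsto_fnAt (((rotG i).continuous.tendsto _).comp hom) x

/-- Convergence of the time derivative of the mass weight on the sphere, as a derivative. -/
theorem tendsto_deriv_massF (C : Ctrl (Gal D)) {a : ℝ → ℝ} (ha : ContDiff ℝ (⊤ : ℕ∞) a)
    {α : Type*} {l : Filter α} {sk : α → ℕ → ℝ} {s : ℕ → ℝ}
    (h : ∀ n, Tendsto (fun k => sk k n) l (𝓝 (s n)))
    (hk : ∀ k t (θ : Sph 3), 1 / 2 ≤ nuF a (C.rho (sk k)) t (θ : Space 3))
    (hs : ∀ t (θ : Sph 3), 1 / 2 ≤ nuF a (C.rho s) t (θ : Space 3)) (t : ℝ) (θ : Sph 3) :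
    Tendsto (fun k => deriv (fun y => massF a (C.rho (sk k)) y (θ : Space 3)) t) l
      (𝓝 (deriv (fun y => massF a (C.rho s) y (θ : Space 3)) t)) := by
  simp only [fun k => deriv_massF ha (C.contDiff_rho (sk k)) (hk k),
    deriv_massF ha (C.contDiff_rho s) hs]
  exact (tendsto_weights C h t _).2.1

end

end Vale.Agent.P225.Disproof
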